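import Crest.Agent.Hald.Cert

/-!
# Row 347, M6: semantics of the certificate facts (definitions shared by the soundness files `Cs*.lean`).

`X w k β m` = value of functional number `k` at the point `(β, L = 2m)`.  All functionals are rational
linear combinations of the 12 nonnegative variables `Xv` (V,RV,Aw,AT,D0,Vx,RVx,Dy,E0,E1,W,Wx).
-/

set_option autoImplicit false

namespace Hald.Cert

/-- the functional number `k`: 0 A1, 1 Aw, 2 AT, 3 D0, 4 Dx, 5 Dy, 6 E0, 7 E1, 8 RV, 9 RVx, 10 V, 11 Vx,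
12 B1, 13 Bw, 14 BT, 15 C0, 16 Cx, 17 Cy, 18 G0, 19 G1, 20 RW, 21 RWx, 22 W, 23 Wx, 24 u -/
noncomputable def X (w : World) (k : ℕ) (β : ℝ) (m : ℕ) : ℝ :=
  match k with
  | 0 => secA 0 (fun t => w.Z t β m)
  | 1 => secA 1 (fun t => w.Z t β m)
  | 2 => secA 2 (fun t => w.Z t β m)
  | 3 => secA 3 (fun t => w.Z t β m)
  | 4 => secA 4 (fun t => w.Z t β m)
  | 5 => secA 5 (fun t => w.Z t β m)
  | 6 => secA 6 (fun t => w.Z t β m)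
  | 7 => secA 7 (fun t => w.Z t β m)
  | 8 => secA 0 (fun t => w.Z t β m) - w.V 0 β ^ (2 * (m : ℝ))
  | 9 => secA 4 (fun t => w.Z t β m) - w.V 1 β ^ (2 * (m : ℝ))
  | 10 => w.V 0 β ^ (2 * (m : ℝ))
  | 11 => w.V 1 β ^ (2 * (m : ℝ))
  | 12 => secB 0 (fun t => w.Z t β m)
  | 13 => secB 1 (fun t => w.Z t β m)
  | 14 => secB 2 (fun t => w.Z t β m)
  | 15 => secB 3 (fun t => w.Z t β m)
  | 16 => secB 4 (fun t => w.Z t β m)
  | 17 => secB 5 (fun t => w.Z t β m)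
  | 18 => secB 6 (fun t => w.Z t β m)
  | 19 => secB 7 (fun t => w.Z t β m)
  | 20 => secB 0 (fun t => w.Z t β m) - w.W 0 m ^ β
  | 21 => secB 4 (fun t => w.Z t β m) - w.W 1 m ^ β
  | 22 => w.W 0 m ^ β
  | 23 => w.W 1 m ^ β
  | _ => w.Z 0 β m

/-- index (as functional) of the 12 variables: V,RV,Aw,AT,D0,Vx,RVx,Dy,E0,E1,W,Wx -/
def vid : Fin 12 → ℕ := ![10, 8, 1, 2, 3, 11, 9, 5, 6, 7, 22, 23]

noncomputable def Xv (w : World) (β : ℝ) (m : ℕ) (t : Fin 12) : ℝ := X w (vid t) β m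

/-- `12 *` the coefficients of functional `k` in the 12 variables -/
def Q12 (k : ℕ) : Fin 12 → ℤ :=
  match k with
  | 0 => ![12, 12, 0, 0, 0, 0, 0, 0, 0, 0, 0, 0]
  | 1 => ![0, 0, 12, 0, 0, 0, 0, 0, 0, 0, 0, 0]
  | 2 => ![0, 0, 0, 12, 0, 0, 0, 0, 0, 0, 0, 0]
  | 3 => ![0, 0, 0, 0, 12, 0, 0, 0, 0, 0, 0, 0]
  | 4 => ![0, 0, 0, 0, 0, 12, 12, 0, 0, 0, 0, 0]
  | 5 => ![0, 0, 0, 0, 0, 0, 0, 12, 0, 0, 0, 0]
  | 6 => ![0, 0, 0, 0, 0, 0, 0, 0, 12, 0, 0, 0]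
  | 7 => ![0, 0, 0, 0, 0, 0, 0, 0, 0, 12, 0, 0]
  | 8 => ![0, 12, 0, 0, 0, 0, 0, 0, 0, 0, 0, 0]
  | 9 => ![0, 0, 0, 0, 0, 0, 12, 0, 0, 0, 0, 0]
  | 10 => ![12, 0, 0, 0, 0, 0, 0, 0, 0, 0, 0, 0]
  | 11 => ![0, 0, 0, 0, 0, 12, 0, 0, 0, 0, 0, 0]
  | 12 => ![1, 1, 2, 3, 3, 3, 3, 6, 8, 16, 0, 0]
  | 13 => ![1, 1, 2, 3, 3, 3, 3, 6, -4, -8, 0, 0]
  | 14 => ![3, 3, 6, 9, -3, -3, -3, -6, 0, 0, 0, 0]
  | 15 => ![3, 3, 6, -3, 9, -3, -3, -6, 0, 0, 0, 0]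
  | 16 => ![3, 3, 6, -3, -3, 9, 9, -6, 0, 0, 0, 0]
  | 17 => ![3, 3, 6, -3, -3, -3, -3, 6, 0, 0, 0, 0]
  | 18 => ![4, 4, -4, 0, 0, 0, 0, 0, 8, -8, 0, 0]
  | 19 => ![4, 4, -4, 0, 0, 0, 0, 0, -4, 4, 0, 0]
  | 20 => ![1, 1, 2, 3, 3, 3, 3, 6, 8, 16, -12, 0]
  | 21 => ![3, 3, 6, -3, -3, 9, 9, -6, 0, 0, 0, -12]
  | 22 => ![0, 0, 0, 0, 0, 0, 0, 0, 0, 0, 12, 0]
  | 23 => ![0, 0, 0, 0, 0, 0, 0, 0, 0, 0, 0, 12]
  | _ => ![12, 12, 24, 36, 0, 0, 0, 0, 0, 0, 0, 0]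

/-- the functional used as denominator in the ratio facts -/
def dn (k : ℕ) : ℕ := if 12 ≤ k ∧ k ≤ 23 then 22 else 10

/-- meaning of a fact about the functionals `x : ℕ → ℝ` at one point -/
def GoodAt (x : ℕ → ℝ) (ty k : ℕ) (v : ℝ) : Prop :=
  match ty with
  | 0 => x k ≤ v
  | 1 => v ≤ x k
  | 2 => x k ≤ v * x (dn k)
  | 3 => v * x (dn k) ≤ x k
  | 4 => x 10 ≤ v * x 22
  | _ => v * x 22 ≤ x 10

/-- meaning of the fact `f` (a natural number) -/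
def Good (w : World) (f : ℕ) : Prop :=
  GoodAt (fun k => X w k ((fb f : ℝ) / 2) (fL f / 2)) (fty f) (fk f) ((fv f : ℝ) / (D : ℝ))

/-- forces the equation lemmas of `GoodAt`, `Good` to be generated here -/
theorem GoodAt_zero (x : ℕ → ℝ) (k : ℕ) (v : ℝ) : GoodAt x 0 k v ↔ x k ≤ v := by
  simp only [GoodAt]

theorem GoodAt_six (x : ℕ → ℝ) (n k : ℕ) (v : ℝ) : GoodAt x (n + 6) k v ↔ v * x 22 ≤ x 10 := by
  simp [GoodAt]

theorem Good_eq (w : World) (f : ℕ) : Good w f =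
    GoodAt (fun k => X w k ((fb f : ℝ) / 2) (fL f / 2)) (fty f) (fk f) ((fv f : ℝ) / (D : ℝ)) := by
  rw [Good]

/-! ### consequences of `wf` -/

theorem wf_iff (f : ℕ) : wf f = true ↔
    1 ≤ fb f ∧ 1 ≤ fL f ∧ fL f % 4 = 0 ∧ fk f ≤ 24 ∧ fty f ≤ 5 ∧ fv f ≤ 1237940039285380274899124224 := by
  simp only [wf, Bool.and_eq_true, Nat.ble_eq, Nat.beq_eq]
  tauto

theorem wf_beta {f : ℕ} (h : wf f = true) : (0 : ℝ) < (fb f : ℝ) / 2 := by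
  have h1 := ((wf_iff f).1 h).1
  have : (1 : ℝ) ≤ (fb f : ℝ) := by exact_mod_cast h1
  linarith

theorem wf_m {f : ℕ} (h : wf f = true) : 1 ≤ fL f / 2 := by
  obtain ⟨-, h2, h3, -⟩ := (wf_iff f).1 h
  omega

theorem wf_even {f : ℕ} (h : wf f = true) : Even (fL f / 2) := by
  obtain ⟨-, h2, h3, -⟩ := (wf_iff f).1 h
  exact ⟨fL f / 4, by omega⟩

/-- `2 * m = L` -/
theorem wf_two_m {f : ℕ} (h : wf f = true) : 2 * ((fL f / 2 : ℕ) : ℝ) = (fL f : ℝ) := by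
  obtain ⟨-, h2, h3, -⟩ := (wf_iff f).1 h
  have : 2 * (fL f / 2) = fL f := by omega
  exact_mod_cast this

theorem D_pos : (0 : ℝ) < (D : ℝ) := by norm_num [D]

theorem mu_eq (k : ℕ) : mu k = if k = 5 ∨ k = 17 then 2 else 1 := by
  unfold mu
  by_cases h1 : k = 5
  · subst h1; rfl
  by_cases h2 : k = 17
  · subst h2; rfl
  have e1 : Nat.beq k 5 = false := by
    rw [Bool.eq_false_iff]; intro h; exact h1 (by simpa using h)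
  have e2 : Nat.beq k 17 = false := by
    rw [Bool.eq_false_iff]; intro h; exact h2 (by simpa using h)
  simp [e1, e2, h1, h2]

theorem mu_pos (k : ℕ) : (0 : ℝ) < (mu k : ℕ) := by
  rw [mu_eq]; split_ifs <;> norm_num

/-! ### real powers with rational exponents -/

/-- `a^n ≤ b^m` implies `a^(n/m) ≤ b` -/
theorem rpow_div_le {a b : ℝ} {n m : ℕ} (ha : 0 ≤ a) (hb : 0 ≤ b) (hm : 1 ≤ m) (h : a ^ n ≤ b ^ m) :
    a ^ ((n : ℝ) / (m : ℝ)) ≤ b := by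
  have hm' : (m : ℝ) ≠ 0 := by positivity
  have h1 : a ^ ((n : ℝ) / (m : ℝ)) = (a ^ n) ^ ((1 : ℝ) / m) := by
    rw [← Real.rpow_natCast a n, ← Real.rpow_mul ha]
    congr 1
    field_simp
  have h2 : b = (b ^ m) ^ ((1 : ℝ) / m) := by
    rw [← Real.rpow_natCast b m, ← Real.rpow_mul hb]
    have : (m : ℝ) * (1 / m) = 1 := by field_simp
    rw [this, Real.rpow_one]
  rw [h1, h2]
  exact Real.rpow_le_rpow (by positivity) h (by positivity)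

/-- `b^m ≤ a^n` implies `b ≤ a^(n/m)` -/
theorem le_rpow_div {a b : ℝ} {n m : ℕ} (ha : 0 ≤ a) (hb : 0 ≤ b) (hm : 1 ≤ m) (h : b ^ m ≤ a ^ n) :
    b ≤ a ^ ((n : ℝ) / (m : ℝ)) := by
  have hm' : (m : ℝ) ≠ 0 := by positivity
  have h1 : a ^ ((n : ℝ) / (m : ℝ)) = (a ^ n) ^ ((1 : ℝ) / m) := by
    rw [← Real.rpow_natCast a n, ← Real.rpow_mul ha]
    congr 1
    field_simp
  have h2 : b = (b ^ m) ^ ((1 : ℝ) / m) := by
    rw [← Real.rpow_natCast b m, ← Real.rpow_mul hb]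
    have : (m : ℝ) * (1 / m) = 1 := by field_simp
    rw [this, Real.rpow_one]
  rw [h1]
  conv_lhs => rw [h2]
  exact Real.rpow_le_rpow (by positivity) h (by positivity)

end Hald.Cert
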