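import Crest.Agent.Hald.HatWorld
import Crest.Agent.Hald.CertSem

/-!
# Row 347, M9: base facts of the certificate in hat normalisation

`HX e' k β m = X theWorld k β m * sc β e' ^ (2m)`; explicit forms in terms of `hatZ`, `hatV`;
`goodAt_hat`: a fact of type 2-5 is scale invariant; type 0 facts pass from hat to the world if `theE ≤ e'`.
-/

set_option autoImplicit false
set_option linter.unusedSectionVars false

namespace Hald

open Finset

/-- the functionals normalised with `e'` -/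
noncomputable def HX (e' : ℝ) (k : ℕ) (β : ℝ) (m : ℕ) : ℝ :=
  Cert.X theWorld k β m * sc β e' ^ (2 * m)

theorem rpow_two_mul_nat (x : ℝ) (m : ℕ) : x ^ (2 * (m : ℝ)) = x ^ (2 * m) := by
  rw [← Real.rpow_natCast]; push_cast; rfl

section

variable (e' β : ℝ) (m : ℕ)

theorem HX_0 : HX e' 0 β m = secA 0 (fun t => hatZ e' t β m) := (secA_hat 0 e' β m).symm
theorem HX_1 : HX e' 1 β m = secA 1 (fun t => hatZ e' t β m) := (secA_hat 1 e' β m).symm
theorem HX_2 : HX e' 2 β m = secA 2 (fun t => hatZ e' t β m) := (secA_hat 2 e' β m).symm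
theorem HX_3 : HX e' 3 β m = secA 3 (fun t => hatZ e' t β m) := (secA_hat 3 e' β m).symm
theorem HX_4 : HX e' 4 β m = secA 4 (fun t => hatZ e' t β m) := (secA_hat 4 e' β m).symm
theorem HX_5 : HX e' 5 β m = secA 5 (fun t => hatZ e' t β m) := (secA_hat 5 e' β m).symm
theorem HX_6 : HX e' 6 β m = secA 6 (fun t => hatZ e' t β m) := (secA_hat 6 e' β m).symm
theorem HX_7 : HX e' 7 β m = secA 7 (fun t => hatZ e' t β m) := (secA_hat 7 e' β m).symm
theorem HX_12 : HX e' 12 β m = secB 0 (fun t => hatZ e' t β m) := (secB_hat 0 e' β m).symm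
theorem HX_13 : HX e' 13 β m = secB 1 (fun t => hatZ e' t β m) := (secB_hat 1 e' β m).symm
theorem HX_14 : HX e' 14 β m = secB 2 (fun t => hatZ e' t β m) := (secB_hat 2 e' β m).symm
theorem HX_15 : HX e' 15 β m = secB 3 (fun t => hatZ e' t β m) := (secB_hat 3 e' β m).symm
theorem HX_16 : HX e' 16 β m = secB 4 (fun t => hatZ e' t β m) := (secB_hat 4 e' β m).symm
theorem HX_17 : HX e' 17 β m = secB 5 (fun t => hatZ e' t β m) := (secB_hat 5 e' β m).symm
theorem HX_18 : HX e' 18 β m = secB 6 (fun t => hatZ e' t β m) := (secB_hat 6 e' β m).symm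
theorem HX_19 : HX e' 19 β m = secB 7 (fun t => hatZ e' t β m) := (secB_hat 7 e' β m).symm
theorem HX_24 : HX e' 24 β m = hatZ e' 0 β m := (hatZ_eq e' 0 β m).symm

theorem HX_10 : HX e' 10 β m = hatV e' 0 β ^ (2 * m) := by
  show theWorld.V 0 β ^ (2 * (m : ℝ)) * _ = _
  rw [rpow_two_mul_nat, hatV, mul_pow]

theorem HX_11 : HX e' 11 β m = hatV e' 1 β ^ (2 * m) := by
  show theWorld.V 1 β ^ (2 * (m : ℝ)) * _ = _
  rw [rpow_two_mul_nat, hatV, mul_pow]

theorem HX_8 : HX e' 8 β m = HX e' 0 β m - HX e' 10 β m := by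
  unfold HX
  rw [← sub_mul]
  rfl

theorem HX_9 : HX e' 9 β m = HX e' 4 β m - HX e' 11 β m := by
  unfold HX
  rw [← sub_mul]
  rfl

end

/-- type 0 -/
theorem X_le_of_hat {e' β : ℝ} {k m : ℕ} (hβ : 0 ≤ β) (he : theE ≤ e')
    (h0 : 0 ≤ Cert.X theWorld k β m) {v : ℝ} (h : HX e' k β m ≤ v) :
    Cert.X theWorld k β m ≤ v := by
  refine le_trans ?_ h
  unfold HX
  have h1 : 1 ≤ sc β e' ^ (2 * m) := one_le_pow₀ (one_le_sc hβ he)
  nlinarith

/-- types 2-5 are scale invariant -/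
theorem X_ratio_hi {e' β : ℝ} {k k' m : ℕ} {v : ℝ} (h : HX e' k β m ≤ v * HX e' k' β m) :
    Cert.X theWorld k β m ≤ v * Cert.X theWorld k' β m := by
  unfold HX at h
  rw [← mul_assoc] at h
  exact le_of_mul_le_mul_right h (pow_pos (sc_pos β e') _)

theorem X_ratio_lo {e' β : ℝ} {k k' m : ℕ} {v : ℝ} (h : v * HX e' k' β m ≤ HX e' k β m) :
    v * Cert.X theWorld k' β m ≤ Cert.X theWorld k β m := by
  unfold HX at h
  rw [← mul_assoc] at h
  exact le_of_mul_le_mul_right h (pow_pos (sc_pos β e') _)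

end Hald
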