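import Crest.Agent.Hald.CsPS

/-!
# Row 347, M6: soundness of one rule of the certificate checker.  Chunk R347-M6-C.

Tools: `wf_iff`, `wf_beta`, `wf_m`, `wf_even`, `wf_two_m`, `D_pos`, `mu_eq`, `mu_pos`, `rpow_div_le`,
`le_rpow_div` (`CertSem.lean`), `X_PS_space`, `X_PS_time`, `X_nonneg`, `V_nonneg`, `W_nonneg` (`CsPS.lean`),
and the fields of `World`.  Unfold the Boolean check with
`simp only [okC, Bool.and_eq_true, Bool.or_eq_true, Nat.ble_eq, Nat.beq_eq] at h0`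
(for `bif` use `Bool.cond_eq_ite`, for `isTop` unfold it).  `Good w f` unfolds to
`GoodAt (fun k => X w k (fb f / 2) (fL f / 2)) (fty f) (fk f) (fv f / D)`; rewrite `fty f` to its value
and `simp only [GoodAt]`.
-/

set_option autoImplicit false

namespace Hald.Cert

/-- Closure for `W = W 0 m` (same `L`, `m`).  `g` (type 4) at `a = fb g/2`: `V(a)^L ≤ gh W^a`,
`gh = v_g/D`; `h` (type 5) at `c = fb h/2 > a`: `gl W^c ≤ V(c)^L`, `gl = v_h/D`; `V_anti`: `V(c)^L ≤ V(a)^L`.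
So `gl W^c ≤ gh W^a`, `gl W^(c-a) ≤ gh`.  `f`: type 0, `k = 22` at `q = fb f/2`, `n2 (c-a) = n1 q`
(where `q` means `fb f`, all in the same units).  Raise to the power `n2`:
`gl^n2 (W^q)^n1 ≤ gh^n2`; check `v_g^n2 D^n1 ≤ v_f^n1 v_h^n2`, i.e. `gh^n2 ≤ (v_f/D)^n1 gl^n2`.
If `v_h ≥ 1` divide by `gl^n2`: `W^q ≤ v_f/D`.  If `v_h = 0`: `n2 ≥ 1` (because `n1 ≥ 1`, `fb f ≥ 1`), so
`v_g^n2 D^n1 ≤ 0`, `v_g = 0`, `V(a)^L ≤ 0`, contradiction with `one_le_V` (`1 ≤ V 0 β`). -/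
theorem okC_sound (w : World) (f g h n1 n2 : ℕ) (hf : wf f = true) (hg : wf g = true)
    (hh : wf h = true) (h0 : okC f g h n1 n2 = true) (h1 : Good w g) (h2 : Good w h) : Good w f := by
  simp only [okC, Bool.and_eq_true, Nat.ble_eq, Nat.beq_eq] at h0
  obtain ⟨⟨⟨⟨⟨⟨⟨⟨⟨hn1, hf0⟩, hk⟩, hg4⟩, hh5⟩, hLg⟩, hLh⟩, hb⟩, heq⟩, hchk⟩ := h0
  have hfb := ((wf_iff f).1 hf).1
  have ha : (0 : ℝ) < (fb g : ℝ) / 2 := wf_beta hg
  have hq : (0 : ℝ) < (fb f : ℝ) / 2 := wf_beta hf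
  have hac : (fb g : ℝ) / 2 ≤ (fb h : ℝ) / 2 := by
    have : (fb g : ℝ) ≤ (fb h : ℝ) := by exact_mod_cast (by omega : fb g ≤ fb h)
    linarith
  have hm : 1 ≤ fL f / 2 := wf_m hf
  simp only [Good, hg4, hh5, GoodAt, X, ← hLg, ← hLh] at h1 h2
  simp only [Good, hf0, hk, GoodAt, X]
  set m := fL f / 2 with hmdef
  set W := w.W 0 m with hW
  have hW1 : 1 ≤ W := w.one_le_W m hm
  have hW0 : 0 < W := by linarith
  set a := (fb g : ℝ) / 2 with hadef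
  set c := (fb h : ℝ) / 2 with hcdef
  set q := (fb f : ℝ) / 2 with hqdef
  have hDp := D_pos
  have hV1 : 1 ≤ w.V 0 a := w.one_le_V a ha
  have hVV : w.V 0 c ^ (2 * (m : ℝ)) ≤ w.V 0 a ^ (2 * (m : ℝ)) :=
    Real.rpow_le_rpow (V_nonneg w c (by linarith) 0) (w.V_anti a c ha hac) (by positivity)
  have hVa : 1 ≤ w.V 0 a ^ (2 * (m : ℝ)) := Real.one_le_rpow hV1 (by positivity)
  have key : (fv h : ℝ) / D * W ^ c ≤ (fv g : ℝ) / D * W ^ a := h2.trans (hVV.trans h1)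
  have hWa : 0 < W ^ a := Real.rpow_pos_of_pos hW0 a
  have hsplit : W ^ c = W ^ (c - a) * W ^ a := by
    rw [← Real.rpow_add hW0]; congr 1; ring
  have key2 : (fv h : ℝ) / D * W ^ (c - a) ≤ (fv g : ℝ) / D := by
    rw [hsplit, ← mul_assoc] at key
    exact le_of_mul_le_mul_right key hWa
  have heqr : (n2 : ℝ) * (c - a) = n1 * q := by
    have h3 : fb h - fb g + fb g = fb h := by omega
    have h4 : ((fb h - fb g : ℕ) : ℝ) = (fb h : ℝ) - fb g := by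
      have : ((fb h - fb g : ℕ) : ℝ) + (fb g : ℝ) = (fb h : ℝ) := by exact_mod_cast h3
      linarith
    have h5 : (n2 : ℝ) * ((fb h - fb g : ℕ) : ℝ) = n1 * (fb f : ℝ) := by exact_mod_cast heq
    rw [h4] at h5
    simp only [hadef, hcdef, hqdef]
    linarith
  have hpow : (W ^ (c - a)) ^ n2 = (W ^ q) ^ n1 := by
    rw [← Real.rpow_natCast, ← Real.rpow_natCast, ← Real.rpow_mul hW0.le, ← Real.rpow_mul hW0.le]
    congr 1
    linarith
  have hchkr : (fv g : ℝ) ^ n2 * (D : ℝ) ^ n1 ≤ (fv f : ℝ) ^ n1 * (fv h : ℝ) ^ n2 := by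
    exact_mod_cast hchk
  rcases Nat.eq_zero_or_pos (fv h) with hv | hv
  · exfalso
    have hn2 : n2 ≠ 0 := by
      rintro rfl
      have : 0 < n1 * fb f := Nat.mul_pos hn1 hfb
      omega
    rw [hv] at hchk
    rw [zero_pow hn2, Nat.mul_zero] at hchk
    have h6 : fv g ^ n2 * D ^ n1 = 0 := Nat.le_zero.1 hchk
    have h7 : fv g = 0 := by
      rcases Nat.mul_eq_zero.1 h6 with h8 | h8
      · exact (pow_eq_zero_iff hn2).1 h8
      · exfalso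
        have : 0 < D ^ n1 := Nat.pow_pos (by norm_num [D])
        omega
    rw [h7] at h1
    simp only [Nat.cast_zero, zero_div, zero_mul] at h1
    linarith
  · have hvr : (0 : ℝ) < (fv h : ℝ) := by exact_mod_cast hv
    have hgl : 0 < (fv h : ℝ) / D := div_pos hvr hDp
    have h8 : ((fv h : ℝ) / D * W ^ (c - a)) ^ n2 ≤ ((fv g : ℝ) / D) ^ n2 :=
      pow_le_pow_left₀ (mul_nonneg hgl.le (Real.rpow_nonneg hW0.le _)) key2 n2
    rw [mul_pow, hpow] at h8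
    have h9 : ((fv g : ℝ) / D) ^ n2 ≤ ((fv f : ℝ) / D) ^ n1 * ((fv h : ℝ) / D) ^ n2 := by
      rw [div_pow, div_pow, div_pow, div_mul_div_comm, div_le_div_iff₀ (by positivity) (by positivity)]
      calc (fv g : ℝ) ^ n2 * ((D : ℝ) ^ n1 * (D : ℝ) ^ n2)
          = ((fv g : ℝ) ^ n2 * (D : ℝ) ^ n1) * (D : ℝ) ^ n2 := by ring
        _ ≤ ((fv f : ℝ) ^ n1 * (fv h : ℝ) ^ n2) * (D : ℝ) ^ n2 :=
            mul_le_mul_of_nonneg_right hchkr (by positivity)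
    have h10 : ((fv h : ℝ) / D) ^ n2 * (W ^ q) ^ n1 ≤ ((fv h : ℝ) / D) ^ n2 * ((fv f : ℝ) / D) ^ n1 := by
      refine (h8.trans h9).trans (le_of_eq (mul_comm _ _))
    have h11 : (W ^ q) ^ n1 ≤ ((fv f : ℝ) / D) ^ n1 := le_of_mul_le_mul_left h10 (by positivity)
    exact (pow_le_pow_iff_left₀ (Real.rpow_nonneg hW0.le _) (by positivity) (by omega)).1 h11

end Hald.Cert
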