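import Crest.Agent.Hald.CsPS

/-!
# Row 347, M6: soundness of one rule of the certificate checker.  Chunk R347-M6-E.

Tools: `wf_iff`, `wf_beta`, `wf_m`, `wf_even`, `wf_two_m`, `D_pos`, `mu_eq`, `mu_pos`, `rpow_div_le`,
`le_rpow_div` (`CertSem.lean`), `X_PS_space`, `X_PS_time`, `X_nonneg`, `V_nonneg`, `W_nonneg` (`CsPS.lean`),
and the fields of `World`.  Unfold the Boolean check with
`simp only [okE, Bool.and_eq_true, Bool.or_eq_true, Nat.ble_eq, Nat.beq_eq] at h0`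
(for `bif` use `Bool.cond_eq_ite`, for `isTop` unfold it).  `Good w f` unfolds to
`GoodAt (fun k => X w k (fb f / 2) (fL f / 2)) (fty f) (fk f) (fv f / D)`; rewrite `fty f` to its value
and `simp only [GoodAt]`.
-/

set_option autoImplicit false

namespace Hald.Cert

/-- the arithmetic core of `okE_sound` -/
theorem okE_core {V W1 W2 a b c : ℝ} {L1 L2 L n1 n2 : ℕ} (hV : 1 ≤ V) (hW1 : 0 ≤ W1) (hW : W2 ≤ W1)
    (ha : 0 < a) (hb : 0 ≤ b) (hc : 0 ≤ c) (hL : L1 < L2) (hn : n2 * (L2 - L1) = n1 * L) (hn1 : 1 ≤ n1)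
    (hg : a * W1 ≤ V ^ L1) (hh : V ^ L2 ≤ b * W2) (hchk : b ^ n2 ≤ c ^ n1 * a ^ n2) :
    V ^ L ≤ c := by
  have hV0 : 0 < V := lt_of_lt_of_le one_pos hV
  have h1 : a * V ^ L2 ≤ b * V ^ L1 := by
    calc a * V ^ L2 ≤ a * (b * W2) := mul_le_mul_of_nonneg_left hh ha.le
      _ ≤ a * (b * W1) := mul_le_mul_of_nonneg_left (mul_le_mul_of_nonneg_left hW hb) ha.le
      _ = b * (a * W1) := by ring
      _ ≤ b * V ^ L1 := mul_le_mul_of_nonneg_left hg hb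
  have h2 : a * V ^ (L2 - L1) ≤ b := by
    have e : V ^ L2 = V ^ L1 * V ^ (L2 - L1) := by
      rw [← pow_add]; congr 1; omega
    rw [e] at h1
    have hp : 0 < V ^ L1 := pow_pos hV0 _
    have h3 : V ^ L1 * (a * V ^ (L2 - L1)) ≤ V ^ L1 * b := by
      calc V ^ L1 * (a * V ^ (L2 - L1)) = a * (V ^ L1 * V ^ (L2 - L1)) := by ring
        _ ≤ b * V ^ L1 := h1
        _ = V ^ L1 * b := by ring
    exact le_of_mul_le_mul_left h3 hp
  have h3 : a ^ n2 * (V ^ L) ^ n1 ≤ b ^ n2 := by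
    have h4 : (a * V ^ (L2 - L1)) ^ n2 ≤ b ^ n2 :=
      pow_le_pow_left₀ (by positivity) h2 n2
    rw [mul_pow, ← pow_mul, mul_comm (L2 - L1) n2, hn, mul_comm n1 L, pow_mul] at h4
    exact h4
  have h5 : a ^ n2 * (V ^ L) ^ n1 ≤ a ^ n2 * c ^ n1 := by
    calc a ^ n2 * (V ^ L) ^ n1 ≤ b ^ n2 := h3
      _ ≤ c ^ n1 * a ^ n2 := hchk
      _ = a ^ n2 * c ^ n1 := by ring
  have h6 : (V ^ L) ^ n1 ≤ c ^ n1 := le_of_mul_le_mul_left h5 (pow_pos ha _)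
  exact le_of_pow_le_pow_left₀ (by omega) hc h6

/-- Closure for `V = V 0 β` (same `β`).  `g` (type 5) at `L1 = fL g`: `gl W(L1)^β ≤ V^L1`, `gl = v_g/D`;
`h` (type 4) at `L2 = fL h > L1`: `V^L2 ≤ gh W(L2)^β`, `gh = v_h/D`; `W_anti`: `W(L2)^β ≤ W(L1)^β`.
So `gl V^L2 ≤ gh gl W(L1)^β ≤ gh V^L1`, i.e. `gl V^(L2-L1) ≤ gh`.  `f`: type 0, `k = 10` at `L = fL f`,
`n2 (L2-L1) = n1 L`: raise to the power `n2`: `gl^n2 (V^L)^n1 ≤ gh^n2`; check
`v_h^n2 D^n1 ≤ v_f^n1 v_g^n2`, i.e. `gh^n2 ≤ (v_f/D)^n1 gl^n2`.  If `v_g ≥ 1` divide; if `v_g = 0`, `n2 ≥ 1`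
gives `v_h = 0`, so `V^L2 ≤ 0`, contradiction with `one_le_V`. -/
theorem okE_sound (w : World) (f g h n1 n2 : ℕ) (hf : wf f = true) (hg : wf g = true)
    (hh : wf h = true) (h0 : okE f g h n1 n2 = true) (h1 : Good w g) (h2 : Good w h) : Good w f := by
  have h0' : ((((((((((1 ≤ n1 ∧ fty f = 0) ∧ fk f = 10) ∧ fty g = 5) ∧ fty h = 4) ∧ fb f = fb g) ∧
      fb f = fb h) ∧ fL g + 1 ≤ fL h) ∧ n2 * (fL h - fL g) = n1 * fL f) ∧
      fv h ^ n2 * D ^ n1 ≤ fv f ^ n1 * fv g ^ n2)) := by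
    simpa only [okE, Bool.and_eq_true, Nat.ble_eq, Nat.beq_eq] using h0
  obtain ⟨⟨⟨⟨⟨⟨⟨⟨⟨hn1, hf0⟩, hfk⟩, hg5⟩, hh4⟩, hbg⟩, hbh⟩, hLL⟩, hn⟩, hchk⟩ := h0'
  have hβ : (0 : ℝ) < (fb f : ℝ) / 2 := wf_beta hf
  have hDpos : (0 : ℝ) < (D : ℝ) := D_pos
  set β : ℝ := (fb f : ℝ) / 2 with hβdef
  have hβg : (fb g : ℝ) / 2 = β := by rw [hβdef, hbg]
  have hβh : (fb h : ℝ) / 2 = β := by rw [hβdef, hbh]
  have hpow : ∀ x : ℕ, wf x = true → w.V 0 β ^ (2 * ((fL x / 2 : ℕ) : ℝ)) = w.V 0 β ^ (fL x) := by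
    intro x hx
    rw [wf_two_m hx, Real.rpow_natCast]
  have hV1 : 1 ≤ w.V 0 β := w.one_le_V β hβ
  -- the two hypotheses
  have e1 : (fv g : ℝ) / D * w.W 0 (fL g / 2) ^ β ≤ w.V 0 β ^ (fL g) := by
    have := h1
    unfold Good at this
    rw [hg5, hβg] at this
    simp only [GoodAt, X] at this
    rw [hpow g hg] at this
    exact this
  have e2 : w.V 0 β ^ (fL h) ≤ (fv h : ℝ) / D * w.W 0 (fL h / 2) ^ β := by
    have := h2
    unfold Good at this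
    rw [hh4, hβh] at this
    simp only [GoodAt, X] at this
    rw [hpow h hh] at this
    exact this
  have hm1 : 1 ≤ fL g / 2 := wf_m hg
  have hm2 : 1 ≤ fL h / 2 := wf_m hh
  have hW1nn : 0 ≤ w.W 0 (fL g / 2) := W_nonneg w _ hm1 0
  have hW2nn : 0 ≤ w.W 0 (fL h / 2) := W_nonneg w _ hm2 0
  have hWle : w.W 0 (fL h / 2) ^ β ≤ w.W 0 (fL g / 2) ^ β :=
    Real.rpow_le_rpow hW2nn (w.W_anti _ _ hm1 (by omega)) hβ.le
  have hchkR : (fv h : ℝ) ^ n2 * (D : ℝ) ^ n1 ≤ (fv f : ℝ) ^ n1 * (fv g : ℝ) ^ n2 := by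
    exact_mod_cast hchk
  have hgoal : w.V 0 β ^ (fL f) ≤ (fv f : ℝ) / D := by
    rcases Nat.eq_zero_or_pos (fv g) with hvg | hvg
    · exfalso
      have hn2 : n2 ≠ 0 := by
        rintro rfl
        have hLf : 1 ≤ fL f := ((wf_iff f).1 hf).2.1
        have : 0 < n1 * fL f := Nat.mul_pos (by omega) (by omega)
        omega
      have h3 : fv h ^ n2 * D ^ n1 ≤ 0 := by
        calc fv h ^ n2 * D ^ n1 ≤ fv f ^ n1 * fv g ^ n2 := hchk
          _ = 0 := by rw [hvg, zero_pow hn2, mul_zero]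
      have hD1 : 0 < D ^ n1 := Nat.pow_pos (by norm_num [D])
      have h4 : fv h ^ n2 = 0 := by
        rcases Nat.eq_zero_or_pos (fv h ^ n2) with h5 | h5
        · exact h5
        · have := Nat.mul_pos h5 hD1
          omega
      have h5 : fv h = 0 := by
        by_contra h6
        exact (pow_ne_zero n2 h6) h4
      rw [h5] at e2
      have h6 : (1 : ℝ) ≤ w.V 0 β ^ (fL h) := one_le_pow₀ hV1
      simp at e2
      linarith
    · refine okE_core (W1 := w.W 0 (fL g / 2) ^ β) (W2 := w.W 0 (fL h / 2) ^ β)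
        (a := (fv g : ℝ) / D) (b := (fv h : ℝ) / D) (L1 := fL g) (L2 := fL h) (n1 := n1) (n2 := n2)
        hV1 (Real.rpow_nonneg hW1nn _) hWle ?_ ?_ ?_ (by omega) hn hn1 e1 e2 ?_
      · have : (0 : ℝ) < (fv g : ℝ) := by exact_mod_cast hvg
        positivity
      · positivity
      · positivity
      · rw [div_pow, div_pow, div_pow, div_mul_div_comm]
        rw [div_le_div_iff₀ (by positivity) (by positivity)]
        calc (fv h : ℝ) ^ n2 * ((D : ℝ) ^ n1 * (D : ℝ) ^ n2)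
            = ((fv h : ℝ) ^ n2 * (D : ℝ) ^ n1) * (D : ℝ) ^ n2 := by ring
          _ ≤ ((fv f : ℝ) ^ n1 * (fv g : ℝ) ^ n2) * (D : ℝ) ^ n2 :=
              mul_le_mul_of_nonneg_right hchkR (by positivity)
  unfold Good
  rw [hf0, hfk]
  simp only [GoodAt, X]
  rw [hpow f hf]
  exact hgoal

end Hald.Cert
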