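import Crest.Agent.Hald.CsPS

/-!
# Row 347, M6: soundness of one rule of the certificate checker.  Chunk R347-M6-I.

Tools: `wf_iff`, `wf_beta`, `wf_m`, `wf_even`, `wf_two_m`, `D_pos`, `mu_eq`, `mu_pos`, `rpow_div_le`,
`le_rpow_div` (`CertSem.lean`), `X_PS_space`, `X_PS_time`, `X_nonneg`, `V_nonneg`, `W_nonneg` (`CsPS.lean`),
and the fields of `World`.  Unfold the Boolean check with
`simp only [okI, Bool.and_eq_true, Bool.or_eq_true, Nat.ble_eq, Nat.beq_eq] at h0`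
(for `bif` use `Bool.cond_eq_ite`, for `isTop` unfold it).  `Good w f` unfolds to
`GoodAt (fun k => X w k (fb f / 2) (fL f / 2)) (fty f) (fk f) (fv f / D)`; rewrite `fty f` to its value
and `simp only [GoodAt]`.
-/

set_option autoImplicit false

namespace Hald.Cert

/-- integer form of the log-convexity inequality -/
private theorem csI_int {xa xq xc a q c : ℝ} {n1 n2 n3 : ℕ} (ha : 0 ≤ xa) (hq : 0 ≤ xq) (hc : 0 ≤ xc)
    (haq : a < q) (hqc : q < c) (e2 : (n2 : ℝ) * (c - a) = n1 * (c - q))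
    (e3 : (n3 : ℝ) * (c - a) = n1 * (q - a))
    (h : xq ^ (c - a) ≤ xa ^ (c - q) * xc ^ (q - a)) :
    xq ^ n1 ≤ xa ^ n2 * xc ^ n3 := by
  have hca : 0 < c - a := by linarith
  have h1 := Real.rpow_le_rpow (Real.rpow_nonneg hq _) h
    (show (0 : ℝ) ≤ (n1 : ℝ) / (c - a) by positivity)
  rw [Real.mul_rpow (Real.rpow_nonneg ha _) (Real.rpow_nonneg hc _), ← Real.rpow_mul hq,
    ← Real.rpow_mul ha, ← Real.rpow_mul hc] at h1
  have t1 : (c - a) * ((n1 : ℝ) / (c - a)) = n1 := by field_simp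
  have t2 : (c - q) * ((n1 : ℝ) / (c - a)) = n2 := by
    field_simp
    linarith
  have t3 : (q - a) * ((n1 : ℝ) / (c - a)) = n3 := by
    field_simp
    linarith
  rw [t1, t2, t3, Real.rpow_natCast, Real.rpow_natCast, Real.rpow_natCast] at h1
  exact h1

/-- Log-convexity in time, types 0 and 2, `12 ≤ k ≤ 21`, same `k`, same `L`.  Let `a = fb g/2`,
`q = fb f/2`, `c = fb h/2`, `a < q < c`; `n2 (c-a) = n1 (c-q)`, `n3 (c-a) = n1 (q-a)` (natural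
subtractions are genuine), so `n2 + n3 = n1`.  `(X_PS_time ..).logc`: `X(q)^(c-a) ≤ X(a)^(c-q) X(c)^(q-a)`
(real powers), hence `X(q)^n1 ≤ X(a)^n2 X(c)^n3` (raise to the power `n1/(c-a)`; all nonneg).
Type 0: `X(q)^n1 ≤ (v_g/D)^n2 (v_h/D)^n3 = v_g^n2 v_h^n3 / D^n1 ≤ (v_f/D)^n1`, so `X(q) ≤ v_f/D`
(`pow_le_pow_left₀` / `le_of_pow_le_pow_left`).  Type 2: `dn k = 22`,
`X_22(t) = W^t`; `X(a) ≤ (v_g/D) W^a`, `X(c) ≤ (v_h/D) W^c`, and `(W^a)^n2 (W^c)^n3 = (W^q)^n1`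
because `a n2 + c n3 = q n1`. -/
theorem okI_sound (w : World) (f g h n1 n2 n3 : ℕ) (hf : wf f = true) (hg : wf g = true)
    (hh : wf h = true) (h0 : okI f g h n1 n2 n3 = true) (h1 : Good w g) (h2 : Good w h) : Good w f := by
  simp only [okI, Bool.and_eq_true, Bool.or_eq_true, Nat.ble_eq, Nat.beq_eq] at h0
  obtain ⟨⟨⟨⟨⟨⟨⟨⟨⟨⟨⟨⟨⟨⟨hn1, tg⟩, th⟩, kg⟩, kh⟩, tf⟩, k12⟩, k21⟩, Lg⟩, Lh⟩, b1⟩, b2⟩, E2⟩, E3⟩, hv⟩ := h0
  set m := fL f / 2 with hm
  set k := fk f with hk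
  have hm1 : 1 ≤ m := wf_m hf
  have hme : Even m := wf_even hf
  set a : ℝ := (fb g : ℝ) / 2 with ha
  set q : ℝ := (fb f : ℝ) / 2 with hq
  set c : ℝ := (fb h : ℝ) / 2 with hc
  have ha0 : 0 < a := wf_beta hg
  have hq0 : 0 < q := wf_beta hf
  have hc0 : 0 < c := wf_beta hh
  have c1 : (fb g : ℝ) + 1 ≤ fb f := by exact_mod_cast b1
  have c2 : (fb f : ℝ) + 1 ≤ fb h := by exact_mod_cast b2
  have haq : a < q := by rw [ha, hq]; linarith
  have hqc : q < c := by rw [hq, hc]; linarith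
  have E2' : (n2 : ℝ) * (c - a) = n1 * (c - q) := by
    have : ((n2 * (fb h - fb g) : ℕ) : ℝ) = ((n1 * (fb h - fb f) : ℕ) : ℝ) := by exact_mod_cast E2
    rw [Nat.cast_mul, Nat.cast_mul, Nat.cast_sub (by omega), Nat.cast_sub (by omega)] at this
    rw [ha, hq, hc]
    linarith
  have E3' : (n3 : ℝ) * (c - a) = n1 * (q - a) := by
    have : ((n3 * (fb h - fb g) : ℕ) : ℝ) = ((n1 * (fb f - fb g) : ℕ) : ℝ) := by exact_mod_cast E3
    rw [Nat.cast_mul, Nat.cast_mul, Nat.cast_sub (by omega), Nat.cast_sub (by omega)] at this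
    rw [ha, hq, hc]
    linarith
  have hca : 0 < c - a := by linarith
  have hsum : (n2 : ℝ) + n3 = n1 := by
    have : ((n2 : ℝ) + n3) * (c - a) = n1 * (c - a) := by linarith
    exact mul_right_cancel₀ hca.ne' this
  have hsumN : n2 + n3 = n1 := by exact_mod_cast hsum
  have hkle : k ≤ 24 := by omega
  have Xa := X_nonneg w a ha0 m hm1 k hkle
  have Xq := X_nonneg w q hq0 m hm1 k hkle
  have Xc := X_nonneg w c hc0 m hm1 k hkle
  have hlog := (X_PS_time w m hm1 hme k k12 k21).logc a ha0 q hq0 c hc0 haq.le hqc.le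
  have hint := csI_int Xa Xq Xc haq hqc E2' E3' hlog
  have hvR : (fv g : ℝ) ^ n2 * (fv h : ℝ) ^ n3 ≤ (fv f : ℝ) ^ n1 := by exact_mod_cast hv
  have hD := D_pos
  have hvD : ((fv g : ℝ) / D) ^ n2 * ((fv h : ℝ) / D) ^ n3 ≤ ((fv f : ℝ) / D) ^ n1 := by
    have e : ((fv g : ℝ) / D) ^ n2 * ((fv h : ℝ) / D) ^ n3 =
        ((fv g : ℝ) ^ n2 * (fv h : ℝ) ^ n3) / (D : ℝ) ^ n1 := by
      rw [div_pow, div_pow, div_mul_div_comm, ← pow_add, hsumN]
    rw [e, div_pow]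
    gcongr
  have hvg : (0 : ℝ) ≤ (fv g : ℝ) / D := by positivity
  have hvh : (0 : ℝ) ≤ (fv h : ℝ) / D := by positivity
  have hvf : (0 : ℝ) ≤ (fv f : ℝ) / D := by positivity
  have hn1' : n1 ≠ 0 := by omega
  simp only [Good] at h1 h2
  rw [← tg, ← kg, ← Lg] at h1
  rw [← th, ← kh, ← Lh] at h2
  change GoodAt (fun k => X w k a m) (fty f) k ((fv g : ℝ) / D) at h1
  change GoodAt (fun k => X w k c m) (fty f) k ((fv h : ℝ) / D) at h2
  change GoodAt (fun k => X w k q m) (fty f) k ((fv f : ℝ) / D)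
  rcases tf with tf | tf
  · rw [tf] at h1 h2 ⊢
    simp only [GoodAt] at h1 h2 ⊢
    refine le_of_pow_le_pow_left₀ hn1' hvf ?_
    calc X w k q m ^ n1 ≤ X w k a m ^ n2 * X w k c m ^ n3 := hint
      _ ≤ ((fv g : ℝ) / D) ^ n2 * ((fv h : ℝ) / D) ^ n3 := by
        gcongr
      _ ≤ _ := hvD
  · rw [tf] at h1 h2 ⊢
    simp only [GoodAt] at h1 h2 ⊢
    have hdn : dn k = 22 := by
      unfold dn
      rw [if_pos ⟨k12, by omega⟩]
    rw [hdn] at h1 h2 ⊢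
    have hW0 : 0 ≤ w.W 0 m := W_nonneg w m hm1 0
    have hW1 : 0 < w.W 0 m := lt_of_lt_of_le one_pos (w.one_le_W m hm1)
    have x22 : ∀ β, X w 22 β m = w.W 0 m ^ β := fun β => rfl
    rw [x22] at h1 h2 ⊢
    have hWq : 0 ≤ (fv f : ℝ) / D * w.W 0 m ^ q := mul_nonneg hvf (Real.rpow_nonneg hW0 _)
    refine le_of_pow_le_pow_left₀ hn1' hWq ?_
    have hWW : (w.W 0 m ^ a) ^ n2 * (w.W 0 m ^ c) ^ n3 = (w.W 0 m ^ q) ^ n1 := by
      rw [← Real.rpow_mul_natCast hW0, ← Real.rpow_mul_natCast hW0, ← Real.rpow_mul_natCast hW0,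
        ← Real.rpow_add hW1]
      congr 1
      have : (n2 : ℝ) = n1 - n3 := by linarith
      rw [this]
      linarith
    calc X w k q m ^ n1 ≤ X w k a m ^ n2 * X w k c m ^ n3 := hint
      _ ≤ ((fv g : ℝ) / D * w.W 0 m ^ a) ^ n2 * ((fv h : ℝ) / D * w.W 0 m ^ c) ^ n3 := by
        gcongr
      _ = (((fv g : ℝ) / D) ^ n2 * ((fv h : ℝ) / D) ^ n3) *
          ((w.W 0 m ^ a) ^ n2 * (w.W 0 m ^ c) ^ n3) := by
        rw [mul_pow, mul_pow]; ring
      _ ≤ ((fv f : ℝ) / D) ^ n1 * (w.W 0 m ^ q) ^ n1 := by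
        rw [hWW]
        gcongr
      _ = _ := by rw [mul_pow]

end Hald.Cert
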