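import Crest.Agent.Hald.CsPS

/-!
# Row 347, M6: soundness of one rule of the certificate checker.  Chunk R347-M6-LP.

Tools: `wf_iff`, `wf_beta`, `wf_m`, `wf_even`, `wf_two_m`, `D_pos`, `mu_eq`, `mu_pos`, `rpow_div_le`,
`le_rpow_div` (`CertSem.lean`), `X_PS_space`, `X_PS_time`, `X_nonneg`, `V_nonneg`, `W_nonneg` (`CsPS.lean`),
and the fields of `World`.  Unfold the Boolean check with
`simp only [okLP, Bool.and_eq_true, Bool.or_eq_true, Nat.ble_eq, Nat.beq_eq] at h0`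
(for `bif` use `Bool.cond_eq_ite`, for `isTop` unfold it).  `Good w f` unfolds to
`GoodAt (fun k => X w k (fb f / 2) (fL f / 2)) (fty f) (fk f) (fv f / D)`; rewrite `fty f` to its value
and `simp only [GoodAt]`.
-/

set_option autoImplicit false

namespace Hald.Cert

/-- real-analysis core of the lower power rule -/
theorem lp_core {xh xf dh df : ℝ} {vh vf aa bb : ℕ} (hd : 0 ≤ dh) (hbb : 1 ≤ bb)
    (exf : xf = xh ^ ((aa : ℝ) / (bb : ℝ))) (edf : df = dh ^ ((aa : ℝ) / (bb : ℝ)))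
    (hc : vf ^ bb * D ^ aa ≤ vh ^ aa * D ^ bb)
    (h : (vh : ℝ) / (D : ℝ) * dh ≤ xh) : (vf : ℝ) / (D : ℝ) * df ≤ xf := by
  have hD := D_pos
  have hvh : (0 : ℝ) ≤ (vh : ℝ) / (D : ℝ) := by positivity
  have hvf : (0 : ℝ) ≤ (vf : ℝ) / (D : ℝ) := by positivity
  have hcR : (vf : ℝ) ^ bb * (D : ℝ) ^ aa ≤ (vh : ℝ) ^ aa * (D : ℝ) ^ bb := by exact_mod_cast hc
  have h1 : ((vf : ℝ) / (D : ℝ)) ^ bb ≤ ((vh : ℝ) / (D : ℝ)) ^ aa := by
    rw [div_pow, div_pow, div_le_div_iff₀ (by positivity) (by positivity)]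
    exact hcR
  have h2 := le_rpow_div hvh hvf hbb h1
  have hr : (0 : ℝ) ≤ (aa : ℝ) / (bb : ℝ) := by positivity
  rw [exf, edf]
  calc (vf : ℝ) / (D : ℝ) * dh ^ ((aa : ℝ) / (bb : ℝ))
      ≤ ((vh : ℝ) / (D : ℝ)) ^ ((aa : ℝ) / (bb : ℝ)) * dh ^ ((aa : ℝ) / (bb : ℝ)) :=
        mul_le_mul_of_nonneg_right h2 (Real.rpow_nonneg hd _)
    _ = ((vh : ℝ) / (D : ℝ) * dh) ^ ((aa : ℝ) / (bb : ℝ)) := by rw [Real.mul_rpow hvh hd]
    _ ≤ xh ^ ((aa : ℝ) / (bb : ℝ)) := Real.rpow_le_rpow (mul_nonneg hvh hd) h hr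

/-- exact powers of the space tops -/
theorem top_space (t : ℝ) (ht : 0 ≤ t) (f h aa bb : ℕ) (hf : wf f = true) (hh : wf h = true)
    (hbb : 1 ≤ bb) (e : aa * fL h = bb * fL f) :
    t ^ (2 * ((fL f / 2 : ℕ) : ℝ)) = (t ^ (2 * ((fL h / 2 : ℕ) : ℝ))) ^ ((aa : ℝ) / (bb : ℝ)) := by
  rw [wf_two_m hf, wf_two_m hh, ← Real.rpow_mul ht]
  congr 1
  have hbb' : (bb : ℝ) ≠ 0 := by
    have : (1 : ℝ) ≤ (bb : ℝ) := by exact_mod_cast hbb
    linarith
  have e' : (aa : ℝ) * (fL h : ℝ) = (bb : ℝ) * (fL f : ℝ) := by exact_mod_cast e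
  field_simp
  linarith

/-- exact powers of the time tops -/
theorem top_time (t : ℝ) (ht : 0 ≤ t) (f h aa bb : ℕ) (hbb : 1 ≤ bb) (e : aa * fb h = bb * fb f) :
    t ^ ((fb f : ℝ) / 2) = (t ^ ((fb h : ℝ) / 2)) ^ ((aa : ℝ) / (bb : ℝ)) := by
  rw [← Real.rpow_mul ht]
  congr 1
  have hbb' : (bb : ℝ) ≠ 0 := by
    have : (1 : ℝ) ≤ (bb : ℝ) := by exact_mod_cast hbb
    linarith
  have e' : (aa : ℝ) * (fb h : ℝ) = (bb : ℝ) * (fb f : ℝ) := by exact_mod_cast e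
  field_simp
  linarith

/-- Lower power rule for the tops (`k ∈ {10, 11, 22, 23}`), exact powers; types 1 and 3.
`r = aa/bb`.  `k = 10, 11` (space): same `β`, `r = L_f/L_h`, `X_f = V^(L_f) = (V^(L_h))^r = X_h^r`.
`k = 22, 23` (time): same `L`, `r = fb f/fb h`, `X_f = W^(b_f/2) = (W^(b_h/2))^r = X_h^r`.
Type 1: `v_h/D ≤ X_h`, check `v_f^bb D^aa ≤ v_h^aa D^bb` i.e. `(v_f/D)^bb ≤ (v_h/D)^aa`, so
`v_f/D ≤ (v_h/D)^r ≤ X_h^r = X_f` (`le_rpow_div`).  Type 3: `(v_h/D) den_h ≤ X_h` with `den_h = V 0^L_h`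
resp. `W 0^β_h`, `den_f = den_h^r`; multiply. -/
theorem okLP_sound (w : World) (f h aa bb : ℕ) (hf : wf f = true) (hh : wf h = true)
    (h0 : okLP f h aa bb = true) (h1 : Good w h) : Good w f := by
  simp only [okLP, Bool.and_eq_true, Bool.or_eq_true, Nat.ble_eq, Nat.beq_eq, isTop, okRatio,
    Bool.cond_eq_ite] at h0
  obtain ⟨⟨⟨⟨⟨⟨⟨ea, eb⟩, ety⟩, ek⟩, ety'⟩, etop⟩, er⟩, ec⟩ := h0
  have hβf := wf_beta hf
  have hβh := wf_beta hh
  have hmf := wf_m hf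
  have hmh := wf_m hh
  unfold Good at h1 ⊢
  rw [← ety, ← ek] at h1
  -- the top and the denominator are both exact powers
  have key : X w (fk f) ((fb f : ℝ) / 2) (fL f / 2) =
        (X w (fk f) ((fb h : ℝ) / 2) (fL h / 2)) ^ ((aa : ℝ) / (bb : ℝ)) ∧
      X w (dn (fk f)) ((fb f : ℝ) / 2) (fL f / 2) =
        (X w (dn (fk f)) ((fb h : ℝ) / 2) (fL h / 2)) ^ ((aa : ℝ) / (bb : ℝ)) := by
    rcases etop with ((hk | hk) | hk) | hk
    · rw [hk] at er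
      have er1 : fb f = fb h ∧ aa * fL h = bb * fL f := by simpa using er
      rw [hk, er1.1]
      have hd : dn 10 = 10 := rfl
      rw [hd]
      exact ⟨top_space _ (V_nonneg w _ hβh 0) f h aa bb hf hh eb er1.2,
        top_space _ (V_nonneg w _ hβh 0) f h aa bb hf hh eb er1.2⟩
    · rw [hk] at er
      have er1 : fb f = fb h ∧ aa * fL h = bb * fL f := by simpa using er
      rw [hk, er1.1]
      have hd : dn 11 = 10 := rfl
      rw [hd]
      exact ⟨top_space _ (V_nonneg w _ hβh 1) f h aa bb hf hh eb er1.2,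
        top_space _ (V_nonneg w _ hβh 0) f h aa bb hf hh eb er1.2⟩
    · rw [hk] at er
      have er1 : fL f = fL h ∧ aa * fb h = bb * fb f := by simpa using er
      rw [hk, er1.1]
      have hd : dn 22 = 22 := rfl
      rw [hd]
      exact ⟨top_time _ (W_nonneg w _ hmh 0) f h aa bb eb er1.2,
        top_time _ (W_nonneg w _ hmh 0) f h aa bb eb er1.2⟩
    · rw [hk] at er
      have er1 : fL f = fL h ∧ aa * fb h = bb * fb f := by simpa using er
      rw [hk, er1.1]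
      have hd : dn 23 = 22 := rfl
      rw [hd]
      exact ⟨top_time _ (W_nonneg w _ hmh 1) f h aa bb eb er1.2,
        top_time _ (W_nonneg w _ hmh 0) f h aa bb eb er1.2⟩
  obtain ⟨k1, k2⟩ := key
  rcases ety' with ht | ht
  · rw [ht] at h1 ⊢
    simp only [GoodAt] at h1 ⊢
    have := lp_core (xh := X w (fk f) ((fb h : ℝ) / 2) (fL h / 2)) (dh := 1) (df := 1) zero_le_one
      eb k1 (by rw [Real.one_rpow]) ec (by rw [mul_one]; exact h1)
    rwa [mul_one] at this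
  · rw [ht] at h1 ⊢
    simp only [GoodAt] at h1 ⊢
    refine lp_core (X_nonneg w _ hβh _ hmh _ ?_) eb k1 k2 ec h1
    unfold dn
    split_ifs <;> omega

end Hald.Cert
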