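import Crest.Agent.Hald.CsDig

/-!
# Row 347, M6: soundness of the linear steps.
-/

set_option autoImplicit false

namespace Hald.Cert

/-- positive part of the coefficients -/
def qp (k i : ℕ) : ℕ := if h : i < 12 then (Q12 k ⟨i, h⟩).toNat else 0

/-- negative part of the coefficients -/
def qn (k i : ℕ) : ℕ := if h : i < 12 then (-(Q12 k ⟨i, h⟩)).toNat else 0

theorem QPw_eq : ∀ k, k < 25 → QPw.get k = pk 13 (qp k) := by decide +kernel

theorem QNw_eq : ∀ k, k < 25 → QNw.get k = pk 13 (qn k) := by decide +kernel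

theorem qp_le : ∀ k, k < 25 → ∀ i, i < 13 → qp k i ≤ 36 := by decide +kernel

theorem qn_le : ∀ k, k < 25 → ∀ i, i < 13 → qn k i ≤ 36 := by decide +kernel

theorem shl (a n : ℕ) : Nat.shiftLeft a n = a * 2 ^ n := Nat.shiftLeft_eq a n

/-- the 13 variables -/
noncomputable def yv (w : World) (β : ℝ) (m : ℕ) (i : ℕ) : ℝ := if h : i < 12 then Xv w β m ⟨i, h⟩ else 1

theorem yv_nonneg (w : World) (β : ℝ) (hβ : 0 < β) (m : ℕ) (hm : 1 ≤ m) (i : ℕ) : 0 ≤ yv w β m i := by
  unfold yv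
  split_ifs with h
  · exact Xv_nonneg w β hβ m hm _
  · exact zero_le_one

theorem ev_12 (y : ℕ → ℝ) (d : ℕ → ℕ) (h : d 12 = 0) : ev y d = ∑ t : Fin 12, (d t : ℝ) * y t := by
  unfold ev
  rw [Finset.sum_range_succ, h, Nat.cast_zero, zero_mul, add_zero, Finset.sum_range]

theorem ev_q (w : World) (β : ℝ) (m k : ℕ) (hk : k ≤ 24) :
    ev (yv w β m) (qp k) - ev (yv w β m) (qn k) = 12 * X w k β m := by
  rw [X_eq w β m k hk]
  have e1 : qp k 12 = 0 := by simp [qp]
  have e2 : qn k 12 = 0 := by simp [qn]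
  rw [ev_12 _ _ e1, ev_12 _ _ e2, ← Finset.sum_sub_distrib]
  refine Finset.sum_congr rfl (fun t _ => ?_)
  have h1 : qp k t = (Q12 k t).toNat := by simp [qp]
  have h2 : qn k t = (-(Q12 k t)).toNat := by simp [qn]
  have h3 : yv w β m t = Xv w β m t := by simp [yv]
  rw [h1, h2, h3, ← sub_mul]
  congr 1
  have h4 := Int.toNat_sub_toNat_neg (Q12 k t)
  have h5 : (((Q12 k t).toNat : ℤ) : ℝ) - (((-(Q12 k t)).toNat : ℤ) : ℝ) = (Q12 k t : ℝ) := by
    rw [← Int.cast_sub, h4]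
  rw [Int.cast_natCast, Int.cast_natCast] at h5
  exact h5

theorem sh12 (v : ℕ) : Nat.shiftLeft v 2400 = pk 13 (fun i => if i = 12 then v else 0) := by
  rw [pk_single 13 12 v (by omega), shl]

theorem sh10 (v : ℕ) : Nat.shiftLeft v 2000 = pk 13 (fun i => if i = 10 then v else 0) := by
  rw [pk_single 13 10 v (by omega), shl]

theorem sh_j (v j : ℕ) (hj : j < 13) : Nat.shiftLeft v (200 * j) = pk 13 (fun i => if i = j then v else 0) := by
  rw [pk_single 13 j v hj, shl]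

theorem sh0 (v : ℕ) : v = pk 13 (fun i => if i = 0 then v else 0) := by
  rw [pk_single 13 0 v (by omega), Nat.mul_zero, Nat.pow_zero, Nat.mul_one]

theorem den_lt (k : ℕ) : den k < 12 := by
  unfold den
  cases (Nat.ble 12 k && Nat.ble k 23) <;> decide

theorem yv_den (w : World) (β : ℝ) (m k : ℕ) : yv w β m (den k) = X w (dn k) β m := by
  unfold den dn
  by_cases h : 12 ≤ k ∧ k ≤ 23
  · have : (Nat.ble 12 k && Nat.ble k 23) = true := by
      rw [Bool.and_eq_true]; exact ⟨Nat.ble_eq_true_of_le h.1, Nat.ble_eq_true_of_le h.2⟩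
    rw [this, if_pos h]
    simp [yv, Xv, vid]
  · have : (Nat.ble 12 k && Nat.ble k 23) = false := by
      rw [Bool.eq_false_iff]
      intro h'
      rw [Bool.and_eq_true] at h'
      exact h ⟨Nat.le_of_ble_eq_true h'.1, Nat.le_of_ble_eq_true h'.2⟩
    rw [this, if_neg h]
    simp [yv, Xv, vid]

theorem yv_12 (w : World) (β : ℝ) (m : ℕ) : yv w β m 12 = 1 := by simp [yv]
theorem yv_0 (w : World) (β : ℝ) (m : ℕ) : yv w β m 0 = X w 10 β m := by simp [yv, Xv, vid]
theorem yv_10 (w : World) (β : ℝ) (m : ℕ) : yv w β m 10 = X w 22 β m := by simp [yv, Xv, vid]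

/-- bounds for the digits -/
theorem dig_bound (d s v : ℕ) (hd : d ≤ 36) (hs : s ≤ 12 * v) (hv : v ≤ 1237940039285380274899124224) :
    D * d + s < 2 ^ 94 := by
  have h1 : D * d ≤ D * 36 := Nat.mul_le_mul_left D hd
  have h2 : s ≤ 12 * 1237940039285380274899124224 := hs.trans (Nat.mul_le_mul_left 12 hv)
  calc D * d + s ≤ D * 36 + 12 * 1237940039285380274899124224 := Nat.add_le_add h1 h2
    _ < 2 ^ 94 := by norm_num [D]

theorem ite_le (j v i : ℕ) : (if i = j then 12 * v else 0) ≤ 12 * v := by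
  split_ifs
  · exact le_refl _
  · exact Nat.zero_le _

theorem cond_t {α : Type} (c : Bool) (hc : c = true) (a b : α) : (bif c then a else b) = a := by
  rw [hc]; rfl

theorem cond_f {α : Type} (c : Bool) (hc : c = false) (a b : α) : (bif c then a else b) = b := by
  rw [hc]; rfl

theorem LL0 (f : ℕ) (h : fty f = 0) : LL f = D * QNw.get (fk f) + Nat.shiftLeft (12 * fv f) 2400 := by
  unfold LL
  rw [cond_t _ (by rw [h]; rfl)]

theorem RR0 (f : ℕ) (h : fty f = 0) : RR f = D * QPw.get (fk f) := by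
  unfold RR
  rw [cond_t _ (by rw [h]; rfl)]

theorem LL1 (f : ℕ) (h : fty f = 1) : LL f = D * QPw.get (fk f) := by
  unfold LL
  rw [cond_f _ (by rw [h]; rfl), cond_t _ (by rw [h]; rfl)]

theorem RR1 (f : ℕ) (h : fty f = 1) : RR f = D * QNw.get (fk f) + Nat.shiftLeft (12 * fv f) 2400 := by
  unfold RR
  rw [cond_f _ (by rw [h]; rfl), cond_t _ (by rw [h]; rfl)]

theorem LL2 (f : ℕ) (h : fty f = 2) :
    LL f = D * QNw.get (fk f) + Nat.shiftLeft (12 * fv f) (200 * den (fk f)) := by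
  unfold LL
  rw [cond_f _ (by rw [h]; rfl), cond_f _ (by rw [h]; rfl), cond_t _ (by rw [h]; rfl)]

theorem RR2 (f : ℕ) (h : fty f = 2) : RR f = D * QPw.get (fk f) := by
  unfold RR
  rw [cond_f _ (by rw [h]; rfl), cond_f _ (by rw [h]; rfl), cond_t _ (by rw [h]; rfl)]

theorem LL3 (f : ℕ) (h : fty f = 3) : LL f = D * QPw.get (fk f) := by
  unfold LL
  rw [cond_f _ (by rw [h]; rfl), cond_f _ (by rw [h]; rfl), cond_f _ (by rw [h]; rfl),
    cond_t _ (by rw [h]; rfl)]

theorem RR3 (f : ℕ) (h : fty f = 3) :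
    RR f = D * QNw.get (fk f) + Nat.shiftLeft (12 * fv f) (200 * den (fk f)) := by
  unfold RR
  rw [cond_f _ (by rw [h]; rfl), cond_f _ (by rw [h]; rfl), cond_f _ (by rw [h]; rfl),
    cond_t _ (by rw [h]; rfl)]

theorem LL4 (f : ℕ) (h : fty f = 4) : LL f = Nat.shiftLeft (12 * fv f) 2000 := by
  unfold LL
  rw [cond_f _ (by rw [h]; rfl), cond_f _ (by rw [h]; rfl), cond_f _ (by rw [h]; rfl),
    cond_f _ (by rw [h]; rfl), cond_t _ (by rw [h]; rfl)]

theorem RR4 (f : ℕ) (h : fty f = 4) : RR f = 12 * D := by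
  unfold RR
  rw [cond_f _ (by rw [h]; rfl), cond_f _ (by rw [h]; rfl), cond_f _ (by rw [h]; rfl),
    cond_f _ (by rw [h]; rfl), cond_t _ (by rw [h]; rfl)]

theorem LL5 (f : ℕ) (h : fty f = 5) : LL f = 12 * D := by
  unfold LL
  rw [cond_f _ (by rw [h]; rfl), cond_f _ (by rw [h]; rfl), cond_f _ (by rw [h]; rfl),
    cond_f _ (by rw [h]; rfl), cond_f _ (by rw [h]; rfl)]

theorem RR5 (f : ℕ) (h : fty f = 5) : RR f = Nat.shiftLeft (12 * fv f) 2000 := by
  unfold RR
  rw [cond_f _ (by rw [h]; rfl), cond_f _ (by rw [h]; rfl), cond_f _ (by rw [h]; rfl),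
    cond_f _ (by rw [h]; rfl), cond_f _ (by rw [h]; rfl)]

theorem aux0 (D P N v x : ℝ) (hD : 0 < D) (hQ : P - N = 12 * x) :
    (D * P ≤ D * N + 12 * v * 1) ↔ x ≤ v / D := by
  rw [le_div_iff₀ hD]
  have : D * P = D * N + 12 * (x * D) := by
    have : P = N + 12 * x := by linarith
    rw [this]; ring
  rw [this]
  constructor
  · intro h'; linarith
  · intro h'; linarith

theorem aux1 (D P N v x : ℝ) (hD : 0 < D) (hQ : P - N = 12 * x) :
    (D * N + 12 * v * 1 ≤ D * P) ↔ v / D ≤ x := by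
  rw [div_le_iff₀ hD]
  have : D * P = D * N + 12 * (x * D) := by
    have : P = N + 12 * x := by linarith
    rw [this]; ring
  rw [this]
  constructor
  · intro h'; linarith
  · intro h'; linarith

theorem aux2 (D P N v x z : ℝ) (hD : 0 < D) (hQ : P - N = 12 * x) :
    (D * P ≤ D * N + 12 * v * z) ↔ x ≤ v / D * z := by
  rw [div_mul_eq_mul_div, le_div_iff₀ hD]
  have : D * P = D * N + 12 * (x * D) := by
    have : P = N + 12 * x := by linarith
    rw [this]; ring
  rw [this]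
  constructor
  · intro h'; linarith
  · intro h'; linarith

theorem aux3 (D P N v x z : ℝ) (hD : 0 < D) (hQ : P - N = 12 * x) :
    (D * N + 12 * v * z ≤ D * P) ↔ v / D * z ≤ x := by
  rw [div_mul_eq_mul_div, div_le_iff₀ hD]
  have : D * P = D * N + 12 * (x * D) := by
    have : P = N + 12 * x := by linarith
    rw [this]; ring
  rw [this]
  constructor
  · intro h'; linarith
  · intro h'; linarith

theorem aux4 (D v a b : ℝ) (hD : 0 < D) : (12 * D * a ≤ 12 * v * b) ↔ a ≤ v / D * b := by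
  rw [div_mul_eq_mul_div, le_div_iff₀ hD]
  constructor
  · intro h'; linarith
  · intro h'; linarith

theorem aux5 (D v a b : ℝ) (hD : 0 < D) : (12 * v * b ≤ 12 * D * a) ↔ v / D * b ≤ a := by
  rw [div_mul_eq_mul_div, div_le_iff₀ hD]
  constructor
  · intro h'; linarith
  · intro h'; linarith

/-- bounds for the digits -/
theorem bnd1 (d v : ℕ) (hd : d ≤ 36) (hv : v ≤ 1237940039285380274899124224) : D * d < 2 ^ 94 := by
  have := dig_bound d 0 v hd (Nat.zero_le _) hv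
  rwa [Nat.add_zero] at this

theorem bnd2 (d v i j : ℕ) (hd : d ≤ 36) (hv : v ≤ 1237940039285380274899124224) :
    D * d + (if i = j then 12 * v else 0) < 2 ^ 94 :=
  dig_bound d _ v hd (ite_le _ _ _) hv

theorem bnd3 (v i j : ℕ) (hv : v ≤ 1237940039285380274899124224) :
    (if i = j then 12 * v else 0) < 2 ^ 94 := by
  have := dig_bound 0 (if i = j then 12 * v else 0) v (Nat.zero_le _) (ite_le _ _ _) hv
  rwa [Nat.mul_zero, Nat.zero_add] at this

theorem bnd4 (i : ℕ) : (if i = 0 then 12 * D else 0) < 2 ^ 94 := by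
  split_ifs
  · norm_num [D]
  · norm_num

theorem pkN (k j v : ℕ) (hk : k < 25) (hj : j < 13) :
    D * QNw.get k + Nat.shiftLeft v (200 * j) = pk 13 (fun i => D * qn k i + if i = j then v else 0) := by
  rw [pk_add 13 (fun i => D * qn k i) (fun i => if i = j then v else 0), pk_mul, QNw_eq _ hk, sh_j v j hj]

theorem pkP (k : ℕ) (hk : k < 25) : D * QPw.get k = pk 13 (fun i => D * qp k i) := by
  rw [pk_mul, QPw_eq _ hk]

theorem cast12 (v : ℕ) : ((12 * v : ℕ) : ℝ) = 12 * (v : ℝ) := by push_cast; ring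

theorem evN (y : ℕ → ℝ) (k j v : ℕ) (hj : j < 13) :
    ev y (fun i => D * qn k i + if i = j then 12 * v else 0) =
      (D : ℝ) * ev y (qn k) + 12 * (v : ℝ) * y j := by
  rw [ev_add y (fun i => D * qn k i) (fun i => if i = j then 12 * v else 0), ev_mul, ev_single y j _ hj,
    cast12 v]

theorem evJ (y : ℕ → ℝ) (j v : ℕ) (hj : j < 13) :
    ev y (fun i => if i = j then 12 * v else 0) = 12 * (v : ℝ) * y j := by
  rw [ev_single y j _ hj, cast12 v]

theorem row_iff (w : World) (f : ℕ) (hf : wf f = true) :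
    ∃ A B : ℕ → ℕ, LL f = pk 13 A ∧ RR f = pk 13 B ∧ (∀ i, i < 13 → A i < 2 ^ 94) ∧
      (∀ i, i < 13 → B i < 2 ^ 94) ∧
      (ev (yv w ((fb f : ℝ) / 2) (fL f / 2)) B ≤ ev (yv w ((fb f : ℝ) / 2) (fL f / 2)) A ↔ Good w f) := by
  obtain ⟨-, -, -, hk, hty, hv⟩ := (wf_iff f).1 hf
  have hk' : fk f < 25 := by omega
  have hQ := ev_q w ((fb f : ℝ) / 2) (fL f / 2) (fk f) hk
  have hD := D_pos
  have hdl : den (fk f) < 13 := lt_trans (den_lt _) (by omega)
  have y12 := yv_12 w ((fb f : ℝ) / 2) (fL f / 2)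
  have y0 := yv_0 w ((fb f : ℝ) / 2) (fL f / 2)
  have y10 := yv_10 w ((fb f : ℝ) / 2) (fL f / 2)
  have yd := yv_den w ((fb f : ℝ) / 2) (fL f / 2) (fk f)
  have cases6 : fty f = 0 ∨ fty f = 1 ∨ fty f = 2 ∨ fty f = 3 ∨ fty f = 4 ∨ fty f = 5 := by omega
  rcases cases6 with h | h | h | h | h | h
  · refine ⟨fun i => D * qn (fk f) i + if i = 12 then 12 * fv f else 0, fun i => D * qp (fk f) i, ?_, ?_,
      fun i hi => bnd2 _ _ _ _ (qn_le _ hk' i hi) hv, fun i hi => bnd1 _ _ (qp_le _ hk' i hi) hv, ?_⟩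
    · rw [LL0 f h]; exact pkN _ 12 _ hk' (by omega)
    · rw [RR0 f h]; exact pkP _ hk'
    · rw [ev_mul, evN _ _ 12 _ (by omega), y12]
      unfold Good
      rw [h]
      exact aux0 _ _ _ _ _ hD hQ
  · refine ⟨fun i => D * qp (fk f) i, fun i => D * qn (fk f) i + if i = 12 then 12 * fv f else 0, ?_, ?_,
      fun i hi => bnd1 _ _ (qp_le _ hk' i hi) hv, fun i hi => bnd2 _ _ _ _ (qn_le _ hk' i hi) hv, ?_⟩
    · rw [LL1 f h]; exact pkP _ hk'
    · rw [RR1 f h]; exact pkN _ 12 _ hk' (by omega)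
    · rw [ev_mul, evN _ _ 12 _ (by omega), y12]
      unfold Good
      rw [h]
      exact aux1 _ _ _ _ _ hD hQ
  · refine ⟨fun i => D * qn (fk f) i + if i = den (fk f) then 12 * fv f else 0, fun i => D * qp (fk f) i, ?_, ?_,
      fun i hi => bnd2 _ _ _ _ (qn_le _ hk' i hi) hv, fun i hi => bnd1 _ _ (qp_le _ hk' i hi) hv, ?_⟩
    · rw [LL2 f h]; exact pkN _ _ _ hk' hdl
    · rw [RR2 f h]; exact pkP _ hk'
    · rw [ev_mul, evN _ _ _ _ hdl, yd]
      unfold Good
      rw [h]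
      exact aux2 _ _ _ _ _ _ hD hQ
  · refine ⟨fun i => D * qp (fk f) i, fun i => D * qn (fk f) i + if i = den (fk f) then 12 * fv f else 0, ?_, ?_,
      fun i hi => bnd1 _ _ (qp_le _ hk' i hi) hv, fun i hi => bnd2 _ _ _ _ (qn_le _ hk' i hi) hv, ?_⟩
    · rw [LL3 f h]; exact pkP _ hk'
    · rw [RR3 f h]; exact pkN _ _ _ hk' hdl
    · rw [ev_mul, evN _ _ _ _ hdl, yd]
      unfold Good
      rw [h]
      exact aux3 _ _ _ _ _ _ hD hQ
  · refine ⟨fun i => if i = 10 then 12 * fv f else 0, fun i => if i = 0 then 12 * D else 0, ?_, ?_,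
      fun i _ => bnd3 _ _ _ hv, fun i _ => bnd4 i, ?_⟩
    · rw [LL4 f h]; exact sh10 _
    · rw [RR4 f h]; exact sh0 _
    · rw [evJ _ 0 _ (by omega), evJ _ 10 _ (by omega), y0, y10]
      unfold Good
      rw [h]
      exact aux4 _ _ _ _ hD
  · refine ⟨fun i => if i = 0 then 12 * D else 0, fun i => if i = 10 then 12 * fv f else 0, ?_, ?_,
      fun i _ => bnd4 i, fun i _ => bnd3 _ _ _ hv, ?_⟩
    · rw [LL5 f h]; exact sh0 _
    · rw [RR5 f h]; exact sh10 _
    · rw [evJ _ 0 _ (by omega), evJ _ 10 _ (by omega), y0, y10]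
      unfold Good
      rw [h]
      exact aux5 _ _ _ _ hD

theorem Ybound (b q : ℕ) (hb : b < 2 ^ 94) (hq : q < 256) : Y * b + q * 2 ^ 190 < 2 ^ 200 := by
  have h1 : Y * b ≤ Y * 2 ^ 94 := Nat.mul_le_mul_left Y hb.le
  have h2 : q * 2 ^ 190 ≤ 255 * 2 ^ 190 := Nat.mul_le_mul_right _ (by omega)
  calc Y * b + q * 2 ^ 190 ≤ Y * 2 ^ 94 + 255 * 2 ^ 190 := Nat.add_le_add h1 h2
    _ < 2 ^ 200 := by norm_num [Y]

/-- linear steps -/
theorem lin_sound (w : World) (T : Tree) (n q x : ℕ) (hq : q < 256)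
    (hg : ∀ j, j < n → wf (T.get j) = true ∧ Good w (T.get j)) (hf : wf (T.get n) = true)
    (h : linGo T n (T.get n % 1048576) q x (Y * RR (T.get n)) (Y * LL (T.get n)) = true) :
    Good w (T.get n) := by
  obtain ⟨A, B, eA, eB, bA, bB, hiff⟩ := row_iff w (T.get n) hf
  rw [← hiff]
  rw [eA, eB, ← pk_mul, ← pk_mul] at h
  have hy : ∀ i, i < 13 → 0 ≤ yv w ((fb (T.get n) : ℝ) / 2) (fL (T.get n) / 2) i := fun i _ =>
    yv_nonneg w _ (wf_beta hf) _ (wf_m hf) i
  have key := linGo_sound T n (T.get n % 1048576) (yv w ((fb (T.get n) : ℝ) / 2) (fL (T.get n) / 2)) hy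
    (fun j hj hp => by
      obtain ⟨hw, hgood⟩ := hg j hj
      obtain ⟨A', B', eA', eB', bA', bB', hiff'⟩ := row_iff w (T.get j) hw
      have h1 : fb (T.get j) = fb (T.get n) := by
        unfold fb; omega
      have h2 : fL (T.get j) = fL (T.get n) := by
        unfold fL; omega
      rw [h1, h2] at hiff'
      exact ⟨A', B', eA', eB', bA', bB', hiff'.2 hgood⟩)
    q x (fun i => Y * B i) (fun i => Y * A i) (fun i hi => Ybound _ _ (bB i hi) hq)
    (fun i hi => Ybound _ _ (bA i hi) hq) h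
  rw [ev_mul, ev_mul] at key
  have hY : (0 : ℝ) < (Y : ℕ) := by norm_num [Y]
  exact le_of_mul_le_mul_left key hY

end Hald.Cert
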