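import Crest.Agent.Hald.CsPS

/-!
# Row 347, M6: soundness of one rule of the certificate checker.  Chunk R347-M6-M.

Tools: `wf_iff`, `wf_beta`, `wf_m`, `wf_even`, `wf_two_m`, `D_pos`, `mu_eq`, `mu_pos`, `rpow_div_le`,
`le_rpow_div` (`CertSem.lean`), `X_PS_space`, `X_PS_time`, `X_nonneg`, `V_nonneg`, `W_nonneg` (`CsPS.lean`),
and the fields of `World`.  Unfold the Boolean check with
`simp only [okM, Bool.and_eq_true, Bool.or_eq_true, Nat.ble_eq, Nat.beq_eq] at h0`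
(for `bif` use `Bool.cond_eq_ite`, for `isTop` unfold it).  `Good w f` unfolds to
`GoodAt (fun k => X w k (fb f / 2) (fL f / 2)) (fty f) (fk f) (fv f / D)`; rewrite `fty f` to its value
and `simp only [GoodAt]`.
-/

set_option autoImplicit false

namespace Hald.Cert

/-- the top `V 0` is antitone in `β`, at the same length -/
theorem X10_anti (w : World) {β β' : ℝ} (hβ : 0 < β) (h : β ≤ β') (m : ℕ) :
    X w 10 β' m ≤ X w 10 β m := by
  have h0 : 0 < β' := lt_of_lt_of_le hβ h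
  have e : ∀ b : ℝ, X w 10 b m = w.V 0 b ^ (2 * (m : ℝ)) := fun b => rfl
  rw [e, e]
  exact Real.rpow_le_rpow (V_nonneg w β' h0 0) (w.V_anti β β' hβ h) (by positivity)

/-- the top `W 0` is antitone in the length, at the same `β` -/
theorem X22_anti (w : World) {β : ℝ} (hβ : 0 < β) {m m' : ℕ} (hm : 1 ≤ m) (h : m ≤ m') :
    X w 22 β m' ≤ X w 22 β m := by
  have e : ∀ n : ℕ, X w 22 β n = w.W 0 n ^ β := fun n => rfl
  rw [e, e]
  exact Real.rpow_le_rpow (W_nonneg w m' (hm.trans h) 0) (w.W_anti m m' hm h) hβ.le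

/-- `V 0`-monotonicity in `β` (`V_anti`, `k = 10`, same `L`), `W 0`-monotonicity in `L` (`W_anti`, `k = 22`,
same `fb`); `V, W ≥ 0`, `Real.rpow_le_rpow`. -/
theorem okM_sound (w : World) (f g : ℕ) (hf : wf f = true) (hg : wf g = true) (h : okM f g = true)
    (h1 : Good w g) : Good w f := by
  simp only [okM, Bool.and_eq_true, Bool.or_eq_true, Nat.ble_eq, Nat.beq_eq] at h
  obtain ⟨⟨⟨hv, hty⟩, hk⟩, hcase⟩ := h
  have hβf := wf_beta hf
  have hβg := wf_beta hg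
  have hmf := wf_m hf
  have hmg := wf_m hg
  unfold Good at h1 ⊢
  rcases hcase with ⟨⟨hk10, hL⟩, hc⟩ | ⟨⟨hk22, hb⟩, hc⟩
  · rw [← hty, ← hk, ← hv, hk10, ← hL] at h1
    rw [hk10]
    rcases hc with ⟨ht, hb⟩ | ⟨ht, hb⟩
    · rw [ht] at h1 ⊢
      have hle : (fb g : ℝ) / 2 ≤ (fb f : ℝ) / 2 := by
        have : (fb g : ℝ) ≤ (fb f : ℝ) := by exact_mod_cast hb
        linarith
      exact (X10_anti w hβg hle _).trans h1
    · rw [ht] at h1 ⊢
      have hle : (fb f : ℝ) / 2 ≤ (fb g : ℝ) / 2 := by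
        have : (fb f : ℝ) ≤ (fb g : ℝ) := by exact_mod_cast hb
        linarith
      exact le_trans h1 (X10_anti w hβf hle _)
  · rw [← hty, ← hk, ← hv, hk22, ← hb] at h1
    rw [hk22]
    rcases hc with ⟨ht, hL⟩ | ⟨ht, hL⟩
    · rw [ht] at h1 ⊢
      have hle : fL g / 2 ≤ fL f / 2 := Nat.div_le_div_right hL
      exact (X22_anti w hβf hmg hle).trans h1
    · rw [ht] at h1 ⊢
      have hle : fL f / 2 ≤ fL g / 2 := Nat.div_le_div_right hL
      exact le_trans h1 (X22_anti w hβf hmf hle)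

/-- type 1, `v = 0`: `0 ≤ X k` (`X_nonneg`) -/
theorem okZ_sound (w : World) (f : ℕ) (hf : wf f = true) (h : okZ f = true) : Good w f := by
  simp only [okZ, Bool.and_eq_true, Nat.ble_eq, Nat.beq_eq] at h
  obtain ⟨⟨ht, hv⟩, hk⟩ := h
  unfold Good
  rw [ht, hv]
  have := X_nonneg w _ (wf_beta hf) _ (wf_m hf) (fk f) (by omega)
  simpa [GoodAt] using this

/-- `v = D`: type 1, `k = 10, 22`: `1 ≤ V^L`, `1 ≤ W^β` (`one_le_V`, `one_le_W`, `Real.one_le_rpow`); type 2,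
`k = 11, 23`: `V 1^L ≤ V 0^L` (`Vx_le`), `W 1^β ≤ W 0^β` (`Wx_le`). -/
theorem okO_sound (w : World) (f : ℕ) (hf : wf f = true) (h : okO f = true) : Good w f := by
  simp only [okO, Bool.and_eq_true, Bool.or_eq_true, Nat.beq_eq] at h
  obtain ⟨hv, hc⟩ := h
  have hβ := wf_beta hf
  have hm := wf_m hf
  have hone : ((fv f : ℝ) / (D : ℝ)) = 1 := by
    rw [hv]; exact div_self D_pos.ne'
  unfold Good
  rw [hone]
  rcases hc with ⟨ht, hk | hk⟩ | ⟨ht, hk | hk⟩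
  · rw [ht, hk]
    exact Real.one_le_rpow (w.one_le_V _ hβ) (by positivity)
  · rw [ht, hk]
    exact Real.one_le_rpow (w.one_le_W _ hm) hβ.le
  · rw [ht, hk]
    have h11 : w.V 1 ((fb f : ℝ) / 2) ^ (2 * ((fL f / 2 : ℕ) : ℝ)) ≤
        1 * w.V 0 ((fb f : ℝ) / 2) ^ (2 * ((fL f / 2 : ℕ) : ℝ)) := by
      rw [one_mul]
      exact Real.rpow_le_rpow (V_nonneg w _ hβ 1) (w.Vx_le _ hβ) (by positivity)
    simpa [GoodAt, dn, X] using h11
  · rw [ht, hk]
    have h23 : w.W 1 (fL f / 2) ^ ((fb f : ℝ) / 2) ≤ 1 * w.W 0 (fL f / 2) ^ ((fb f : ℝ) / 2) := by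
      rw [one_mul]
      exact Real.rpow_le_rpow (W_nonneg w _ hm 1) (w.Wx_le _ hm) hβ.le
    simpa [GoodAt, dn, X] using h23

end Hald.Cert
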