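import Crest.Agent.Hald.CsPS

/-!
# Row 347, M6: soundness of one rule of the certificate checker.  Chunk R347-M6-T.

Tools: `wf_iff`, `wf_beta`, `wf_m`, `wf_even`, `wf_two_m`, `D_pos`, `mu_eq`, `mu_pos`, `rpow_div_le`,
`le_rpow_div` (`CertSem.lean`), `X_PS_space`, `X_PS_time`, `X_nonneg`, `V_nonneg`, `W_nonneg` (`CsPS.lean`),
and the fields of `World`.  Unfold the Boolean check with
`simp only [okT, Bool.and_eq_true, Bool.or_eq_true, Nat.ble_eq, Nat.beq_eq] at h0`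
(for `bif` use `Bool.cond_eq_ite`, for `isTop` unfold it).  `Good w f` unfolds to
`GoodAt (fun k => X w k (fb f / 2) (fL f / 2)) (fty f) (fk f) (fv f / D)`; rewrite `fty f` to its value
and `simp only [GoodAt]`.
-/

set_option autoImplicit false

namespace Hald.Cert

private theorem top_core {t c a vf vg vh : ℝ} {n1 n2 : ℕ} (ht : 0 ≤ t)
    (hn1 : 1 ≤ n1) (hvg : 0 ≤ vg) (hvh : 0 < vh)
    (hn : (n2 : ℝ) * (c - a) = n1 * c) (hr : vg ≤ t ^ (c - a) * vh)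
    (hle : vf ^ n1 * vh ^ n2 ≤ vg ^ n2) : vf ≤ t ^ c := by
  have h1 : vg ^ n2 ≤ (t ^ (c - a) * vh) ^ n2 := pow_le_pow_left₀ hvg hr n2
  have h2 : (t ^ (c - a) * vh) ^ n2 = (t ^ c) ^ n1 * vh ^ n2 := by
    rw [mul_pow]
    congr 1
    rw [← Real.rpow_natCast (t ^ (c - a)) n2, ← Real.rpow_mul ht,
      ← Real.rpow_natCast (t ^ c) n1, ← Real.rpow_mul ht]
    congr 1
    linarith
  have h3 : vf ^ n1 ≤ (t ^ c) ^ n1 := by
    have hp : 0 < vh ^ n2 := pow_pos hvh n2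
    have h4 : vf ^ n1 * vh ^ n2 ≤ (t ^ c) ^ n1 * vh ^ n2 := hle.trans (h1.trans_eq h2)
    exact le_of_mul_le_mul_right h4 hp
  exact le_of_pow_le_pow_left₀ (by omega) (Real.rpow_nonneg ht _) h3

/-- Lower bound of a time top.  Same `L` (so same `m`), `c = fb f/2 = fb g/2`, `a = fb h/2 < c`;
`(fk f, fk g, fk h) = (22, 12, 12)` (`t = W 0 m`, `hBtop0`) or `(23, 16, 16)` (`t = W 1 m`, `hBtop1`).
`PSTop.ratio`: `X_g(c) ≤ t^(c-a) X_h(a)`, so `v_g/D ≤ t^(c-a) v_h/D`; `n2 (c-a) = n1 c`; raise to the power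
`n2`: `(v_g/D)^n2 ≤ t^(n1 c) (v_h/D)^n2 = (t^c)^n1 (v_h/D)^n2`.  Check: `v_f^n1 v_h^n2 ≤ v_g^n2 D^n1`, i.e.
`(v_f/D)^n1 (v_h/D)^n2 ≤ (v_g/D)^n2`.  Divide by `(v_h/D)^n2 > 0` (`hp`): `v_f/D ≤ t^c = X_f`. -/
theorem okT_sound (w : World) (f g h n1 n2 : ℕ) (hf : wf f = true) (hg : wf g = true)
    (hh : wf h = true) (hp : 1 ≤ fv h) (h0 : okT f g h n1 n2 = true) (h1 : Good w g)
    (h2 : Good w h) : Good w f := by
  simp only [okT, Bool.and_eq_true, Bool.or_eq_true, Nat.ble_eq, Nat.beq_eq] at h0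
  obtain ⟨⟨⟨⟨⟨⟨⟨⟨⟨⟨hn1, htf⟩, htg⟩, hth⟩, hk⟩, hL1⟩, hL2⟩, hb⟩, hb2⟩, hn⟩, hle⟩ := h0
  have hD := D_pos
  have hmpos : 1 ≤ fL f / 2 := wf_m hf
  have hβf : (0 : ℝ) < (fb f : ℝ) / 2 := wf_beta hf
  have hβh : (0 : ℝ) < (fb h : ℝ) / 2 := wf_beta hh
  have hlt : (fb h : ℝ) / 2 < (fb f : ℝ) / 2 := by
    have : (fb h : ℝ) < (fb f : ℝ) := by
      exact_mod_cast (by omega : fb h < fb f)
    linarith
  have hvh : (0 : ℝ) < (fv h : ℝ) / (D : ℝ) := by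
    have : (0 : ℝ) < (fv h : ℝ) := by exact_mod_cast hp
    exact div_pos this hD
  have hvg : (0 : ℝ) ≤ (fv g : ℝ) / (D : ℝ) := div_nonneg (Nat.cast_nonneg _) hD.le
  have hn' : (n2 : ℝ) * ((fb f : ℝ) / 2 - (fb h : ℝ) / 2) = n1 * ((fb f : ℝ) / 2) := by
    have h3 : n2 * (fb f - fb h) = n1 * fb f := by rw [hb]; exact hn
    have h4 : ((fb f - fb h : ℕ) : ℝ) = (fb f : ℝ) - (fb h : ℝ) := by
      rw [Nat.cast_sub (by omega)]
    have h5 : (n2 : ℝ) * ((fb f : ℝ) - (fb h : ℝ)) = n1 * (fb f : ℝ) := by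
      rw [← h4]
      exact_mod_cast h3
    linarith
  have hle' : ((fv f : ℝ) / (D : ℝ)) ^ n1 * ((fv h : ℝ) / (D : ℝ)) ^ n2 ≤
      ((fv g : ℝ) / (D : ℝ)) ^ n2 := by
    have h3 : (fv f : ℝ) ^ n1 * (fv h : ℝ) ^ n2 ≤ (fv g : ℝ) ^ n2 * (D : ℝ) ^ n1 := by
      exact_mod_cast hle
    rw [div_pow, div_pow, div_pow, div_mul_div_comm, div_le_div_iff₀ (by positivity)
      (by positivity)]
    have h6 : (0 : ℝ) < (D : ℝ) ^ n2 := pow_pos hD n2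
    nlinarith [mul_le_mul_of_nonneg_right h3 h6.le]
  unfold Good at h1 h2 ⊢
  rcases hk with ⟨⟨hkf, hkg⟩, hkh⟩ | ⟨⟨hkf, hkg⟩, hkh⟩
  · rw [htf, hkf]
    rw [htg, hkg, ← hL1, ← hb] at h1
    rw [hth, hkh, ← hL2] at h2
    simp only [GoodAt, X] at h1 h2 ⊢
    have hr := (w.hBtop0 (fL f / 2) hmpos).ratio ((fb h : ℝ) / 2) hβh ((fb f : ℝ) / 2) hβf hlt.le
    refine top_core (w.hBtop0 (fL f / 2) hmpos).t_nonneg hn1 hvg hvh hn' ?_ hle'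
    refine h1.trans (hr.trans ?_)
    exact mul_le_mul_of_nonneg_left h2 (Real.rpow_nonneg (w.hBtop0 (fL f / 2) hmpos).t_nonneg _)
  · rw [htf, hkf]
    rw [htg, hkg, ← hL1, ← hb] at h1
    rw [hth, hkh, ← hL2] at h2
    simp only [GoodAt, X] at h1 h2 ⊢
    have hr := (w.hBtop1 (fL f / 2) hmpos).ratio ((fb h : ℝ) / 2) hβh ((fb f : ℝ) / 2) hβf hlt.le
    refine top_core (w.hBtop1 (fL f / 2) hmpos).t_nonneg hn1 hvg hvh hn' ?_ hle'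
    refine h1.trans (hr.trans ?_)
    exact mul_le_mul_of_nonneg_left h2 (Real.rpow_nonneg (w.hBtop1 (fL f / 2) hmpos).t_nonneg _)

end Hald.Cert
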