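import Crest.Agent.Hald.CsPS

/-!
# Row 347, M6: soundness of one rule of the certificate checker.  Chunk R347-M6-W.

Tools: `wf_iff`, `wf_beta`, `wf_m`, `wf_even`, `wf_two_m`, `D_pos`, `mu_eq`, `mu_pos`, `rpow_div_le`,
`le_rpow_div` (`CertSem.lean`), `X_PS_space`, `X_PS_time`, `X_nonneg`, `V_nonneg`, `W_nonneg` (`CsPS.lean`),
and the fields of `World`.  Unfold the Boolean check with
`simp only [okW, Bool.and_eq_true, Bool.or_eq_true, Nat.ble_eq, Nat.beq_eq] at h0`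
(for `bif` use `Bool.cond_eq_ite`, for `isTop` unfold it).  `Good w f` unfolds to
`GoodAt (fun k => X w k (fb f / 2) (fL f / 2)) (fty f) (fk f) (fv f / D)`; rewrite `fty f` to its value
and `simp only [GoodAt]`.
-/

set_option autoImplicit false

namespace Hald.Cert

/-- Low extrapolation.  `a = fb h/2 < c = fb g/2 < q = fb f/2`, same `k` (`12 ≤ k ≤ 21`), same `L`;
`n2 (c-a) = n1 (q-c)`, `n3 = n1 + n2`, so `n3 (c-a) = n1 (q-a)`.  `(X_PS_time ..).logc` at `a ≤ c ≤ q`: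
`X(c)^(q-a) ≤ X(a)^(q-c) X(q)^(c-a)`, hence `X(c)^n3 ≤ X(a)^n2 X(q)^n1` (raise to the power `n1/(c-a)`).
With `v_g/D ≤ X(c)`, `X(a) ≤ v_h/D`, and the check `v_f^n1 v_h^n2 ≤ v_g^n3`:
`(v_f/D)^n1 (v_h/D)^n2 ≤ (v_g/D)^n3 ≤ (v_h/D)^n2 X(q)^n1`; divide by `(v_h/D)^n2 > 0` (`hp`), so
`v_f/D ≤ X(q)`. -/
theorem okW_sound (w : World) (f g h n1 n2 n3 : ℕ) (hf : wf f = true) (hg : wf g = true)
    (hh : wf h = true) (hp : 1 ≤ fv h) (h0 : okW f g h n1 n2 n3 = true) (h1 : Good w g)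
    (h2 : Good w h) : Good w f := by
  simp only [okW, Bool.and_eq_true, Nat.ble_eq, Nat.beq_eq] at h0
  obtain ⟨⟨⟨⟨⟨⟨⟨⟨⟨⟨⟨⟨⟨⟨e1, e2⟩, e3⟩, e4⟩, e5⟩, e6⟩, e7⟩, e8⟩, e9⟩, e10⟩, e11⟩, e12⟩, e13⟩, e14⟩, e15⟩ := h0
  unfold Good at h1 h2 ⊢
  rw [e3] at h1
  rw [e4] at h2
  rw [e2]
  simp only [GoodAt] at h1 h2 ⊢
  rw [← e5, ← e9] at h1
  rw [← e6, ← e10] at h2
  have hPS := X_PS_time w (fL f / 2) (wf_m hf) (wf_even hf) (fk f) e7 e8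
  have ha := wf_beta hh
  have hc := wf_beta hg
  have hq := wf_beta hf
  have hac : (fb h : ℝ) + 1 ≤ (fb g : ℝ) := by exact_mod_cast e11
  have hcq : (fb g : ℝ) + 1 ≤ (fb f : ℝ) := by exact_mod_cast e12
  have hlog := hPS.logc ((fb h : ℝ) / 2) ha ((fb g : ℝ) / 2) hc ((fb f : ℝ) / 2) hq
    (by linarith) (by linarith)
  obtain ⟨xa, hxa⟩ : ∃ xa, xa = X w (fk f) ((fb h : ℝ) / 2) (fL f / 2) := ⟨_, rfl⟩
  obtain ⟨xc, hxc⟩ : ∃ xc, xc = X w (fk f) ((fb g : ℝ) / 2) (fL f / 2) := ⟨_, rfl⟩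
  obtain ⟨xq, hxq⟩ : ∃ xq, xq = X w (fk f) ((fb f : ℝ) / 2) (fL f / 2) := ⟨_, rfl⟩
  have na : 0 ≤ xa := hxa ▸ X_nonneg w _ ha _ (wf_m hf) _ (by omega)
  have nc : 0 ≤ xc := hxc ▸ X_nonneg w _ hc _ (wf_m hf) _ (by omega)
  have nq : 0 ≤ xq := hxq ▸ X_nonneg w _ hq _ (wf_m hf) _ (by omega)
  rw [← hxa, ← hxc, ← hxq] at hlog
  rw [← hxc] at h1
  rw [← hxa] at h2
  rw [← hxq]
  have hn1 : (0 : ℝ) < (n1 : ℝ) := by exact_mod_cast e1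
  have hd : (0 : ℝ) < (fb g : ℝ) / 2 - (fb h : ℝ) / 2 := by linarith
  have hrel : (n2 : ℝ) * ((fb g : ℝ) - (fb h : ℝ)) = (n1 : ℝ) * ((fb f : ℝ) - (fb g : ℝ)) := by
    have := congrArg (fun n : ℕ => (n : ℝ)) e13
    simp only [Nat.cast_mul] at this
    rw [Nat.cast_sub (by omega), Nat.cast_sub (by omega)] at this
    exact this
  -- raise to the power `n1 / (c - a)`
  have hr : 0 ≤ (n1 : ℝ) / ((fb g : ℝ) / 2 - (fb h : ℝ) / 2) := by positivity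
  have key : xc ^ n3 ≤ xa ^ n2 * xq ^ n1 := by
    have h3 := Real.rpow_le_rpow (Real.rpow_nonneg nc _) hlog hr
    rw [Real.mul_rpow (Real.rpow_nonneg na _) (Real.rpow_nonneg nq _), ← Real.rpow_mul nc,
      ← Real.rpow_mul na, ← Real.rpow_mul nq] at h3
    have i1 : ((fb f : ℝ) / 2 - (fb h : ℝ) / 2) * ((n1 : ℝ) / ((fb g : ℝ) / 2 - (fb h : ℝ) / 2)) =
        ((n3 : ℕ) : ℝ) := by
      rw [mul_div_assoc', div_eq_iff hd.ne', e14]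
      push_cast
      linarith
    have i2 : ((fb f : ℝ) / 2 - (fb g : ℝ) / 2) * ((n1 : ℝ) / ((fb g : ℝ) / 2 - (fb h : ℝ) / 2)) =
        ((n2 : ℕ) : ℝ) := by
      rw [mul_div_assoc', div_eq_iff hd.ne']
      linarith
    have i3 : ((fb g : ℝ) / 2 - (fb h : ℝ) / 2) * ((n1 : ℝ) / ((fb g : ℝ) / 2 - (fb h : ℝ) / 2)) =
        ((n1 : ℕ) : ℝ) := by
      rw [mul_div_assoc', div_eq_iff hd.ne']
      ring
    rw [i1, i2, i3, Real.rpow_natCast, Real.rpow_natCast, Real.rpow_natCast] at h3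
    exact h3
  have hD := D_pos
  have hvh : (0 : ℝ) < (fv h : ℝ) / (D : ℝ) := by
    have : (0 : ℝ) < (fv h : ℝ) := by exact_mod_cast hp
    positivity
  have hvg : (0 : ℝ) ≤ (fv g : ℝ) / (D : ℝ) := by positivity
  have hvf : (0 : ℝ) ≤ (fv f : ℝ) / (D : ℝ) := by positivity
  have hcast : ((fv f : ℝ)) ^ n1 * (fv h : ℝ) ^ n2 ≤ (fv g : ℝ) ^ n3 := by exact_mod_cast e15
  have s1 : ((fv f : ℝ) / (D : ℝ)) ^ n1 * ((fv h : ℝ) / (D : ℝ)) ^ n2 ≤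
      ((fv g : ℝ) / (D : ℝ)) ^ n3 := by
    rw [div_pow, div_pow, div_pow, div_mul_div_comm, ← pow_add, ← e14]
    exact div_le_div_of_nonneg_right hcast (by positivity)
  have s2 : ((fv g : ℝ) / (D : ℝ)) ^ n3 ≤ xc ^ n3 := pow_le_pow_left₀ hvg h1 n3
  have s3 : xa ^ n2 * xq ^ n1 ≤ ((fv h : ℝ) / (D : ℝ)) ^ n2 * xq ^ n1 :=
    mul_le_mul_of_nonneg_right (pow_le_pow_left₀ na h2 n2) (by positivity)
  have s4 : ((fv f : ℝ) / (D : ℝ)) ^ n1 * ((fv h : ℝ) / (D : ℝ)) ^ n2 ≤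
      xq ^ n1 * ((fv h : ℝ) / (D : ℝ)) ^ n2 := by
    calc _ ≤ _ := s1
      _ ≤ _ := s2
      _ ≤ _ := key
      _ ≤ _ := s3
      _ = _ := by ring
  have s5 : ((fv f : ℝ) / (D : ℝ)) ^ n1 ≤ xq ^ n1 :=
    le_of_mul_le_mul_right s4 (by positivity)
  exact le_of_pow_le_pow_left₀ (by omega) nq s5

end Hald.Cert
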