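import Crest.Agent.Hald.CsP
import Crest.Agent.Hald.CsLP
import Crest.Agent.Hald.CsI
import Crest.Agent.Hald.CsW
import Crest.Agent.Hald.CsT
import Crest.Agent.Hald.CsC
import Crest.Agent.Hald.CsE
import Crest.Agent.Hald.CsM
import Crest.Agent.Hald.CsLin

/-!
# Row 347, M6: soundness of the certificate checker (assembly).

`step_sound`: one step; `chunk_sound`: a chunk of steps.  The definitions `X`, `Good` are in
`CertSem.lean`; the rules are in `CsP, CsLP, CsI, CsW, CsT, CsC, CsE, CsM, CsLin`.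
-/

set_option autoImplicit false

namespace Hald.Cert

theorem cond_split {c a b : Bool} (h : (bif c then a else b) = true) :
    (c = true ∧ a = true) ∨ (c = false ∧ b = true) := by
  cases c
  · exact Or.inr ⟨rfl, h⟩
  · exact Or.inl ⟨rfl, h⟩

/-- one step, with the decoded numbers as free variables -/
theorem step_aux (w : World) (T B : Tree) (nB : ℕ) (hB : ∀ j, j < nB → Good w (B.get j)) (n : ℕ)
    (hg : ∀ j, j < n → wf (T.get j) = true ∧ Good w (T.get j)) (hf : wf (T.get n) = true)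
    (c g h n1 n2 n3 q x : ℕ) (hq : q < 256)
    (hs : (bif Nat.beq c 11 then linGo T n (T.get n % 1048576) q x (Y * RR (T.get n)) (Y * LL (T.get n))
      else bif Nat.beq c 0 then okZ (T.get n)
      else bif Nat.beq c 1 then okO (T.get n)
      else bif Nat.beq c 2 then Nat.ble (g + 1) nB && Nat.beq (T.get n) (B.get g)
      else Nat.ble (g + 1) n && (
        bif Nat.beq c 3 then okM (T.get n) (T.get g)
        else bif Nat.beq c 4 then okP (T.get n) (T.get g) n1 n2
        else bif Nat.beq c 5 then okLP (T.get n) (T.get g) n1 n2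
        else Nat.ble (h + 1) n && (
          bif Nat.beq c 6 then okI (T.get n) (T.get g) (T.get h) n1 n2 n3
          else bif Nat.beq c 7 then
            Nat.ble 1 (fv (T.get h)) && okW (T.get n) (T.get g) (T.get h) n1 n2 n3
          else bif Nat.beq c 8 then
            Nat.ble 1 (fv (T.get h)) && okT (T.get n) (T.get g) (T.get h) n1 n2
          else bif Nat.beq c 9 then okC (T.get n) (T.get g) (T.get h) n1 n2
          else Nat.beq c 10 && okE (T.get n) (T.get g) (T.get h) n1 n2))) = true) :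
    Good w (T.get n) := by
  rcases cond_split hs with ⟨-, h1⟩ | ⟨-, hs⟩
  · exact lin_sound w T n q x hq hg hf h1
  rcases cond_split hs with ⟨-, h1⟩ | ⟨-, hs⟩
  · exact okZ_sound w _ hf h1
  rcases cond_split hs with ⟨-, h1⟩ | ⟨-, hs⟩
  · exact okO_sound w _ hf h1
  rcases cond_split hs with ⟨-, h1⟩ | ⟨-, hs⟩
  · rw [Bool.and_eq_true] at h1
    obtain ⟨h1, h2⟩ := h1
    have h1' : g < nB := Nat.le_of_ble_eq_true h1
    have h2' : T.get n = B.get g := Nat.eq_of_beq_eq_true h2
    rw [h2']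
    exact hB g h1'
  rw [Bool.and_eq_true] at hs
  obtain ⟨hgn, hs⟩ := hs
  have hgn' : g < n := Nat.le_of_ble_eq_true hgn
  obtain ⟨wg, gg⟩ := hg g hgn'
  rcases cond_split hs with ⟨-, h1⟩ | ⟨-, hs⟩
  · exact okM_sound w _ _ hf wg h1 gg
  rcases cond_split hs with ⟨-, h1⟩ | ⟨-, hs⟩
  · exact okP_sound w _ _ _ _ hf wg h1 gg
  rcases cond_split hs with ⟨-, h1⟩ | ⟨-, hs⟩
  · exact okLP_sound w _ _ _ _ hf wg h1 gg
  rw [Bool.and_eq_true] at hs
  obtain ⟨hhn, hs⟩ := hs
  have hhn' : h < n := Nat.le_of_ble_eq_true hhn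
  obtain ⟨wh, gh⟩ := hg h hhn'
  rcases cond_split hs with ⟨-, h1⟩ | ⟨-, hs⟩
  · exact okI_sound w _ _ _ _ _ _ hf wg wh h1 gg gh
  rcases cond_split hs with ⟨-, h1⟩ | ⟨-, hs⟩
  · rw [Bool.and_eq_true] at h1
    exact okW_sound w _ _ _ _ _ _ hf wg wh (Nat.le_of_ble_eq_true h1.1) h1.2 gg gh
  rcases cond_split hs with ⟨-, h1⟩ | ⟨-, hs⟩
  · rw [Bool.and_eq_true] at h1
    exact okT_sound w _ _ _ _ _ hf wg wh (Nat.le_of_ble_eq_true h1.1) h1.2 gg gh
  rcases cond_split hs with ⟨-, h1⟩ | ⟨-, hs⟩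
  · exact okC_sound w _ _ _ _ _ hf wg wh h1 gg gh
  rw [Bool.and_eq_true] at hs
  exact okE_sound w _ _ _ _ _ hf wg wh hs.2 gg gh

/-- one step -/
theorem step_sound (w : World) (T B : Tree) (nB : ℕ) (hB : ∀ j, j < nB → Good w (B.get j)) (n s : ℕ)
    (hg : ∀ j, j < n → wf (T.get j) = true ∧ Good w (T.get j)) (h : stepOk T B nB n s = true) :
    wf (T.get n) = true ∧ Good w (T.get n) := by
  unfold stepOk at h
  have h' := (Bool.and_eq_true _ _).mp h
  exact ⟨h'.1, step_aux w T B nB hB n hg h'.1 _ _ _ _ _ _ _ _ (Nat.mod_lt _ (by decide)) h'.2⟩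

/-- a chunk of steps (the chunks `chk0, chk1, …` are `decide +kernel` facts `checkFrom tab base nBase s js = true`) -/
theorem chunk_sound (w : World) (T B : Tree) (nB : ℕ) (hB : ∀ j, j < nB → Good w (B.get j)) (l : List ℕ) :
    ∀ s, (∀ j, j < s → wf (T.get j) = true ∧ Good w (T.get j)) → checkFrom T B nB s l = true →
      ∀ j, j < s + l.length → wf (T.get j) = true ∧ Good w (T.get j) := by
  induction l with
  | nil =>
    intro s hs _ j hj
    exact hs j (by simpa using hj)
  | cons a l ih =>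
    intro s hs h j hj
    rw [checkFrom, Bool.and_eq_true] at h
    obtain ⟨h1, h2⟩ := h
    have h3 := step_sound w T B nB hB s a hs h1
    refine ih (s + 1) (fun j hj' => ?_) h2 j ?_
    · rcases Nat.lt_succ_iff_lt_or_eq.1 hj' with h4 | h4
      · exact hs j h4
      · rw [h4]; exact h3
    · rw [List.length_cons] at hj; omega

end Hald.Cert
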