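import Crest.Agent.Hald.EdgeRatio

/-!
# Row 347, M9b: the base chain `16 → 32 → 96 → 192` (generic in the numerical inputs)
-/

set_option autoImplicit false

namespace Hald

namespace EdgeWorld

variable {w : World} (E : EdgeWorld w)

/-- closeness from the amplitude at `M₀`, refined (`R ≤ (A - 1) ω²`) -/
theorem close_of_amp' {β q A s : ℝ} (hβ : 0 < β) (hq : Dec w β q) {M₀ M : ℕ} (hM₀ : 2 ≤ M₀)
    (he : Even M₀) (hM : M₀ ≤ M) (hA : E.ao β M₀ ≤ A * E.om2 β) (hs0 : 0 ≤ s)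
    (hs : q ^ (M - M₀) * (A - 1) ≤ s) :
    E.Close β M s := by
  have h1 := E.abs_R_le hβ hq hM₀ he hM
  have hq0 := hq.1
  have h3 := E.om2_nonneg β hβ
  have hV0 : 1 ≤ (w.V 0 β) ^ (M₀ - 2) := one_le_pow₀ (w.one_le_V β hβ)
  have hV : 1 ≤ (w.V 0 β) ^ (M - 2) := one_le_pow₀ (w.one_le_V β hβ)
  have h2 : E.R β M₀ ≤ (A - 1) * E.om2 β := by
    have h4 : E.om2 β ≤ E.om2 β * (w.V 0 β) ^ (M₀ - 2) := le_mul_of_one_le_right h3 hV0
    unfold R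
    linarith
  unfold Close
  calc |E.R β M| ≤ q ^ (M - M₀) * E.R β M₀ := h1
    _ ≤ q ^ (M - M₀) * ((A - 1) * E.om2 β) := by gcongr
    _ = q ^ (M - M₀) * (A - 1) * E.om2 β := by ring
    _ ≤ s * E.om2 β := by gcongr
    _ ≤ s * E.om2 β * (w.V 0 β) ^ (M - 2) := le_mul_of_one_le_right (by positivity) hV
    _ = _ := by ring

/-- general amplitude step -/
theorem amp_step_n {β A C : ℝ} (hβ : 0 < β) {M₀ n : ℕ} (hn : 1 ≤ n) (hM₀ : 2 ≤ M₀)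
    (hA0 : 0 ≤ A)
    (hA : E.ao β M₀ ≤ A * E.om2 β) (hC : E.om2 β ^ n ≤ C * E.om2 (n * β)) :
    E.ao (n * β) M₀ ≤ A ^ n * C * E.om2 (n * β) := by
  have h1 := E.ao_pow hM₀ hβ hn
  have ha := E.ao_pos β hβ M₀ hM₀
  calc E.ao (n * β) M₀ ≤ E.ao β M₀ ^ n := h1
    _ ≤ (A * E.om2 β) ^ n := by gcongr
    _ = A ^ n * E.om2 β ^ n := by ring
    _ ≤ A ^ n * (C * E.om2 (n * β)) := by gcongr
    _ = _ := by ring

/-- general ratio step -/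
theorem ratio_step_n {β ρ q A η C : ℝ} (hβ : 0 < β) {M₀ M n : ℕ} (hn : 1 ≤ n) (hM₀ : 2 ≤ M₀)
    (he₀ : Even M₀) (hM : M₀ ≤ M) (he : Even M) (hr : E.rr β M ≤ ρ) (hq : Dec w (n * β) q)
    (hA0 : 0 ≤ A)
    (hA : E.ao β M₀ ≤ A * E.om2 β) (hη : (1 + ρ) ^ n * q ^ (M - M₀) * A ^ n ≤ η) (hη1 : η < 1)
    (hC : (1 + ρ) ^ n ≤ C * (1 - η)) :
    E.om2 β ^ n ≤ C * E.om2 (n * β) := by
  have hn0 : (1 : ℝ) ≤ n := by exact_mod_cast hn
  have hnβ : 0 < n * β := by positivity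
  have hM2 : 2 ≤ M := hM₀.trans hM
  have hr0 := E.rr_nonneg hM2 hβ
  have hq0 := hq.1
  have hV := w.one_le_V β hβ
  have hV2 := w.V_anti β (n * β) hβ (by nlinarith)
  have hV20 : 0 < w.V 0 (n * β) := lt_of_lt_of_le one_pos (w.one_le_V _ hnβ)
  have ho := E.om2_nonneg β hβ
  have ho2 := E.om2_nonneg _ hnβ
  have ha0 := E.ao_pos β hβ M₀ hM₀
  have ha02 := E.ao_pos _ hnβ M₀ hM₀
  have hρ0 : 0 ≤ 1 + ρ := by linarith
  have h1 : E.om2 β * (w.V 0 β) ^ (M - 2) ≤ E.ao β M := E.rem_nonneg β hβ M hM2 he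
  have hG := E.Gpow_pos hM2 β
  have hsq : E.ao β M ^ n ≤ (1 + ρ) ^ n * E.ao (n * β) M := by
    have hg := E.G_le hM2 hnβ
    rw [E.G_mul_pow hM2] at hg
    calc E.ao β M ^ n = (1 + E.rr β M) ^ n * (E.G M ^ β) ^ n := by
          rw [E.ao_eq hM2 β, mul_pow]; ring
      _ ≤ (1 + ρ) ^ n * (E.G M ^ β) ^ n := by gcongr
      _ ≤ (1 + ρ) ^ n * E.ao (n * β) M := by gcongr
  have hR : E.R (n * β) M ≤ q ^ (M - M₀) * (A ^ n * E.om2 β ^ n) := by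
    have h2 := E.abs_R_le hnβ hq hM₀ he₀ hM
    have h3 := E.R_le hnβ M₀
    have h4 := E.ao_pow hM₀ hβ hn
    have h5 : E.ao (n * β) M₀ ≤ A ^ n * E.om2 β ^ n := by
      calc E.ao (n * β) M₀ ≤ E.ao β M₀ ^ n := h4
        _ ≤ (A * E.om2 β) ^ n := by gcongr
        _ = _ := mul_pow _ _ _
    calc E.R (n * β) M ≤ |E.R (n * β) M| := le_abs_self _
      _ ≤ q ^ (M - M₀) * E.R (n * β) M₀ := h2
      _ ≤ q ^ (M - M₀) * (A ^ n * E.om2 β ^ n) := by gcongr; linarith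
  have hao : E.ao (n * β) M ≤ E.om2 (n * β) * (w.V 0 β) ^ (M - 2) +
      q ^ (M - M₀) * (A ^ n * E.om2 β ^ n) := by
    have : E.ao (n * β) M = E.om2 (n * β) * (w.V 0 (n * β)) ^ (M - 2) + E.R (n * β) M := by
      unfold R; ring
    rw [this]
    gcongr
  have hVp : 1 ≤ (w.V 0 β) ^ (M - 2) := one_le_pow₀ hV
  set P := (w.V 0 β) ^ (M - 2) with hP
  have hPpos : 0 < P := by linarith
  have hη0 : 0 ≤ η := le_trans (by positivity) hη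
  have hPn : P ≤ P ^ n := le_self_pow₀ hVp (by omega)
  have h6 : E.om2 β ^ n * P ^ n ≤ (1 + ρ) ^ n * (E.om2 (n * β) * P) + η * E.om2 β ^ n := by
    calc E.om2 β ^ n * P ^ n = (E.om2 β * P) ^ n := (mul_pow _ _ _).symm
      _ ≤ E.ao β M ^ n := by gcongr
      _ ≤ (1 + ρ) ^ n * E.ao (n * β) M := hsq
      _ ≤ (1 + ρ) ^ n * (E.om2 (n * β) * P + q ^ (M - M₀) * (A ^ n * E.om2 β ^ n)) := by gcongr
      _ = (1 + ρ) ^ n * (E.om2 (n * β) * P) +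
          ((1 + ρ) ^ n * q ^ (M - M₀) * A ^ n) * E.om2 β ^ n := by ring
      _ ≤ _ := by gcongr
  have hon : 0 ≤ E.om2 β ^ n := by positivity
  have h7 : η * E.om2 β ^ n ≤ η * E.om2 β ^ n * P := le_mul_of_one_le_right (by positivity) hVp
  have h71 : E.om2 β ^ n * P ≤ E.om2 β ^ n * P ^ n := by gcongr
  have h8 : ((1 - η) * E.om2 β ^ n) * P ≤ ((1 + ρ) ^ n * E.om2 (n * β)) * P := by
    nlinarith
  have h9 : (1 - η) * E.om2 β ^ n ≤ (1 + ρ) ^ n * E.om2 (n * β) :=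
    le_of_mul_le_mul_right h8 hPpos
  have h10 : (1 + ρ) ^ n * E.om2 (n * β) ≤ C * (1 - η) * E.om2 (n * β) := by gcongr
  have h11 : (1 - η) * E.om2 β ^ n ≤ (1 - η) * (C * E.om2 (n * β)) := by
    calc _ ≤ _ := h9
      _ ≤ _ := h10
      _ = _ := by ring
  exact le_of_mul_le_mul_left h11 (by linarith)

/-- `ao(β)^n ≤ C v (1+s)^n ao(nβ)` for even `M` -/
theorem N_le_n {β C s v : ℝ} (hβ : 0 < β) {M n : ℕ} (hn : 1 ≤ n) (hM : 2 ≤ M) (he : Even M)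
    (hC : E.om2 β ^ n ≤ C * E.om2 (n * β)) (h1 : E.Close β M s)
    (hs0 : 0 ≤ s) (hC0 : 0 ≤ C) (hv : (w.V 0 β) ^ (n * (M - 2)) ≤ v) :
    E.ao β M ^ n ≤ C * v * (1 + s) ^ n * E.ao (n * β) M := by
  have hn0 : (1 : ℝ) ≤ n := by exact_mod_cast hn
  have hnβ : 0 < n * β := by positivity
  have ho2 := E.om2_nonneg _ hnβ
  have ha := E.ao_pos β hβ M hM
  have hv0 : 0 ≤ v := le_trans (by have := w.one_le_V β hβ; positivity) hv
  have hl := E.rem_nonneg _ hnβ M hM he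
  have hV1 : 1 ≤ (w.V 0 (n * β)) ^ (M - 2) := one_le_pow₀ (w.one_le_V _ hnβ)
  have h3 : E.om2 (n * β) ≤ E.ao (n * β) M := (le_mul_of_one_le_right ho2 hV1).trans hl
  have hu := h1.upper
  have ho := E.om2_nonneg β hβ
  calc E.ao β M ^ n ≤ ((1 + s) * (E.om2 β * (w.V 0 β) ^ (M - 2))) ^ n := by gcongr
    _ = (1 + s) ^ n * (w.V 0 β) ^ (n * (M - 2)) * E.om2 β ^ n := by
        rw [mul_comm n (M - 2), pow_mul, mul_pow, mul_pow]; ring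
    _ ≤ (1 + s) ^ n * v * (C * E.om2 (n * β)) := by gcongr
    _ ≤ (1 + s) ^ n * v * (C * E.ao (n * β) M) := by gcongr
    _ = _ := by ring

/-- time step with tripling -/
theorem rr_of_N3 {M : ℕ} (hM : 2 ≤ M) {β N ρ : ℝ} (hβ : 0 < β) (hρ0 : 0 ≤ ρ) (hρ1 : ρ < 1)
    (hN : N * (1 + ρ ^ 3) ≤ (1 + ρ) ^ 3) (h : E.ao β M ^ 3 ≤ N * E.ao (3 * β) M) :
    E.rr β M ≤ ρ := by
  have hG := E.Gpow_pos hM β
  have hr0 := E.rr_nonneg hM hβ
  have h3β : 0 < 3 * β := by linarith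
  have hr3 := E.rr_nonneg hM h3β
  have ha : E.rr (3 * β) M ≤ E.rr β M := E.rr_anti hM hβ (by linarith)
  have hb : E.rr (3 * β) M ≤ E.rr β M ^ 3 := by
    have := E.rr_pow hM hβ (n := 3) (by norm_num)
    simpa using this
  have e3 : E.G M ^ ((3 : ℝ) * β) = (E.G M ^ β) ^ 3 := by
    have := E.G_mul_pow hM β 3
    simpa using this
  rw [E.ao_eq hM β, E.ao_eq hM (3 * β), e3] at h
  have hG3 : 0 < (E.G M ^ β) ^ 3 := by positivity
  have h1 : (1 + E.rr β M) ^ 3 ≤ N * (1 + E.rr (3 * β) M) := by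
    have : (E.G M ^ β) ^ 3 * (1 + E.rr β M) ^ 3 ≤ (E.G M ^ β) ^ 3 * (N * (1 + E.rr (3 * β) M)) := by
      calc (E.G M ^ β) ^ 3 * (1 + E.rr β M) ^ 3 = (E.G M ^ β * (1 + E.rr β M)) ^ 3 := by ring
        _ ≤ _ := h
        _ = _ := by ring
    exact le_of_mul_le_mul_left this hG3
  set r := E.rr β M with hr
  set r3 := E.rr (3 * β) M with hr3'
  have hN0 : 0 ≤ N := by
    by_contra hcon
    push Not at hcon
    have h2 : N * (1 + r3) ≤ 0 := mul_nonpos_of_nonpos_of_nonneg hcon.le (by linarith)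
    have h4 : 0 < (1 + r) ^ 3 := by positivity
    linarith
  have hq : 0 < 1 - ρ + ρ ^ 2 := by nlinarith
  have hN2 : N * (1 - ρ + ρ ^ 2) ≤ (1 + ρ) ^ 2 := by
    have h4 : (N * (1 - ρ + ρ ^ 2)) * (1 + ρ) ≤ (1 + ρ) ^ 2 * (1 + ρ) := by
      calc (N * (1 - ρ + ρ ^ 2)) * (1 + ρ) = N * (1 + ρ ^ 3) := by ring
        _ ≤ (1 + ρ) ^ 3 := hN
        _ = _ := by ring
    exact le_of_mul_le_mul_right h4 (by linarith)
  have hN4 : N < 4 := by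
    by_contra hcon
    push Not at hcon
    have h4 : 4 * (1 - ρ + ρ ^ 2) ≤ N * (1 - ρ + ρ ^ 2) := by gcongr
    nlinarith [mul_pos (sub_pos.mpr hρ1) (sub_pos.mpr hρ1)]
  have hr1 : r < 1 := by
    by_contra hcon
    push Not at hcon
    have h3 : (1 + r) ^ 2 * (1 + r) ≤ N * (1 + r) := by
      calc (1 + r) ^ 2 * (1 + r) = (1 + r) ^ 3 := by ring
        _ ≤ _ := h1
        _ ≤ N * (1 + r) := by gcongr
    have h4 : (1 + r) ^ 2 ≤ N := le_of_mul_le_mul_right h3 (by linarith)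
    nlinarith
  have h3 : (1 + r) ^ 2 ≤ N * (1 - r + r ^ 2) := by
    have h4 : (1 + r) ^ 2 * (1 + r) ≤ N * (1 - r + r ^ 2) * (1 + r) := by
      calc (1 + r) ^ 2 * (1 + r) = (1 + r) ^ 3 := by ring
        _ ≤ N * (1 + r3) := h1
        _ ≤ N * (1 + r ^ 3) := by gcongr
        _ = _ := by ring
    exact le_of_mul_le_mul_right h4 (by linarith)
  by_contra hcon
  push Not at hcon
  have hq2 : 0 < 1 - r + r ^ 2 := by nlinarith
  have h4 : (1 + r) ^ 2 * (1 - ρ + ρ ^ 2) ≤ (1 + ρ) ^ 2 * (1 - r + r ^ 2) := by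
    calc (1 + r) ^ 2 * (1 - ρ + ρ ^ 2) ≤ N * (1 - r + r ^ 2) * (1 - ρ + ρ ^ 2) := by gcongr
      _ = N * (1 - ρ + ρ ^ 2) * (1 - r + r ^ 2) := by ring
      _ ≤ (1 + ρ) ^ 2 * (1 - r + r ^ 2) := by gcongr
  have h5 : 0 < (r - ρ) * (1 - r * ρ) := by
    apply mul_pos (by linarith)
    have : r * ρ < 1 := by
      calc r * ρ ≤ 1 * ρ := by gcongr
        _ < 1 := by linarith
    linarith
  have e : (1 + r) ^ 2 * (1 - ρ + ρ ^ 2) - (1 + ρ) ^ 2 * (1 - r + r ^ 2) =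
      3 * ((r - ρ) * (1 - r * ρ)) := by ring
  linarith

/-- The base chain: all numerical inputs are parameters. `M₁` (≈128), `Ma` (≈32), `Mb` (≈60), `M₂` (512). -/
theorem tail_base {M₀ M₁ Ma Mb M₂ : ℕ}
    {C16 A16 q16 q32 q96 q192 q384 v16 v16a v32b v32c v192
      s1 ρ16 s2 A32a s3 A32b η3 C32 s4 ρ32 A96 η2 C96 A192 η1 s5 : ℝ}
    (hM₀ : 2 ≤ M₀) (he₀ : Even M₀) (h0a : M₀ ≤ Ma) (hab : Ma ≤ Mb) (hb1 : Mb ≤ M₁) (h12 : Mb ≤ M₂)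
    (hb : Mb ≤ 128) (hea : Even Ma) (heb : Even Mb) (he1 : Even M₁) (he2 : Even M₂)
    (hq16 : Dec w 16 q16) (hq32 : Dec w 32 q32) (hq96 : Dec w 96 q96) (hq192 : Dec w 192 q192)
    (hq384 : Dec w 384 q384)
    (hC16 : E.om2 16 ^ 2 ≤ C16 * E.om2 32) (hA16 : E.ao 16 M₀ ≤ A16 * E.om2 16)
    (hv16 : w.V 0 16 ^ (2 * (M₁ - 2)) ≤ v16) (hv16a : w.V 0 16 ^ (Ma - 2) ≤ v16a)
    (hv32b : w.V 0 32 ^ (Mb - 2) ≤ v32b) (hv32c : w.V 0 32 ^ (3 * (M₂ - 2)) ≤ v32c)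
    (hv192 : w.V 0 192 ^ (128 - 2) ≤ v192)
    -- r(16, M₁)
    (hC160 : 0 ≤ C16) (hs10 : 0 ≤ s1) (hs1 : q16 ^ (M₁ - M₀) * (A16 - 1) ≤ s1)
    (hρ160 : 0 ≤ ρ16) (hρ161 : ρ16 < 1)
    (hN16 : C16 * v16 * (1 + s1) ^ 2 * (1 + ρ16 ^ 2) ≤ (1 + ρ16) ^ 2)
    -- amplitude at (32, Ma) and (32, Mb)
    (hs20 : 0 ≤ s2) (hs2 : q16 ^ (Ma - M₀) * (A16 - 1) ≤ s2)
    (hA32a : ((1 + s2) * v16a) ^ 2 * C16 ≤ A32a)
    (hs30 : 0 ≤ s3) (hs3 : q32 ^ (Mb - Ma) * (A32a - 1) ≤ s3)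
    (hA32b : (1 + s3) * v32b ≤ A32b)
    -- ratio 32 → 96
    (hη3 : (1 + ρ16 ^ 2) ^ 3 * q96 ^ (M₁ - Mb) * A32b ^ 3 ≤ η3) (hη31 : η3 < 1)
    (hC32 : (1 + ρ16 ^ 2) ^ 3 ≤ C32 * (1 - η3))
    -- r(32, M₂)
    (hs40 : 0 ≤ s4) (hs4 : q32 ^ (M₂ - Mb) * (A32b - 1) ≤ s4)
    (hρ320 : 0 ≤ ρ32) (hρ321 : ρ32 < 1)
    (hN32 : C32 * v32c * (1 + s4) ^ 3 * (1 + ρ32 ^ 3) ≤ (1 + ρ32) ^ 3)
    -- ratio 96 → 192
    (hA96 : A32b ^ 3 * C32 ≤ A96)
    (hη2 : (1 + ρ32 ^ 3) ^ 2 * q192 ^ (M₂ - Mb) * A96 ^ 2 ≤ η2) (hη21 : η2 < 1)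
    (hC96 : (1 + ρ32 ^ 3) ^ 2 ≤ C96 * (1 - η2))
    -- ratio 192 → 384
    (hA192 : A96 ^ 2 * C96 ≤ A192)
    (hη1 : (1 + ρ32 ^ 6) ^ 2 * q384 ^ (M₂ - Mb) * A192 ^ 2 ≤ η1) (hη11 : η1 < 1)
    (hC192 : (1 + ρ32 ^ 6) ^ 2 ≤ 128 / 100 * (1 - η1))
    (hs50 : 0 ≤ s5) (hs5 : q192 ^ (128 - Mb) * (A192 - 1) ≤ s5) (hT : (1 + s5) * v192 ≤ 20) :
    E.Tail 128 0 := by
  have h2a : 2 ≤ Ma := hM₀.trans h0a
  have h2b : 2 ≤ Mb := h2a.trans hab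
  have h21 : 2 ≤ M₁ := h2b.trans hb1
  have h22 : 2 ≤ M₂ := h2b.trans h12
  have hV16 := w.one_le_V 16 (by norm_num)
  have hV32 := w.one_le_V 32 (by norm_num)
  have hv16a1 : 1 ≤ v16a := (one_le_pow₀ hV16).trans hv16a
  have hv32b1 : 1 ≤ v32b := (one_le_pow₀ hV32).trans hv32b
  have hA32b0 : 0 ≤ A32b := le_trans (by positivity) hA32b
  have hC320 : 0 ≤ C32 := by
    by_contra hcon
    push Not at hcon
    have h1 : C32 * (1 - η3) ≤ 0 := mul_nonpos_of_nonpos_of_nonneg hcon.le (by linarith)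
    have h2 : 0 < (1 + ρ16 ^ 2) ^ 3 := by positivity
    linarith
  have hA960 : 0 ≤ A96 := le_trans (by positivity) hA96
  have hC960 : 0 ≤ C96 := by
    by_contra hcon
    push Not at hcon
    have h1 : C96 * (1 - η2) ≤ 0 := mul_nonpos_of_nonpos_of_nonneg hcon.le (by linarith)
    have h2 : 0 < (1 + ρ32 ^ 3) ^ 2 := by positivity
    linarith
  have hA1920 : 0 ≤ A192 := le_trans (by positivity) hA192
  -- r(16, M₁)
  have c1 := E.close_of_amp' (by norm_num) hq16 hM₀ he₀ (h0a.trans (hab.trans hb1)) hA16 hs10 hs1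
  have e32 : (2 : ℝ) * 16 = 32 := by norm_num
  have r16 : E.rr 16 M₁ ≤ ρ16 :=
    E.rr_of_C_even (by norm_num) h21 he1 (by rw [e32]; exact hC16) c1 hs10 hC160 hv16 hρ160 hρ161 hN16
  -- amplitude at (32, Ma), (32, Mb)
  have c2 := E.close_of_amp' (by norm_num) hq16 hM₀ he₀ h0a hA16 hs20 hs2
  have a2 := E.amp_of_close (by norm_num) c2 (by linarith) hv16a
  have a3 := E.amp_step (by norm_num) h2a a2 (by rw [e32]; exact hC16)
  rw [e32] at a3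
  have ho32 := E.om2_nonneg 32 (by norm_num)
  have a4 : E.ao 32 Ma ≤ A32a * E.om2 32 := a3.trans (by gcongr)
  have c3 := E.close_of_amp' (by norm_num) hq32 h2a hea hab a4 hs30 hs3
  have a5 : E.ao 32 Mb ≤ A32b * E.om2 32 :=
    (E.amp_of_close (by norm_num) c3 (by linarith) hv32b).trans (by gcongr)
  -- r(32, M₁)
  have r32 : E.rr 32 M₁ ≤ ρ16 ^ 2 := by
    have := E.rr_pow_le h21 (β := 16) (by norm_num) r16 (n := 2) (by norm_num)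
    have e : ((2 : ℕ) : ℝ) * 16 = 32 := by norm_num
    rwa [e] at this
  have e96 : ((3 : ℕ) : ℝ) * 32 = 96 := by norm_num
  have C3 := E.ratio_step_n (β := 32) (n := 3) (by norm_num) (by norm_num) h2b heb hb1 he1 r32
    (by rw [e96]; exact hq96) hA32b0 a5 hη3 hη31 hC32
  -- r(32, M₂)
  have c4 := E.close_of_amp' (by norm_num) hq32 h2b heb h12 a5 hs40 hs4
  have n4 := E.N_le_n (β := 32) (n := 3) (by norm_num) (by norm_num) h22 he2 C3 c4 hs40 hC320 hv32c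
  have r32' : E.rr 32 M₂ ≤ ρ32 := by
    refine E.rr_of_N3 h22 (by norm_num) hρ320 hρ321 hN32 ?_
    have e : ((3 : ℕ) : ℝ) * 32 = 3 * 32 := by norm_num
    rwa [e] at n4
  -- 96
  have r96 : E.rr 96 M₂ ≤ ρ32 ^ 3 := by
    have := E.rr_pow_le h22 (β := 32) (by norm_num) r32' (n := 3) (by norm_num)
    rwa [e96] at this
  have a6 : E.ao 96 Mb ≤ A96 * E.om2 96 := by
    have h1 := E.amp_step_n (β := 32) (n := 3) (by norm_num) (by norm_num) h2b hA32b0 a5 C3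
    rw [e96] at h1
    have ho96 := E.om2_nonneg 96 (by norm_num)
    exact h1.trans (by gcongr)
  have e192 : ((2 : ℕ) : ℝ) * 96 = 192 := by norm_num
  have C2 := E.ratio_step_n (β := 96) (n := 2) (by norm_num) (by norm_num) h2b heb h12 he2 r96
    (by rw [e192]; exact hq192) hA960 a6 hη2 hη21 hC96
  have a7 : E.ao 192 Mb ≤ A192 * E.om2 192 := by
    have h1 := E.amp_step_n (β := 96) (n := 2) (by norm_num) (by norm_num) h2b hA960 a6 C2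
    rw [e192] at h1
    have ho192 := E.om2_nonneg 192 (by norm_num)
    exact h1.trans (by gcongr)
  have r192 : E.rr 192 M₂ ≤ ρ32 ^ 6 := by
    have := E.rr_pow_le h22 (β := 32) (by norm_num) r32' (n := 6) (by norm_num)
    have e : ((6 : ℕ) : ℝ) * 32 = 192 := by norm_num
    rwa [e] at this
  have e384 : ((2 : ℕ) : ℝ) * 192 = 384 := by norm_num
  have C1 := E.ratio_step_n (β := 192) (n := 2) (by norm_num) (by norm_num) h2b heb h12 he2 r192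
    (by rw [e384]; exact hq384) hA1920 a7 hη1 hη11 hC192
  rw [e384] at C1
  have c5 := E.close_of_amp' (by norm_num) hq192 h2b heb hb a7 hs50 hs5
  have ho192 := E.om2_nonneg 192 (by norm_num)
  have a8 : E.ao 192 128 ≤ 20 * E.om2 192 :=
    (E.amp_of_close (by norm_num) c5 (by linarith) hv192).trans (by gcongr)
  refine ⟨?_, ?_⟩
  · have e1 : (2 : ℝ) ^ 0 * 192 = 192 := by norm_num
    have e2 : (2 : ℝ) * 192 = 384 := by norm_num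
    rw [e1, e2]
    refine C1.trans (le_of_eq ?_)
    norm_num
  · have e1 : (2 : ℝ) ^ 0 * 192 = 192 := by norm_num
    rw [e1]
    refine a8.trans (le_of_eq ?_)
    norm_num

end EdgeWorld

end Hald
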