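import Crest.Agent.Hald.EdgeBase

/-!
# Row 347, M9b: numerical instantiation of the base chain (`tail_base`)
-/

set_option autoImplicit false
set_option exponentiation.threshold 4096

namespace Hald

theorem pow_bd {a b c : ℝ} (ha : 0 ≤ a) (h : a ≤ b) {n : ℕ} (hc : b ^ n ≤ c) : a ^ n ≤ c :=
  (pow_le_pow_left₀ ha h n).trans hc

namespace EdgeWorld

variable {w : World} (E : EdgeWorld w)

/-- `Dec` at `48 t` from one value of `Z` at `48` -/
theorem dec_mul (w : World) {ε : ℝ} (h48 : w.Z 0 48 64 ≤ 1 + ε) {t : ℕ} (ht : 1 ≤ t) {q : ℝ}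
    (hq : 0 < q) (h : (1 + ε) ^ t - 1 ≤ q ^ 128) : Dec w (t * 48) q := by
  have ht0 : (1 : ℝ) ≤ t := by exact_mod_cast ht
  have h1 := w.Z_powB (β := 48) (β' := t * 48) (by norm_num) (by nlinarith) (m := 64) (by norm_num)
  have e : (t : ℝ) * 48 / 48 = t := by field_simp
  rw [e, Real.rpow_natCast] at h1
  have hZ := w.one_le_Z (β := 48) (by norm_num) (m := 64) (by norm_num)
  refine dec_of_Z (by positivity) hq (m := 64) (by norm_num) ?_
  have h2 : w.Z 0 48 64 ^ t ≤ (1 + ε) ^ t := by gcongr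
  have e2 : 2 * 64 = 128 := by norm_num
  rw [e2]
  linarith

/-- **The base of the tail induction** from the certificate numbers. -/
theorem tail_of_cert (hC16 : E.om2 16 ^ 2 ≤ 148 / 100 * E.om2 32)
    (hA16 : E.ao 16 10 ≤ 3 * E.om2 16)
    (hV16 : w.V 0 16 ≤ 1 + 83 / 100000) (hV32 : w.V 0 32 ≤ 1 + 7 / 100000)
    (hq16 : Dec w 16 (912 / 1000)) (hq32 : Dec w 32 (94 / 100))
    (h48 : w.Z 0 48 64 ≤ 1 + 36 / 10000) : E.Tail 128 0 := by
  have hq96 : Dec w 96 (9623 / 10000) := by
    have := dec_mul w h48 (t := 2) (by norm_num) (q := 9623 / 10000) (by norm_num) (by norm_num)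
    have e : ((2 : ℕ) : ℝ) * 48 = 96 := by norm_num
    rwa [e] at this
  have hq192 : Dec w 192 (9675 / 10000) := by
    have := dec_mul w h48 (t := 4) (by norm_num) (q := 9675 / 10000) (by norm_num) (by norm_num)
    have e : ((4 : ℕ) : ℝ) * 48 = 192 := by norm_num
    rwa [e] at this
  have hq384 : Dec w 384 (9728 / 10000) := by
    have := dec_mul w h48 (t := 8) (by norm_num) (q := 9728 / 10000) (by norm_num) (by norm_num)
    have e : ((8 : ℕ) : ℝ) * 48 = 384 := by norm_num
    rwa [e] at this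
  have hV16' := w.one_le_V 16 (by norm_num)
  have hV32' := w.one_le_V 32 (by norm_num)
  have hv32c : w.V 0 32 ^ (3 * (512 - 2)) ≤ 11131 / 10000 :=
    pow_bd (by linarith) hV32 (by norm_num)
  have hv192 : w.V 0 192 ^ (128 - 2) ≤ 10038 / 10000 := by
    have h1 := w.V_anti 48 192 (by norm_num) (by norm_num)
    have h2 := w.one_le_V 192 (by norm_num)
    have h3 := (w.hZtopA 48 (by norm_num)).top_le (x := 64) (by simp)
    have e : (w.V 0 48) ^ (2 * ((64 : ℕ) : ℝ)) = (w.V 0 48) ^ 128 := by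
      rw [← Real.rpow_natCast]
      norm_num
    rw [e] at h3
    have h4 : w.V 0 192 ^ (128 - 2) ≤ w.V 0 48 ^ 128 := by
      calc w.V 0 192 ^ (128 - 2) ≤ w.V 0 192 ^ 128 :=
            pow_le_pow_right₀ h2 (by norm_num)
        _ ≤ _ := by gcongr
    exact h4.trans (h3.trans (h48.trans (by norm_num)))
  refine E.tail_base (M₀ := 10) (M₁ := 132) (Ma := 32) (Mb := 60) (M₂ := 512)
    (C16 := 148 / 100) (A16 := 3) (q16 := 912 / 1000) (q32 := 94 / 100) (q96 := 9623 / 10000)
    (q192 := 9675 / 10000) (q384 := 9728 / 10000) (v16 := 12408 / 10000)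
    (v16a := 102521 / 100000) (v32b := 100407 / 100000) (v32c := 11131 / 10000)
    (v192 := 10038 / 10000) (s1 := 3 / 100000) (ρ16 := 541 / 1000)
    (s2 := 2636 / 10000) (A32a := 2484 / 1000) (s3 := 2625 / 10000) (A32b := 12677 / 10000)
    (η3 := 277 / 1000) (C32 := 2988 / 1000) (s4 := 1 / 1000000) (ρ32 := 588 / 1000)
    (A96 := 609 / 100) (η2 := 3 / 100000) (C96 := 145 / 100) (A192 := 54)
    (η1 := 13 / 1000) (s5 := 6)
    (by norm_num) (by decide) (by norm_num) (by norm_num) (by norm_num) (by norm_num)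
    (by norm_num) (by decide) (by decide) (by decide) (by decide)
    hq16 hq32 hq96 hq192 hq384 hC16 hA16
    (pow_bd (by linarith) hV16 (by norm_num)) (pow_bd (by linarith) hV16 (by norm_num))
    (pow_bd (by linarith) hV32 (by norm_num)) hv32c hv192
    (by norm_num) (by norm_num) (by norm_num) (by norm_num) (by norm_num)
    (by norm_num) (by norm_num) (by norm_num) (by norm_num) (by norm_num) (by norm_num)
    (by norm_num) (by norm_num) (by norm_num) (by norm_num)
    (by norm_num) (by norm_num) (by norm_num) (by norm_num) (by norm_num)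
    (by norm_num) (by norm_num) (by norm_num) (by norm_num)
    (by norm_num) (by norm_num) (by norm_num) (by norm_num) (by norm_num)
    (by norm_num) (by norm_num)

end EdgeWorld

end Hald
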