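import Mathlib

/-!
# Row 347, M5 OUTPUT 2: joint limit of strips, mixed and open chains (pure analysis)
-/

set_option autoImplicit false

namespace Hald

open Filter Topology Finset

/-- moment functional of a sequence -/
noncomputable def mom (m : ℕ → ℝ) : Polynomial ℝ →ₗ[ℝ] ℝ :=
  Polynomial.lsum fun k => LinearMap.toSpanSingleton ℝ ℝ (m k)

theorem mom_monomial (m : ℕ → ℝ) (k : ℕ) (c : ℝ) : mom m (Polynomial.monomial k c) = c * m k := by
  unfold mom
  rw [Polynomial.lsum_apply, Polynomial.sum_monomial_index _ _ (by simp)]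
  simp

theorem mom_X_pow (m : ℕ → ℝ) (k : ℕ) : mom m (Polynomial.X ^ k) = m k := by
  rw [← Polynomial.monomial_one_right_eq_X_pow, mom_monomial, one_mul]

theorem mom_C_mul_X_pow (m : ℕ → ℝ) (k : ℕ) (c : ℝ) :
    mom m (Polynomial.C c * Polynomial.X ^ k) = c * m k := by
  rw [Polynomial.C_mul_X_pow_eq_monomial, mom_monomial]

theorem mom_one (m : ℕ → ℝ) : mom m 1 = m 0 := by
  have := mom_X_pow m 0
  rwa [pow_zero] at this

theorem mom_X (m : ℕ → ℝ) : mom m Polynomial.X = m 1 := by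
  have := mom_X_pow m 1
  rwa [pow_one] at this

theorem mom_add_seq (m m' : ℕ → ℝ) (P : Polynomial ℝ) :
    mom (fun k => m k + m' k) P = mom m P + mom m' P := by
  induction P using Polynomial.induction_on' with
  | add p q hp hq => rw [map_add, map_add, map_add, hp, hq]; ring
  | monomial k c => rw [mom_monomial, mom_monomial, mom_monomial]; ring

theorem mom_tendsto {ι : Type*} {l : Filter ι} {J : ι → Type*} [∀ n, Fintype (J n)]
    (w κ : ∀ n, J n → ℝ) {m : ℕ → ℝ}
    (h : ∀ M, Tendsto (fun n => ∑ j, w n j * κ n j ^ M) l (𝓝 (m M))) (P : Polynomial ℝ) :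
    Tendsto (fun n => ∑ j, w n j * P.eval (κ n j)) l (𝓝 (mom m P)) := by
  induction P using Polynomial.induction_on' with
  | add p q hp hq =>
    rw [map_add]
    refine (hp.add hq).congr fun n => ?_
    rw [← Finset.sum_add_distrib]
    refine Finset.sum_congr rfl fun j _ => ?_
    rw [Polynomial.eval_add]; ring
  | monomial k c =>
    rw [mom_monomial]
    refine ((h k).const_mul c).congr fun n => ?_
    rw [Finset.mul_sum]
    refine Finset.sum_congr rfl fun j _ => ?_
    rw [Polynomial.eval_monomial]; ring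

/-- a polynomial that is nonnegative on `[-q,q]` is almost nonnegative slightly beyond -/
theorem poly_near (f : Polynomial ℝ) {q : ℝ} (hq : 0 < q) (hf : ∀ x : ℝ, |x| ≤ q → 0 ≤ f.eval x)
    {ε : ℝ} (hε : 0 < ε) : ∃ δ : ℝ, 0 < δ ∧ ∀ x : ℝ, |x| ≤ q + δ → -ε ≤ f.eval x := by
  have huc := (isCompact_Icc (a := -(q + 1)) (b := q + 1)).uniformContinuousOn_of_continuous
    (f := fun x : ℝ => f.eval x) f.continuous.continuousOn
  rw [Metric.uniformContinuousOn_iff] at huc
  obtain ⟨δ, hδ, h⟩ := huc ε hε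
  refine ⟨min 1 (δ / 2), by positivity, fun x hx => ?_⟩
  have h1 : min 1 (δ / 2) ≤ 1 := min_le_left _ _
  have h2 : min 1 (δ / 2) ≤ δ / 2 := min_le_right _ _
  have hx' := abs_le.1 hx
  set y := max (-q) (min x q) with hy
  have hy1 : |y| ≤ q := by
    rw [abs_le]
    exact ⟨le_max_left _ _, max_le (by linarith) (min_le_right _ _)⟩
  have hxy : dist x y < δ := by
    rw [Real.dist_eq, abs_lt]
    rcases le_total x q with h3 | h3
    · rcases le_total (-q) x with h4 | h4
      · rw [hy, min_eq_left h3, max_eq_right h4]; constructor <;> linarith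
      · rw [hy, min_eq_left h3, max_eq_left h4]; constructor <;> linarith
    · rw [hy, min_eq_right h3, max_eq_right (by linarith)]; constructor <;> linarith
  have hy2 := abs_le.1 hy1
  have h5 := h x ⟨by linarith, by linarith⟩ y ⟨by linarith, by linarith⟩ hxy
  rw [Real.dist_eq, abs_lt] at h5
  have h6 := hf y hy1
  linarith [h5.1]

/-- growth comparison -/
theorem grow_nonneg {x V μ C : ℝ} (hμ : 0 < μ) (hμV : μ < V) {k0 : ℕ}
    (h : ∀ k : ℕ, 0 < x * V ^ (2 * k + k0) + C * μ ^ (2 * k + k0)) : 0 ≤ x := by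
  by_contra hcon
  push Not at hcon
  have hV : 0 < V := hμ.trans hμV
  have h1 : ∀ k : ℕ, (V / μ) ^ (2 * k + k0) < C / (-x) := by
    intro k
    rw [div_pow, div_lt_div_iff₀ (by positivity) (by linarith)]
    have := h k
    nlinarith
  have h2 : 1 < V / μ := by rwa [one_lt_div hμ]
  obtain ⟨k, hk⟩ := pow_unbounded_of_one_lt (C / (-x)) h2
  have h3 : (V / μ) ^ k ≤ (V / μ) ^ (2 * k + k0) := pow_le_pow_right₀ h2.le (by omega)
  linarith [h1 k]

/-- weighted sums over indices with almost nonnegative values -/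
theorem sum_near {J : Type*} (s : Finset J) (w κ : J → ℝ) (hw : ∀ j, 0 ≤ w j) (f : Polynomial ℝ)
    {ε : ℝ} (h : ∀ j ∈ s, w j ≠ 0 → -ε ≤ f.eval (κ j)) :
    -ε * ∑ j ∈ s, w j ≤ ∑ j ∈ s, w j * f.eval (κ j) := by
  rw [Finset.mul_sum]
  refine Finset.sum_le_sum fun j hj => ?_
  by_cases h0 : w j = 0
  · rw [h0]; simp
  · have := h j hj h0
    nlinarith [hw j]

/-- limit `ε → 0` -/
theorem nonneg_of_eps {R R1 : ℝ} (h : ∀ ε : ℝ, 0 < ε → -ε * R1 ≤ R) : 0 ≤ R := by
  have h5 : Tendsto (fun ε : ℝ => -ε * R1) (𝓝[>] 0) (𝓝 (-0 * R1)) := by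
    apply Tendsto.mono_left _ nhdsWithin_le_nhds
    exact (continuous_id.neg.mul continuous_const).tendsto 0
  rw [neg_zero, zero_mul] at h5
  refine le_of_tendsto h5 ?_
  filter_upwards [self_mem_nhdsWithin] with ε hε
  exact h ε hε

/-- strips alone -/
theorem single_limit {J : ℕ → Type*} [∀ n, Fintype (J n)] (κ a : ∀ n, J n → ℝ)
    {v : ℕ → ℝ} {V : ℝ} (hV : 0 < V) (hv : Tendsto v atTop (𝓝 V)) {S : ℕ → ℝ}
    (hS : ∀ M, Tendsto (fun n => ∑ j, a n j * a n j * κ n j ^ M) atTop (𝓝 (S M)))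
    (hSpos : ∀ M, 0 < S M)
    (hub : ∀ q, V < q → ∀ᶠ n in atTop, ∀ j, |κ n j| ≤ q)
    (QS : ℝ → Prop)
    (hisoS : ∀ q, 0 < q → QS q → ∀ q', q < q' → q' < V → ∀ᶠ n in atTop, ∀ j, a n j ≠ 0 →
      q' < |κ n j| → |κ n j| = v n ∧ ∀ k, a n k ≠ 0 → q' < |κ n k| → κ n k = κ n j) :
    ∃ α : ℝ, 0 ≤ α ∧
      (∀ q, 0 < q → (QS q ∨ V ≤ q) → ∀ f : Polynomial ℝ,
        (∀ x : ℝ, |x| ≤ q → 0 ≤ f.eval x) → α ^ 2 * f.eval V ≤ mom S f) := by
  classical
  have hS2 : ∀ n j, 0 ≤ a n j * a n j := fun n j => mul_self_nonneg _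
  by_cases hex : ∃ q₀, 0 < q₀ ∧ q₀ < V ∧ QS q₀
  · obtain ⟨q₀, hq₀, hq₀V, hQ₀⟩ := hex
    set μ := (q₀ + V) / 2 with hμ
    have hμ0 : 0 < μ := by linarith
    have hμ1 : q₀ < μ := by linarith
    have hμ2 : μ < V := by linarith
    let T : ∀ n, Finset (J n) := fun n => univ.filter (fun j => a n j ≠ 0 ∧ μ < |κ n j|)
    let Fs : ∀ n, Finset (J n) := fun n => univ.filter (fun j => ¬ (a n j ≠ 0 ∧ μ < |κ n j|))
    have hsplit : ∀ n (g : J n → ℝ), ∑ j, g j = ∑ j ∈ T n, g j + ∑ j ∈ Fs n, g j := fun n g =>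
      (Finset.sum_filter_add_sum_filter_not univ (fun j => a n j ≠ 0 ∧ μ < |κ n j|) g).symm
    have hF : ∀ n, ∀ j ∈ Fs n, a n j ≠ 0 → |κ n j| ≤ μ := fun n j hj haj => by
      have := (Finset.mem_filter.mp hj).2
      by_contra hcon
      exact this ⟨haj, not_le.mp hcon⟩
    have hT : ∀ n, ∀ j ∈ T n, a n j ≠ 0 ∧ μ < |κ n j| := fun n j hj => (Finset.mem_filter.mp hj).2
    have hev := hisoS q₀ hq₀ hQ₀ μ hμ1 hμ2
    have hvμ : ∀ᶠ n in atTop, μ < v n := hv.eventually (lt_mem_nhds hμ2)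
    let A : ℕ → ℝ := fun n => ∑ j ∈ T n, a n j * a n j
    let sg : ℕ → ℝ := fun n => if ∃ j ∈ T n, κ n j < 0 then -1 else 1
    have htop : ∀ᶠ n in atTop, ∀ G : ℝ → ℝ,
        ∑ j ∈ T n, a n j * a n j * G (κ n j) = A n * G (sg n * v n) := by
      filter_upwards [hev] with n hn G
      simp only [A]
      rw [Finset.sum_mul]
      refine Finset.sum_congr rfl fun j hj => ?_
      obtain ⟨h1, h3⟩ := hn j (hT n j hj).1 (hT n j hj).2
      have hκ : κ n j = sg n * v n := by
        by_cases hneg : κ n j < 0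
        · have : ∃ j ∈ T n, κ n j < 0 := ⟨j, hj, hneg⟩
          simp only [sg, if_pos this]
          rw [← h1, abs_of_neg hneg]; ring
        · have : ¬ ∃ j ∈ T n, κ n j < 0 := by
            rintro ⟨k, hk, hk0⟩
            rw [h3 k (hT n k hk).1 (hT n k hk).2] at hk0
            exact hneg hk0
          simp only [sg, if_neg this]
          rw [← h1, abs_of_nonneg (not_lt.mp hneg)]; ring
      rw [hκ]
    have hbA : ∀ᶠ n in atTop, A n ∈ Set.Icc 0 (S 0 + 1) := by
      have h0 := hS 0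
      filter_upwards [h0.eventually (gt_mem_nhds (lt_add_one (S 0)))] with n hn
      refine ⟨Finset.sum_nonneg fun j _ => hS2 n j, le_trans ?_ hn.le⟩
      simp only [pow_zero, mul_one]
      exact Finset.sum_le_sum_of_subset_of_nonneg (Finset.filter_subset _ _)
        (fun j _ _ => hS2 n j)
    let U : Ultrafilter ℕ := Ultrafilter.of atTop
    have hU : (U : Filter ℕ) ≤ atTop := Ultrafilter.of_le atTop
    obtain ⟨A₀, hA₀m, hA₀⟩ := isCompact_Icc.ultrafilter_le_nhds' (U.map A) (by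
      rw [Ultrafilter.mem_map]
      exact hU hbA)
    have hAt : Tendsto A U (𝓝 A₀) := hA₀
    have hvU : Tendsto v U (𝓝 V) := hv.mono_left hU
    obtain ⟨σ, hσ, hσe⟩ : ∃ σ : ℝ, (σ = 1 ∨ σ = -1) ∧ ∀ᶠ n in (U : Filter ℕ), sg n = σ := by
      by_cases hs : ∀ᶠ n in (U : Filter ℕ), ∃ j ∈ T n, κ n j < 0
      · exact ⟨-1, Or.inr rfl, hs.mono fun n hn => if_pos hn⟩
      · have hs' : ∀ᶠ n in (U : Filter ℕ), ¬ ∃ j ∈ T n, κ n j < 0 := by
          rwa [← Ultrafilter.eventually_not] at hs
        exact ⟨1, Or.inl rfl, hs'.mono fun n hn => if_neg hn⟩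
    have hσv : Tendsto (fun n => sg n * v n) U (𝓝 (σ * V)) := by
      refine (hvU.const_mul σ).congr' ?_
      filter_upwards [hσe] with n hn
      rw [hn]
    have hrem : ∀ f : Polynomial ℝ,
        Tendsto (fun n => ∑ j ∈ Fs n, a n j * a n j * f.eval (κ n j)) U
          (𝓝 (mom S f - A₀ * f.eval (σ * V))) := by
      intro f
      have h1 := mom_tendsto (l := (U : Filter ℕ)) (fun n j => a n j * a n j) κ
        (fun M => (hS M).mono_left hU) f
      have h2 : Tendsto (fun n => A n * f.eval (sg n * v n)) U (𝓝 (A₀ * f.eval (σ * V))) :=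
        hAt.mul ((f.continuous.tendsto _).comp hσv)
      refine (h1.sub h2).congr' ?_
      filter_upwards [hU htop] with n hn
      rw [hsplit n, hn fun x => f.eval x]
      ring
    have hposS : ∀ q, 0 < q → (QS q ∨ V ≤ q) → ∀ f : Polynomial ℝ,
        (∀ x : ℝ, |x| ≤ q → 0 ≤ f.eval x) → A₀ * f.eval (σ * V) ≤ mom S f := by
      intro q hq hQq f hf
      have h1 := hrem f
      have h2 := hrem 1
      simp only [Polynomial.eval_one, mul_one] at h2
      have hnt' : ∀ δ, 0 < δ → ∀ᶠ n in atTop, ∀ j ∈ Fs n, a n j * a n j ≠ 0 →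
          |κ n j| ≤ q + δ := by
        intro δ hδ
        rcases lt_or_ge q V with hqV | hqV
        · have hQq' : QS q := by
            rcases hQq with h | h
            · exact h
            · exact absurd h (not_le.mpr hqV)
          set q' := min (q + δ) ((q + V) / 2) with hq'
          have h1 : q < q' := lt_min (by linarith) (by linarith)
          have h2 : q' < V := lt_of_le_of_lt (min_le_right _ _) (by linarith)
          filter_upwards [hisoS q hq hQq' q' h1 h2, hvμ] with n hn hvn j hj haj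
          have haj' : a n j ≠ 0 := fun h0 => haj (by rw [h0]; ring)
          by_contra hcon
          push Not at hcon
          have h3 : q' < |κ n j| := lt_of_le_of_lt (min_le_left _ _) hcon
          have h4 := (hn j haj' h3).1
          have h5 := hF n j hj haj'
          linarith
        · refine Eventually.of_forall fun n j hj haj => ?_
          have haj' : a n j ≠ 0 := fun h0 => haj (by rw [h0]; ring)
          linarith [hF n j hj haj']
      have := nonneg_of_eps (R := mom S f - A₀ * f.eval (σ * V)) (R1 := mom S 1 - A₀)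
        (fun ε hε => by
          obtain ⟨δ, hδ, hfδ⟩ := poly_near f hq hf hε
          refine le_of_tendsto_of_tendsto (h2.const_mul (-ε)) h1 ?_
          filter_upwards [hU (hnt' δ hδ)] with n hn
          exact sum_near (Fs n) (fun j => a n j * a n j)
            (κ n) (fun j => hS2 n j) f (fun j hj haj => hfδ _ (hn j hj haj)))
      linarith
    have hSm : ∀ M, |S M - A₀ * (σ * V) ^ M| ≤ μ ^ M * (S 0 - A₀) := by
      intro M
      have h1 := hrem (Polynomial.X ^ M)
      have h2 := hrem 1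
      rw [mom_X_pow, Polynomial.eval_pow, Polynomial.eval_X] at h1
      rw [mom_one, Polynomial.eval_one, mul_one] at h2
      refine le_of_tendsto_of_tendsto h1.abs (h2.const_mul (μ ^ M)) (Eventually.of_forall fun n => ?_)
      refine (Finset.abs_sum_le_sum_abs _ _).trans ?_
      show _ ≤ μ ^ M * ∑ j ∈ Fs n, a n j * a n j * Polynomial.eval (κ n j) 1
      rw [Finset.mul_sum]
      refine Finset.sum_le_sum fun j hj => ?_
      by_cases haj : a n j = 0
      · rw [haj]; simp
      · rw [Polynomial.eval_one, mul_one, Polynomial.eval_pow, Polynomial.eval_X, abs_mul,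
          abs_of_nonneg (hS2 n j), mul_comm]
        refine mul_le_mul_of_nonneg_right ?_ (hS2 n j)
        rw [abs_pow]
        exact pow_le_pow_left₀ (abs_nonneg _) (hF n j hj haj) M
    have hσcase : σ = 1 ∨ A₀ = 0 := by
      rcases hσ with h | h
      · exact Or.inl h
      · right
        have h1 : 0 ≤ -A₀ := by
          refine grow_nonneg (x := -A₀) (V := V) (μ := μ) (C := S 0 - A₀) hμ0 hμ2
            (k0 := 1) ?_
          intro k
          have e : (σ * V) ^ (2 * k + 1) = -V ^ (2 * k + 1) := by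
            rw [h, neg_one_mul, Odd.neg_pow ⟨k, rfl⟩]
          have h1 := (abs_le.1 (hSm (2 * k + 1))).2
          have h2 := hSpos (2 * k + 1)
          rw [e] at h1
          nlinarith
        linarith [hA₀m.1]
    refine ⟨Real.sqrt A₀, Real.sqrt_nonneg _, ?_⟩
    intro q hq hQq f hf
    rw [Real.sq_sqrt hA₀m.1]
    have := hposS q hq hQq f hf
    rcases hσcase with h | h
    · rwa [h, one_mul] at this
    · rw [h] at this ⊢
      simpa using this
  · refine ⟨0, le_rfl, ?_⟩
    intro q hq hQq f hf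
    have hVq : V ≤ q := by
      rcases hQq with h | h
      · by_contra hcon
        exact hex ⟨q, hq, not_le.mp hcon, h⟩
      · exact h
    have h1 := mom_tendsto (l := atTop) (fun n j => a n j * a n j) κ hS f
    have h2 := mom_tendsto (l := atTop) (fun n j => a n j * a n j) κ hS 1
    simp only [Polynomial.eval_one, mul_one] at h2
    have := nonneg_of_eps (R := mom S f) (R1 := mom S 1) (fun ε hε => by
      obtain ⟨δ, hδ, hfδ⟩ := poly_near f hq hf hε
      refine le_of_tendsto_of_tendsto (h2.const_mul (-ε)) h1 ?_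
      filter_upwards [hub (q + δ) (by linarith)] with n hn
      exact sum_near univ (fun j => a n j * a n j)
        (κ n) (fun j => hS2 n j) f (fun j _ _ => hfδ _ (hn j)))
    simpa using this

/-- **Joint limit.** -/
theorem joint_limit {J : ℕ → Type*} [∀ n, Fintype (J n)] (κ a b c : ∀ n, J n → ℝ)
    {v : ℕ → ℝ} {V : ℝ} (hV : 0 < V) (hv : Tendsto v atTop (𝓝 V))
    {S X B C : ℕ → ℝ}
    (hS : ∀ M, Tendsto (fun n => ∑ j, a n j * a n j * κ n j ^ M) atTop (𝓝 (S M)))
    (hX : ∀ M, Tendsto (fun n => ∑ j, a n j * b n j * κ n j ^ M) atTop (𝓝 (X M)))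
    (hB : ∀ M, Tendsto (fun n => ∑ j, b n j * b n j * κ n j ^ M) atTop (𝓝 (B M)))
    (hC : ∀ M, Tendsto (fun n => ∑ j, c n j * c n j * κ n j ^ M) atTop (𝓝 (C M)))
    (hSpos : ∀ M, 0 < S M) (hXpos : ∀ M, 0 < X M) (hBpos : ∀ M, 0 < B M)
    (hub : ∀ q, V < q → ∀ᶠ n in atTop, ∀ j, |κ n j| ≤ q)
    (QS Q : ℝ → Prop)
    (hisoS : ∀ q, 0 < q → QS q → ∀ q', q < q' → q' < V → ∀ᶠ n in atTop, ∀ j, a n j ≠ 0 →
      q' < |κ n j| → |κ n j| = v n ∧ ∀ k, a n k ≠ 0 → q' < |κ n k| → κ n k = κ n j)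
    (hiso : ∀ q, 0 < q → Q q → ∀ q', q < q' → q' < V → ∀ᶠ n in atTop, ∀ j, q' < |κ n j| →
      |κ n j| = v n ∧ c n j = 0 ∧ ∀ k, q' < |κ n k| → k = j) :
    ∃ α ω : ℝ, 0 ≤ α ∧ 0 ≤ ω ∧
      -- strips alone
      (∀ q, 0 < q → (QS q ∨ V ≤ q) → ∀ f : Polynomial ℝ,
        (∀ x : ℝ, |x| ≤ q → 0 ≤ f.eval x) → α ^ 2 * f.eval V ≤ mom S f) ∧
      -- open chains alone
      (∀ q, 0 < q → (Q q ∨ V ≤ q) → ∀ f : Polynomial ℝ,
        (∀ x : ℝ, |x| ≤ q → 0 ≤ f.eval x) → ω ^ 2 * f.eval V ≤ mom B f) ∧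
      -- joint positivity with the top split off
      (∀ q, 0 < q → (Q q ∨ V ≤ q) → (∃ q₀, 0 < q₀ ∧ q₀ < V ∧ Q q₀) → ∀ p₁ p₂ f : Polynomial ℝ,
        (∀ x : ℝ, |x| ≤ q → 0 ≤ f.eval x) →
        (α * p₁.eval V + ω * p₂.eval V) ^ 2 * f.eval V ≤
          mom S (p₁ * p₁ * f) + 2 * mom X (p₁ * p₂ * f) + mom B (p₂ * p₂ * f)) ∧
      -- joint positivity, unconditional
      (∀ p₁ p₂ f : Polynomial ℝ, (∀ x : ℝ, |x| ≤ V → 0 ≤ f.eval x) →
        0 ≤ mom S (p₁ * p₁ * f) + 2 * mom X (p₁ * p₂ * f) + mom B (p₂ * p₂ * f)) ∧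
      -- the odd part
      (∀ q, 0 < q → (Q q ∨ V ≤ q) → ∀ f : Polynomial ℝ,
        (∀ x : ℝ, |x| ≤ q → 0 ≤ f.eval x) → 0 ≤ mom C f) := by
  classical
  have hS2 : ∀ n j, 0 ≤ a n j * a n j := fun n j => mul_self_nonneg _
  have hC2 : ∀ n j, 0 ≤ c n j * c n j := fun n j => mul_self_nonneg _
  -- the quadratic form
  have hquad : ∀ (l : Filter ℕ), l ≤ atTop → ∀ p₁ p₂ f : Polynomial ℝ,
      Tendsto (fun n => ∑ j, (a n j * p₁.eval (κ n j) + b n j * p₂.eval (κ n j)) ^ 2 *
        f.eval (κ n j)) l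
        (𝓝 (mom S (p₁ * p₁ * f) + 2 * mom X (p₁ * p₂ * f) + mom B (p₂ * p₂ * f))) := by
    intro l hl p₁ p₂ f
    have h1 := (mom_tendsto (l := l) (fun n j => a n j * a n j) κ (fun M => (hS M).mono_left hl)
      (p₁ * p₁ * f))
    have h2 := (mom_tendsto (l := l) (fun n j => a n j * b n j) κ (fun M => (hX M).mono_left hl)
      (p₁ * p₂ * f)).const_mul 2
    have h3 := (mom_tendsto (l := l) (fun n j => b n j * b n j) κ (fun M => (hB M).mono_left hl)
      (p₂ * p₂ * f))
    refine ((h1.add h2).add h3).congr fun n => ?_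
    rw [Finset.mul_sum, ← Finset.sum_add_distrib, ← Finset.sum_add_distrib]
    refine Finset.sum_congr rfl fun j _ => ?_
    simp only [Polynomial.eval_mul]
    ring
  by_cases hex : ∃ q₀, 0 < q₀ ∧ q₀ < V ∧ Q q₀
  · obtain ⟨q₀, hq₀, hq₀V, hQ₀⟩ := hex
    set μ := (q₀ + V) / 2 with hμ
    have hμ0 : 0 < μ := by linarith
    have hμ1 : q₀ < μ := by linarith
    have hμ2 : μ < V := by linarith
    let Fs : ∀ n, Finset (J n) := fun n => univ.filter (fun j => |κ n j| ≤ μ)
    let T : ∀ n, Finset (J n) := fun n => univ.filter (fun j => ¬ |κ n j| ≤ μ)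
    have hsplit : ∀ n (g : J n → ℝ), ∑ j, g j = ∑ j ∈ Fs n, g j + ∑ j ∈ T n, g j := fun n g =>
      (Finset.sum_filter_add_sum_filter_not univ (fun j => |κ n j| ≤ μ) g).symm
    have hF : ∀ n, ∀ j ∈ Fs n, |κ n j| ≤ μ := fun n j hj => (Finset.mem_filter.mp hj).2
    have hT : ∀ n, ∀ j ∈ T n, μ < |κ n j| := fun n j hj => not_le.mp (Finset.mem_filter.mp hj).2
    have hmT : ∀ n j, μ < |κ n j| → j ∈ T n := fun n j h =>
      Finset.mem_filter.mpr ⟨Finset.mem_univ _, not_le.mpr h⟩
    have hev := hiso q₀ hq₀ hQ₀ μ hμ1 hμ2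
    have hvμ : ∀ᶠ n in atTop, μ < v n := hv.eventually (lt_mem_nhds hμ2)
    let A : ℕ → ℝ := fun n => ∑ j ∈ T n, a n j
    let Bt : ℕ → ℝ := fun n => ∑ j ∈ T n, b n j
    let sg : ℕ → ℝ := fun n => if ∃ j ∈ T n, κ n j < 0 then -1 else 1
    -- sums over the top
    have htop : ∀ᶠ n in atTop, ∀ G : ℝ → ℝ → ℝ → ℝ, (∀ x, G 0 0 x = 0) →
        ∑ j ∈ T n, G (a n j) (b n j) (κ n j) = G (A n) (Bt n) (sg n * v n) := by
      filter_upwards [hev] with n hn G hG
      rcases (T n).eq_empty_or_nonempty with h0 | ⟨j, hj⟩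
      · simp only [A, Bt, h0, Finset.sum_empty]
        rw [hG]
      · obtain ⟨h1, -, h3⟩ := hn j (hT n j hj)
        have hTj : T n = {j} := by
          ext k
          rw [Finset.mem_singleton]
          exact ⟨fun hk => h3 k (hT n k hk), fun hk => hk ▸ hj⟩
        have hκ : κ n j = sg n * v n := by
          by_cases hneg : κ n j < 0
          · have : ∃ j ∈ T n, κ n j < 0 := ⟨j, hj, hneg⟩
            simp only [sg, if_pos this]
            rw [← h1, abs_of_neg hneg]; ring
          · have : ¬ ∃ j ∈ T n, κ n j < 0 := by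
              rintro ⟨k, hk, hk0⟩
              rw [h3 k (hT n k hk)] at hk0
              exact hneg hk0
            simp only [sg, if_neg this]
            rw [← h1, abs_of_nonneg (not_lt.mp hneg)]; ring
        simp only [A, Bt]
        rw [← hκ, hTj, Finset.sum_singleton, Finset.sum_singleton, Finset.sum_singleton]
    have htopC : ∀ᶠ n in atTop, ∀ j ∈ T n, c n j = 0 := by
      filter_upwards [hev] with n hn j hj
      exact (hn j (hT n j hj)).2.1
    -- bounds
    have hbA : ∀ᶠ n in atTop, A n ∈ Set.Icc (-(S 0 + 2)) (S 0 + 2) := by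
      have h0 := hS 0
      filter_upwards [h0.eventually (gt_mem_nhds (lt_add_one (S 0))), htop] with n hn ht
      have h1 := ht (fun x _ _ => x * x) (fun _ => by simp)
      have h2 : A n * A n ≤ S 0 + 1 := by
        rw [← h1]
        refine le_trans ?_ hn.le
        simp only [pow_zero, mul_one]
        exact Finset.sum_le_sum_of_subset_of_nonneg (Finset.filter_subset _ _)
          (fun j _ _ => hS2 n j)
      have h3 := hSpos 0
      constructor <;> nlinarith
    have hbB : ∀ᶠ n in atTop, Bt n ∈ Set.Icc (-(B 0 + 2)) (B 0 + 2) := by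
      have h0 := hB 0
      filter_upwards [h0.eventually (gt_mem_nhds (lt_add_one (B 0))), htop] with n hn ht
      have h1 := ht (fun _ y _ => y * y) (fun _ => by simp)
      have h2 : Bt n * Bt n ≤ B 0 + 1 := by
        rw [← h1]
        refine le_trans ?_ hn.le
        simp only [pow_zero, mul_one]
        exact Finset.sum_le_sum_of_subset_of_nonneg (Finset.filter_subset _ _)
          (fun j _ _ => mul_self_nonneg _)
      have h3 := hBpos 0
      constructor <;> nlinarith
    let U : Ultrafilter ℕ := Ultrafilter.of atTop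
    have hU : (U : Filter ℕ) ≤ atTop := Ultrafilter.of_le atTop
    obtain ⟨A₀, -, hA₀⟩ := isCompact_Icc.ultrafilter_le_nhds' (U.map A) (by
      rw [Ultrafilter.mem_map]
      exact hU hbA)
    obtain ⟨B₀, -, hB₀⟩ := isCompact_Icc.ultrafilter_le_nhds' (U.map Bt) (by
      rw [Ultrafilter.mem_map]
      exact hU hbB)
    have hAt : Tendsto A U (𝓝 A₀) := hA₀
    have hBt : Tendsto Bt U (𝓝 B₀) := hB₀
    have hvU : Tendsto v U (𝓝 V) := hv.mono_left hU
    obtain ⟨σ, hσ, hσe⟩ : ∃ σ : ℝ, (σ = 1 ∨ σ = -1) ∧ ∀ᶠ n in (U : Filter ℕ), sg n = σ := by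
      by_cases hs : ∀ᶠ n in (U : Filter ℕ), ∃ j ∈ T n, κ n j < 0
      · exact ⟨-1, Or.inr rfl, hs.mono fun n hn => if_pos hn⟩
      · have hs' : ∀ᶠ n in (U : Filter ℕ), ¬ ∃ j ∈ T n, κ n j < 0 := by
          rwa [← Ultrafilter.eventually_not] at hs
        exact ⟨1, Or.inl rfl, hs'.mono fun n hn => if_neg hn⟩
    have hσv : Tendsto (fun n => sg n * v n) U (𝓝 (σ * V)) := by
      refine (hvU.const_mul σ).congr' ?_
      filter_upwards [hσe] with n hn
      rw [hn]
    -- remainder of the quadratic form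
    have hrem : ∀ p₁ p₂ f : Polynomial ℝ,
        Tendsto (fun n => ∑ j ∈ Fs n, (a n j * p₁.eval (κ n j) + b n j * p₂.eval (κ n j)) ^ 2 *
          f.eval (κ n j)) U
          (𝓝 (mom S (p₁ * p₁ * f) + 2 * mom X (p₁ * p₂ * f) + mom B (p₂ * p₂ * f) -
            (A₀ * p₁.eval (σ * V) + B₀ * p₂.eval (σ * V)) ^ 2 * f.eval (σ * V))) := by
      intro p₁ p₂ f
      have h1 := hquad U hU p₁ p₂ f
      have h2 : Tendsto (fun n => (A n * p₁.eval (sg n * v n) + Bt n * p₂.eval (sg n * v n)) ^ 2 *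
          f.eval (sg n * v n)) U
          (𝓝 ((A₀ * p₁.eval (σ * V) + B₀ * p₂.eval (σ * V)) ^ 2 * f.eval (σ * V))) := by
        have e1 : ∀ p : Polynomial ℝ, Tendsto (fun n => p.eval (sg n * v n)) U
            (𝓝 (p.eval (σ * V))) := fun p => (p.continuous.tendsto _).comp hσv
        exact (((hAt.mul (e1 p₁)).add (hBt.mul (e1 p₂))).pow 2).mul (e1 f)
      refine (h1.sub h2).congr' ?_
      filter_upwards [hU htop] with n hn
      have h3 := hn (fun x y z => (x * p₁.eval z + y * p₂.eval z) ^ 2 * f.eval z)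
        (fun x => by simp)
      rw [hsplit n, h3]
      ring
    have hremC : ∀ f : Polynomial ℝ,
        Tendsto (fun n => ∑ j ∈ Fs n, c n j * c n j * f.eval (κ n j)) U (𝓝 (mom C f)) := by
      intro f
      refine (mom_tendsto (l := (U : Filter ℕ)) (fun n j => c n j * c n j) κ
        (fun M => (hC M).mono_left hU) f).congr' ?_
      filter_upwards [hU htopC] with n hn
      rw [hsplit n]
      have : ∑ j ∈ T n, c n j * c n j * f.eval (κ n j) = 0 :=
        Finset.sum_eq_zero fun j hj => by rw [hn j hj]; ring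
      rw [this, add_zero]
    -- the non-top eigenvalues
    have hnt : ∀ q, 0 < q → (Q q ∨ V ≤ q) → ∀ δ, 0 < δ → ∀ᶠ n in atTop, ∀ j ∈ Fs n,
        |κ n j| ≤ q + δ := by
      intro q hq hQq δ hδ
      rcases hQq with hQq | hVq
      · rcases lt_or_ge q V with hqV | hqV
        · set q' := min (q + δ) ((q + V) / 2) with hq'
          have h1 : q < q' := lt_min (by linarith) (by linarith)
          have h2 : q' < V := lt_of_le_of_lt (min_le_right _ _) (by linarith)
          filter_upwards [hiso q hq hQq q' h1 h2, hvμ] with n hn hvn j hj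
          by_contra hcon
          push Not at hcon
          have h3 : q' < |κ n j| := lt_of_le_of_lt (min_le_left _ _) hcon
          have h4 := (hn j h3).1
          have h5 := hF n j hj
          linarith
        · exact Eventually.of_forall fun n j hj => by linarith [hF n j hj]
      · exact Eventually.of_forall fun n j hj => by linarith [hF n j hj]
    -- positivity
    have hpos : ∀ q, 0 < q → (Q q ∨ V ≤ q) → ∀ p₁ p₂ f : Polynomial ℝ,
        (∀ x : ℝ, |x| ≤ q → 0 ≤ f.eval x) →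
        (A₀ * p₁.eval (σ * V) + B₀ * p₂.eval (σ * V)) ^ 2 * f.eval (σ * V) ≤
          mom S (p₁ * p₁ * f) + 2 * mom X (p₁ * p₂ * f) + mom B (p₂ * p₂ * f) := by
      intro q hq hQq p₁ p₂ f hf
      have h1 := hrem p₁ p₂ f
      have h2 := hrem p₁ p₂ 1
      simp only [Polynomial.eval_one, mul_one] at h2
      set R := mom S (p₁ * p₁ * f) + 2 * mom X (p₁ * p₂ * f) + mom B (p₂ * p₂ * f) -
            (A₀ * p₁.eval (σ * V) + B₀ * p₂.eval (σ * V)) ^ 2 * f.eval (σ * V) with hR
      set R1 := mom S (p₁ * p₁) + 2 * mom X (p₁ * p₂) + mom B (p₂ * p₂) -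
            (A₀ * p₁.eval (σ * V) + B₀ * p₂.eval (σ * V)) ^ 2 with hR1
      have h3 : ∀ ε : ℝ, 0 < ε → -ε * R1 ≤ R := by
        intro ε hε
        obtain ⟨δ, hδ, hfδ⟩ := poly_near f hq hf hε
        refine le_of_tendsto_of_tendsto (h2.const_mul (-ε)) h1 ?_
        filter_upwards [hU (hnt q hq hQq δ hδ)] with n hn
        exact sum_near (Fs n) (fun j => (a n j * p₁.eval (κ n j) + b n j * p₂.eval (κ n j)) ^ 2)
          (κ n) (fun j => sq_nonneg _) f (fun j hj _ => hfδ _ (hn j hj))
      have h4 : 0 ≤ R := by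
        have h5 : Tendsto (fun ε : ℝ => -ε * R1) (𝓝[>] 0) (𝓝 (-0 * R1)) := by
          apply Tendsto.mono_left _ nhdsWithin_le_nhds
          exact (continuous_id.neg.mul continuous_const).tendsto 0
        rw [neg_zero, zero_mul] at h5
        refine le_of_tendsto h5 ?_
        filter_upwards [self_mem_nhdsWithin] with ε hε
        exact h3 ε hε
      linarith
    have hposC : ∀ q, 0 < q → (Q q ∨ V ≤ q) → ∀ f : Polynomial ℝ,
        (∀ x : ℝ, |x| ≤ q → 0 ≤ f.eval x) → 0 ≤ mom C f := by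
      intro q hq hQq f hf
      have h1 := hremC f
      have h2 := hremC 1
      simp only [Polynomial.eval_one, mul_one] at h2
      have h3 : ∀ ε : ℝ, 0 < ε → -ε * mom C 1 ≤ mom C f := by
        intro ε hε
        obtain ⟨δ, hδ, hfδ⟩ := poly_near f hq hf hε
        refine le_of_tendsto_of_tendsto (h2.const_mul (-ε)) h1 ?_
        filter_upwards [hU (hnt q hq hQq δ hδ)] with n hn
        exact sum_near (Fs n) (fun j => c n j * c n j)
          (κ n) (fun j => hC2 n j) f (fun j hj _ => hfδ _ (hn j hj))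
      have h5 : Tendsto (fun ε : ℝ => -ε * mom C 1) (𝓝[>] 0) (𝓝 (-0 * mom C 1)) := by
        apply Tendsto.mono_left _ nhdsWithin_le_nhds
        exact (continuous_id.neg.mul continuous_const).tendsto 0
      rw [neg_zero, zero_mul] at h5
      refine le_of_tendsto h5 ?_
      filter_upwards [self_mem_nhdsWithin] with ε hε
      exact h3 ε hε
    have hposS : ∀ q, 0 < q → (QS q ∨ V ≤ q) → ∀ f : Polynomial ℝ,
        (∀ x : ℝ, |x| ≤ q → 0 ≤ f.eval x) → A₀ ^ 2 * f.eval (σ * V) ≤ mom S f := by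
      intro q hq hQq f hf
      have h1 := hrem 1 0 f
      have h2 := hrem 1 0 1
      simp only [Polynomial.eval_one, Polynomial.eval_zero, mul_one, mul_zero, add_zero, zero_mul,
        map_zero, one_mul] at h1 h2
      have hnt' : ∀ δ, 0 < δ → ∀ᶠ n in atTop, ∀ j ∈ Fs n, a n j ^ 2 ≠ 0 → |κ n j| ≤ q + δ := by
        intro δ hδ
        rcases lt_or_ge q V with hqV | hqV
        · have hQq' : QS q := by
            rcases hQq with h | h
            · exact h
            · exact absurd h (not_le.mpr hqV)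
          set q' := min (q + δ) ((q + V) / 2) with hq'
          have h1 : q < q' := lt_min (by linarith) (by linarith)
          have h2 : q' < V := lt_of_le_of_lt (min_le_right _ _) (by linarith)
          filter_upwards [hisoS q hq hQq' q' h1 h2, hvμ] with n hn hvn j hj haj
          by_contra hcon
          push Not at hcon
          have h3 : q' < |κ n j| := lt_of_le_of_lt (min_le_left _ _) hcon
          have h4 := (hn j (fun h0 => haj (by rw [h0]; ring)) h3).1
          have h5 := hF n j hj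
          linarith
        · exact Eventually.of_forall fun n j hj _ => by linarith [hF n j hj]
      have := nonneg_of_eps (R := mom S f - A₀ ^ 2 * f.eval (σ * V)) (R1 := mom S 1 - A₀ ^ 2)
        (fun ε hε => by
          obtain ⟨δ, hδ, hfδ⟩ := poly_near f hq hf hε
          refine le_of_tendsto_of_tendsto (h2.const_mul (-ε)) h1 ?_
          filter_upwards [hU (hnt' δ hδ)] with n hn
          exact sum_near (Fs n) (fun j => a n j ^ 2)
            (κ n) (fun j => sq_nonneg _) f (fun j hj haj => hfδ _ (hn j hj haj)))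
      linarith
    -- remainder moments are small
    have hsm : ∀ (x y : ℝ) (M : ℕ), |x ^ 2 * (S M - A₀ ^ 2 * (σ * V) ^ M) +
        2 * (x * y) * (X M - A₀ * B₀ * (σ * V) ^ M) + y ^ 2 * (B M - B₀ ^ 2 * (σ * V) ^ M)| ≤
        μ ^ M * (x ^ 2 * (S 0 - A₀ ^ 2) + 2 * (x * y) * (X 0 - A₀ * B₀) +
          y ^ 2 * (B 0 - B₀ ^ 2)) := by
      intro x y M
      have h1 := hrem (Polynomial.C x) (Polynomial.C y) (Polynomial.X ^ M)
      have h2 := hrem (Polynomial.C x) (Polynomial.C y) (Polynomial.X ^ 0)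
      simp only [← Polynomial.C_mul, mom_C_mul_X_pow, Polynomial.eval_C, Polynomial.eval_pow,
        Polynomial.eval_X, Polynomial.eval_one, pow_zero, mul_one] at h1 h2
      have e0 : ∀ m : ℕ → ℝ, ∀ z : ℝ, mom m (Polynomial.C z) = z * m 0 := by
        intro m z
        have := mom_C_mul_X_pow m 0 z
        rwa [pow_zero, mul_one] at this
      rw [e0, e0, e0] at h2
      have e1 : x * x * S M + 2 * (x * y * X M) + y * y * B M -
          (A₀ * x + B₀ * y) ^ 2 * (σ * V) ^ M = x ^ 2 * (S M - A₀ ^ 2 * (σ * V) ^ M) +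
        2 * (x * y) * (X M - A₀ * B₀ * (σ * V) ^ M) + y ^ 2 * (B M - B₀ ^ 2 * (σ * V) ^ M) := by
        ring
      have e2 : x * x * S 0 + 2 * (x * y * X 0) + y * y * B 0 -
          (A₀ * x + B₀ * y) ^ 2 = x ^ 2 * (S 0 - A₀ ^ 2) +
        2 * (x * y) * (X 0 - A₀ * B₀) + y ^ 2 * (B 0 - B₀ ^ 2) := by
        ring
      rw [e1] at h1
      rw [e2] at h2
      refine le_of_tendsto_of_tendsto h1.abs (h2.const_mul (μ ^ M)) (Eventually.of_forall fun n => ?_)
      refine (Finset.abs_sum_le_sum_abs _ _).trans ?_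
      show _ ≤ μ ^ M * ∑ j ∈ Fs n, (a n j * x + b n j * y) ^ 2
      rw [Finset.mul_sum]
      refine Finset.sum_le_sum fun j hj => ?_
      rw [abs_mul, abs_of_nonneg (sq_nonneg _), mul_comm]
      refine mul_le_mul_of_nonneg_right ?_ (sq_nonneg _)
      rw [abs_pow]
      exact pow_le_pow_left₀ (abs_nonneg _) (hF n j hj) M
    have hSm : ∀ M, |S M - A₀ ^ 2 * (σ * V) ^ M| ≤ μ ^ M * (S 0 - A₀ ^ 2) := by
      intro M
      have := hsm 1 0 M
      simpa using this
    have hBm : ∀ M, |B M - B₀ ^ 2 * (σ * V) ^ M| ≤ μ ^ M * (B 0 - B₀ ^ 2) := by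
      intro M
      have := hsm 0 1 M
      simpa using this
    -- `A₀ B₀ ≥ 0`
    have hAB : 0 ≤ A₀ * B₀ := by
      have hσ2 : σ ^ 2 = 1 := by rcases hσ with h | h <;> rw [h] <;> norm_num
      refine grow_nonneg (x := A₀ * B₀) (V := V) (μ := μ)
        (C := (1 ^ 2 * (S 0 - A₀ ^ 2) + 2 * (1 * 1) * (X 0 - A₀ * B₀) + 1 ^ 2 * (B 0 - B₀ ^ 2)) / 2 +
          ((S 0 - A₀ ^ 2) + (B 0 - B₀ ^ 2)) / 2) hμ0 hμ2 (k0 := 0) ?_
      intro k
      have e : (σ * V) ^ (2 * k) = V ^ (2 * k) := by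
        rw [mul_pow, pow_mul σ, hσ2, one_pow, one_mul]
      have h1 := (abs_le.1 (hsm 1 1 (2 * k))).2
      have h2 := (abs_le.1 (hSm (2 * k))).1
      have h3 := (abs_le.1 (hBm (2 * k))).1
      have h4 := hXpos (2 * k)
      rw [e] at h1 h2 h3
      rw [add_zero]
      nlinarith
    -- `σ = 1` or both vanish
    have hσcase : σ = 1 ∨ (A₀ = 0 ∧ B₀ = 0) := by
      rcases hσ with h | h
      · exact Or.inl h
      · right
        have e : ∀ k : ℕ, (σ * V) ^ (2 * k + 1) = -V ^ (2 * k + 1) := by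
          intro k
          rw [h, neg_one_mul, Odd.neg_pow ⟨k, rfl⟩]
        constructor
        · have h1 : 0 ≤ -A₀ ^ 2 := by
            refine grow_nonneg (x := -A₀ ^ 2) (V := V) (μ := μ) (C := S 0 - A₀ ^ 2) hμ0 hμ2
              (k0 := 1) ?_
            intro k
            have h1 := (abs_le.1 (hSm (2 * k + 1))).2
            have h2 := hSpos (2 * k + 1)
            rw [e] at h1
            nlinarith
          nlinarith [sq_nonneg A₀]
        · have h1 : 0 ≤ -B₀ ^ 2 := by
            refine grow_nonneg (x := -B₀ ^ 2) (V := V) (μ := μ) (C := B 0 - B₀ ^ 2) hμ0 hμ2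
              (k0 := 1) ?_
            intro k
            have h1 := (abs_le.1 (hBm (2 * k + 1))).2
            have h2 := hBpos (2 * k + 1)
            rw [e] at h1
            nlinarith
          nlinarith [sq_nonneg B₀]
    have habs : |A₀| * |B₀| = A₀ * B₀ := by rw [← abs_mul, abs_of_nonneg hAB]
    refine ⟨|A₀|, |B₀|, abs_nonneg _, abs_nonneg _, ?_, ?_, ?_, ?_, hposC⟩
    · intro q hq hQq f hf
      rw [sq_abs]
      rcases hσcase with h | ⟨h, -⟩
      · have := hposS q hq hQq f hf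
        rwa [h, one_mul] at this
      · have := hposS q hq hQq f hf
        rw [h] at this ⊢
        simpa using this
    · intro q hq hQq f hf
      rw [sq_abs]
      have h1 := hpos q hq hQq 0 1 f hf
      simp only [Polynomial.eval_one, Polynomial.eval_zero, mul_one, mul_zero, add_zero, zero_mul,
        map_zero, one_mul, zero_add] at h1
      rcases hσcase with h | ⟨-, h⟩
      · rwa [h, one_mul] at h1
      · rw [h] at h1 ⊢
        simpa using h1
    · intro q hq hQq _ p₁ p₂ f hf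
      have h1 := hpos q hq hQq p₁ p₂ f hf
      have h2 : (|A₀| * p₁.eval V + |B₀| * p₂.eval V) ^ 2 =
          (A₀ * p₁.eval V + B₀ * p₂.eval V) ^ 2 := by
        have h3 := sq_abs A₀
        have h4 := sq_abs B₀
        linear_combination (p₁.eval V) ^ 2 * h3 + (p₂.eval V) ^ 2 * h4 +
          2 * p₁.eval V * p₂.eval V * habs
      rw [h2]
      rcases hσcase with h | ⟨h, h'⟩
      · rwa [h, one_mul] at h1
      · rw [h, h'] at h1 ⊢
        simpa using h1
    · intro p₁ p₂ f hf
      have h1 := hpos V hV (Or.inr le_rfl) p₁ p₂ f hf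
      refine le_trans (mul_nonneg (sq_nonneg _) (hf _ ?_)) h1
      rw [abs_mul, abs_of_pos hV]
      rcases hσ with h | h <;> rw [h] <;> simp
  · -- no isolation: `ω = 0`
    have hQV : ∀ q, 0 < q → (Q q ∨ V ≤ q) → V ≤ q := by
      intro q hq h
      rcases h with h | h
      · by_contra hcon
        exact hex ⟨q, hq, not_le.mp hcon, h⟩
      · exact h
    obtain ⟨α, hα, hαS⟩ := single_limit κ a hV hv hS hSpos hub QS hisoS
    have hun : ∀ q, V ≤ q → ∀ p₁ p₂ f : Polynomial ℝ, (∀ x : ℝ, |x| ≤ q → 0 ≤ f.eval x) →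
        0 ≤ mom S (p₁ * p₁ * f) + 2 * mom X (p₁ * p₂ * f) + mom B (p₂ * p₂ * f) := by
      intro q hVq p₁ p₂ f hf
      have hq : 0 < q := lt_of_lt_of_le hV hVq
      have h1 := hquad atTop le_rfl p₁ p₂ f
      have h2 := hquad atTop le_rfl p₁ p₂ 1
      simp only [Polynomial.eval_one, mul_one] at h2
      exact nonneg_of_eps (fun ε hε => by
        obtain ⟨δ, hδ, hfδ⟩ := poly_near f hq hf hε
        refine le_of_tendsto_of_tendsto (h2.const_mul (-ε)) h1 ?_
        filter_upwards [hub (q + δ) (by linarith)] with n hn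
        exact sum_near univ (fun j => (a n j * p₁.eval (κ n j) + b n j * p₂.eval (κ n j)) ^ 2)
          (κ n) (fun j => sq_nonneg _) f (fun j _ _ => hfδ _ (hn j)))
    refine ⟨α, 0, hα, le_rfl, hαS, ?_, fun q _ _ h => absurd h hex, ?_, ?_⟩
    · intro q hq hQq f hf
      have := hun q (hQV q hq hQq) 0 1 f hf
      simpa using this
    · intro p₁ p₂ f hf
      exact hun V le_rfl p₁ p₂ f hf
    · intro q hq hQq f hf
      have hVq := hQV q hq hQq
      have h1 := mom_tendsto (l := atTop) (fun n j => c n j * c n j) κ hC f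
      have h2 := mom_tendsto (l := atTop) (fun n j => c n j * c n j) κ hC 1
      simp only [Polynomial.eval_one, mul_one] at h2
      exact nonneg_of_eps (fun ε hε => by
        obtain ⟨δ, hδ, hfδ⟩ := poly_near f hq hf hε
        refine le_of_tendsto_of_tendsto (h2.const_mul (-ε)) h1 ?_
        filter_upwards [hub (q + δ) (by linarith)] with n hn
        exact sum_near univ (fun j => c n j * c n j)
          (κ n) (fun j => hC2 n j) f (fun j _ _ => hfδ _ (hn j)))

end Hald
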