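import Crest.Agent.Hald.ChainOpen
import Crest.Agent.Hald.JointLimit

/-!
# Row 347, M5 OUTPUT 2: strips, mixed chains and open chains together; `theEdge : EdgeWorld theWorld`
-/

set_option autoImplicit false
set_option linter.unusedSectionVars false

namespace Hald

open Matrix Finset Filter Topology Crest.MathPhysics.SpinChain
open scoped ComplexOrder

/-- normalised partition function of the mixed chain: spin ½, then `M + 1` spins 1 with field `h` on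
the last one -/
noncomputable def aMixed (h e β : ℝ) (M : ℕ) : ℝ :=
  (Zch G1 (M + 1) (chD 2 3 M) 0 h β).re * Real.exp (β * ((M + 1 : ℕ) : ℝ) * e)

theorem aMixed_pos (h e β : ℝ) (M : ℕ) : 0 < aMixed h e β M := by
  refine mul_pos (Zch_G1_pos _ _ ?_ _ _ _) (Real.exp_pos _)
  intro i
  unfold chD
  split_ifs <;> norm_num

theorem mixed_tendsto (h : ℝ) {β : ℝ} (hβ : 0 ≤ β) (e : ℝ) (M : ℕ) :
    Tendsto (fun n : ℕ => Real.exp (β * e) *
      (ws G1 β n ⬝ᵥ (KN 1 β e n ^ M *ᵥ wr h β n))) atTop (𝓝 (aMixed h e β M)) := by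
  have h1 := (chain_tendsto_norm (dl := 2) (dr := 3) (by norm_num) (by norm_num) G1_three 0 h hβ e
    M).const_mul (Real.exp (β * e))
  have e1 : Real.exp (β * e) * ((Zch G1 (M + 1) (chD 2 3 M) 0 h β).re *
      Real.exp (β * M * e)) = aMixed h e β M := by
    unfold aMixed
    rw [mul_left_comm, ← Real.exp_add]
    congr 2
    push_cast
    ring
  rw [e1] at h1
  refine h1.congr fun n => ?_
  congr 1
  have hx : ∀ ω, wv G1 2 0 β n ω = (ws G1 β n ω : ℂ) + (((0 : Om n → ℝ) ω : ℝ) : ℂ) * Complex.I := by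
    intro ω
    have := congrFun (cv_ws cj_G1_two β n) ω
    rw [← this]
    simp [cv]
  rw [quad_re _ _ _ _ _ _ _ hx (wv_re_im h β n)]
  simp

/-- average over the two sign patterns of the end fields (`N + 2` sites) -/
noncomputable def bOpen (h e β : ℝ) (N : ℕ) : ℝ := (aOpen h h e β N + aOpen h (-h) e β N) / 2
/-- half difference -/
noncomputable def cOpen (h e β : ℝ) (N : ℕ) : ℝ := (aOpen h (-h) e β N - aOpen h h e β N) / 2

/-- the condition for the strips -/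
def SHyp (β q : ℝ) : Prop :=
  ∃ m : ℕ, 1 ≤ m ∧ secA 0 (fun t => theWorld.Z t β m) - (theWorld.V 0 β) ^ (2 * m) ≤ q ^ (2 * m)

theorem QHyp.sHyp {β q : ℝ} (h : QHyp β q) : SHyp β q := h.1

/-- spectral data for `g = 1`, extended -/
theorem exists_spec1 (β e : ℝ) (n : ℕ) :
    ∃ (Q : Matrix (Om (n + 1)) (Om (n + 1)) ℝ) (κ : Om (n + 1) → ℝ)
      (u : Om (n + 1) → Om (n + 1) → ℝ),
      (∀ j k, u j ⬝ᵥ u k = if j = k then 1 else 0) ∧
      (∀ x : Om (n + 1) → ℝ, (∀ ω, x (shiftOm ω) = x ω) → Q *ᵥ x = x) ∧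
      (∀ x y : Om (n + 1) → ℝ, Q *ᵥ x = x → Q *ᵥ y = y → ∀ M : ℕ,
        x ⬝ᵥ (KN 1 β e (n + 1) ^ M *ᵥ y) = ∑ j, (u j ⬝ᵥ x) * (u j ⬝ᵥ y) * κ j ^ M) ∧
      (∀ j, κ j ≠ 0 → TN 1 β e (n + 1) *ᵥ u j = (κ j ^ 2) • u j) ∧
      (KN 1 β e (n + 1) * Q)ᵀ = KN 1 β e (n + 1) * Q ∧
      (∀ j, (KN 1 β e (n + 1) * Q) *ᵥ u j = κ j • u j) ∧
      (∀ h, IsRot h → rho h (n + 1) * (KN 1 β e (n + 1) * Q) =
        (KN 1 β e (n + 1) * Q) * rho h (n + 1)) := by
  obtain ⟨Q, h1, h2, h3, h4, -, h6, h7⟩ := exists_shiftProj isDiagRot_one β (n + 1) (Nat.succ_pos n)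
  have hS : SymK (KN 1 β e (n + 1)) Q := by
    refine ⟨h1, h2, ?_, ?_⟩
    · unfold KN; rw [Matrix.mul_smul, Matrix.smul_mul, h3]
    · unfold KN; rw [Matrix.transpose_smul, Matrix.smul_mul, Matrix.smul_mul, h4]
  obtain ⟨κ, u, s1, s2, s3, -, s5⟩ := hS.spectral
  refine ⟨Q, κ, u, s1, fun x hx => h7 x fun ω => by rw [eps_one, one_mul]; exact hx ω, s2,
    fun j hj => ?_, hS.symm, s3, fun h hh => ?_⟩
  · rw [← TN_eq]
    exact s5 j hj
  · have hK : rho h (n + 1) * KN 1 β e (n + 1) = KN 1 β e (n + 1) * rho h (n + 1) := by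
      unfold KN
      rw [Matrix.mul_smul, Matrix.smul_mul, Kn_rho_comm hh (by simp)]
    rw [← Matrix.mul_assoc, hK, Matrix.mul_assoc, ← h6 rfl h, Matrix.mul_assoc]

/-- isolation of the top of the trivial sector -/
theorem strip_iso {β : ℝ} (hβ : 0 < β) {v : ℕ → ℝ}
    (hv : Tendsto v atTop (𝓝 (theWorld.V 0 β)))
    (htop : ∀ᶠ n in atTop, IsTopOf ((sec0 hβ).P n) (cplx (TN 1 β theE n)) (v n)) {q q' : ℝ}
    (hq : 0 < q) (hQ : SHyp β q) (hqq : q < q') :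
    ∀ᶠ n in atTop, ∀ (A : Matrix (Om n) (Om n) ℝ) (κ : Om n → ℝ) (u : Om n → Om n → ℝ)
      (x : Om n → ℝ), Aᵀ = A → (∀ h, IsRot h → rho h n * A = A * rho h n) →
      (∀ j, A *ᵥ u j = κ j • u j) →
      (∀ j, κ j ≠ 0 → TN 1 β theE n *ᵥ u j = (κ j ^ 2) • u j) →
      (sec0 hβ).P n *ᵥ cv x = cv x →
      ∀ j, u j ⬝ᵥ x ≠ 0 → q' < |κ j| → |κ j| = v n ∧
        ∀ k, u k ⬝ᵥ x ≠ 0 → q' < |κ k| → κ k = κ j := by
  obtain ⟨m0, hm0, h0⟩ := hQ
  have hq' : 0 < q' := hq.trans hqq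
  have hlt : ∀ m, 1 ≤ m → q ^ (2 * m) < q' ^ (2 * m) := fun m hm =>
    pow_lt_pow_left₀ hqq hq.le (by omega)
  have b0 : ∀ᶠ n in atTop, ((sec0 hβ).P n * cplx (TN 1 β theE n) ^ m0).trace.re - v n ^ (2 * m0) <
      q' ^ (2 * m0) :=
    (((sec0 hβ).hlim m0 hm0).sub (hv.pow (2 * m0))).eventually
      (gt_mem_nhds (h0.trans_lt (hlt m0 hm0)))
  filter_upwards [b0, htop] with n c0 ct A κ u x hAt hAρ hA hT hx j hj0 hj
  have hPA : (sec0 hβ).P n * cplx A = cplx A * (sec0 hβ).P n :=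
    PA_comm (hAρ _ isRot_gx) (hAρ _ isRot_gy) (hAρ _ isRot_gc)
  have hAH : (cplx A)ᴴ = cplx A := by rw [cplx_conjTranspose, hAt]
  -- the components in the sector
  have hsec : ∀ k, u k ⬝ᵥ x ≠ 0 → q' < |κ k| → ∃ z : Om n → ℂ, star z ⬝ᵥ z = 1 ∧
      (sec0 hβ).P n *ᵥ z = z ∧ cplx (TN 1 β theE n) *ᵥ z = ((κ k ^ 2 : ℝ) : ℂ) • z ∧
      cplx A *ᵥ z = (κ k : ℂ) • z := by
    intro k hk0 hk
    have hκ0 : κ k ≠ 0 := by
      intro h; rw [h, abs_zero] at hk; linarith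
    have e1 : cplx (TN 1 β theE n) *ᵥ cv (u k) = ((κ k ^ 2 : ℝ) : ℂ) • cv (u k) := by
      rw [cplx_mulVec, hT k hκ0, cv_smul]
    have e2 : cplx A *ᵥ cv (u k) = (κ k : ℂ) • cv (u k) := by
      rw [cplx_mulVec, hA k, cv_smul]
    set y := (sec0 hβ).P n *ᵥ cv (u k) with hy
    have hy0 : y ≠ 0 := by
      intro h0
      apply hk0
      have h1 : star y ⬝ᵥ cv x = 0 := by rw [h0]; simp
      rw [hy, Matrix.star_mulVec, ((sec0 hβ).hP n).herm, ← Matrix.dotProduct_mulVec, hx, star_cv,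
        cv_dot] at h1
      exact_mod_cast h1
    have hy1 : (sec0 hβ).P n *ᵥ y = y := by rw [hy, Matrix.mulVec_mulVec, ((sec0 hβ).hP n).idem]
    have hy2 : cplx (TN 1 β theE n) *ᵥ y = ((κ k ^ 2 : ℝ) : ℂ) • y := by
      rw [hy, Matrix.mulVec_mulVec, ← (sec0 hβ).hPT, ← Matrix.mulVec_mulVec, e1, Matrix.mulVec_smul]
    have hy3 : cplx A *ᵥ y = (κ k : ℂ) • y := by
      rw [hy, Matrix.mulVec_mulVec, ← hPA, ← Matrix.mulVec_mulVec, e2, Matrix.mulVec_smul]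
    obtain ⟨c, hc, hyy⟩ := star_dot_pos hy0
    have hs : Real.sqrt c ≠ 0 := (Real.sqrt_pos.2 hc).ne'
    refine ⟨(((Real.sqrt c)⁻¹ : ℝ) : ℂ) • y, ?_, ?_, ?_, ?_⟩
    · rw [star_smul, smul_dotProduct, dotProduct_smul, hyy, smul_eq_mul, smul_eq_mul]
      have h1 : star (((Real.sqrt c)⁻¹ : ℝ) : ℂ) = (((Real.sqrt c)⁻¹ : ℝ) : ℂ) :=
        Complex.conj_ofReal _
      rw [h1, ← Complex.ofReal_mul, ← Complex.ofReal_mul]
      have h2 : (Real.sqrt c)⁻¹ * ((Real.sqrt c)⁻¹ * c) = 1 := by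
        have h3 : Real.sqrt c * Real.sqrt c = c := Real.mul_self_sqrt hc.le
        field_simp
        nlinarith [h3]
      rw [h2, Complex.ofReal_one]
    · rw [Matrix.mulVec_smul, hy1]
    · rw [Matrix.mulVec_smul, hy2, smul_comm]
    · rw [Matrix.mulVec_smul, hy3, smul_comm]
  have hval : ∀ k, u k ⬝ᵥ x ≠ 0 → q' < |κ k| → κ k ^ 2 = v n ^ 2 := by
    intro k hk0 hk
    obtain ⟨z, z1, z2, z3, -⟩ := hsec k hk0 hk
    by_contra hne
    have hz0 : z ≠ 0 := by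
      intro h; rw [h] at z1; simp at z1
    have h3 := ct.two ((sec0 hβ).hP n) TN_psd hz0 z2 z3 hne m0
    have e3 : q' ^ 2 ≤ κ k ^ 2 := by
      rw [← sq_abs (κ k)]
      exact pow_le_pow_left₀ hq'.le hk.le 2
    have h4 : (q' ^ 2) ^ m0 ≤ (κ k ^ 2) ^ m0 := pow_le_pow_left₀ (by positivity) e3 m0
    rw [← pow_mul q'] at h4
    linarith
  refine ⟨?_, fun k hk0 hk => ?_⟩
  · have := (sq_eq_sq_iff_abs_eq_abs _ _).1 (hval j hj0 hj)
    rw [this, abs_of_pos ct.pos]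
  · by_contra hne
    obtain ⟨z, z1, z2, z3, z4⟩ := hsec j hj0 hj
    obtain ⟨y, y1, y2, y3, y4⟩ := hsec k hk0 hk
    have horth : star z ⬝ᵥ y = 0 := eig_orth hAH z4 y4 (Ne.symm hne)
    rw [hval j hj0 hj] at z3
    rw [hval k hk0 hk] at y3
    have h3 := trace_ge_two ((sec0 hβ).hP n) TN_psd z1 y1 horth z2 y2 z3 y3 m0
    have e3 : q' ^ 2 ≤ v n ^ 2 := by
      rw [← hval j hj0 hj, ← sq_abs (κ j)]
      exact pow_le_pow_left₀ hq'.le hj.le 2
    have h4 : (q' ^ 2) ^ m0 ≤ (v n ^ 2) ^ m0 := pow_le_pow_left₀ (by positivity) e3 m0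
    rw [← pow_mul q'] at h4
    rw [← pow_mul (v n)] at h3 h4
    linarith

/-- **OUTPUT 2.** -/
theorem joint_out (h : ℝ) {β : ℝ} (hβ : 0 < β) :
    ∃ α ω : ℝ, 0 ≤ α ∧ 0 ≤ ω ∧
      (∀ q, 0 < q → (SHyp β q ∨ theWorld.V 0 β ≤ q) → ∀ f : Polynomial ℝ,
        (∀ x : ℝ, |x| ≤ q → 0 ≤ f.eval x) →
        α ^ 2 * f.eval (theWorld.V 0 β) ≤ mom (aStrip G1 theE β) f) ∧
      (∀ q, 0 < q → (QHyp β q ∨ theWorld.V 0 β ≤ q) → ∀ f : Polynomial ℝ,
        (∀ x : ℝ, |x| ≤ q → 0 ≤ f.eval x) →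
        ω ^ 2 * f.eval (theWorld.V 0 β) ≤ mom (bOpen h theE β) f) ∧
      (∀ q, 0 < q → (QHyp β q ∨ theWorld.V 0 β ≤ q) →
        (∃ q₀, 0 < q₀ ∧ q₀ < theWorld.V 0 β ∧ QHyp β q₀) → ∀ p₁ p₂ f : Polynomial ℝ,
        (∀ x : ℝ, |x| ≤ q → 0 ≤ f.eval x) →
        (α * p₁.eval (theWorld.V 0 β) + ω * p₂.eval (theWorld.V 0 β)) ^ 2 *
            f.eval (theWorld.V 0 β) ≤
          mom (aStrip G1 theE β) (p₁ * p₁ * f) + 2 * mom (aMixed h theE β) (p₁ * p₂ * f) +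
            mom (bOpen h theE β) (p₂ * p₂ * f)) ∧
      (∀ p₁ p₂ f : Polynomial ℝ, (∀ x : ℝ, |x| ≤ theWorld.V 0 β → 0 ≤ f.eval x) →
        0 ≤ mom (aStrip G1 theE β) (p₁ * p₁ * f) + 2 * mom (aMixed h theE β) (p₁ * p₂ * f) +
            mom (bOpen h theE β) (p₂ * p₂ * f)) ∧
      (∀ q, 0 < q → (QHyp β q ∨ theWorld.V 0 β ≤ q) → ∀ f : Polynomial ℝ,
        (∀ x : ℝ, |x| ≤ q → 0 ≤ f.eval x) → 0 ≤ mom (cOpen h theE β) f) := by
  have hT := theWorld.hAtop0 β hβ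
  have hV : 0 < theWorld.V 0 β := lt_of_lt_of_le one_pos (theWorld.one_le_V β hβ)
  obtain ⟨v, hv, htop⟩ := sector_top (Ω := fun n => Om n) (sec0 hβ).P
    (fun n => cplx (TN 1 β theE n)) (sec0 hβ).hP (sec0 hβ).hPT (fun n => TN_psd) (sec0 hβ).hlim hV
    (fun m hm => hT.nat_le hm) (fun m hm => hT.nat_ratio hm)
  choose Q κ u hu hQ hsp hTu hsym hAu hAρ using fun n => exists_spec1 β theE n
  have hQr : ∀ n, Q n *ᵥ wr h β (n + 1) = wr h β (n + 1) := fun n =>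
    hQ n _ fun ω => wr_shift h β (n + 1) ω
  have hQi : ∀ n, Q n *ᵥ wi h β (n + 1) = wi h β (n + 1) := fun n =>
    hQ n _ fun ω => wi_shift h β (n + 1) ω
  have hQs : ∀ n, Q n *ᵥ ws G1 β (n + 1) = ws G1 β (n + 1) := fun n =>
    hQ n _ fun ω => congrArg Complex.re (wv_shift 2 0 β (n + 1) ω)
  have hPs : ∀ n, (sec0 hβ).P n *ᵥ cv (ws G1 β n) = cv (ws G1 β n) := by
    intro n
    rw [cv_ws cj_G1_two]
    exact PA_mulVec_one (rho_fix_of_transpose isRot_gx (rho_wv_two impl_two_gx β n))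
      (rho_fix_of_transpose isRot_gy (rho_wv_two impl_two_gy β n))
      (rho_fix_of_transpose isRot_gc (rho_wv_two impl_two_gc β n))
  set c0 := Real.exp (β * theE) with hc0
  have hc02 : Real.exp (2 * (β * theE)) = c0 * c0 := by rw [hc0, ← Real.exp_add]; ring_nf
  have t1 := tendsto_add_atTop_nat 1
  refine joint_limit κ (fun n j => u n j ⬝ᵥ ws G1 β (n + 1))
    (fun n j => c0 * (u n j ⬝ᵥ wr h β (n + 1))) (fun n j => c0 * (u n j ⬝ᵥ wi h β (n + 1)))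
    hV (hv.comp t1) ?_ ?_ ?_ ?_ (fun M => aStrip_pos theE β M) (fun M => aMixed_pos h theE β M)
    (fun M => ?_) ?_ (SHyp β) (QHyp β) ?_ ?_
  · intro M
    refine ((ws_tendsto cj_G1_two G1_three hβ.le theE M).comp t1).congr fun n => ?_
    rw [Function.comp_apply, hsp n _ _ (hQs n) (hQs n) M]
  · intro M
    refine ((mixed_tendsto h hβ.le theE M).comp t1).congr fun n => ?_
    rw [Function.comp_apply, hsp n _ _ (hQs n) (hQr n) M, Finset.mul_sum]
    exact Finset.sum_congr rfl fun j _ => by ring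
  · intro M
    have h1 := ((open_tendsto_same h hβ.le theE M).comp t1).add
      ((open_tendsto_opp h hβ.le theE M).comp t1)
    refine (h1.div_const 2).congr fun n => ?_
    simp only [Function.comp_apply]
    rw [hsp n _ _ (hQr n) (hQr n) M, hsp n _ _ (hQi n) (hQi n) M, hc02]
    have e1 : ∑ j, c0 * (u n j ⬝ᵥ wr h β (n + 1)) * (c0 * (u n j ⬝ᵥ wr h β (n + 1))) * κ n j ^ M =
        c0 * c0 * ∑ j, (u n j ⬝ᵥ wr h β (n + 1)) * (u n j ⬝ᵥ wr h β (n + 1)) * κ n j ^ M := by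
      rw [Finset.mul_sum]
      exact Finset.sum_congr rfl fun j _ => by ring
    rw [e1]
    ring
  · intro M
    have h1 := ((open_tendsto_opp h hβ.le theE M).comp t1).sub
      ((open_tendsto_same h hβ.le theE M).comp t1)
    refine (h1.div_const 2).congr fun n => ?_
    simp only [Function.comp_apply]
    rw [hsp n _ _ (hQr n) (hQr n) M, hsp n _ _ (hQi n) (hQi n) M, hc02]
    have e1 : ∑ j, c0 * (u n j ⬝ᵥ wi h β (n + 1)) * (c0 * (u n j ⬝ᵥ wi h β (n + 1))) * κ n j ^ M =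
        c0 * c0 * ∑ j, (u n j ⬝ᵥ wi h β (n + 1)) * (u n j ⬝ᵥ wi h β (n + 1)) * κ n j ^ M := by
      rw [Finset.mul_sum]
      exact Finset.sum_congr rfl fun j _ => by ring
    rw [e1]
    ring
  · have h1 := aOpen_pos h h theE β M
    have h2 := aOpen_pos h (-h) theE β M
    unfold bOpen
    linarith
  · intro q hq
    have hZ := theWorld.hZtopA β hβ
    obtain ⟨m, hm, hbm⟩ := exists_pow_bound hV (fun m hm => hZ.nat_ratio hm) hq
    have hq0 : 0 < q := hV.trans hq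
    filter_upwards [t1.eventually ((secZ hβ).bound hm hq0 hbm)] with n hn j
    by_cases hκ : κ n j = 0
    · rw [hκ, abs_zero]; exact hq0.le
    · refine abs_le_of_sq_le_sq (hn _ (cv (u n j)) ?_ ?_ ?_) hq0.le
      · intro h0
        have h3 : u n j = 0 := cv_inj (by rw [h0, cv_zero])
        have h4 := hu n j j
        rw [h3, if_pos rfl] at h4
        simp at h4
      · exact Matrix.one_mulVec _
      · rw [cplx_mulVec, hTu n j hκ, cv_smul]
  · intro q hq hQq q' hqq hq'V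
    filter_upwards [t1.eventually (strip_iso hβ hv htop hq hQq hqq)] with n hn j hj0 hj
    exact hn _ (κ n) (u n) (ws G1 β (n + 1)) (hsym n) (hAρ n) (hAu n) (hTu n) (hPs (n + 1)) j hj0 hj
  · intro q hq hQq q' hqq hq'V
    filter_upwards [t1.eventually (edge_iso hβ hv htop hq hQq hqq)] with n hn j hj
    obtain ⟨h1, h2, h3⟩ := hn (κ n) (u n) (hu n) (hTu n) j hj
    refine ⟨h1, ?_, h3⟩
    rw [dot_wi_zero h2, mul_zero]

/-! ### packaging -/

/-- the facts of OUTPUT 2 at inverse temperature `β`, end field `hF = 3/5` -/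
structure Joint (β α ω : ℝ) : Prop where
  α_nonneg : 0 ≤ α
  ω_nonneg : 0 ≤ ω
  /-- strips alone -/
  strip : ∀ q, 0 < q → (SHyp β q ∨ theWorld.V 0 β ≤ q) → ∀ f : Polynomial ℝ,
    (∀ x : ℝ, |x| ≤ q → 0 ≤ f.eval x) →
    α ^ 2 * f.eval (theWorld.V 0 β) ≤ mom (aStrip G1 theE β) f
  /-- open chains alone -/
  open_ : ∀ q, 0 < q → (QHyp β q ∨ theWorld.V 0 β ≤ q) → ∀ f : Polynomial ℝ,
    (∀ x : ℝ, |x| ≤ q → 0 ≤ f.eval x) →
    ω ^ 2 * f.eval (theWorld.V 0 β) ≤ mom (bOpen hF theE β) f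
  /-- joint positivity, top split off -/
  joint : ∀ q, 0 < q → (QHyp β q ∨ theWorld.V 0 β ≤ q) →
    (∃ q₀, 0 < q₀ ∧ q₀ < theWorld.V 0 β ∧ QHyp β q₀) → ∀ p₁ p₂ f : Polynomial ℝ,
    (∀ x : ℝ, |x| ≤ q → 0 ≤ f.eval x) →
    (α * p₁.eval (theWorld.V 0 β) + ω * p₂.eval (theWorld.V 0 β)) ^ 2 *
        f.eval (theWorld.V 0 β) ≤
      mom (aStrip G1 theE β) (p₁ * p₁ * f) + 2 * mom (aMixed hF theE β) (p₁ * p₂ * f) +
        mom (bOpen hF theE β) (p₂ * p₂ * f)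
  /-- joint positivity, unconditional -/
  joint0 : ∀ p₁ p₂ f : Polynomial ℝ, (∀ x : ℝ, |x| ≤ theWorld.V 0 β → 0 ≤ f.eval x) →
    0 ≤ mom (aStrip G1 theE β) (p₁ * p₁ * f) + 2 * mom (aMixed hF theE β) (p₁ * p₂ * f) +
        mom (bOpen hF theE β) (p₂ * p₂ * f)
  /-- the odd part of the end vector -/
  odd : ∀ q, 0 < q → (QHyp β q ∨ theWorld.V 0 β ≤ q) → ∀ f : Polynomial ℝ,
    (∀ x : ℝ, |x| ≤ q → 0 ≤ f.eval x) → 0 ≤ mom (cOpen hF theE β) f

theorem exists_joint {β : ℝ} (hβ : 0 < β) : ∃ α ω, Joint β α ω := by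
  obtain ⟨α, ω, h1, h2, h3, h4, h5, h6, h7⟩ := joint_out hF hβ
  exact ⟨α, ω, h1, h2, h3, h4, h5, h6, h7⟩

open Classical in
/-- overlap of the ground state with the strip end -/
noncomputable def theAlpha (β : ℝ) : ℝ := if h : 0 < β then (exists_joint h).choose else 0

open Classical in
/-- overlap of the ground state with the free end with field `3/5` -/
noncomputable def theOmega (β : ℝ) : ℝ :=
  if h : 0 < β then (exists_joint h).choose_spec.choose else 0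

theorem theJoint {β : ℝ} (hβ : 0 < β) : Joint β (theAlpha β) (theOmega β) := by
  unfold theAlpha theOmega
  rw [dif_pos hβ, dif_pos hβ]
  exact (exists_joint hβ).choose_spec.choose_spec

/-- discriminant -/
theorem sq_le_of_quad {A B C : ℝ} (h : ∀ t : ℝ, 0 ≤ A * t ^ 2 + 2 * B * t + C) : B ^ 2 ≤ A * C := by
  have h1 : discrim A (2 * B) C ≤ 0 := by
    apply discrim_le_zero
    intro x
    have := h x
    nlinarith
  unfold discrim at h1
  nlinarith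

/-- **Cauchy–Schwarz with the top split off** (`f = 1`: helper24's form) -/
theorem Joint.cs {β α ω : ℝ} (J : Joint β α ω) {q : ℝ} (hq : 0 < q)
    (hQ : QHyp β q ∨ theWorld.V 0 β ≤ q)
    (hex : ∃ q₀, 0 < q₀ ∧ q₀ < theWorld.V 0 β ∧ QHyp β q₀) (p₁ p₂ f : Polynomial ℝ)
    (hf : ∀ x : ℝ, |x| ≤ q → 0 ≤ f.eval x) :
    (mom (aMixed hF theE β) (p₁ * p₂ * f) - α * ω * p₁.eval (theWorld.V 0 β) *
        p₂.eval (theWorld.V 0 β) * f.eval (theWorld.V 0 β)) ^ 2 ≤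
      (mom (aStrip G1 theE β) (p₁ * p₁ * f) - α ^ 2 * p₁.eval (theWorld.V 0 β) ^ 2 *
        f.eval (theWorld.V 0 β)) *
      (mom (bOpen hF theE β) (p₂ * p₂ * f) - ω ^ 2 * p₂.eval (theWorld.V 0 β) ^ 2 *
        f.eval (theWorld.V 0 β)) := by
  refine sq_le_of_quad fun t => ?_
  have h := J.joint q hq hQ hex (Polynomial.C t * p₁) p₂ f hf
  have e1 : Polynomial.C t * p₁ * (Polynomial.C t * p₁) * f =
      (t ^ 2) • (p₁ * p₁ * f) := by
    rw [Polynomial.smul_eq_C_mul, Polynomial.C_pow]; ring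
  have e2 : Polynomial.C t * p₁ * p₂ * f = t • (p₁ * p₂ * f) := by
    rw [Polynomial.smul_eq_C_mul]; ring
  rw [e1, e2, map_smul, map_smul, smul_eq_mul, smul_eq_mul, Polynomial.eval_mul,
    Polynomial.eval_C] at h
  nlinarith

/-- unconditional Cauchy–Schwarz -/
theorem Joint.cs0 {β α ω : ℝ} (J : Joint β α ω) (p₁ p₂ f : Polynomial ℝ)
    (hf : ∀ x : ℝ, |x| ≤ theWorld.V 0 β → 0 ≤ f.eval x) :
    mom (aMixed hF theE β) (p₁ * p₂ * f) ^ 2 ≤
      mom (aStrip G1 theE β) (p₁ * p₁ * f) * mom (bOpen hF theE β) (p₂ * p₂ * f) := by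
  refine sq_le_of_quad fun t => ?_
  have h := J.joint0 (Polynomial.C t * p₁) p₂ f hf
  have e1 : Polynomial.C t * p₁ * (Polynomial.C t * p₁) * f =
      (t ^ 2) • (p₁ * p₁ * f) := by
    rw [Polynomial.smul_eq_C_mul, Polynomial.C_pow]; ring
  have e2 : Polynomial.C t * p₁ * p₂ * f = t • (p₁ * p₂ * f) := by
    rw [Polynomial.smul_eq_C_mul]; ring
  rw [e1, e2, map_smul, map_smul, smul_eq_mul, smul_eq_mul] at h
  nlinarith

/-! ### the edge world -/

theorem aMix_even {h e β : ℝ} {N : ℕ} (hN : Even N) :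
    aMix h e β N = bOpen h e β N + cOpen h e β N := by
  unfold aMix bOpen cOpen
  rw [if_pos hN]; ring

theorem aMix_odd {h e β : ℝ} {N : ℕ} (hN : Odd N) :
    aMix h e β N = bOpen h e β N - cOpen h e β N := by
  unfold aMix bOpen cOpen
  rw [if_neg (Nat.not_even_iff_odd.2 hN)]; ring

section

variable {β α ω : ℝ} (hβ : 0 < β) (J : Joint β α ω)
include hβ J

theorem Joint.rem_nonneg {N : ℕ} (hN : Even N) :
    ω ^ 2 * theWorld.V 0 β ^ N ≤ aMix hF theE β N := by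
  have hV : 0 < theWorld.V 0 β := lt_of_lt_of_le one_pos (theWorld.one_le_V β hβ)
  have hf : ∀ x : ℝ, |x| ≤ theWorld.V 0 β → 0 ≤ (Polynomial.X ^ N : Polynomial ℝ).eval x := by
    intro x _
    rw [Polynomial.eval_pow, Polynomial.eval_X]
    exact hN.pow_nonneg x
  have h1 := J.open_ _ hV (Or.inr le_rfl) _ hf
  have h2 := J.odd _ hV (Or.inr le_rfl) _ hf
  rw [mom_X_pow, Polynomial.eval_pow, Polynomial.eval_X] at h1
  rw [mom_X_pow] at h2
  rw [aMix_even hN]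
  linarith

theorem Joint.decay {q : ℝ} (hq : 0 < q) (hQ : QHyp β q) {N : ℕ} (hN : Even N) :
    aMix hF theE β (N + 2) - ω ^ 2 * theWorld.V 0 β ^ (N + 2) ≤
      q ^ 2 * (aMix hF theE β N - ω ^ 2 * theWorld.V 0 β ^ N) := by
  have hf : ∀ x : ℝ, |x| ≤ q → 0 ≤
      (Polynomial.C (q ^ 2) * Polynomial.X ^ N - Polynomial.X ^ (N + 2) : Polynomial ℝ).eval x := by
    intro x hx
    simp only [Polynomial.eval_sub, Polynomial.eval_mul, Polynomial.eval_pow, Polynomial.eval_X,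
      Polynomial.eval_C]
    have h1 : x ^ 2 ≤ q ^ 2 := by
      rw [← sq_abs x]; exact pow_le_pow_left₀ (abs_nonneg _) hx 2
    have h2 : 0 ≤ x ^ N := hN.pow_nonneg x
    have h3 : q ^ 2 * x ^ N - x ^ (N + 2) = (q ^ 2 - x ^ 2) * x ^ N := by ring
    rw [h3]
    exact mul_nonneg (by linarith) h2
  have h1 := J.open_ q hq (Or.inl hQ) _ hf
  have h2 := J.odd q hq (Or.inl hQ) _ hf
  rw [map_sub, mom_C_mul_X_pow, mom_X_pow] at h1 h2
  simp only [Polynomial.eval_sub, Polynomial.eval_mul, Polynomial.eval_pow, Polynomial.eval_X,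
      Polynomial.eval_C] at h1
  rw [aMix_even hN, aMix_even (hN.add even_two)]
  linarith

theorem Joint.odd_le {N : ℕ} (hN : Odd N) :
    |aMix hF theE β N - ω ^ 2 * theWorld.V 0 β ^ N| ≤
      Real.sqrt ((aMix hF theE β (N - 1) - ω ^ 2 * theWorld.V 0 β ^ (N - 1)) *
        (aMix hF theE β (N + 1) - ω ^ 2 * theWorld.V 0 β ^ (N + 1))) := by
  obtain ⟨k, rfl⟩ := hN
  have e1 : 2 * k + 1 - 1 = 2 * k := by omega
  have e2 : 2 * k + 1 + 1 = 2 * k + 2 := by ring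
  rw [e1, e2]
  apply Real.abs_le_sqrt
  refine sq_le_of_quad fun t => ?_
  have hV : 0 < theWorld.V 0 β := lt_of_lt_of_le one_pos (theWorld.one_le_V β hβ)
  have hf : ∀ s : ℝ, ∀ x : ℝ, |x| ≤ theWorld.V 0 β → 0 ≤
      (Polynomial.C (t ^ 2) * Polynomial.X ^ (2 * k) + Polynomial.C (2 * s * t) *
        Polynomial.X ^ (2 * k + 1) + Polynomial.C (s ^ 2) * Polynomial.X ^ (2 * k + 2) :
          Polynomial ℝ).eval x := by
    intro s x _
    simp only [Polynomial.eval_add, Polynomial.eval_mul, Polynomial.eval_pow, Polynomial.eval_X,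
      Polynomial.eval_C]
    have h3 : t ^ 2 * x ^ (2 * k) + 2 * s * t * x ^ (2 * k + 1) + s ^ 2 * x ^ (2 * k + 2) =
        ((t + s * x) * x ^ k) ^ 2 := by ring
    rw [h3]
    exact sq_nonneg _
  have h1 := J.open_ _ hV (Or.inr le_rfl) _ (hf 1)
  have h2 := J.odd _ hV (Or.inr le_rfl) _ (hf (-1))
  rw [map_add, map_add, mom_C_mul_X_pow, mom_C_mul_X_pow, mom_C_mul_X_pow] at h1 h2
  simp only [Polynomial.eval_add, Polynomial.eval_mul, Polynomial.eval_pow, Polynomial.eval_X,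
      Polynomial.eval_C] at h1
  rw [aMix_even (even_two_mul k), aMix_odd ⟨k, rfl⟩, aMix_even ((even_two_mul k).add even_two)]
  linarith

end

/-- **the edge world of the spin-1 Heisenberg chain with end fields 3/5** -/
noncomputable def theEdge : EdgeWorld theWorld where
  ao := fun β M => aMix hF theE β (M - 2)
  om2 := fun β => theOmega β ^ 2
  G := fun M => (aMix_top (M - 2)).choose
  om2_nonneg := fun β _ => sq_nonneg _
  ao_pos := fun β _ M _ => by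
    unfold aMix
    split_ifs <;> exact aOpen_pos _ _ _ _ _
  rem_nonneg := fun β hβ M hM he =>
    (theJoint hβ).rem_nonneg hβ (N := M - 2) (by
      obtain ⟨k, hk⟩ := he; exact ⟨k - 1, by omega⟩)
  decay := fun β hβ q hq h0 h1 h2 M hM he => by
    have h := (theJoint hβ).decay hβ hq ⟨h0, h1, h2⟩ (N := M - 2) (by
      obtain ⟨k, hk⟩ := he; exact ⟨k - 1, by omega⟩)
    have e1 : M - 2 + 2 = M := by omega
    have e2 : M + 2 - 2 = M := by omega
    rw [e1] at h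
    rw [e2]
    exact h
  odd := fun β hβ M hM ho => by
    have h := (theJoint hβ).odd_le hβ (N := M - 2) (by
      obtain ⟨k, hk⟩ := ho; exact ⟨k - 1, by omega⟩)
    have e1 : M - 2 - 1 = M - 3 := by omega
    have e2 : M - 2 + 1 = M - 1 := by omega
    have e3 : M - 1 - 2 = M - 3 := by omega
    have e4 : M + 1 - 2 = M - 1 := by omega
    rw [e1, e2] at h
    rw [e3, e4]
    exact h
  time := fun M _ => (aMix_top (M - 2)).choose_spec

theorem theEdge_om2 (β : ℝ) : theEdge.om2 β = theOmega β ^ 2 := rfl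

theorem theEdge_ao (β : ℝ) (M : ℕ) : theEdge.ao β M = aMix hF theE β (M - 2) := rfl

/-- `ao` for odd `M` is the prelude's open chain -/
theorem theEdge_ao_odd {β : ℝ} {M : ℕ} (hM : 3 ≤ M) (ho : Odd M) :
    theEdge.ao β M = (NormedSpace.exp ((-β) • openChainEndField (M - 1) (3 / 5))).trace.re *
      Real.exp (β * (M * theE)) := by
  obtain ⟨N, rfl⟩ : ∃ N, M = N + 2 := ⟨M - 2, by omega⟩
  have hN : ¬ Even N := by
    rw [Nat.not_even_iff_odd]
    obtain ⟨k, hk⟩ := ho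
    exact ⟨k - 1, by omega⟩
  have e1 : N + 2 - 2 = N := by omega
  have e2 : N + 2 - 1 = N + 1 := by omega
  show aMix hF theE β (N + 2 - 2) = _
  rw [e1, e2]
  unfold aMix aOpen
  rw [if_neg hN, openChainEndField_eq]
  unfold Zch hF
  have e3 : tens (κ := fun _ : Fin (N + 1 + 1) => Fin 3) (fun _ => G1 3) = 1 := tens_one
  rw [e3, Matrix.one_mul]
  congr 2
  ring

end Hald
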