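import Crest.Agent.Hald.EdgeBasic

/-!
# Row 347, M9b: the tail induction (`β_k = 192·2^k`, `M ∈ [1920·2^k, 3840·2^k+1]`)
-/

set_option autoImplicit false

namespace Hald

namespace EdgeWorld

variable {w : World} (E : EdgeWorld w)

/-- ratio step, with the remainder estimated from the amplitude at `β` itself -/
theorem ratio_step {β ρ q A η : ℝ} (hβ : 0 < β) {M₀ M : ℕ} (hM₀ : 2 ≤ M₀) (he₀ : Even M₀)
    (hM : M₀ ≤ M) (he : Even M) (hr : E.rr β M ≤ ρ) (hq : Dec w (2 * β) q)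
    (hA : E.ao β M₀ ≤ A * E.om2 β) (hη : (1 + ρ) ^ 2 * q ^ (M - M₀) * A ^ 2 ≤ η) (hη1 : η < 1) :
    E.om2 β ^ 2 ≤ (1 + ρ) ^ 2 / (1 - η) * E.om2 (2 * β) := by
  have h2β : 0 < 2 * β := by linarith
  have hM2 : 2 ≤ M := hM₀.trans hM
  have hr0 := E.rr_nonneg hM2 hβ
  have hq0 := hq.1
  have hV := w.one_le_V β hβ
  have hV2 := w.V_anti β (2 * β) hβ (by linarith)
  have hV20 : 0 < w.V 0 (2 * β) := lt_of_lt_of_le one_pos (w.one_le_V _ h2β)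
  have ho := E.om2_nonneg β hβ
  have ho2 := E.om2_nonneg _ h2β
  have ha0 := E.ao_pos β hβ M₀ hM₀
  have ha02 := E.ao_pos _ h2β M₀ hM₀
  have h1 : E.om2 β * (w.V 0 β) ^ (M - 2) ≤ E.ao β M := E.rem_nonneg β hβ M hM2 he
  have e3 : E.G M ^ ((2 : ℝ) * β) = (E.G M ^ β) ^ 2 := by
    rw [mul_comm, Real.rpow_mul (E.G_pos hM2).le, Real.rpow_two]
  have hG := E.Gpow_pos hM2 β
  have hsq : E.ao β M ^ 2 ≤ (1 + ρ) ^ 2 * E.ao (2 * β) M := by
    have hg := E.G_le hM2 h2β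
    rw [e3] at hg
    calc E.ao β M ^ 2 = (1 + E.rr β M) ^ 2 * (E.G M ^ β) ^ 2 := by
          rw [E.ao_eq hM2 β]; ring
      _ ≤ (1 + ρ) ^ 2 * (E.G M ^ β) ^ 2 := by gcongr
      _ ≤ (1 + ρ) ^ 2 * E.ao (2 * β) M := by gcongr
  have hR : E.R (2 * β) M ≤ q ^ (M - M₀) * (A ^ 2 * E.om2 β ^ 2) := by
    have h2 := E.abs_R_le h2β hq hM₀ he₀ hM
    have h3 := E.R_le h2β M₀
    have h4 := E.ao_pow hM₀ hβ (n := 2) (by norm_num)
    have h5 : E.ao (2 * β) M₀ ≤ A ^ 2 * E.om2 β ^ 2 := by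
      calc E.ao (2 * β) M₀ ≤ E.ao β M₀ ^ 2 := by exact_mod_cast h4
        _ ≤ (A * E.om2 β) ^ 2 := by gcongr
        _ = _ := by ring
    calc E.R (2 * β) M ≤ |E.R (2 * β) M| := le_abs_self _
      _ ≤ q ^ (M - M₀) * E.R (2 * β) M₀ := h2
      _ ≤ q ^ (M - M₀) * (A ^ 2 * E.om2 β ^ 2) := by gcongr; linarith
  have hao : E.ao (2 * β) M ≤ E.om2 (2 * β) * (w.V 0 β) ^ (M - 2) +
      q ^ (M - M₀) * (A ^ 2 * E.om2 β ^ 2) := by
    have : E.ao (2 * β) M = E.om2 (2 * β) * (w.V 0 (2 * β)) ^ (M - 2) + E.R (2 * β) M := by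
      unfold R; ring
    rw [this]
    gcongr
  have hVp : 1 ≤ (w.V 0 β) ^ (M - 2) := one_le_pow₀ hV
  set P := (w.V 0 β) ^ (M - 2) with hP
  have h6 : E.om2 β ^ 2 * P ^ 2 ≤ (1 + ρ) ^ 2 * (E.om2 (2 * β) * P) + η * E.om2 β ^ 2 := by
    calc E.om2 β ^ 2 * P ^ 2 = (E.om2 β * P) ^ 2 := by ring
      _ ≤ E.ao β M ^ 2 := by gcongr
      _ ≤ (1 + ρ) ^ 2 * E.ao (2 * β) M := hsq
      _ ≤ (1 + ρ) ^ 2 * (E.om2 (2 * β) * P + q ^ (M - M₀) * (A ^ 2 * E.om2 β ^ 2)) := by gcongr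
      _ = (1 + ρ) ^ 2 * (E.om2 (2 * β) * P) +
          ((1 + ρ) ^ 2 * q ^ (M - M₀) * A ^ 2) * E.om2 β ^ 2 := by ring
      _ ≤ _ := by gcongr
  have hη0 : 0 ≤ η := le_trans (by positivity) hη
  have h7 : η * E.om2 β ^ 2 ≤ η * E.om2 β ^ 2 * P ^ 2 :=
    le_mul_of_one_le_right (by positivity) (one_le_pow₀ hVp)
  have h8 : ((1 - η) * E.om2 β ^ 2) * P * P ≤ ((1 + ρ) ^ 2 * E.om2 (2 * β)) * P := by
    nlinarith
  have hPpos : 0 < P := by linarith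
  have h9 : ((1 - η) * E.om2 β ^ 2) * P ≤ (1 + ρ) ^ 2 * E.om2 (2 * β) :=
    le_of_mul_le_mul_right h8 hPpos
  have h10 : (1 - η) * E.om2 β ^ 2 ≤ ((1 - η) * E.om2 β ^ 2) * P :=
    le_mul_of_one_le_right (mul_nonneg (by linarith) (by positivity)) hVp
  rw [div_mul_eq_mul_div, le_div_iff₀ (by linarith)]
  linarith

/-- the uniform decay rate: `q^128 = 0.28` -/
noncomputable def qs : ℝ := (28 / 100 : ℝ) ^ ((1 : ℝ) / 128)

theorem qs_pos : 0 < qs := Real.rpow_pos_of_pos (by norm_num) _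

theorem qs_pow : qs ^ 128 = 28 / 100 := by
  unfold qs
  rw [← Real.rpow_natCast, ← Real.rpow_mul (by norm_num)]
  norm_num

theorem qs_lt_one : qs < 1 := Real.rpow_lt_one (by norm_num) (by norm_num) (by norm_num)

/-- the ring facts at `β = 2^j·48` -/
theorem dec_iter (h48 : w.Z 0 48 64 ≤ 1.01) (j : ℕ) : Dec w (2 ^ j * 48) qs := by
  have h := w.iterate (β := 48) (ε := 1 / 100) (by norm_num) (m := 64) (by norm_num)
    (by norm_num) (by norm_num) (by norm_num at h48 ⊢; linarith) j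
  refine dec_of_Z (by positivity) qs_pos (m := 2 ^ j * 64)
    (Nat.one_le_iff_ne_zero.mpr (by positivity)) ?_
  have e : qs ^ (2 * (2 ^ j * 64)) = (28 / 100 : ℝ) ^ (2 ^ j) := by
    rw [← qs_pow, ← pow_mul]
    congr 1
    ring
  rw [e]
  have e2 : (28 * (1 / 100 : ℝ)) = 28 / 100 := by norm_num
  rw [e2] at h
  have h0 : (0 : ℝ) ≤ (28 / 100 : ℝ) ^ (2 ^ j) := by positivity
  linarith

theorem V_iter (h48 : w.Z 0 48 64 ≤ 1.01) (j : ℕ) :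
    (w.V 0 (2 ^ j * 48)) ^ (2 ^ j * 128) ≤ 1 + (28 / 100 : ℝ) ^ (2 ^ j) / 28 := by
  have h := w.iterate (β := 48) (ε := 1 / 100) (by norm_num) (m := 64) (by norm_num)
    (by norm_num) (by norm_num) (by norm_num at h48 ⊢; linarith) j
  have e2 : (28 * (1 / 100 : ℝ)) = 28 / 100 := by norm_num
  rw [e2] at h
  have h1 := (w.hZtopA (2 ^ j * 48) (by positivity)).top_le (x := 2 ^ j * 64)
    (show 1 ≤ 2 ^ j * 64 from Nat.one_le_iff_ne_zero.mpr (by positivity))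
  have e : (w.V 0 (2 ^ j * 48)) ^ (2 * ((2 ^ j * 64 : ℕ) : ℝ)) =
      (w.V 0 (2 ^ j * 48)) ^ (2 ^ j * 128) := by
    rw [← Real.rpow_natCast (w.V 0 (2 ^ j * 48)) (2 ^ j * 128)]
    congr 1
    push_cast
    ring
  rw [e] at h1
  exact h1.trans h

theorem pow_scale {a b : ℝ} (ha : 0 ≤ a) (hab : a ≤ b) (hb : 0 < b) {n : ℕ} (hn : 1 ≤ n) :
    a ^ n ≤ a / b * b ^ n := by
  obtain ⟨k, rfl⟩ := Nat.exists_eq_add_of_le' hn
  have h : a ^ k ≤ b ^ k := pow_le_pow_left₀ ha hab k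
  calc a ^ (k + 1) = a ^ k * a := pow_succ _ _
    _ ≤ b ^ k * a := by gcongr
    _ = a / b * b ^ (k + 1) := by rw [pow_succ]; field_simp

/-- the state of the tail induction at level `k` (`t_k = 0.32^(2^k)`, amplitude `25.6^(2^k)/1.28`) -/
def Tail (M₀ k : ℕ) : Prop :=
  E.om2 (2 ^ k * 192) ^ 2 ≤ (1 + 7 / 8 * (32 / 100 : ℝ) ^ (2 ^ k)) * E.om2 (2 * (2 ^ k * 192)) ∧
    E.ao (2 ^ k * 192) M₀ ≤ (256 / 10 : ℝ) ^ (2 ^ k) / (128 / 100) * E.om2 (2 ^ k * 192)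

theorem t_le (k : ℕ) : (32 / 100 : ℝ) ^ (2 ^ k) ≤ 32 / 100 := by
  calc (32 / 100 : ℝ) ^ (2 ^ k) ≤ (32 / 100 : ℝ) ^ 1 :=
        pow_le_pow_of_le_one (by norm_num) (by norm_num) Nat.one_le_two_pow
    _ = _ := pow_one _

theorem Tail.amp {M₀ k : ℕ} (hM₀ : 2 ≤ M₀) {E : EdgeWorld w} (h : E.Tail M₀ k) :
    E.ao (2 ^ (k + 1) * 192) M₀ ≤
      (256 / 10 : ℝ) ^ (2 ^ (k + 1)) / (128 / 100) * E.om2 (2 ^ (k + 1) * 192) := by
  obtain ⟨h1, h2⟩ := h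
  have hβ : (0 : ℝ) < 2 ^ k * 192 := by positivity
  have h3 := E.amp_step hβ hM₀ h2 h1
  have e1 : (2 : ℝ) ^ (k + 1) * 192 = 2 * (2 ^ k * 192) := by rw [pow_succ]; ring
  rw [e1]
  refine h3.trans ?_
  have ho := E.om2_nonneg (2 * (2 ^ k * 192)) (by positivity)
  have ht := t_le k
  gcongr
  calc ((256 / 10 : ℝ) ^ 2 ^ k / (128 / 100)) ^ 2 * (1 + 7 / 8 * (32 / 100) ^ 2 ^ k)
      ≤ ((256 / 10 : ℝ) ^ 2 ^ k / (128 / 100)) ^ 2 * (128 / 100) := by gcongr; linarith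
    _ = (256 / 10 : ℝ) ^ 2 ^ (k + 1) / (128 / 100) := by
        rw [pow_succ 2 k, pow_mul]; ring

theorem q_bound {M₀ M k : ℕ} (hM₀ : M₀ ≤ 128) (hM : 1920 * 2 ^ k ≤ M) :
    qs ^ (M - M₀) ≤ ((28 / 100 : ℝ) ^ 15) ^ (2 ^ k) / (28 / 100) := by
  have h1 : (1 : ℕ) ≤ 2 ^ k := Nat.one_le_two_pow
  have h2 : qs ^ (M - M₀) ≤ qs ^ (1920 * 2 ^ k - 128) :=
    pow_le_pow_of_le_one qs_pos.le qs_lt_one.le (by omega)
  refine h2.trans (le_of_eq ?_)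
  rw [eq_div_iff (by norm_num), ← qs_pow, ← pow_mul, ← pow_mul, ← pow_add]
  congr 1
  omega

theorem tail_num {t : ℝ} (ht0 : 0 < t) (ht1 : t ≤ 32 / 100) :
    (1 + 915 / 1000 * t) * (1 + (t / 2) ^ 2) ≤ (1 + t / 2) ^ 2 * (1 - t / 1000) := by
  have ht2 : t ^ 2 ≤ 32 / 100 * t := by nlinarith
  have ht3 : t ^ 3 ≤ 11 / 100 * t := by nlinarith [mul_pos ht0 ht0]
  have e : (1 + t / 2) ^ 2 * (1 - t / 1000) - (1 + 915 / 1000 * t) * (1 + (t / 2) ^ 2) =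
      84 / 1000 * t - t ^ 2 / 1000 - 229 / 1000 * t ^ 3 := by ring
  have : 0 ≤ 84 / 1000 * t - t ^ 2 / 1000 - 229 / 1000 * t ^ 3 := by linarith
  linarith

theorem tail_num2 {t : ℝ} (ht0 : 0 < t) (ht1 : t ≤ 32 / 100) :
    (1 + 7 / 8 * t) * (1 + 2 / 100 * t) * (1 + t / 1000) ^ 2 / (1 - t / 1000) * (1 + (t / 2) ^ 2) ≤
      (1 + t / 2) ^ 2 := by
  have h1 : 0 < 1 - t / 1000 := by linarith
  rw [div_mul_eq_mul_div, div_le_iff₀ h1]
  have ht2 : t ^ 2 ≤ 32 / 100 * t := by nlinarith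
  have ha : (1 + 7 / 8 * t) * (1 + 2 / 100 * t) ≤ 1 + 91 / 100 * t := by nlinarith
  have hb : (1 + t / 1000) ^ 2 ≤ 1 + 3 / 1000 * t := by nlinarith
  have hc : (1 + 91 / 100 * t) * (1 + 3 / 1000 * t) ≤ 1 + 915 / 1000 * t := by nlinarith
  calc (1 + 7 / 8 * t) * (1 + 2 / 100 * t) * (1 + t / 1000) ^ 2 * (1 + (t / 2) ^ 2)
      ≤ (1 + 91 / 100 * t) * (1 + 3 / 1000 * t) * (1 + (t / 2) ^ 2) := by gcongr
    _ ≤ (1 + 915 / 1000 * t) * (1 + (t / 2) ^ 2) := by gcongr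
    _ ≤ (1 + t / 2) ^ 2 * (1 - t / 1000) := tail_num ht0 ht1

theorem Tail.rr_le {M₀ k : ℕ} (hM₀ : 2 ≤ M₀) (he₀ : Even M₀) (hM₀' : M₀ ≤ 128)
    (h48 : w.Z 0 48 64 ≤ 1.01) {E : EdgeWorld w}
    (h : E.Tail M₀ k) {M : ℕ} (hM : 1920 * 2 ^ k ≤ M) (hM' : M ≤ 3840 * 2 ^ k + 1) :
    E.rr (2 ^ k * 192) M ≤ (32 / 100 : ℝ) ^ (2 ^ k) / 2 := by
  have h2k : (1 : ℕ) ≤ 2 ^ k := Nat.one_le_two_pow
  have hβ : (0 : ℝ) < 2 ^ k * 192 := by positivity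
  have e1 : (2 : ℝ) ^ (k + 1) * 192 = 2 * (2 ^ k * 192) := by rw [pow_succ]; ring
  have e2 : (2 : ℝ) ^ (k + 2) * 48 = 2 ^ k * 192 := by rw [pow_add]; ring
  have e3 : (2 : ℝ) ^ (k + 3) * 48 = 2 * (2 ^ k * 192) := by rw [pow_add]; ring
  have hamp := h.amp hM₀
  obtain ⟨hC, hA⟩ := h
  rw [e1] at hamp
  have hq1 : Dec w (2 ^ k * 192) qs := by rw [← e2]; exact dec_iter h48 _
  have hq2 : Dec w (2 * (2 ^ k * 192)) qs := by rw [← e3]; exact dec_iter h48 _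
  have hqb := q_bound (k := k) hM₀' hM
  set t := (32 / 100 : ℝ) ^ (2 ^ k) with ht
  have ht0 : 0 < t := by positivity
  have ht1 : t ≤ 32 / 100 := t_le k
  -- closeness at `β`
  have hs1 : qs ^ (M - M₀) * ((256 / 10 : ℝ) ^ (2 ^ k) / (128 / 100)) ≤ t / 1000 := by
    calc qs ^ (M - M₀) * ((256 / 10 : ℝ) ^ (2 ^ k) / (128 / 100))
        ≤ ((28 / 100 : ℝ) ^ 15) ^ (2 ^ k) / (28 / 100) * ((256 / 10 : ℝ) ^ (2 ^ k) / (128 / 100)) := by
          gcongr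
      _ = ((28 / 100 : ℝ) ^ 15 * (256 / 10)) ^ (2 ^ k) / ((28 / 100) * (128 / 100)) := by
          rw [mul_pow]; ring
      _ ≤ ((1 / 100000 : ℝ)) ^ (2 ^ k) / ((28 / 100) * (128 / 100)) := by
          gcongr
          norm_num
      _ ≤ ((1 / 100000 : ℝ) / (32 / 100) * t) / ((28 / 100) * (128 / 100)) := by
          gcongr
          exact pow_scale (by norm_num) (by norm_num) (by norm_num) h2k
      _ ≤ t / 1000 := by
          rw [div_le_iff₀ (by norm_num)]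
          norm_num
          linarith
  have hs2 : qs ^ (M - M₀) * ((256 / 10 : ℝ) ^ (2 ^ (k + 1)) / (128 / 100)) ≤ t / 1000 := by
    calc qs ^ (M - M₀) * ((256 / 10 : ℝ) ^ (2 ^ (k + 1)) / (128 / 100))
        ≤ ((28 / 100 : ℝ) ^ 15) ^ (2 ^ k) / (28 / 100) *
          ((256 / 10 : ℝ) ^ (2 ^ (k + 1)) / (128 / 100)) := by
          gcongr
      _ = ((28 / 100 : ℝ) ^ 15 * (256 / 10) ^ 2) ^ (2 ^ k) / ((28 / 100) * (128 / 100)) := by
          rw [mul_pow, pow_succ 2 k, mul_comm (2 ^ k) 2, pow_mul]; ring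
      _ ≤ ((1 / 100000 : ℝ)) ^ (2 ^ k) / ((28 / 100) * (128 / 100)) := by
          gcongr
          norm_num
      _ ≤ ((1 / 100000 : ℝ) / (32 / 100) * t) / ((28 / 100) * (128 / 100)) := by
          gcongr
          exact pow_scale (by norm_num) (by norm_num) (by norm_num) h2k
      _ ≤ t / 1000 := by
          rw [div_le_iff₀ (by norm_num)]
          norm_num
          linarith
  have hc1 : E.Close (2 ^ k * 192) M (t / 1000) :=
    E.close_of_amp hβ hq1 hM₀ he₀ (by omega) hA hs1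
  have hc2 : E.Close (2 * (2 ^ k * 192)) M (t / 1000) :=
    E.close_of_amp (by positivity) hq2 hM₀ he₀ (by omega) hamp hs2
  -- V
  have hV : (w.V 0 (2 ^ k * 192)) ^ (2 * (M - 2)) ≤ 1 + 2 / 100 * t := by
    have h1 := V_iter h48 (k + 2)
    rw [e2] at h1
    have hx : (28 / 100 : ℝ) ^ (2 ^ (k + 2)) ≤ 2 / 100 * t := by
      have e4 : (28 / 100 : ℝ) ^ (2 ^ (k + 2)) = ((28 / 100 : ℝ) ^ 4) ^ (2 ^ k) := by
        rw [← pow_mul]
        congr 1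
        rw [pow_add]; ring
      rw [e4]
      refine (pow_scale (b := 32 / 100) (by norm_num) (by norm_num) (by norm_num) h2k).trans ?_
      rw [← ht]
      have : (28 / 100 : ℝ) ^ 4 / (32 / 100) ≤ 2 / 100 := by norm_num
      gcongr
    have hx0 : (0 : ℝ) ≤ (28 / 100 : ℝ) ^ (2 ^ (k + 2)) := by positivity
    have hV1 := w.one_le_V (2 ^ k * 192) hβ
    have h2 : (w.V 0 (2 ^ k * 192)) ^ (2 * (M - 2)) ≤
        ((w.V 0 (2 ^ k * 192)) ^ (2 ^ (k + 2) * 128)) ^ 15 := by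
      rw [← pow_mul]
      apply pow_le_pow_right₀ hV1
      have : 2 ^ (k + 2) * 128 * 15 = 7680 * 2 ^ k := by rw [pow_add]; ring
      omega
    have h3 : ((w.V 0 (2 ^ k * 192)) ^ (2 ^ (k + 2) * 128)) ^ 15 ≤
        (1 + (28 / 100 : ℝ) ^ (2 ^ (k + 2)) / 28) ^ 15 := by gcongr
    have h4 : (1 + (28 / 100 : ℝ) ^ (2 ^ (k + 2)) / 28) ^ 15 ≤ (1 + t / 1400) ^ 15 :=
      pow_le_pow_left₀ (by positivity) (by linarith) 15
    have h5 : (1 + t / 1400) ^ 15 ≤ 1 + 2 / 100 * t := by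
      have ha : (1 + t / 1400) ^ 15 ≤ 1 / (1 - 15 * (t / 1400)) := by
        have hb : 1 + (-(15 : ℕ) : ℝ) * (t / 1400) ≤ (1 - t / 1400) ^ 15 := by
          have := one_add_mul_le_pow (a := -(t / 1400)) (by linarith) 15
          have e : (1 + -(t / 1400)) = 1 - t / 1400 := by ring
          rw [e] at this
          push_cast at this ⊢
          linarith
        push_cast at hb
        have hc : 0 < 1 - 15 * (t / 1400) := by linarith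
        rw [le_div_iff₀ hc]
        calc (1 + t / 1400) ^ 15 * (1 - 15 * (t / 1400))
            ≤ (1 + t / 1400) ^ 15 * (1 - t / 1400) ^ 15 := by
              apply mul_le_mul_of_nonneg_left _ (by positivity)
              linarith
          _ = (1 - (t / 1400) ^ 2) ^ 15 := by
              rw [← mul_pow]; congr 1; ring
          _ ≤ 1 := by
            apply pow_le_one₀
            · nlinarith
            · nlinarith
      refine ha.trans ?_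
      rw [div_le_iff₀ (by linarith)]
      nlinarith
    linarith
  have hN := E.N_le hβ (M := M) (by omega) hC hc1 hc2 (by positivity) (by linarith)
    (by positivity) hV
  refine E.rr_of_N (by omega) hβ (by positivity) (by linarith) ?_ hN
  exact tail_num2 ht0 ht1

theorem Tail.step {M₀ k : ℕ} (hM₀ : 2 ≤ M₀) (he₀ : Even M₀) (hM₀' : M₀ ≤ 128)
    (h48 : w.Z 0 48 64 ≤ 1.01) {E : EdgeWorld w} (h : E.Tail M₀ k) : E.Tail M₀ (k + 1) := by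
  have h2k : (1 : ℕ) ≤ 2 ^ k := Nat.one_le_two_pow
  have hβ : (0 : ℝ) < 2 ^ k * 192 := by positivity
  have e1 : (2 : ℝ) ^ (k + 1) * 192 = 2 * (2 ^ k * 192) := by rw [pow_succ]; ring
  have e4 : (2 : ℝ) ^ (k + 4) * 48 = 2 * (2 ^ (k + 1) * 192) := by
    rw [pow_add, pow_succ]; ring
  refine ⟨?_, h.amp hM₀⟩
  have hr := h.rr_le hM₀ he₀ hM₀' h48 (M := 1920 * 2 ^ k) le_rfl (by omega)
  have hr2 := E.rr_pow_le (by omega) hβ hr (n := 2) (by norm_num)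
  have hamp := h.amp hM₀
  have hq : Dec w (2 * (2 ^ (k + 1) * 192)) qs := by rw [← e4]; exact dec_iter h48 _
  have hqb := q_bound (k := k) hM₀' (M := 1920 * 2 ^ k) le_rfl
  set t := (32 / 100 : ℝ) ^ (2 ^ k) with ht
  have ht0 : 0 < t := by positivity
  have ht1 : t ≤ 32 / 100 := t_le k
  have et : (32 / 100 : ℝ) ^ (2 ^ (k + 1)) = t ^ 2 := by rw [ht, pow_succ 2 k, pow_mul]
  rw [et]
  have hr3 : E.rr (2 ^ (k + 1) * 192) (1920 * 2 ^ k) ≤ (t / 2) ^ 2 := by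
    rw [e1]; exact_mod_cast hr2
  have hη : (1 + (t / 2) ^ 2) ^ 2 * qs ^ (1920 * 2 ^ k - M₀) *
      ((256 / 10 : ℝ) ^ (2 ^ (k + 1)) / (128 / 100)) ^ 2 ≤ 6 / 100 * t ^ 2 := by
    have e5 : ((256 / 10 : ℝ) ^ (2 ^ (k + 1))) ^ 2 = ((256 / 10 : ℝ) ^ 4) ^ (2 ^ k) := by
      rw [← pow_mul, ← pow_mul]
      congr 1
      rw [pow_succ]; ring
    have e6 : t ^ 2 = ((32 / 100 : ℝ) ^ 2) ^ (2 ^ k) := by
      rw [ht, ← pow_mul, ← pow_mul, mul_comm]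
    have e7 : ((256 / 10 : ℝ) ^ (2 ^ (k + 1)) / (128 / 100)) ^ 2 =
        ((256 / 10 : ℝ) ^ 4) ^ (2 ^ k) / (128 / 100) ^ 2 := by rw [div_pow, e5]
    have hqn : 0 ≤ qs ^ (1920 * 2 ^ k - M₀) := pow_nonneg qs_pos.le _
    calc (1 + (t / 2) ^ 2) ^ 2 * qs ^ (1920 * 2 ^ k - M₀) *
          ((256 / 10 : ℝ) ^ (2 ^ (k + 1)) / (128 / 100)) ^ 2
        ≤ (1 + (32 / 100 / 2) ^ 2) ^ 2 * (((28 / 100 : ℝ) ^ 15) ^ (2 ^ k) / (28 / 100)) *
          ((256 / 10 : ℝ) ^ (2 ^ (k + 1)) / (128 / 100)) ^ 2 := by gcongr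
      _ = (1 + (32 / 100 / 2) ^ 2) ^ 2 * ((28 / 100 : ℝ) ^ 15 * (256 / 10) ^ 4) ^ (2 ^ k) /
          (28 / 100 * (128 / 100) ^ 2) := by
          rw [e7, mul_pow]; ring
      _ ≤ (1 + (32 / 100 / 2) ^ 2) ^ 2 * (22 / 10000) ^ (2 ^ k) /
          (28 / 100 * (128 / 100) ^ 2) := by
          gcongr
          norm_num
      _ ≤ (1 + (32 / 100 / 2) ^ 2) ^ 2 * ((22 / 10000) / (32 / 100) ^ 2 *
          ((32 / 100 : ℝ) ^ 2) ^ (2 ^ k)) / (28 / 100 * (128 / 100) ^ 2) := by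
          gcongr
          exact pow_scale (by norm_num) (by norm_num) (by norm_num) h2k
      _ ≤ 6 / 100 * t ^ 2 := by
          rw [← e6, div_le_iff₀ (by norm_num)]
          have : 0 < t ^ 2 := by positivity
          norm_num
          nlinarith
  have hη1 : 6 / 100 * t ^ 2 < 1 := by nlinarith
  have h3 := E.ratio_step (by positivity) hM₀ he₀ (by omega) ((Nat.even_mul).mpr (Or.inl (by decide)))
    hr3 hq hamp hη hη1
  refine h3.trans ?_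
  have ho := E.om2_nonneg (2 * (2 ^ (k + 1) * 192)) (by positivity)
  gcongr
  rw [div_le_iff₀ (by linarith)]
  have ht2 : t ^ 2 ≤ 11 / 100 := by nlinarith
  have ht20 : 0 < t ^ 2 := by positivity
  have : (t / 2) ^ 2 = t ^ 2 / 4 := by ring
  rw [this]
  set u := t ^ 2 with hu
  nlinarith

theorem Tail.all {M₀ : ℕ} (hM₀ : 2 ≤ M₀) (he₀ : Even M₀) (hM₀' : M₀ ≤ 128)
    (h48 : w.Z 0 48 64 ≤ 1.01) {E : EdgeWorld w} (h : E.Tail M₀ 0) (k : ℕ) : E.Tail M₀ k := by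
  induction k with
  | zero => exact h
  | succ k ih => exact ih.step hM₀ he₀ hM₀' h48

theorem exp_bound (k : ℕ) : (32 / 100 : ℝ) ^ (2 ^ k) / 2 < Real.exp (-(2 ^ k * 192 * (59 / 10000))) := by
  have e1 : Real.exp (-(2 ^ k * 192 * (59 / 10000))) = Real.exp (-(192 * 59 / 10000)) ^ (2 ^ k) := by
    rw [← Real.exp_nat_mul]
    congr 1
    push_cast
    ring
  rw [e1]
  have h1 : (32 / 100 : ℝ) ≤ Real.exp (-(192 * 59 / 10000)) := by
    -- exp(-1.1328) = 0.3221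
    have h2 : Real.exp 1 < 2.7182818286 := Real.exp_one_lt_d9
    have h3 : -(1328 / 10000 : ℝ) + 1 ≤ Real.exp (-(1328 / 10000)) := Real.add_one_le_exp _
    have h4 : Real.exp (-(1328 / 10000)) = Real.exp (-(332 / 10000)) ^ 4 := by
      rw [← Real.exp_nat_mul]; congr 1; norm_num
    have h5 : -(332 / 10000 : ℝ) + 1 ≤ Real.exp (-(332 / 10000)) := Real.add_one_le_exp _
    have h6 : (1 - 332 / 10000 : ℝ) ^ 4 ≤ Real.exp (-(332 / 10000)) ^ 4 := by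
      gcongr
      linarith
    have h7 : Real.exp (-(192 * 59 / 10000)) = Real.exp (-1) * Real.exp (-(1328 / 10000)) := by
      rw [← Real.exp_add]; congr 1; norm_num
    rw [h7, h4, Real.exp_neg]
    have h8 : (1 / 2.7182818286 : ℝ) ≤ (Real.exp 1)⁻¹ := by
      rw [one_div]
      gcongr
    calc (32 / 100 : ℝ) ≤ 1 / 2.7182818286 * (1 - 332 / 10000) ^ 4 := by norm_num
      _ ≤ (Real.exp 1)⁻¹ * Real.exp (-(332 / 10000)) ^ 4 := by gcongr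
  have h2 : (32 / 100 : ℝ) ^ (2 ^ k) ≤ Real.exp (-(192 * 59 / 10000)) ^ (2 ^ k) := by gcongr
  have h3 : 0 < (32 / 100 : ℝ) ^ (2 ^ k) := by positivity
  linarith

/-- the conclusion from the state at `β = 192` -/
theorem gap_of_tail {M₀ : ℕ} (hM₀ : 2 ≤ M₀) (he₀ : Even M₀) (hM₀' : M₀ ≤ 128)
    (h48 : w.Z 0 48 64 ≤ 1.01) {E : EdgeWorld w} (h : E.Tail M₀ 0) {M : ℕ} (hM : 1920 ≤ M) :
    ∃ β : ℝ, 0 < β ∧ E.ao β M < (E.G M) ^ β * (1 + Real.exp (-(β * (59 / 10000)))) := by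
  obtain ⟨k, hk1, hk2⟩ : ∃ k : ℕ, 1920 * 2 ^ k ≤ M ∧ M ≤ 3840 * 2 ^ k + 1 := by
    refine ⟨Nat.log 2 (M / 1920), ?_, ?_⟩
    · have h1 : 2 ^ Nat.log 2 (M / 1920) ≤ M / 1920 := Nat.pow_log_le_self 2 (by omega)
      omega
    · have h1 : M / 1920 < 2 ^ (Nat.log 2 (M / 1920) + 1) := Nat.lt_pow_succ_log_self (by norm_num) _
      rw [pow_succ] at h1
      omega
  have hr := (h.all hM₀ he₀ hM₀' h48 k).rr_le hM₀ he₀ hM₀' h48 hk1 hk2
  refine ⟨2 ^ k * 192, by positivity, ?_⟩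
  rw [E.ao_eq (by omega)]
  have hG := E.Gpow_pos (M := M) (by omega) (2 ^ k * 192)
  have := exp_bound k
  gcongr
  linarith

end EdgeWorld

end Hald
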