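import Crest.Agent.Hald.FinalRing
import Crest.Agent.Hald.ChainJoint
import Crest.Agent.Hald.EdgeTail

/-!
# Row 347: final wrapper for S0546 (from the edge world and the end game of helper45)
-/

set_option autoImplicit false

namespace Hald

open Matrix Finset Crest.MathPhysics.SpinChain

/-- gap of the open chain with an odd number `2L+1` of sites from a trace inequality of `theEdge` -/
theorem open_gap_of {L : ℕ} (hL : 1 ≤ L) {β c : ℝ} (hβ : 0 < β)
    (hg : theEdge.ao β (2 * L + 1) <
      (theEdge.G (2 * L + 1)) ^ β * (1 + Real.exp (-(β * c)))) :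
    HasSimpleGroundStateWithGap (openChainEndField (2 * L) (3 / 5)) c := by
  refine open_gap theEdge theE (n := 2 * L) (by omega) (fun b _ => ?_) hβ hg
  have h := theEdge_ao_odd (β := b) (M := 2 * L + 1) (by omega) ⟨L, rfl⟩
  rw [h]
  have e1 : 2 * L + 1 - 1 = 2 * L := by omega
  rw [e1]
  push_cast
  rfl

theorem log_ten_le : Real.log 10 / 392 ≤ 59 / 10000 := by
  have h2 := Real.log_two_lt_d9
  have h1 : Real.log (5 / 4) ≤ 233 / 1000 := by
    rw [Real.log_le_iff_le_exp (by norm_num)]
    have h := Real.quadratic_le_exp_of_nonneg (x := 233 / 1000) (by norm_num)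
    norm_num at h
    linarith
  have h3 : Real.log 10 = 3 * Real.log 2 + Real.log (5 / 4) := by
    rw [← Real.log_rpow (by norm_num), ← Real.log_mul (by norm_num) (by norm_num)]
    norm_num
  rw [h3]
  linarith

/-- **S0546** from the base of helper45's tail induction. -/
theorem S0546_of {M₀ : ℕ} (hM₀ : 2 ≤ M₀) (he₀ : Even M₀) (hM₀' : M₀ ≤ 128)
    (h48 : theWorld.Z 0 48 64 ≤ 1.01) (h : theEdge.Tail M₀ 0) (L : ℕ) (hL : 960 ≤ L) :
    HasSimpleGroundStateWithGap (openChainEndField (2 * L) (3 / 5)) (Real.log 10 / 392) := by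
  obtain ⟨β, hβ, hg⟩ := EdgeWorld.gap_of_tail hM₀ he₀ hM₀' h48 h (M := 2 * L + 1) (by omega)
  have h1 := open_gap_of (by omega) hβ hg
  exact gap_mono log_ten_le h1

end Hald
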