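import Crest.Agent.Hald.EdgeLists

/-!
# Row 347, chunk H (helper34): the abstract facts `EJ0`, `EJ` for the scaled sequences
-/

set_option autoImplicit false

namespace Hald

/-- abstract facts without the split-off top -/
structure EJ0 (V : ℝ) (S X B : ℕ → ℝ) : Prop where
  one_le_V : 1 ≤ V
  strip : ∀ f : Polynomial ℝ, (∀ x : ℝ, |x| ≤ V → 0 ≤ f.eval x) → 0 ≤ mom S f
  open_ : ∀ f : Polynomial ℝ, (∀ x : ℝ, |x| ≤ V → 0 ≤ f.eval x) → 0 ≤ mom B f
  cs : ∀ p₁ p₂ : Polynomial ℝ, mom X (p₁ * p₂) ^ 2 ≤ mom S (p₁ * p₁) * mom B (p₂ * p₂)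

theorem mom_mul_const (a : ℕ → ℝ) (c : ℝ) (f : Polynomial ℝ) :
    mom (fun k => a k * c) f = mom a f * c := by
  induction f using Polynomial.induction_on' with
  | add p q hp hq => rw [map_add, map_add, hp, hq]; ring
  | monomial k d => rw [mom_monomial, mom_monomial]; ring

theorem mom_sS (n : ℕ) (f : Polynomial ℝ) :
    mom (sS n) f = mom (aStrip G1 ehat n) f * (7383 / 10000) ^ (2 * n) := mom_mul_const _ _ _

theorem mom_sX (n : ℕ) (f : Polynomial ℝ) :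
    mom (sX n) f = mom (aMixed hF ehat n) f * (7383 / 10000 * (1223 / 1000)) ^ n :=
  mom_mul_const _ _ _

theorem mom_sB (n : ℕ) (f : Polynomial ℝ) :
    mom (sB n) f = mom (bOpen hF ehat n) f * (1223 / 1000) ^ (2 * n) := mom_mul_const _ _ _

theorem nat_pos_real {n : ℕ} (hn : 1 ≤ n) : (0 : ℝ) < n := by
  have : (1 : ℝ) ≤ n := by exact_mod_cast hn
  linarith

theorem C_smul_comb (t : ℝ) (p₁ p₂ : Polynomial ℝ) :
    Polynomial.C t * p₁ * (Polynomial.C t * p₁) * 1 = (t ^ 2) • (p₁ * p₁) ∧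
      Polynomial.C t * p₁ * p₂ * 1 = t • (p₁ * p₂) := by
  constructor
  · rw [Polynomial.smul_eq_C_mul, Polynomial.C_pow]; ring
  · rw [Polynomial.smul_eq_C_mul]; ring

theorem ej0 (he : theE ≤ ehat) {n : ℕ} (hn : 1 ≤ n) : EJ0 (hatV ehat 0 n) (sS n) (sX n) (sB n) := by
  have hβ := nat_pos_real hn
  have J := theHatJoint ehat hβ
  have hV1 : 1 ≤ hatV ehat 0 n := one_le_hatV hβ he
  have hV0 : 0 < hatV ehat 0 n := by linarith
  have hself : |hatV ehat 0 n| ≤ hatV ehat 0 n := by rw [abs_of_pos hV0]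
  refine ⟨hV1, ?_, ?_, ?_⟩
  · intro f hf
    have h := J.strip _ hV0 (Or.inr le_rfl) f hf
    rw [mom_sS]
    exact mul_nonneg ((mul_nonneg (sq_nonneg _) (hf _ hself)).trans h) (by positivity)
  · intro f hf
    have h := J.open_ _ hV0 (Or.inr le_rfl) f hf
    rw [mom_sB]
    exact mul_nonneg ((mul_nonneg (sq_nonneg _) (hf _ hself)).trans h) (by positivity)
  · intro p₁ p₂
    have key : mom (aMixed hF ehat n) (p₁ * p₂) ^ 2 ≤
        mom (aStrip G1 ehat n) (p₁ * p₁) * mom (bOpen hF ehat n) (p₂ * p₂) := by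
      refine sq_le_of_quad fun t => ?_
      have h := J.joint0 (Polynomial.C t * p₁) p₂ 1 (fun x _ => by simp)
      obtain ⟨e1, e2⟩ := C_smul_comb t p₁ p₂
      rw [e1, e2, mul_one, map_smul, map_smul, smul_eq_mul, smul_eq_mul] at h
      nlinarith
    rw [mom_sS, mom_sX, mom_sB, mul_pow (7383 / 10000 : ℝ), pow_mul' (7383 / 10000 : ℝ) 2 n,
      pow_mul' (1223 / 1000 : ℝ) 2 n]
    have ha : (0 : ℝ) < (7383 / 10000 : ℝ) ^ n := by positivity
    have hb : (0 : ℝ) < (1223 / 1000 : ℝ) ^ n := by positivity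
    generalize (7383 / 10000 : ℝ) ^ n = a at ha ⊢
    generalize (1223 / 1000 : ℝ) ^ n = b at hb ⊢
    have h2 := mul_le_mul_of_nonneg_right key (show (0 : ℝ) ≤ (a * b) ^ 2 by positivity)
    refine le_trans (le_of_eq (by ring)) (h2.trans (le_of_eq ?_))
    ring

noncomputable def sAlpha (n : ℕ) : ℝ := theAlpha n * (7383 / 10000) ^ n
noncomputable def sOmega (n : ℕ) : ℝ := hatOmega ehat n * (1223 / 1000) ^ n

theorem HS_of_SHyp {e' β κ : ℝ} (h : SHyp β κ) : HS e' β (κ * sc β e') := by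
  obtain ⟨m, hm, h⟩ := h
  refine ⟨m, hm, ?_⟩
  rw [secA_hat, hatV, mul_pow, mul_pow, ← sub_mul]
  exact mul_le_mul_of_nonneg_right h (pow_pos (sc_pos _ _) _).le

theorem HS.mono {e' β q q' : ℝ} (h : HS e' β q) (h0 : 0 ≤ q) (hq : q ≤ q') : HS e' β q' := by
  obtain ⟨m, hm, h⟩ := h
  exact ⟨m, hm, h.trans (pow_le_pow_left₀ h0 hq _)⟩

theorem HQ_of_QHyp {e' β κ : ℝ} (h : QHyp β κ) : HQ e' β (κ * sc β e') := by
  obtain ⟨h0, ⟨m1, hm1, h1⟩, ⟨m2, hm2, h2⟩⟩ := h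
  refine ⟨HS_of_SHyp h0, ⟨m1, hm1, ?_⟩, ⟨m2, hm2, ?_⟩⟩
  · rw [secA_hat, mul_pow]
    exact mul_le_mul_of_nonneg_right h1 (pow_pos (sc_pos _ _) _).le
  · rw [secA_hat, mul_pow]
    exact mul_le_mul_of_nonneg_right h2 (pow_pos (sc_pos _ _) _).le

/-- `κ` in the true normalisation: `q = κ * sc ≤ κ * hatV` because `1 ≤ V`. -/
theorem ej (he : theE ≤ ehat) {n : ℕ} (hn : 1 ≤ n) {κ : ℝ} (h0 : 0 < κ) (hκ : SHyp n κ)
    (hq : ∃ q₀, 0 < q₀ ∧ q₀ < theWorld.V 0 n ∧ QHyp n q₀) :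
    EJ (hatV ehat 0 n) κ (sAlpha n) (sOmega n) (sS n) (sX n) (sB n) := by
  have hβ := nat_pos_real hn
  have J := theHatJoint ehat hβ
  have hs := sc_pos n ehat
  have hV1 : 1 ≤ hatV ehat 0 n := one_le_hatV hβ he
  have hV0 : 0 < hatV ehat 0 n := by linarith
  have hscV : κ * sc n ehat ≤ κ * hatV ehat 0 n := by
    refine mul_le_mul_of_nonneg_left ?_ h0.le
    have := theWorld.one_le_V n hβ
    unfold hatV
    nlinarith
  have hex : ∃ q₀, 0 < q₀ ∧ q₀ < hatV ehat 0 n ∧ HQ ehat n q₀ := by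
    obtain ⟨q₀, h1, h2, h3⟩ := hq
    exact ⟨q₀ * sc n ehat, mul_pos h1 hs, mul_lt_mul_of_pos_right h2 hs, HQ_of_QHyp h3⟩
  refine ⟨hV1, mul_nonneg J.α_nonneg (by positivity), mul_nonneg J.ω_nonneg (by positivity),
    ?_, ?_, ?_, ?_⟩
  · intro f l hl hf
    have hκs : 0 < κ * sc n ehat := mul_pos h0 hs
    have h := J.strip l (hκs.trans_le (hscV.trans hl))
      (Or.inl ((HS_of_SHyp hκ).mono hκs.le (hscV.trans hl))) f hf
    rw [mom_sS, sAlpha]
    have h2 := mul_le_mul_of_nonneg_right h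
      (show (0 : ℝ) ≤ (7383 / 10000) ^ (2 * n) by positivity)
    refine le_trans (le_of_eq ?_) h2
    ring
  · intro f hf
    have h := J.strip _ hV0 (Or.inr le_rfl) f hf
    rw [mom_sS, sAlpha]
    have h2 := mul_le_mul_of_nonneg_right h
      (show (0 : ℝ) ≤ (7383 / 10000) ^ (2 * n) by positivity)
    refine le_trans (le_of_eq ?_) h2
    ring
  · intro f hf
    have h := J.open_ _ hV0 (Or.inr le_rfl) f hf
    rw [mom_sB, sOmega]
    have h2 := mul_le_mul_of_nonneg_right h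
      (show (0 : ℝ) ≤ (1223 / 1000) ^ (2 * n) by positivity)
    refine le_trans (le_of_eq ?_) h2
    ring
  · intro p₁ p₂
    set V := hatV ehat 0 n with hV
    set α := theAlpha n with hα
    set ω := hatOmega ehat n with hω
    have key : (mom (aMixed hF ehat n) (p₁ * p₂) - α * ω * p₁.eval V * p₂.eval V) ^ 2 ≤
        (mom (aStrip G1 ehat n) (p₁ * p₁) - α ^ 2 * p₁.eval V ^ 2) *
          (mom (bOpen hF ehat n) (p₂ * p₂) - ω ^ 2 * p₂.eval V ^ 2) := by
      refine sq_le_of_quad fun t => ?_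
      have h := J.joint V hV0 (Or.inr le_rfl) hex (Polynomial.C t * p₁) p₂ 1 (fun x _ => by simp)
      obtain ⟨e1, e2⟩ := C_smul_comb t p₁ p₂
      rw [e1, e2, mul_one, map_smul, map_smul, smul_eq_mul, smul_eq_mul, Polynomial.eval_mul,
        Polynomial.eval_C, Polynomial.eval_one, mul_one] at h
      nlinarith
    rw [mom_sS, mom_sX, mom_sB, sAlpha, sOmega, ← hα, ← hω, mul_pow (7383 / 10000 : ℝ),
      pow_mul' (7383 / 10000 : ℝ) 2 n, pow_mul' (1223 / 1000 : ℝ) 2 n]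
    have ha : (0 : ℝ) < (7383 / 10000 : ℝ) ^ n := by positivity
    have hb : (0 : ℝ) < (1223 / 1000 : ℝ) ^ n := by positivity
    generalize (7383 / 10000 : ℝ) ^ n = a at ha ⊢
    generalize (1223 / 1000 : ℝ) ^ n = b at hb ⊢
    have h2 := mul_le_mul_of_nonneg_right key (show (0 : ℝ) ≤ (a * b) ^ 2 by positivity)
    refine le_trans (le_of_eq ?_) (h2.trans (le_of_eq ?_))
    · ring
    · ring

end Hald
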