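import Crest.Agent.Hald.Pieces
import Crest.Agent.Hald.HatEJ
import Crest.Agent.Hald.EdgeBase
import Crest.Agent.Hald.EdgeBaseNum
import Crest.Agent.Hald.FinalOpen

/-!
# Row 347, chunk D (helper45): from the lists and the renormalisation-group table to `Tail` and S0546
-/

set_option autoImplicit false
set_option exponentiation.threshold 4096

namespace Hald

/-- the facts delivered by the certificate (to be proved by helper24 from the tables) -/
structure RGTab : Prop where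
  ring : RingNum theWorld
  z48 : theWorld.Z 0 48 64 ≤ 10045 / 10000
  V16 : theWorld.V 0 16 ≤ 100089 / 100000
  V32 : theWorld.V 0 32 ≤ 100008 / 100000
  V96 : theWorld.V 0 96 ≤ 100001 / 100000
  s16 : SHyp 16 (893 / 1000)
  s32 : SHyp 32 (939 / 1000)
  q16 : QHyp 16 (911 / 1000)
  q32 : QHyp 32 (939 / 1000)
  q96 : QHyp 96 (962 / 1000)

/-- exclusion polynomials for `hatV ehat 0 32` (checked with `chkV kap32 LS32`) -/
def xq1 : List ℚ := [mkRat (0) 1, mkRat (-351) 10000, mkRat (-269) 1250, mkRat (897) 10000, mkRat (1) 1]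
def xq2 : List ℚ := [mkRat (0) 1, mkRat (-337) 10000, mkRat (-2171) 10000, mkRat (9) 125, mkRat (1) 1]
def xq3 : List ℚ := [mkRat (0) 1, mkRat (-339) 10000, mkRat (-1083) 5000, mkRat (187) 2500, mkRat (1) 1]

theorem xchk1 : Pc.chkV kap32 LS32 (mkRat 1006 1000) (mkRat 1024 1000) xq1 = true := by decide +kernel
theorem xchk2 : Pc.chkV kap32 LS32 (mkRat 10039 10000) (mkRat 1006 1000) xq2 = true := by decide +kernel
theorem xchk3 : Pc.chkV kap32 LS32 (mkRat 100385 100000) (mkRat 10039 10000) xq3 = true := by decide +kernel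

theorem cast_mkRat (a : ℤ) (b : ℕ) : ((mkRat a b : ℚ) : ℝ) = (a : ℝ) / (b : ℝ) := by
  rw [Rat.mkRat_eq_div]
  push_cast
  rfl

theorem cast_kap32 : ((kap32 : ℚ) : ℝ) = 939 / 1000 := by
  unfold kap32
  rw [cast_mkRat]
  norm_num

theorem cast_kap16 : ((kap16 : ℚ) : ℝ) = 893 / 1000 := by
  unfold kap16
  rw [cast_mkRat]
  norm_num

theorem sc_mul (n : ℕ) (β e' : ℝ) : sc (n * β) e' = sc β e' ^ n := by
  unfold sc
  rw [← Real.exp_nat_mul]
  congr 1
  ring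

theorem sc32_eq : sc 32 ehat = sc 8 ehat ^ 4 := by
  have := sc_mul 4 8 ehat
  rw [← this]
  norm_num

theorem sc32_sq : sc 32 ehat = sc 16 ehat ^ 2 := by
  have := sc_mul 2 16 ehat
  rw [← this]
  norm_num

/-- `hatV 0 32 = V 0 32 * sc 32 ehat ≤ 1.00008 * (sc 8 ehat)^4 ≤ 1.024`, then `xchk1, xchk2, xchk3` -/
theorem hatV32_le (T : RGTab) (he : theE ≤ ehat) (h8 : sc 8 ehat ≤ (10055 / 10000 : ℝ))
    (hS : Pc.InL (sS 32) LS32) (E : EJ (hatV ehat 0 32) (939 / 1000) (sAlpha 32) (sOmega 32) (sS 32) (sX 32) (sB 32)) :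
    hatV ehat 0 32 ≤ (100385 / 100000 : ℝ) := by
  rw [← cast_kap32] at E
  have h0 : hatV ehat 0 32 ≤ ((mkRat 1024 1000 : ℚ) : ℝ) := by
    rw [cast_mkRat]
    unfold hatV
    rw [sc32_eq]
    have h1 := T.V32
    have h2 := sc_pos 8 ehat
    have h3 : 0 ≤ theWorld.V 0 32 := le_trans zero_le_one (theWorld.one_le_V 32 (by norm_num))
    calc theWorld.V 0 32 * sc 8 ehat ^ 4 ≤ 100008 / 100000 * (10055 / 10000) ^ 4 := by gcongr
      _ ≤ _ := by norm_num
  have h1 := Pc.chkV_sound E hS xchk1 h0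
  have h2 := Pc.chkV_sound E hS xchk2 h1
  have h3 := Pc.chkV_sound E hS xchk3 h2
  rw [cast_mkRat] at h3
  refine h3.trans (le_of_eq ?_)
  norm_num

/-- `hatV 0 16 = V 0 16 * sc 16`, `(sc 16)² = sc 32 ≤ hatV 0 32` -/
theorem hatV16_le (T : RGTab) (he : theE ≤ ehat) (h : hatV ehat 0 32 ≤ (100385 / 100000 : ℝ)) :
    hatV ehat 0 16 ≤ (100290 / 100000 : ℝ) := by
  have h1 := T.V16
  have h2 := sc_pos 16 ehat
  have hV16 := theWorld.one_le_V 16 (by norm_num)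
  have hV32 := theWorld.one_le_V 32 (by norm_num)
  have h3 : sc 16 ehat ^ 2 ≤ 100385 / 100000 := by
    unfold hatV at h
    rw [sc32_sq] at h
    have : 1 * sc 16 ehat ^ 2 ≤ theWorld.V 0 32 * sc 16 ehat ^ 2 := by gcongr
    linarith
  have h4 : sc 16 ehat ≤ 10020 / 10000 - 7 / 100000 := by
    by_contra hcon
    push Not at hcon
    nlinarith
  unfold hatV
  calc theWorld.V 0 16 * sc 16 ehat ≤ 100089 / 100000 * (10020 / 10000 - 7 / 100000) := by gcongr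
    _ ≤ _ := by norm_num

section steps

variable {V α ω : ℝ} {κ : ℚ} {S X B : ℕ → ℝ} {LS LX LB : List (ℚ × ℚ)}

theorem lo_step (E : EJ V κ α ω S X B) (hS : Pc.InL S LS) (hX : Pc.InL X LX) (hB : Pc.InL B LB)
    {w va vb : ℚ} {q p1 p2 : List ℚ} {r : List (ℚ × ℚ)}
    (h : Pc.runLo κ w LS LX LB q p1 p2 va r = true)
    (hr : (!r.isEmpty && decide (vb = Pc.endV va r)) = true) (hcon : ¬(w : ℝ) ≤ ω)
    (h1 : (va : ℝ) ≤ V) : (vb : ℝ) ≤ V := by
  rw [Bool.and_eq_true, decide_eq_true_eq, Bool.not_eq_true'] at hr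
  obtain ⟨hr1, hr2⟩ := hr
  by_contra hlt
  push Not at hlt
  refine hcon (Pc.runLo_sound E hS hX hB h h1 (by rw [← hr2]; exact hlt.le) ?_)
  rintro rfl
  simp at hr1

theorem up_step (E : EJ V κ α ω S X B) (hS : Pc.InL S LS) (hX : Pc.InL X LX) (hB : Pc.InL B LB)
    {w va vb : ℚ} {q p1 p2 : List ℚ} {r : List (ℚ × ℚ)}
    (h : Pc.runUp κ w LS LX LB q p1 p2 va r = true)
    (hr : (!r.isEmpty && decide (vb = Pc.endV va r)) = true) (hcon : ¬ω ≤ (w : ℝ))
    (h1 : (va : ℝ) ≤ V) : (vb : ℝ) ≤ V := by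
  rw [Bool.and_eq_true, decide_eq_true_eq, Bool.not_eq_true'] at hr
  obtain ⟨hr1, hr2⟩ := hr
  by_contra hlt
  push Not at hlt
  refine hcon (Pc.runUp_sound E hS hX hB h h1 (by rw [← hr2]; exact hlt.le) ?_)
  rintro rfl
  simp at hr1

theorem lo_last (E : EJ V κ α ω S X B) (hS : Pc.InL S LS) (hX : Pc.InL X LX) (hB : Pc.InL B LB)
    {w va vb : ℚ} {q p1 p2 : List ℚ} {r : List (ℚ × ℚ)}
    (h : Pc.runLo κ w LS LX LB q p1 p2 va r = true)
    (hr : (!r.isEmpty && decide (vb = Pc.endV va r)) = true)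
    (h1 : (va : ℝ) ≤ V) (h2 : V ≤ (vb : ℝ)) : (w : ℝ) ≤ ω := by
  rw [Bool.and_eq_true, decide_eq_true_eq, Bool.not_eq_true'] at hr
  obtain ⟨hr1, hr2⟩ := hr
  refine Pc.runLo_sound E hS hX hB h h1 (by rw [← hr2]; exact h2) ?_
  rintro rfl
  simp at hr1

theorem up_last (E : EJ V κ α ω S X B) (hS : Pc.InL S LS) (hX : Pc.InL X LX) (hB : Pc.InL B LB)
    {w va vb : ℚ} {q p1 p2 : List ℚ} {r : List (ℚ × ℚ)}
    (h : Pc.runUp κ w LS LX LB q p1 p2 va r = true)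
    (hr : (!r.isEmpty && decide (vb = Pc.endV va r)) = true)
    (h1 : (va : ℝ) ≤ V) (h2 : V ≤ (vb : ℝ)) : ω ≤ (w : ℝ) := by
  rw [Bool.and_eq_true, decide_eq_true_eq, Bool.not_eq_true'] at hr
  obtain ⟨hr1, hr2⟩ := hr
  refine Pc.runUp_sound E hS hX hB h h1 (by rw [← hr2]; exact h2) ?_
  rintro rfl
  simp at hr1

end steps

theorem omega32_aux {V α ω : ℝ} {S X B : ℕ → ℝ} (E : EJ V (kap32 : ℚ) α ω S X B)
    (hS : Pc.InL S LS32) (hX : Pc.InL X LX32) (hB : Pc.InL B LB32)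
    (h : V ≤ ((mkRat 100385 100000 : ℚ) : ℝ)) : ((wb32 : ℚ) : ℝ) ≤ ω := by
  by_contra hcon
  have h0 : ((mkRat (1) 1 : ℚ) : ℝ) ≤ V := by
    rw [cast_mkRat]
    have := E.one_le_V
    norm_num
    exact this
  have h1 : ((mkRat (25003) 25000 : ℚ) : ℝ) ≤ V :=
    lo_step E hS hX hB chk32_0 (by decide +kernel) hcon h0
  have h2 : ((mkRat (12503) 12500 : ℚ) : ℝ) ≤ V :=
    lo_step E hS hX hB chk32_1 (by decide +kernel) hcon h1
  have h3 : ((mkRat (25009) 25000 : ℚ) : ℝ) ≤ V :=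
    lo_step E hS hX hB chk32_2 (by decide +kernel) hcon h2
  have h4 : ((mkRat (6253) 6250 : ℚ) : ℝ) ≤ V :=
    lo_step E hS hX hB chk32_3 (by decide +kernel) hcon h3
  have h5 : ((mkRat (5003) 5000 : ℚ) : ℝ) ≤ V :=
    lo_step E hS hX hB chk32_4 (by decide +kernel) hcon h4
  have h6 : ((mkRat (12509) 12500 : ℚ) : ℝ) ≤ V :=
    lo_step E hS hX hB chk32_5 (by decide +kernel) hcon h5
  have h7 : ((mkRat (25021) 25000 : ℚ) : ℝ) ≤ V :=
    lo_step E hS hX hB chk32_6 (by decide +kernel) hcon h6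
  have h8 : ((mkRat (3128) 3125 : ℚ) : ℝ) ≤ V :=
    lo_step E hS hX hB chk32_7 (by decide +kernel) hcon h7
  have h9 : ((mkRat (25027) 25000 : ℚ) : ℝ) ≤ V :=
    lo_step E hS hX hB chk32_8 (by decide +kernel) hcon h8
  have h10 : ((mkRat (2503) 2500 : ℚ) : ℝ) ≤ V :=
    lo_step E hS hX hB chk32_9 (by decide +kernel) hcon h9
  have h11 : ((mkRat (25033) 25000 : ℚ) : ℝ) ≤ V :=
    lo_step E hS hX hB chk32_10 (by decide +kernel) hcon h10
  have h12 : ((mkRat (6259) 6250 : ℚ) : ℝ) ≤ V :=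
    lo_step E hS hX hB chk32_11 (by decide +kernel) hcon h11
  have h13 : ((mkRat (25039) 25000 : ℚ) : ℝ) ≤ V :=
    lo_step E hS hX hB chk32_12 (by decide +kernel) hcon h12
  have h14 : ((mkRat (12521) 12500 : ℚ) : ℝ) ≤ V :=
    lo_step E hS hX hB chk32_13 (by decide +kernel) hcon h13
  have h15 : ((mkRat (5009) 5000 : ℚ) : ℝ) ≤ V :=
    lo_step E hS hX hB chk32_14 (by decide +kernel) hcon h14
  have h16 : ((mkRat (3131) 3125 : ℚ) : ℝ) ≤ V :=
    lo_step E hS hX hB chk32_15 (by decide +kernel) hcon h15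
  have h17 : ((mkRat (25051) 25000 : ℚ) : ℝ) ≤ V :=
    lo_step E hS hX hB chk32_16 (by decide +kernel) hcon h16
  have h18 : ((mkRat (12527) 12500 : ℚ) : ℝ) ≤ V :=
    lo_step E hS hX hB chk32_17 (by decide +kernel) hcon h17
  have h19 : ((mkRat (25057) 25000 : ℚ) : ℝ) ≤ V :=
    lo_step E hS hX hB chk32_18 (by decide +kernel) hcon h18
  have h20 : ((mkRat (1253) 1250 : ℚ) : ℝ) ≤ V :=
    lo_step E hS hX hB chk32_19 (by decide +kernel) hcon h19
  have h21 : ((mkRat (25063) 25000 : ℚ) : ℝ) ≤ V :=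
    lo_step E hS hX hB chk32_20 (by decide +kernel) hcon h20
  have h22 : ((mkRat (12533) 12500 : ℚ) : ℝ) ≤ V :=
    lo_step E hS hX hB chk32_21 (by decide +kernel) hcon h21
  have h23 : ((mkRat (25069) 25000 : ℚ) : ℝ) ≤ V :=
    lo_step E hS hX hB chk32_22 (by decide +kernel) hcon h22
  have h24 : ((mkRat (3134) 3125 : ℚ) : ℝ) ≤ V :=
    lo_step E hS hX hB chk32_23 (by decide +kernel) hcon h23
  have h25 : ((mkRat (1003) 1000 : ℚ) : ℝ) ≤ V :=
    lo_step E hS hX hB chk32_24 (by decide +kernel) hcon h24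
  have h26 : ((mkRat (12539) 12500 : ℚ) : ℝ) ≤ V :=
    lo_step E hS hX hB chk32_25 (by decide +kernel) hcon h25
  have h27 : ((mkRat (25081) 25000 : ℚ) : ℝ) ≤ V :=
    lo_step E hS hX hB chk32_26 (by decide +kernel) hcon h26
  have h28 : ((mkRat (6271) 6250 : ℚ) : ℝ) ≤ V :=
    lo_step E hS hX hB chk32_27 (by decide +kernel) hcon h27
  have h29 : ((mkRat (25087) 25000 : ℚ) : ℝ) ≤ V :=
    lo_step E hS hX hB chk32_28 (by decide +kernel) hcon h28
  have h30 : ((mkRat (2509) 2500 : ℚ) : ℝ) ≤ V :=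
    lo_step E hS hX hB chk32_29 (by decide +kernel) hcon h29
  have h31 : ((mkRat (25093) 25000 : ℚ) : ℝ) ≤ V :=
    lo_step E hS hX hB chk32_30 (by decide +kernel) hcon h30
  have h32 : ((mkRat (3137) 3125 : ℚ) : ℝ) ≤ V :=
    lo_step E hS hX hB chk32_31 (by decide +kernel) hcon h31
  exact hcon (lo_last E hS hX hB chk32_32 (by decide +kernel) h32 h)

theorem omega16_aux {V α ω : ℝ} {S X B : ℕ → ℝ} (E : EJ V (kap16 : ℚ) α ω S X B)
    (hS : Pc.InL S LS16) (hX : Pc.InL X LX16) (hB : Pc.InL B LB16)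
    (h : V ≤ ((mkRat 100290 100000 : ℚ) : ℝ)) : ω ≤ ((wb16 : ℚ) : ℝ) := by
  by_contra hcon
  have h0 : ((mkRat (1) 1 : ℚ) : ℝ) ≤ V := by
    rw [cast_mkRat]
    have := E.one_le_V
    norm_num
    exact this
  have h1 : ((mkRat (5001) 5000 : ℚ) : ℝ) ≤ V :=
    up_step E hS hX hB chk16_0 (by decide +kernel) hcon h0
  have h2 : ((mkRat (2501) 2500 : ℚ) : ℝ) ≤ V :=
    up_step E hS hX hB chk16_1 (by decide +kernel) hcon h1
  have h3 : ((mkRat (5003) 5000 : ℚ) : ℝ) ≤ V :=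
    up_step E hS hX hB chk16_2 (by decide +kernel) hcon h2
  have h4 : ((mkRat (1251) 1250 : ℚ) : ℝ) ≤ V :=
    up_step E hS hX hB chk16_3 (by decide +kernel) hcon h3
  have h5 : ((mkRat (1001) 1000 : ℚ) : ℝ) ≤ V :=
    up_step E hS hX hB chk16_4 (by decide +kernel) hcon h4
  have h6 : ((mkRat (2503) 2500 : ℚ) : ℝ) ≤ V :=
    up_step E hS hX hB chk16_5 (by decide +kernel) hcon h5
  have h7 : ((mkRat (5007) 5000 : ℚ) : ℝ) ≤ V :=
    up_step E hS hX hB chk16_6 (by decide +kernel) hcon h6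
  have h8 : ((mkRat (626) 625 : ℚ) : ℝ) ≤ V :=
    up_step E hS hX hB chk16_7 (by decide +kernel) hcon h7
  have h9 : ((mkRat (5009) 5000 : ℚ) : ℝ) ≤ V :=
    up_step E hS hX hB chk16_8 (by decide +kernel) hcon h8
  have h10 : ((mkRat (501) 500 : ℚ) : ℝ) ≤ V :=
    up_step E hS hX hB chk16_9 (by decide +kernel) hcon h9
  have h11 : ((mkRat (5011) 5000 : ℚ) : ℝ) ≤ V :=
    up_step E hS hX hB chk16_10 (by decide +kernel) hcon h10
  have h12 : ((mkRat (1253) 1250 : ℚ) : ℝ) ≤ V :=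
    up_step E hS hX hB chk16_11 (by decide +kernel) hcon h11
  have h13 : ((mkRat (5013) 5000 : ℚ) : ℝ) ≤ V :=
    up_step E hS hX hB chk16_12 (by decide +kernel) hcon h12
  have h14 : ((mkRat (2507) 2500 : ℚ) : ℝ) ≤ V :=
    up_step E hS hX hB chk16_13 (by decide +kernel) hcon h13
  exact hcon (up_last E hS hX hB chk16_14 (by decide +kernel) h14 h)

/-- pieces `chk32_0 … chk32_32` (they cover [1, 1.00385]) -/
theorem omega32_ge (E : EJ (hatV ehat 0 32) (939 / 1000) (sAlpha 32) (sOmega 32) (sS 32) (sX 32) (sB 32))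
    (hS : Pc.InL (sS 32) LS32) (hX : Pc.InL (sX 32) LX32) (hB : Pc.InL (sB 32) LB32)
    (h : hatV ehat 0 32 ≤ (100385 / 100000 : ℝ)) : (889 / 1000 : ℝ) ≤ sOmega 32 := by
  rw [← cast_kap32] at E
  have h1 := omega32_aux E hS hX hB (by
    rw [cast_mkRat]
    refine h.trans (le_of_eq ?_)
    norm_num)
  unfold wb32 at h1
  rw [cast_mkRat] at h1
  refine le_trans (le_of_eq ?_) h1
  norm_num

/-- pieces `chk16_0 … chk16_14` (they cover [1, 1.00290]) -/
theorem omega16_le (E : EJ (hatV ehat 0 16) (893 / 1000) (sAlpha 16) (sOmega 16) (sS 16) (sX 16) (sB 16))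
    (hS : Pc.InL (sS 16) LS16) (hX : Pc.InL (sX 16) LX16) (hB : Pc.InL (sB 16) LB16)
    (h : hatV ehat 0 16 ≤ (100290 / 100000 : ℝ)) : sOmega 16 ≤ (10225 / 10000 : ℝ) := by
  rw [← cast_kap16] at E
  have h1 := omega16_aux E hS hX hB (by
    rw [cast_mkRat]
    refine h.trans (le_of_eq ?_)
    norm_num)
  unfold wb16 at h1
  rw [cast_mkRat] at h1
  refine h1.trans (le_of_eq ?_)
  norm_num

/-- `om2(16)² / om2(32) = sOmega(16)^4 / sOmega(32)^2 ≤ 1.0225^4/0.889^2 ≤ 1.3831` -/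
theorem C16_le (h16 : sOmega 16 ≤ (10225 / 10000 : ℝ)) (h32 : (889 / 1000 : ℝ) ≤ sOmega 32) :
    theEdge.om2 16 ^ 2 ≤ 13831 / 10000 * theEdge.om2 32 := by
  have e32 : (2 : ℝ) * 16 = 32 := by norm_num
  rw [← e32]
  refine om2_ratio (e' := ehat) ?_
  rw [e32]
  have h0 : 0 ≤ hatOmega ehat 16 := (theHatJoint ehat (by norm_num : (0 : ℝ) < 16)).ω_nonneg
  unfold sOmega at h16 h32
  push_cast at h16 h32
  set K : ℝ := (1223 / 1000) ^ 16 with hK
  have hK0 : 0 < K := by rw [hK]; positivity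
  have hK32 : (1223 / 1000 : ℝ) ^ 32 = K ^ 2 := by rw [hK]; norm_num
  rw [hK32] at h32
  have h1 : (hatOmega ehat 16 * K) ^ 4 ≤ (10225 / 10000) ^ 4 := by
    have : 0 ≤ hatOmega ehat 16 * K := by positivity
    gcongr
  have h2 : (889 / 1000 : ℝ) ^ 2 ≤ (hatOmega ehat 32 * K ^ 2) ^ 2 := by gcongr
  have h3 : hatOmega ehat 16 ^ 4 * K ^ 4 ≤ (13831 / 10000 * hatOmega ehat 32 ^ 2) * K ^ 4 := by
    calc hatOmega ehat 16 ^ 4 * K ^ 4 = (hatOmega ehat 16 * K) ^ 4 := by ring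
      _ ≤ (10225 / 10000) ^ 4 := h1
      _ ≤ 13831 / 10000 * (889 / 1000) ^ 2 := by norm_num
      _ ≤ 13831 / 10000 * (hatOmega ehat 32 * K ^ 2) ^ 2 := by gcongr
      _ = _ := by ring
  exact le_of_mul_le_mul_right h3 (by positivity)

/-- `ao(32,10)/om2(32) ≤ 6.23/0.889² ≤ 7.89` -/
theorem A32_le (he : theE ≤ ehat) (h32 : (889 / 1000 : ℝ) ≤ sOmega 32)
    (h : aOpen hF (-hF) ehat 32 8 * (1223 / 1000) ^ 64 ≤ (623 / 100 : ℝ)) :
    theEdge.ao 32 10 ≤ 789 / 100 * theEdge.om2 32 := by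
  refine ao_om2 (e' := ehat) (M := 8) ?_
  have hs := one_le_sc (β := 32) (by norm_num) he
  have e8 : aMix hF ehat 32 8 = aOpen hF (-hF) ehat 32 8 := by
    unfold aMix
    rw [if_pos (show Even 8 by decide)]
  rw [e8]
  unfold sOmega at h32
  push_cast at h32
  set K : ℝ := (1223 / 1000) ^ 32 with hK
  have hK0 : 0 < K := by rw [hK]; positivity
  have hK64 : (1223 / 1000 : ℝ) ^ 64 = K ^ 2 := by rw [hK]; norm_num
  rw [hK64] at h
  have h1 : (889 / 1000 : ℝ) ^ 2 ≤ (hatOmega ehat 32 * K) ^ 2 := by gcongr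
  have h2 : 1 ≤ sc 32 ehat ^ 8 := one_le_pow₀ hs
  have h3 : aOpen hF (-hF) ehat 32 8 * K ^ 2 ≤ (789 / 100 * hatOmega ehat 32 ^ 2) * K ^ 2 := by
    calc aOpen hF (-hF) ehat 32 8 * K ^ 2 ≤ 623 / 100 := h
      _ ≤ 789 / 100 * (889 / 1000) ^ 2 := by norm_num
      _ ≤ 789 / 100 * (hatOmega ehat 32 * K) ^ 2 := by gcongr
      _ = _ := by ring
  have h4 := le_of_mul_le_mul_right h3 (by positivity)
  exact h4.trans (le_mul_of_one_le_right (by positivity) h2)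

theorem QHyp.dec {β q : ℝ} (h : QHyp β q) (hq : 0 < q) : EdgeWorld.Dec theWorld β q :=
  ⟨hq, h.1, h.2.1, h.2.2⟩

/-- crude bound: `ao(16,128)² ≥ ao(32,128) ≥ om2(32)` and `ao(16,128) ≤ om2(16) V^126 + q^118 ao(16,10)` give
`om2(16) (scaled) ≥ (0.889 - 0.911^118·2.52)/1.00089^126 ≥ 0.79`, so `ao(16,10) ≤ 3.2 om2(16)` -/
theorem A16_le (T : RGTab) (he : theE ≤ ehat) (h32 : (889 / 1000 : ℝ) ≤ sOmega 32)
    (h : aOpen hF (-hF) ehat 16 8 * (1223 / 1000) ^ 32 ≤ (252 / 100 : ℝ)) :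
    theEdge.ao 16 10 ≤ 33 / 10 * theEdge.om2 16 := by
  have hs := one_le_sc (β := 16) (by norm_num) he
  have hV16 := theWorld.one_le_V 16 (by norm_num)
  have hV32 := theWorld.one_le_V 32 (by norm_num)
  set s := sc 16 ehat with hsdef
  set K : ℝ := (1223 / 1000) ^ 32 with hK
  have hK0 : 0 < K := by rw [hK]; positivity
  -- amplitude
  have e8 : theEdge.ao 16 10 * s ^ 10 = aOpen hF (-hF) ehat 16 8 := by
    have e1 : theEdge.ao 16 10 = aOpen hF (-hF) theE 16 8 := by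
      rw [theEdge_ao]
      unfold aMix
      rw [if_pos (show Even (10 - 2) by decide)]
    rw [e1, aOpen_hat hF (-hF) ehat]
  have hA0 := theEdge.ao_pos 16 (by norm_num) 10 (by norm_num)
  have hA : theEdge.ao 16 10 * s ^ 2 * K ≤ 252 / 100 := by
    have h1 : s ^ 2 ≤ s ^ 10 := pow_le_pow_right₀ hs (by norm_num)
    calc theEdge.ao 16 10 * s ^ 2 * K ≤ theEdge.ao 16 10 * s ^ 10 * K := by gcongr
      _ = aOpen hF (-hF) ehat 16 8 * K := by rw [e8]
      _ ≤ _ := h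
  -- omega 32
  have ho : (889 / 1000 : ℝ) ≤ theOmega 32 * s ^ 2 * K := by
    unfold sOmega hatOmega at h32
    push_cast at h32
    rwa [sc32_sq] at h32
  have hr := theEdge.rr_nonneg (M := 128) (by norm_num) (β := 16) (by norm_num)
  have h2 := theEdge.rr_pow (M := 128) (by norm_num) (β := 16) (by norm_num) (n := 2) (by norm_num)
  have e2 : ((2 : ℕ) : ℝ) * 16 = 32 := by norm_num
  rw [e2] at h2
  have hG := theEdge.G_mul_pow (M := 128) (by norm_num) 16 2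
  rw [e2] at hG
  have hGp := theEdge.Gpow_pos (M := 128) (by norm_num) 16
  have hsq : theEdge.ao 32 128 ≤ theEdge.ao 16 128 ^ 2 := by
    rw [theEdge.ao_eq (by norm_num) 32, theEdge.ao_eq (by norm_num) 16, hG, mul_pow]
    have : 1 + theEdge.rr 32 128 ≤ (1 + theEdge.rr 16 128) ^ 2 := by nlinarith
    gcongr
  have hao32 : theOmega 32 ^ 2 ≤ theEdge.ao 32 128 := by
    have h1 := theEdge.rem_nonneg 32 (by norm_num) 128 (by norm_num) (by decide)
    have h3 : 1 ≤ theWorld.V 0 32 ^ (128 - 2) := one_le_pow₀ hV32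
    have h4 := theEdge.om2_nonneg 32 (by norm_num)
    rw [← theEdge_om2]
    exact (le_mul_of_one_le_right h4 h3).trans h1
  have ha16 := theEdge.ao_pos 16 (by norm_num) 128 (by norm_num)
  have ho16 : theOmega 32 ≤ theEdge.ao 16 128 :=
    (abs_le_of_sq_le_sq' (hao32.trans hsq) ha16.le).2
  have hR := (le_abs_self _).trans (theEdge.abs_R_le (β := 16) (by norm_num)
    (T.q16.dec (by norm_num)) (M₀ := 10) (M := 128) (by norm_num) (by decide) (by norm_num))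
  have hR10 := theEdge.R_le (β := 16) (by norm_num) 10
  obtain ⟨c1, hc1, hc1'⟩ : ∃ c : ℝ, (100089 / 100000 : ℝ) ^ 126 = c ∧ c ≤ 112 / 100 :=
    ⟨_, rfl, by norm_num⟩
  obtain ⟨c2, hc2, hc2'⟩ : ∃ c : ℝ, (911 / 1000 : ℝ) ^ 118 = c ∧ c ≤ 1 / 10000 :=
    ⟨_, rfl, by norm_num⟩
  have hc20 : 0 ≤ c2 := by rw [← hc2]; positivity
  have hc10 : 0 ≤ c1 := by rw [← hc1]; positivity
  have hV126 : theWorld.V 0 16 ^ 126 ≤ c1 := by
    rw [← hc1]
    exact pow_le_pow_left₀ (by linarith) T.V16 126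
  have e118 : 128 - 10 = 118 := by norm_num
  rw [e118, hc2] at hR
  have hx := theEdge.om2_nonneg 16 (by norm_num)
  have hup : theEdge.ao 16 128 ≤ theEdge.om2 16 * c1 + c2 * theEdge.ao 16 10 := by
    have e : theEdge.ao 16 128 = theEdge.om2 16 * theWorld.V 0 16 ^ 126 + theEdge.R 16 128 := by
      unfold EdgeWorld.R
      ring
    rw [e]
    have h4 : c2 * theEdge.R 16 10 ≤ c2 * theEdge.ao 16 10 := mul_le_mul_of_nonneg_left hR10 hc20
    have h5 : theEdge.om2 16 * theWorld.V 0 16 ^ 126 ≤ theEdge.om2 16 * c1 :=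
      mul_le_mul_of_nonneg_left hV126 hx
    linarith
  have hsK : 0 < s ^ 2 * K := by positivity
  obtain ⟨y, hy⟩ : ∃ y, s ^ 2 * K = y := ⟨_, rfl⟩
  have hy0 : 0 < y := hy ▸ hsK
  have ho' : 889 / 1000 ≤ theOmega 32 * y := by
    rw [← hy, ← mul_assoc]
    exact ho
  have hA' : theEdge.ao 16 10 * y ≤ 252 / 100 := by
    rw [← hy, ← mul_assoc]
    exact hA
  have h6 : theOmega 32 * y ≤ (theEdge.om2 16 * c1 + c2 * theEdge.ao 16 10) * y :=
    mul_le_mul_of_nonneg_right (ho16.trans hup) hy0.le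
  have hX0 : 0 ≤ theEdge.om2 16 * y := mul_nonneg hx hy0.le
  have h7 : (theEdge.om2 16 * y) * c1 ≤ (theEdge.om2 16 * y) * (112 / 100) :=
    mul_le_mul_of_nonneg_left hc1' hX0
  have h8 : c2 * (theEdge.ao 16 10 * y) ≤ 1 / 10000 * (252 / 100) := by
    have : 0 ≤ theEdge.ao 16 10 * y := mul_nonneg hA0.le hy0.le
    exact mul_le_mul hc2' hA' this (by norm_num)
  have e9 : (theEdge.om2 16 * c1 + c2 * theEdge.ao 16 10) * y =
      (theEdge.om2 16 * y) * c1 + c2 * (theEdge.ao 16 10 * y) := by ring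
  rw [e9] at h6
  have h10 : theEdge.ao 16 10 * y ≤ (33 / 10 * theEdge.om2 16) * y := by
    have e2 : (33 / 10 * theEdge.om2 16) * y = 33 / 10 * (theEdge.om2 16 * y) := by ring
    rw [e2]
    linarith
  exact le_of_mul_le_mul_right h10 hy0

/-- the base chain (numbers, `Mb = 60, M₁ = 128, M₂ = 512`): N16 ≤ 1.7309, ρ16 = 0.435, A32b ≤ 1.301·…,
η3 ≤ 0.265, C32 ≤ 2.29, ρ32 = 0.402, A96 ≤ 5.1, C96 ≤ 1.14, A192 ≤ 30, C192 ≤ 1.28 (see `tail_base`; use the
direct amplitude `A32_le` at (32,10) instead of the one propagated from 16) -/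
theorem theTail (T : RGTab) (hC : theEdge.om2 16 ^ 2 ≤ 13831 / 10000 * theEdge.om2 32)
    (h32 : theEdge.ao 32 10 ≤ 789 / 100 * theEdge.om2 32) (h16 : theEdge.ao 16 10 ≤ 33 / 10 * theEdge.om2 16) :
    theEdge.Tail 128 0 := by
  have hz : theWorld.Z 0 48 64 ≤ 1 + 45 / 10000 := by
    refine T.z48.trans (le_of_eq ?_)
    norm_num
  have hq192 : EdgeWorld.Dec theWorld 192 (9692 / 10000) := by
    have := EdgeWorld.dec_mul theWorld hz (t := 4) (by norm_num) (q := 9692 / 10000) (by norm_num)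
      (by norm_num)
    have e : ((4 : ℕ) : ℝ) * 48 = 192 := by norm_num
    rwa [e] at this
  have hq384 : EdgeWorld.Dec theWorld 384 (9745 / 10000) := by
    have := EdgeWorld.dec_mul theWorld hz (t := 8) (by norm_num) (q := 9745 / 10000) (by norm_num)
      (by norm_num)
    have e : ((8 : ℕ) : ℝ) * 48 = 384 := by norm_num
    rwa [e] at this
  have hV16 := theWorld.one_le_V 16 (by norm_num)
  have hV32 := theWorld.one_le_V 32 (by norm_num)
  have hV192 := theWorld.one_le_V 192 (by norm_num)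
  have hv192 : theWorld.V 0 192 ^ (128 - 2) ≤ 10013 / 10000 := by
    have h1 := theWorld.V_anti 96 192 (by norm_num) (by norm_num)
    exact pow_bd (by linarith) (h1.trans T.V96) (by norm_num)
  refine theEdge.tail_base (M₀ := 10) (M₁ := 128) (Ma := 32) (Mb := 60) (M₂ := 512)
    (C16 := 13831 / 10000) (A16 := 33 / 10) (q16 := 911 / 1000) (q32 := 939 / 1000)
    (q96 := 962 / 1000) (q192 := 9692 / 10000) (q384 := 9745 / 10000)
    (v16 := 12514 / 10000) (v16a := 10271 / 10000) (v32b := 10047 / 10000) (v32c := 11303 / 10000)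
    (v192 := 10013 / 10000) (s1 := 1 / 10000) (ρ16 := 435 / 1000) (s2 := 2970 / 10000)
    (A32a := 2456 / 1000) (s3 := 2505 / 10000) (A32b := 12565 / 10000) (η3 := 2400 / 10000)
    (C32 := 2215 / 1000) (s4 := 1 / 10000) (ρ32 := 385 / 1000) (A96 := 4400 / 1000)
    (η2 := 1 / 1000) (C96 := 1121 / 1000) (A192 := 2171 / 100) (η1 := 1 / 100) (s5 := 26 / 10)
    (by norm_num) (by decide) (by norm_num) (by norm_num) (by norm_num) (by norm_num)
    (by norm_num) (by decide) (by decide) (by decide) (by decide)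
    (T.q16.dec (by norm_num)) (T.q32.dec (by norm_num)) (T.q96.dec (by norm_num)) hq192 hq384
    hC h16 (pow_bd (by linarith) T.V16 (by norm_num)) (pow_bd (by linarith) T.V16 (by norm_num))
    (pow_bd (by linarith) T.V32 (by norm_num)) (pow_bd (by linarith) T.V32 (by norm_num)) hv192
    ?_ ?_ ?_ ?_ ?_ ?_ ?_ ?_ ?_ ?_ ?_ ?_ ?_ ?_ ?_ ?_ ?_ ?_ ?_ ?_ ?_ ?_ ?_ ?_ ?_ ?_ ?_ ?_ ?_ ?_ ?_
  all_goals norm_num

end Hald
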