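import Crest.Agent.Hald.CertBase
import Crest.Agent.Hald.CertSound
import Crest.Agent.Hald.CertChk0
import Crest.Agent.Hald.CertChk1
import Crest.Agent.Hald.CertChk2
import Crest.Agent.Hald.CertChk3
import Crest.Agent.Hald.CertChk4
import Crest.Agent.Hald.CertChk5
import Crest.Agent.Hald.CertChk6
import Crest.Agent.Hald.CertChk7
import Crest.Agent.Hald.EdgeFin

/-!
# Row 347: all facts of the certificate, and the renormalisation-group table (helper24)
-/

set_option autoImplicit false

namespace Hald

open Cert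

theorem len0 : js0.length = 1600 := by decide +kernel
theorem len1 : js1.length = 1600 := by decide +kernel
theorem len2 : js2.length = 1600 := by decide +kernel
theorem len3 : js3.length = 1600 := by decide +kernel
theorem len4 : js4.length = 1600 := by decide +kernel
theorem len5 : js5.length = 1600 := by decide +kernel
theorem len6 : js6.length = 1600 := by decide +kernel
theorem len7 : js7.length = 1118 := by decide +kernel

theorem cert_all (N : NumInput) : ∀ j, j < 12318 → wf (tab.get j) = true ∧ Good theWorld (tab.get j) := by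
  have hB := base_good N
  have h0 := chunk_sound theWorld tab base nBase hB js0 0 (fun j hj => absurd hj (by omega)) chk0
  rw [len0] at h0
  have h1 := chunk_sound theWorld tab base nBase hB js1 1600 h0 chk1
  rw [len1] at h1
  have h2 := chunk_sound theWorld tab base nBase hB js2 3200 h1 chk2
  rw [len2] at h2
  have h3 := chunk_sound theWorld tab base nBase hB js3 4800 h2 chk3
  rw [len3] at h3
  have h4 := chunk_sound theWorld tab base nBase hB js4 6400 h3 chk4
  rw [len4] at h4
  have h5 := chunk_sound theWorld tab base nBase hB js5 8000 h4 chk5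
  rw [len5] at h5
  have h6 := chunk_sound theWorld tab base nBase hB js6 9600 h5 chk6
  rw [len6] at h6
  have h7 := chunk_sound theWorld tab base nBase hB js7 11200 h6 chk7
  rw [len7] at h7
  exact h7

/-- check of a target: upper bound `num/den` of the functional `k` at `(b/2, L/2)`, with exponent `e` -/
noncomputable def tgtOk (i k b L num den e : ℕ) : Bool :=
  let f := tab.get i
  Nat.blt i 12318 && Nat.beq (fty f) 0 && Nat.beq (fk f) k && Nat.beq (fb f) b && Nat.beq (fL f) L &&
  Nat.ble (fv f * den ^ e) (num ^ e * D) && Nat.blt 0 den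

theorem tgt_sound (N : NumInput) {i k b L num den e : ℕ} (h : tgtOk i k b L num den e = true) :
    X theWorld k ((b : ℝ) / 2) (L / 2) ≤ ((num : ℝ) / den) ^ e := by
  unfold tgtOk at h
  simp only [Bool.and_eq_true, Nat.blt_eq, Nat.beq_eq, Nat.ble_eq] at h
  obtain ⟨⟨⟨⟨⟨⟨hi, ht⟩, hk⟩, hb⟩, hL⟩, hv⟩, hd⟩ := h
  have hg := (cert_all N i hi).2
  unfold Good at hg
  rw [ht, hk, hb, hL] at hg
  have h1 : X theWorld k ((b : ℝ) / 2) (L / 2) ≤ (fv (tab.get i) : ℝ) / (D : ℝ) := hg
  refine h1.trans ?_
  have hd' : (0 : ℝ) < (den : ℝ) ^ e := by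
    have : (0 : ℝ) < den := by exact_mod_cast hd
    positivity
  rw [div_pow, div_le_div_iff₀ D_pos hd']
  exact_mod_cast hv

theorem t_u16 : tgtOk 12315 24 32 32 125 100 1 = true := by decide +kernel
theorem t_u24 : tgtOk 12316 24 48 64 107 100 1 = true := by decide +kernel
theorem t_u48 : tgtOk 12317 24 96 128 10045 10000 1 = true := by decide +kernel
theorem t_V16 : tgtOk 12212 10 32 64 100089 100000 64 = true := by decide +kernel
theorem t_V32 : tgtOk 11987 10 64 128 100008 100000 128 = true := by decide +kernel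
theorem t_V96 : tgtOk 11887 10 192 128 100001 100000 128 = true := by decide +kernel
theorem t_RV16 : tgtOk 11369 8 32 16 893 1000 16 = true := by decide +kernel
theorem t_Aw16 : tgtOk 11367 1 32 16 893 1000 16 = true := by decide +kernel
theorem t_AT16 : tgtOk 10758 2 32 32 911 1000 32 = true := by decide +kernel
theorem t_RV32 : tgtOk 11378 8 64 16 939 1000 16 = true := by decide +kernel
theorem t_Aw32 : tgtOk 11376 1 64 16 939 1000 16 = true := by decide +kernel
theorem t_AT32 : tgtOk 11910 2 64 64 939 1000 64 = true := by decide +kernel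
theorem t_RV96 : tgtOk 12314 8 192 128 962 1000 128 = true := by decide +kernel
theorem t_Aw96 : tgtOk 12284 1 192 64 962 1000 64 = true := by decide +kernel
theorem t_AT96 : tgtOk 12296 2 192 128 962 1000 128 = true := by decide +kernel

/-! ### the table -/

theorem X_pos_rpow (x : ℝ) (m : ℕ) : x ^ (2 * (m : ℝ)) = x ^ (2 * m) := rpow_two_mul_nat x m

theorem V_le_of (N : NumInput) {i b m num den : ℕ} {β : ℝ} (hβ : (b : ℝ) / 2 = β) (hβ0 : 0 < β)
    (hm : 1 ≤ m) (h : tgtOk i 10 b (2 * m) num den (2 * m) = true) :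
    theWorld.V 0 β ≤ (num : ℝ) / den := by
  have h1 := tgt_sound N h
  rw [hβ, show 2 * m / 2 = m by omega] at h1
  have h2 : theWorld.V 0 β ^ (2 * (m : ℝ)) ≤ ((num : ℝ) / den) ^ (2 * m) := h1
  rw [X_pos_rpow] at h2
  have hV := theWorld.one_le_V β hβ0
  exact (pow_le_pow_iff_left₀ (by linarith) (by positivity) (by omega)).1 h2

theorem rest_of (N : NumInput) {i b m num den : ℕ} {β : ℝ} (hβ : (b : ℝ) / 2 = β)
    (h : tgtOk i 8 b (2 * m) num den (2 * m) = true) :
    secA 0 (fun t => theWorld.Z t β m) - theWorld.V 0 β ^ (2 * m) ≤ ((num : ℝ) / den) ^ (2 * m) := by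
  have h1 := tgt_sound N h
  rw [hβ, show 2 * m / 2 = m by omega] at h1
  have h2 : secA 0 (fun t => theWorld.Z t β m) - theWorld.V 0 β ^ (2 * (m : ℝ)) ≤
      ((num : ℝ) / den) ^ (2 * m) := h1
  rwa [X_pos_rpow] at h2

theorem sec1_of (N : NumInput) {i b m num den : ℕ} {β : ℝ} (hβ : (b : ℝ) / 2 = β)
    (h : tgtOk i 1 b (2 * m) num den (2 * m) = true) :
    secA 1 (fun t => theWorld.Z t β m) ≤ ((num : ℝ) / den) ^ (2 * m) := by
  have h1 := tgt_sound N h
  rw [hβ, show 2 * m / 2 = m by omega] at h1
  exact h1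

theorem sec2_of (N : NumInput) {i b m num den : ℕ} {β : ℝ} (hβ : (b : ℝ) / 2 = β)
    (h : tgtOk i 2 b (2 * m) num den (2 * m) = true) :
    secA 2 (fun t => theWorld.Z t β m) ≤ ((num : ℝ) / den) ^ (2 * m) := by
  have h1 := tgt_sound N h
  rw [hβ, show 2 * m / 2 = m by omega] at h1
  exact h1

theorem u_of (N : NumInput) {i b m num den : ℕ} {β : ℝ} (hβ : (b : ℝ) / 2 = β)
    (h : tgtOk i 24 b (2 * m) num den 1 = true) : theWorld.Z 0 β m ≤ (num : ℝ) / den := by
  have h1 := tgt_sound N h
  rw [hβ, show 2 * m / 2 = m by omega, pow_one] at h1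
  exact h1

theorem ringNum (N : NumInput) : RingNum theWorld where
  f16 := by
    have := u_of N (β := 16) (m := 16) (by norm_num) t_u16
    norm_num at this ⊢
    exact this
  f24 := by
    have := u_of N (β := 24) (m := 32) (by norm_num) t_u24
    norm_num at this ⊢
    exact this
  f48 := by
    have := u_of N (β := 48) (m := 64) (by norm_num) t_u48
    norm_num at this ⊢
    linarith

theorem q_cast {a b : ℕ} {q : ℝ} {x : ℝ} {n : ℕ} (h : x ≤ ((a : ℝ) / b) ^ n) (e : (a : ℝ) / b = q) :
    x ≤ q ^ n := by rwa [e] at h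

theorem rgTab (N : NumInput) : RGTab where
  ring := ringNum N
  z48 := by
    have := u_of N (β := 48) (m := 64) (by norm_num) t_u48
    norm_num at this ⊢
    exact this
  V16 := by
    have := V_le_of N (β := 16) (m := 32) (by norm_num) (by norm_num) (by norm_num) t_V16
    norm_num at this ⊢
    exact this
  V32 := by
    have := V_le_of N (β := 32) (m := 64) (by norm_num) (by norm_num) (by norm_num) t_V32
    norm_num at this ⊢
    exact this
  V96 := by
    have := V_le_of N (β := 96) (m := 64) (by norm_num) (by norm_num) (by norm_num) t_V96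
    norm_num at this ⊢
    exact this
  s16 := ⟨8, by norm_num, q_cast (rest_of N (β := 16) (m := 8) (by norm_num) t_RV16) (by norm_num)⟩
  s32 := ⟨8, by norm_num, q_cast (rest_of N (β := 32) (m := 8) (by norm_num) t_RV32) (by norm_num)⟩
  q16 := ⟨⟨8, by norm_num, (rest_of N (β := 16) (m := 8) (by norm_num) t_RV16).trans
      (pow_le_pow_left₀ (by norm_num) (by norm_num) _)⟩,
    ⟨8, by norm_num, (sec1_of N (β := 16) (m := 8) (by norm_num) t_Aw16).trans
      (pow_le_pow_left₀ (by norm_num) (by norm_num) _)⟩,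
    ⟨16, by norm_num, q_cast (sec2_of N (β := 16) (m := 16) (by norm_num) t_AT16) (by norm_num)⟩⟩
  q32 := ⟨⟨8, by norm_num, q_cast (rest_of N (β := 32) (m := 8) (by norm_num) t_RV32) (by norm_num)⟩,
    ⟨8, by norm_num, q_cast (sec1_of N (β := 32) (m := 8) (by norm_num) t_Aw32) (by norm_num)⟩,
    ⟨32, by norm_num, q_cast (sec2_of N (β := 32) (m := 32) (by norm_num) t_AT32) (by norm_num)⟩⟩
  q96 := ⟨⟨64, by norm_num, q_cast (rest_of N (β := 96) (m := 64) (by norm_num) t_RV96) (by norm_num)⟩,
    ⟨32, by norm_num, q_cast (sec1_of N (β := 96) (m := 32) (by norm_num) t_Aw96) (by norm_num)⟩,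
    ⟨64, by norm_num, q_cast (sec2_of N (β := 96) (m := 64) (by norm_num) t_AT96) (by norm_num)⟩⟩

end Hald
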