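import Crest.Agent.Hald.Tops
import Crest.Agent.Hald.CertTab
import Crest.Agent.Hald.BaseHat

/-!
# Row 347: the base facts of the certificate from `NumInput` (helper24)
-/

set_option autoImplicit false

namespace Hald

open Cert

/-- coefficients of the functional `k` (`k ≤ 7` or `12 ≤ k ≤ 19`) in the 8 ring partition functions -/
def secC (k : ℕ) : List ℚ :=
  match k with
  | 0 => [mkRat 1 12, mkRat 3 12, mkRat 8 12, 0, 0, 0, 0, 0]
  | 1 => [mkRat 1 12, mkRat 3 12, mkRat (-4) 12, 0, 0, 0, 0, 0]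
  | 2 => [mkRat 1 4, mkRat (-1) 4, 0, 0, 0, 0, 0, 0]
  | 3 => [0, 0, 0, mkRat 1 4, 0, mkRat 1 4, mkRat 2 4, 0]
  | 4 => [0, 0, 0, mkRat 1 4, 0, mkRat 1 4, mkRat (-2) 4, 0]
  | 5 => [0, 0, 0, mkRat 1 4, 0, mkRat (-1) 4, 0, 0]
  | 6 => [0, 0, 0, 0, mkRat 1 3, 0, 0, mkRat 2 3]
  | 7 => [0, 0, 0, 0, mkRat 1 3, 0, 0, mkRat (-1) 3]
  | 12 => [mkRat 1 12, 0, 0, mkRat 3 12, mkRat 8 12, 0, 0, 0]
  | 13 => [mkRat 1 12, 0, 0, mkRat 3 12, mkRat (-4) 12, 0, 0, 0]
  | 14 => [mkRat 1 4, 0, 0, mkRat (-1) 4, 0, 0, 0, 0]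
  | 15 => [0, mkRat 1 4, 0, 0, 0, mkRat 1 4, mkRat 2 4, 0]
  | 16 => [0, mkRat 1 4, 0, 0, 0, mkRat 1 4, mkRat (-2) 4, 0]
  | 17 => [0, mkRat 1 4, 0, 0, 0, mkRat (-1) 4, 0, 0]
  | 18 => [0, 0, mkRat 1 3, 0, 0, 0, 0, mkRat 2 3]
  | 19 => [0, 0, mkRat 1 3, 0, 0, 0, 0, mkRat (-1) 3]
  | _ => [0, 0, 0, 0, 0, 0, 0, 0]

/-- ring intervals -/
def TRn (n : ℕ) : List (ℚ × ℚ) := if n = 4 then TR4 else if n = 6 then TR6 else TR8

/-- upper bounds of `hatV ehat 0 n`, `hatV ehat 1 n` and lower bound of `hatV ehat 1 n` -/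
def cV0 (n : ℕ) : ℚ := if n = 4 then mkRat 10336 10000 else if n = 6 then mkRat 101226 100000
  else mkRat 10055 10000
def cV1 (n : ℕ) : ℚ := if n = 4 then mkRat 98682 100000 else if n = 6 then mkRat 99676 100000
  else mkRat 100116 100000
def cL1 (n : ℕ) : ℚ := if n = 4 then mkRat 9865 10000 else if n = 6 then mkRat 9956 10000
  else mkRat 99829 100000

/-- is `k` one of the sector functionals -/
def isSec (k : ℕ) : Bool := Nat.ble k 7 || (Nat.ble 12 k && Nat.ble k 19)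

/-- check of one base fact -/
def baseOk (f : ℕ) : Bool :=
  let n := fb f / 2
  let k := fk f
  let v : ℚ := mkRat (fv f) D
  (Nat.beq (fb f) 8 || Nat.beq (fb f) 12 || Nat.beq (fb f) 16) && Nat.beq (fL f) 8 &&
  ((Nat.beq (fty f) 0 && isSec k && decide (Pc.upL (secC k) (TRn n) ≤ v)) ||
   (Nat.beq (fty f) 1 && isSec k && decide (v * (mkRat 10055 10000) ^ n ≤ Pc.loL (secC k) (TRn n))) ||
   (Nat.beq (fty f) 0 && Nat.beq k 10 && decide (cV0 n ^ 8 ≤ v)) ||
   (Nat.beq (fty f) 0 && Nat.beq k 11 && decide (cV1 n ^ 8 ≤ v)) ||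
   (Nat.beq (fty f) 1 && Nat.beq k 11 && decide (v * (mkRat 10055 10000) ^ n ≤ cL1 n ^ 8)))

theorem base_chk : ∀ j, j < nBase → baseOk (base.get j) = true := by
  decide +kernel

/-! ### soundness -/

/-- `∑ c_k m_k` -/
noncomputable def dotL : List ℚ → (ℕ → ℝ) → ℝ
  | [], _ => 0
  | c :: p, m => (c : ℝ) * m 0 + dotL p (fun k => m (k + 1))

theorem InL_tail {m : ℕ → ℝ} {d : ℚ × ℚ} {L : List (ℚ × ℚ)} (h : Pc.InL m (d :: L)) :
    Pc.InL (fun k => m (k + 1)) L := by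
  intro k hk
  have := h (k + 1) (by simpa using hk)
  simpa using this

theorem InL_head {m : ℕ → ℝ} {d : ℚ × ℚ} {L : List (ℚ × ℚ)} (h : Pc.InL m (d :: L)) :
    ((d.1 : ℚ) : ℝ) ≤ m 0 ∧ m 0 ≤ ((d.2 : ℚ) : ℝ) := by
  have := h 0 (by simp)
  simpa using this

theorem dotL_le : ∀ (c : List ℚ) (L : List (ℚ × ℚ)) (m : ℕ → ℝ), c.length ≤ L.length → Pc.InL m L →
    dotL c m ≤ ((Pc.upL c L : ℚ) : ℝ)
  | [], _, _, _, _ => by simp [dotL, Pc.upL]
  | c :: p, [], _, h, _ => by simp at h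
  | c :: p, d :: L, m, hl, h => by
    have ih := dotL_le p L (fun k => m (k + 1)) (by simpa using hl) (InL_tail h)
    obtain ⟨h1, h2⟩ := InL_head h
    simp only [dotL, Pc.upL]
    push_cast
    have h3 : (c : ℝ) * m 0 ≤ (((if 0 ≤ c then c * d.2 else c * d.1) : ℚ) : ℝ) := by
      split_ifs with hc
      · push_cast
        exact mul_le_mul_of_nonneg_left h2 (by exact_mod_cast hc)
      · push_cast
        push Not at hc
        exact mul_le_mul_of_nonpos_left h1 (by exact_mod_cast hc.le)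
    linarith

theorem le_dotL : ∀ (c : List ℚ) (L : List (ℚ × ℚ)) (m : ℕ → ℝ), c.length ≤ L.length → Pc.InL m L →
    ((Pc.loL c L : ℚ) : ℝ) ≤ dotL c m
  | [], _, _, _, _ => by simp [dotL, Pc.loL]
  | c :: p, [], _, h, _ => by simp at h
  | c :: p, d :: L, m, hl, h => by
    have ih := le_dotL p L (fun k => m (k + 1)) (by simpa using hl) (InL_tail h)
    obtain ⟨h1, h2⟩ := InL_head h
    simp only [dotL, Pc.loL]
    push_cast
    have h3 : (((if 0 ≤ c then c * d.1 else c * d.2) : ℚ) : ℝ) ≤ (c : ℝ) * m 0 := by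
      split_ifs with hc
      · push_cast
        exact mul_le_mul_of_nonneg_left h1 (by exact_mod_cast hc)
      · push_cast
        push Not at hc
        exact mul_le_mul_of_nonpos_left h2 (by exact_mod_cast hc.le)
    linarith

theorem rR_eq (n : ℕ) (t : Fin 8) : rR n t = hatZ ehat t n 4 := by
  unfold rR hatZ
  rw [dif_pos t.2]
  congr 2
  push_cast
  ring

theorem HX_sec {n k : ℕ} (hk : isSec k = true) : HX ehat k n 4 = dotL (secC k) (rR n) := by
  have hk' : k ≤ 7 ∨ (12 ≤ k ∧ k ≤ 19) := by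
    simp only [isSec, Bool.or_eq_true, Bool.and_eq_true, Nat.ble_eq] at hk
    exact hk
  have e0 : hatZ ehat 0 n 4 = rR n 0 := (rR_eq n 0).symm
  have e1 : hatZ ehat 1 n 4 = rR n 1 := (rR_eq n 1).symm
  have e2 : hatZ ehat 2 n 4 = rR n 2 := (rR_eq n 2).symm
  have e3 : hatZ ehat 3 n 4 = rR n 3 := (rR_eq n 3).symm
  have e4 : hatZ ehat 4 n 4 = rR n 4 := (rR_eq n 4).symm
  have e5 : hatZ ehat 5 n 4 = rR n 5 := (rR_eq n 5).symm
  have e6 : hatZ ehat 6 n 4 = rR n 6 := (rR_eq n 6).symm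
  have e7 : hatZ ehat 7 n 4 = rR n 7 := (rR_eq n 7).symm
  have q : ∀ a b : ℤ, ∀ c : ℕ, ((mkRat a c : ℚ) : ℝ) = (a : ℝ) / c := by
    intro a _ c
    rw [Rat.mkRat_eq_div]; push_cast; rfl
  rcases hk' with hk | ⟨hk, hk2⟩
  · interval_cases k
    · rw [HX_0]
      show (hatZ ehat 0 n 4 + 3 * hatZ ehat 1 n 4 + 8 * hatZ ehat 2 n 4) / 12 = _
      simp only [secC, dotL, q _ 0, e0, e1, e2, Rat.cast_zero, zero_mul, add_zero, zero_add]
      push_cast; ring
    · rw [HX_1]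
      show (hatZ ehat 0 n 4 + 3 * hatZ ehat 1 n 4 - 4 * hatZ ehat 2 n 4) / 12 = _
      simp only [secC, dotL, q _ 0, e0, e1, e2, Rat.cast_zero, zero_mul, add_zero, zero_add]
      push_cast; ring
    · rw [HX_2]
      show (hatZ ehat 0 n 4 - hatZ ehat 1 n 4) / 4 = _
      simp only [secC, dotL, q _ 0, e0, e1, Rat.cast_zero, zero_mul, add_zero, zero_add]
      push_cast; ring
    · rw [HX_3]
      show (hatZ ehat 3 n 4 + hatZ ehat 5 n 4 + 2 * hatZ ehat 6 n 4) / 4 = _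
      simp only [secC, dotL, q _ 0, e3, e5, e6, Rat.cast_zero, zero_mul, add_zero, zero_add]
      push_cast; ring
    · rw [HX_4]
      show (hatZ ehat 3 n 4 + hatZ ehat 5 n 4 - 2 * hatZ ehat 6 n 4) / 4 = _
      simp only [secC, dotL, q _ 0, e3, e5, e6, Rat.cast_zero, zero_mul, add_zero, zero_add]
      push_cast; ring
    · rw [HX_5]
      show (hatZ ehat 3 n 4 - hatZ ehat 5 n 4) / 4 = _
      simp only [secC, dotL, q _ 0, e3, e5, Rat.cast_zero, zero_mul, add_zero, zero_add]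
      push_cast; ring
    · rw [HX_6]
      show (hatZ ehat 4 n 4 + 2 * hatZ ehat 7 n 4) / 3 = _
      simp only [secC, dotL, q _ 0, e4, e7, Rat.cast_zero, zero_mul, add_zero, zero_add]
      push_cast; ring
    · rw [HX_7]
      show (hatZ ehat 4 n 4 - hatZ ehat 7 n 4) / 3 = _
      simp only [secC, dotL, q _ 0, e4, e7, Rat.cast_zero, zero_mul, add_zero, zero_add]
      push_cast; ring
  · interval_cases k
    · rw [HX_12]
      show (hatZ ehat 0 n 4 + 3 * hatZ ehat 3 n 4 + 8 * hatZ ehat 4 n 4) / 12 = _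
      simp only [secC, dotL, q _ 0, e0, e3, e4, Rat.cast_zero, zero_mul, add_zero, zero_add]
      push_cast; ring
    · rw [HX_13]
      show (hatZ ehat 0 n 4 + 3 * hatZ ehat 3 n 4 - 4 * hatZ ehat 4 n 4) / 12 = _
      simp only [secC, dotL, q _ 0, e0, e3, e4, Rat.cast_zero, zero_mul, add_zero, zero_add]
      push_cast; ring
    · rw [HX_14]
      show (hatZ ehat 0 n 4 - hatZ ehat 3 n 4) / 4 = _
      simp only [secC, dotL, q _ 0, e0, e3, Rat.cast_zero, zero_mul, add_zero, zero_add]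
      push_cast; ring
    · rw [HX_15]
      show (hatZ ehat 1 n 4 + hatZ ehat 5 n 4 + 2 * hatZ ehat 6 n 4) / 4 = _
      simp only [secC, dotL, q _ 0, e1, e5, e6, Rat.cast_zero, zero_mul, add_zero, zero_add]
      push_cast; ring
    · rw [HX_16]
      show (hatZ ehat 1 n 4 + hatZ ehat 5 n 4 - 2 * hatZ ehat 6 n 4) / 4 = _
      simp only [secC, dotL, q _ 0, e1, e5, e6, Rat.cast_zero, zero_mul, add_zero, zero_add]
      push_cast; ring
    · rw [HX_17]
      show (hatZ ehat 1 n 4 - hatZ ehat 5 n 4) / 4 = _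
      simp only [secC, dotL, q _ 0, e1, e5, Rat.cast_zero, zero_mul, add_zero, zero_add]
      push_cast; ring
    · rw [HX_18]
      show (hatZ ehat 2 n 4 + 2 * hatZ ehat 7 n 4) / 3 = _
      simp only [secC, dotL, q _ 0, e2, e7, Rat.cast_zero, zero_mul, add_zero, zero_add]
      push_cast; ring
    · rw [HX_19]
      show (hatZ ehat 2 n 4 - hatZ ehat 7 n 4) / 3 = _
      simp only [secC, dotL, q _ 0, e2, e7, Rat.cast_zero, zero_mul, add_zero, zero_add]
      push_cast; ring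

theorem X_sec_nonneg {n k : ℕ} (hn : 1 ≤ n) (hk : isSec k = true) : 0 ≤ X theWorld k n 4 := by
  have hβ : (0 : ℝ) < n := by exact_mod_cast hn
  have hk' : k ≤ 7 ∨ (12 ≤ k ∧ k ≤ 19) := by
    simp only [isSec, Bool.or_eq_true, Bool.and_eq_true, Nat.ble_eq] at hk
    exact hk
  have hA := fun k : Fin 8 => (theWorld.hA n hβ k).nonneg 4 (by show 1 ≤ 4; norm_num)
  have hB := fun k : Fin 8 => (theWorld.hB 4 (by norm_num) k).nonneg (n : ℝ) hβ
  rcases hk' with hk | ⟨hk, hk2⟩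
  · interval_cases k
    · exact hA 0
    · exact hA 1
    · exact hA 2
    · exact hA 3
    · exact hA 4
    · exact hA 5
    · exact hA 6
    · exact hA 7
  · interval_cases k
    · exact hB 0
    · exact hB 1
    · exact hB 2
    · exact hB 3
    · exact hB 4
    · exact hB 5
    · exact hB 6
    · exact hB 7

theorem secC_length {k : ℕ} : (secC k).length = 8 := by
  unfold secC
  split <;> rfl

theorem TRn_length (n : ℕ) : (TRn n).length = 8 := by
  unfold TRn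
  split_ifs <;> rfl

theorem ring_in (N : NumInput) {n : ℕ} (hn : n = 4 ∨ n = 6 ∨ n = 8) : Pc.InL (rR n) (TRn n) := by
  rcases hn with rfl | rfl | rfl
  · exact N.ring4
  · exact N.ring6
  · exact N.ring8

/-- `sc n ^ 8 = (sc 8)^n ≤ 1.0055^n` -/
theorem sc_pow_le (N : NumInput) (n : ℕ) : sc n ehat ^ 8 ≤ (10055 / 10000 : ℝ) ^ n := by
  have h := sc_eight_le N
  have e : sc n ehat ^ 8 = sc 8 ehat ^ n := by
    unfold sc
    rw [← Real.exp_nat_mul, ← Real.exp_nat_mul]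
    congr 1
    push_cast
    ring
  rw [e]
  exact pow_le_pow_left₀ (sc_pos _ _).le h n

theorem cb_mkRat (a : ℤ) (c : ℕ) : ((mkRat a c : ℚ) : ℝ) = (a : ℝ) / c := by
  rw [Rat.mkRat_eq_div]; push_cast; rfl

theorem baseOk_sound (N : NumInput) {f : ℕ} (h : baseOk f = true) : Good theWorld f := by
  have he := theE_le_ehat N
  unfold baseOk at h
  simp only [Bool.and_eq_true, Bool.or_eq_true, decide_eq_true_eq, Nat.beq_eq] at h
  obtain ⟨⟨hb, hL⟩, h⟩ := h
  set n := fb f / 2 with hn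
  have hn3 : n = 4 ∨ n = 6 ∨ n = 8 := by omega
  have hn1 : 1 ≤ n := by omega
  have hbn : fb f = 2 * n := by omega
  have hβ : ((fb f : ℕ) : ℝ) / 2 = (n : ℝ) := by
    rw [hbn]; push_cast; ring
  have hm : fL f / 2 = 4 := by omega
  have hn0 : (0 : ℝ) < n := by exact_mod_cast hn1
  have hin := ring_in N hn3
  unfold Good
  rw [hβ, hm]
  have hv : ((mkRat (fv f) D : ℚ) : ℝ) = (fv f : ℝ) / (D : ℝ) := by
    rw [cb_mkRat]; push_cast; rfl
  have hv0 : (0 : ℝ) ≤ (fv f : ℝ) / (D : ℝ) := by positivity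
  have hsc := sc_pow_le N n
  have hsc0 := sc_pos n ehat
  have hc : ((mkRat 10055 10000 : ℚ) : ℝ) = 10055 / 10000 := by rw [cb_mkRat]; norm_num
  -- lower bounds
  have low : ∀ {k : ℕ} {y : ℝ}, (fv f : ℝ) / (D : ℝ) * (10055 / 10000 : ℝ) ^ n ≤ y →
      y ≤ HX ehat k n 4 → (fv f : ℝ) / (D : ℝ) ≤ X theWorld k n 4 := by
    intro k y h1 h2
    have h3 : (fv f : ℝ) / (D : ℝ) * sc n ehat ^ 8 ≤ X theWorld k n 4 * sc n ehat ^ 8 := by
      calc (fv f : ℝ) / (D : ℝ) * sc n ehat ^ 8 ≤ (fv f : ℝ) / (D : ℝ) * (10055 / 10000 : ℝ) ^ n := by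
            gcongr
        _ ≤ y := h1
        _ ≤ _ := h2
        _ = _ := by unfold HX; norm_num
    exact le_of_mul_le_mul_right h3 (by positivity)
  rcases h with (((h | h) | h) | h) | h
  · obtain ⟨⟨ht, hk⟩, h⟩ := h
    rw [ht]
    show X theWorld (fk f) n 4 ≤ _
    refine X_le_of_hat hn0.le he (X_sec_nonneg hn1 hk) ?_
    rw [HX_sec hk, ← hv]
    refine (dotL_le _ _ _ (by rw [secC_length, TRn_length]) hin).trans ?_
    exact_mod_cast h
  · obtain ⟨⟨ht, hk⟩, h⟩ := h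
    rw [ht]
    show _ ≤ X theWorld (fk f) n 4
    refine low (y := ((Pc.loL (secC (fk f)) (TRn n) : ℚ) : ℝ)) ?_ ?_
    · rw [← hv, ← hc]
      exact_mod_cast h
    · rw [HX_sec hk]
      exact le_dotL _ _ _ (by rw [secC_length, TRn_length]) hin
  · obtain ⟨⟨ht, hk⟩, h⟩ := h
    rw [ht, hk]
    show X theWorld 10 n 4 ≤ _
    have h0 : 0 ≤ X theWorld 10 n 4 := by
      show 0 ≤ theWorld.V 0 n ^ (2 * ((4 : ℕ) : ℝ))
      exact Real.rpow_nonneg (le_trans zero_le_one (theWorld.one_le_V n hn0)) _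
    refine X_le_of_hat hn0.le he h0 ?_
    rw [HX_10, ← hv]
    have h1 : hatV ehat 0 n ≤ ((cV0 n : ℚ) : ℝ) := by
      rcases hn3 with h4 | h4 | h4 <;> rw [h4]
      · have := hatV0_le_4 N
        simp only [cV0, if_true, cb_mkRat]
        norm_num at this ⊢
        exact this
      · have := hatV0_le_6 N
        simp only [cV0, cb_mkRat]
        norm_num [cb_mkRat] at this ⊢
        exact this
      · have := hatV0_le_8 N
        simp only [cV0, cb_mkRat]
        norm_num [cb_mkRat] at this ⊢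
        exact this
    calc hatV ehat 0 n ^ (2 * 4) ≤ ((cV0 n : ℚ) : ℝ) ^ (2 * 4) :=
          pow_le_pow_left₀ (hatV_nonneg hn0 0) h1 _
      _ ≤ _ := by exact_mod_cast h
  · obtain ⟨⟨ht, hk⟩, h⟩ := h
    rw [ht, hk]
    show X theWorld 11 n 4 ≤ _
    have h0 : 0 ≤ X theWorld 11 n 4 := by
      show 0 ≤ theWorld.V 1 n ^ (2 * ((4 : ℕ) : ℝ))
      exact Real.rpow_nonneg (theWorld.hAtop1 n hn0).t_nonneg _
    refine X_le_of_hat hn0.le he h0 ?_
    rw [HX_11, ← hv]
    have h1 : hatV ehat 1 n ≤ ((cV1 n : ℚ) : ℝ) := by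
      rcases hn3 with h4 | h4 | h4 <;> rw [h4]
      · have := hatV1_le_4 N
        simp only [cV1, if_true, cb_mkRat]
        norm_num at this ⊢
        exact this
      · have := hatV1_le_6 N
        simp only [cV1, cb_mkRat]
        norm_num [cb_mkRat] at this ⊢
        exact this
      · have := hatV1_le_8 N
        simp only [cV1, cb_mkRat]
        norm_num [cb_mkRat] at this ⊢
        exact this
    calc hatV ehat 1 n ^ (2 * 4) ≤ ((cV1 n : ℚ) : ℝ) ^ (2 * 4) :=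
          pow_le_pow_left₀ (hatV_nonneg hn0 1) h1 _
      _ ≤ _ := by exact_mod_cast h
  · obtain ⟨⟨ht, hk⟩, h⟩ := h
    rw [ht, hk]
    show _ ≤ X theWorld 11 n 4
    refine low (y := ((cL1 n : ℚ) : ℝ) ^ 8) ?_ ?_
    · rw [← hv, ← hc]
      exact_mod_cast h
    · rw [HX_11]
      have h1 : ((cL1 n : ℚ) : ℝ) ≤ hatV ehat 1 n := by
        rcases hn3 with h4 | h4 | h4 <;> rw [h4]
        · have := le_hatV1_4 N
          simp only [cL1, if_true, cb_mkRat]
          norm_num at this ⊢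
          exact this
        · have := le_hatV1_6 N
          simp only [cL1, cb_mkRat]
          norm_num [cb_mkRat] at this ⊢
          exact this
        · have := le_hatV1_8 N
          simp only [cL1, cb_mkRat]
          norm_num [cb_mkRat] at this ⊢
          exact this
      have h2 : (0 : ℝ) ≤ ((cL1 n : ℚ) : ℝ) := by
        rcases hn3 with h4 | h4 | h4 <;> rw [h4] <;> simp only [cL1] <;> norm_num [cb_mkRat]
      exact pow_le_pow_left₀ h2 h1 _

theorem base_good (N : NumInput) : ∀ j, j < nBase → Good theWorld (base.get j) :=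
  fun j hj => baseOk_sound N (base_chk j hj)

end Hald
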