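import Crest.Agent.Hald.ChMat

/-!
# Row 347, M7: the packed operator of an open chain

`ChData K d`: multiplier `p = ∑ 2^c`, end tables `fL, fR`.  `ChData.mat` is the integer matrix of
`2p(-H + const)` in the rescaled Marshall basis:
hop "raise `j`, lower `k`" has coefficient `p (d k - 1)`;
diagonal `p ∑_b (a' (d_b - 1 - a) + a (d_{b+1} - 1 - a')) + fL a_0 + fR a_K`.
-/

set_option autoImplicit false

namespace Hald

open Finset

/-- twice the diagonal part of a bond plus constant, `2 (s s' - m m')` -/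
def bvN (dj dk a a' : ℕ) : ℕ := a' * (dj - 1 - a) + a * (dk - 1 - a')

structure ChData (K : ℕ) (d : Fin (K + 1) → ℕ) where
  cs : List ℕ
  fL : ℕ → ℕ
  fR : ℕ → ℕ

variable {K : ℕ} {d : Fin (K + 1) → ℕ}

/-- single digit conditions -/
def oneS (d : Fin (K + 1) → ℕ) (j : Fin (K + 1)) (a : ℕ) : ∀ i, Fin (d i) → Bool := fun i x =>
  if i = j then Nat.beq x.val a else true

def pairS (d : Fin (K + 1) → ℕ) (j k : Fin (K + 1)) (a a' : ℕ) : ∀ i, Fin (d i) → Bool := fun i x =>
  if i = j then Nat.beq x.val a else if i = k then Nat.beq x.val a' else true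

theorem memb_oneS (j : Fin (K + 1)) (a : ℕ) (σ : CC d) :
    memb (specS (oneS d j a)) (ix σ) = decide ((σ j).val = a) := by
  unfold ix
  rw [memb_specS, decide_eq_decide]
  unfold oneS
  constructor
  · intro h
    have := h j
    rw [if_pos rfl] at this
    exact Nat.eq_of_beq_eq_true this
  · intro h i
    by_cases hi : i = j
    · subst hi
      rw [if_pos rfl, h]
      exact Nat.beq_refl _
    · rw [if_neg hi]

theorem memb_pairS {j k : Fin (K + 1)} (hjk : j ≠ k) (a a' : ℕ) (σ : CC d) :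
    memb (specS (pairS d j k a a')) (ix σ) = decide ((σ j).val = a ∧ (σ k).val = a') := by
  unfold ix
  rw [memb_specS, decide_eq_decide]
  unfold pairS
  constructor
  · intro h
    have h1 := h j
    have h2 := h k
    rw [if_pos rfl] at h1
    rw [if_neg hjk.symm, if_pos rfl] at h2
    exact ⟨Nat.eq_of_beq_eq_true h1, Nat.eq_of_beq_eq_true h2⟩
  · rintro ⟨h1, h2⟩ i
    by_cases hi : i = j
    · subst hi
      rw [if_pos rfl, h1]
      exact Nat.beq_refl _
    · by_cases hk : i = k
      · subst hk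
        rw [if_neg hi, if_pos rfl, h2]
        exact Nat.beq_refl _
      · rw [if_neg hi, if_neg hk]

namespace ChData

/-- multiplier -/
def p (c : ChData K d) : ℕ := (c.cs.map (2 ^ ·)).sum

/-- diagonal value -/
def dv (c : ChData K d) (σ : CC d) : ℕ :=
  ∑ b : Fin K, c.p * bvN (d b.castSucc) (d b.succ) (σ b.castSucc) (σ b.succ) +
    (c.fL (σ 0) + c.fR (σ (Fin.last K)))

/-- the integer matrix of `2p(-H + const)` in the rescaled Marshall basis -/
def mat (c : ChData K d) : Matrix (CC d) (CC d) ℤ :=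
  ∑ b : Fin K, (((c.p * (d b.castSucc - 1) : ℕ) : ℤ) • hopM b.succ b.castSucc +
    ((c.p * (d b.succ - 1) : ℕ) : ℤ) • hopM b.castSucc b.succ) +
    Matrix.diagonal fun σ => ((c.dv σ : ℕ) : ℤ)

/-- the packed operator -/
def op (c : ChData K d) : OpData where
  D := preP d (K + 1)
  up := (List.finRange K).flatMap fun (b : Fin K) => c.cs.map fun e =>
    ⟨specS (hopS d b.succ b.castSucc), preP d b.val * (d b.castSucc - 1), e + (d b.castSucc - 2)⟩
  dn := (List.finRange K).flatMap fun (b : Fin K) => c.cs.map fun e =>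
    ⟨specS (hopS d b.castSucc b.succ), preP d b.val * (d b.castSucc - 1), e + (d b.succ - 2)⟩
  dg := ((List.finRange K).flatMap fun (b : Fin K) => (List.finRange (d b.castSucc)).flatMap
      fun (a : Fin (d b.castSucc)) => (List.finRange (d b.succ)).map fun (a' : Fin (d b.succ)) =>
        (specS (pairS d b.castSucc b.succ a.val a'.val),
          c.p * bvN (d b.castSucc) (d b.succ) a.val a'.val)) ++
    ((List.finRange (d 0)).map fun (a : Fin (d 0)) => (specS (oneS d 0 a.val), c.fL a.val)) ++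
    ((List.finRange (d (Fin.last K))).map fun (a : Fin (d (Fin.last K))) =>
      (specS (oneS d (Fin.last K) a.val), c.fR a.val))
  np := 8
  nup := []
  ndn := []

end ChData

/-! ### lists and sums -/

theorem sum_map_flatMap {α β M : Type*} [AddCommMonoid M] (l : List α) (f : α → List β) (g : β → M) :
    ((l.flatMap f).map g).sum = (l.map fun a => ((f a).map g).sum).sum := by
  induction l with
  | nil => simp
  | cons a l ih => simp [List.flatMap_cons, ih]

theorem sum_map_finRange {M : Type*} [AddCommMonoid M] {n : ℕ} (g : Fin n → M) :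
    ((List.finRange n).map g).sum = ∑ i, g i := (Fin.sum_univ_def g).symm

theorem two_pow_dim {x : ℕ} (h : x = 2 ∨ x = 3) : 2 ^ (x - 2) = x - 1 := by
  rcases h with rfl | rfl <;> rfl

theorem sum_pow_ite (cs : List ℕ) (P : Prop) [Decidable P] (m : ℕ) (X : ℤ) :
    (cs.map fun e => if P then (2 : ℤ) ^ (e + m) * X else 0).sum =
      if P then ((((cs.map (2 ^ ·)).sum * 2 ^ m : ℕ)) : ℤ) * X else 0 := by
  by_cases h : P
  · simp only [if_pos h]
    induction cs with
    | nil => simp
    | cons e cs ih =>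
      rw [List.map_cons, List.sum_cons, ih, List.map_cons, List.sum_cons]
      push_cast
      ring
  · simp only [if_neg h]
    induction cs with
    | nil => simp
    | cons e cs ih => rw [List.map_cons, List.sum_cons, ih, add_zero]

namespace ChData

theorem up_sum (c : ChData K d) (hd : ∀ i, d i = 2 ∨ d i = 3) (w : ℕ) (σ : CC d) :
    (c.op.up.map fun h => if memb h.spec (ix σ) then (2 : ℤ) ^ h.c * 2 ^ (w * (ix σ + h.s)) else 0).sum =
      ∑ b : Fin K, ∑ τ, (((c.p * (d b.castSucc - 1) : ℕ) : ℤ) • hopM b.succ b.castSucc) τ σ *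
        2 ^ (w * ix τ) := by
  unfold op
  simp only
  rw [sum_map_flatMap, sum_map_finRange]
  refine sum_congr rfl fun b _ => ?_
  rw [List.map_map]
  have hne : (b.succ : Fin (K + 1)) ≠ b.castSucc := (Fin.castSucc_lt_succ (i := b)).ne'
  have e1 : ((fun h : Hop => if memb h.spec (ix σ) then (2 : ℤ) ^ h.c * 2 ^ (w * (ix σ + h.s)) else 0) ∘
      fun e => (⟨specS (hopS d b.succ b.castSucc), preP d b.val * (d b.castSucc - 1),
        e + (d b.castSucc - 2)⟩ : Hop)) =
      fun e => if can b.succ b.castSucc σ then (2 : ℤ) ^ (e + (d b.castSucc - 2)) *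
        2 ^ (w * (ix σ + preP d b.val * (d b.castSucc - 1))) else 0 := by
    funext e
    simp only [Function.comp, memb_hopS hne, decide_eq_true_eq]
  rw [e1, sum_pow_ite, two_pow_dim (hd _)]
  simp only [Matrix.smul_apply, smul_eq_mul, mul_assoc]
  rw [← mul_sum, hopM_col]
  by_cases h : can b.succ b.castSucc σ
  · rw [if_pos h, if_pos h]
    have h1 := ix_mv hne h
    have h2 : preP d b.succ = preP d b.val * d b.castSucc := by
      show preP d (b.val + 1) = _
      rw [preP, dif_pos (by omega)]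
      rfl
    have h3 : preP d (b.castSucc : Fin (K + 1)) = preP d b.val := rfl
    have h4 : 1 ≤ d b.castSucc := by rcases hd b.castSucc with h | h <;> omega
    have h5 : ix (mv b.succ b.castSucc σ) = ix σ + preP d b.val * (d b.castSucc - 1) := by
      rw [h2, h3] at h1
      obtain ⟨x, hx⟩ : ∃ x, d b.castSucc = x + 1 := ⟨d b.castSucc - 1, by omega⟩
      rw [hx] at h1 ⊢
      rw [Nat.add_sub_cancel]
      rw [Nat.mul_succ] at h1
      omega
    rw [h5]
    rfl
  · rw [if_neg h, if_neg h, mul_zero]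

theorem dn_sum (c : ChData K d) (hd : ∀ i, d i = 2 ∨ d i = 3) (w : ℕ) (σ : CC d) :
    (c.op.dn.map fun h => if memb h.spec (ix σ) then (2 : ℤ) ^ h.c * 2 ^ (w * (ix σ - h.s)) else 0).sum =
      ∑ b : Fin K, ∑ τ, (((c.p * (d b.succ - 1) : ℕ) : ℤ) • hopM b.castSucc b.succ) τ σ *
        2 ^ (w * ix τ) := by
  unfold op
  simp only
  rw [sum_map_flatMap, sum_map_finRange]
  refine sum_congr rfl fun b _ => ?_
  rw [List.map_map]
  have hne : (b.castSucc : Fin (K + 1)) ≠ b.succ := (Fin.castSucc_lt_succ (i := b)).ne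
  have e1 : ((fun h : Hop => if memb h.spec (ix σ) then (2 : ℤ) ^ h.c * 2 ^ (w * (ix σ - h.s)) else 0) ∘
      fun e => (⟨specS (hopS d b.castSucc b.succ), preP d b.val * (d b.castSucc - 1),
        e + (d b.succ - 2)⟩ : Hop)) =
      fun e => if can b.castSucc b.succ σ then (2 : ℤ) ^ (e + (d b.succ - 2)) *
        2 ^ (w * (ix σ - preP d b.val * (d b.castSucc - 1))) else 0 := by
    funext e
    simp only [Function.comp, memb_hopS hne, decide_eq_true_eq]
  rw [e1, sum_pow_ite, two_pow_dim (hd _)]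
  simp only [Matrix.smul_apply, smul_eq_mul, mul_assoc]
  rw [← mul_sum, hopM_col]
  by_cases h : can b.castSucc b.succ σ
  · rw [if_pos h, if_pos h]
    have h1 := ix_mv hne h
    have h2 : preP d b.succ = preP d b.val * d b.castSucc := by
      show preP d (b.val + 1) = _
      rw [preP, dif_pos (by omega)]
      rfl
    have h3 : preP d (b.castSucc : Fin (K + 1)) = preP d b.val := rfl
    have h4 : 1 ≤ d b.castSucc := by rcases hd b.castSucc with h | h <;> omega
    have h5 : ix (mv b.castSucc b.succ σ) = ix σ - preP d b.val * (d b.castSucc - 1) := by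
      rw [h2, h3] at h1
      obtain ⟨x, hx⟩ : ∃ x, d b.castSucc = x + 1 := ⟨d b.castSucc - 1, by omega⟩
      rw [hx] at h1 ⊢
      rw [Nat.add_sub_cancel]
      rw [Nat.mul_succ] at h1
      omega
    rw [h5]
    rfl
  · rw [if_neg h, if_neg h, mul_zero]

theorem dgVal_eq (c : ChData K d) (σ : CC d) : dgVal c.op.dg (ix σ) = c.dv σ := by
  unfold dgVal op dv
  simp only [List.map_append, List.sum_append]
  rw [sum_map_flatMap, sum_map_finRange, List.map_map, sum_map_finRange, List.map_map,
    sum_map_finRange, add_assoc]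
  congr 1
  · refine sum_congr rfl fun b _ => ?_
    have hne : (b.castSucc : Fin (K + 1)) ≠ b.succ := (Fin.castSucc_lt_succ (i := b)).ne
    rw [sum_map_flatMap, sum_map_finRange]
    rw [sum_eq_single (σ b.castSucc)]
    · rw [List.map_map, sum_map_finRange, sum_eq_single (σ b.succ)]
      · simp only [Function.comp, memb_pairS hne]
        simp
      · intro a' _ ha'
        simp only [Function.comp, memb_pairS hne]
        rw [if_neg]
        simp only [decide_eq_true_eq, not_and]
        exact fun _ h => ha' (Fin.ext h.symm)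
      · intro h; exact absurd (mem_univ _) h
    · intro a _ ha
      rw [List.map_map, sum_map_finRange]
      refine sum_eq_zero fun a' _ => ?_
      simp only [Function.comp, memb_pairS hne]
      rw [if_neg]
      simp only [decide_eq_true_eq, not_and]
      exact fun h => absurd (Fin.ext h.symm) ha
    · intro h; exact absurd (mem_univ _) h
  · congr 1
    · rw [sum_eq_single (σ 0)]
      · simp only [Function.comp, memb_oneS]
        simp
      · intro a _ ha
        simp only [Function.comp, memb_oneS]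
        rw [if_neg]
        simp only [decide_eq_true_eq]
        exact fun h => ha (Fin.ext h.symm)
      · intro h; exact absurd (mem_univ _) h
    · rw [sum_eq_single (σ (Fin.last K))]
      · simp only [Function.comp, memb_oneS]
        simp
      · intro a _ ha
        simp only [Function.comp, memb_oneS]
        rw [if_neg]
        simp only [decide_eq_true_eq]
        exact fun h => ha (Fin.ext h.symm)
      · intro h; exact absurd (mem_univ _) h

/-- the numbering -/
def eN (d : Fin (K + 1) → ℕ) : CC d ≃ Fin (preP d (K + 1)) :=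
  finPiFinEquiv.trans (finCongr (cc_dim d))

theorem eN_val (σ : CC d) : ((eN d σ : Fin _) : ℕ) = ix σ := ix_eq σ

theorem mat_col (c : ChData K d) (σ : CC d) (g : CC d → ℤ) :
    ∑ τ, c.mat τ σ * g τ =
      ∑ b : Fin K, ∑ τ, (((c.p * (d b.castSucc - 1) : ℕ) : ℤ) • hopM b.succ b.castSucc) τ σ * g τ +
      ∑ b : Fin K, ∑ τ, (((c.p * (d b.succ - 1) : ℕ) : ℤ) • hopM b.castSucc b.succ) τ σ * g τ +
      (c.dv σ : ℤ) * g σ := by
  unfold mat
  simp only [Matrix.add_apply, Matrix.sum_apply, add_mul, sum_mul, sum_add_distrib]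
  congr 1
  · congr 1
    · exact sum_comm
    · exact sum_comm
  · rw [sum_eq_single σ]
    · simp
    · intro τ _ h; simp [h]
    · intro h; exact absurd (mem_univ _) h

/-- **column identity** -/
theorem hcol (c : ChData K d) (hd : ∀ i, d i = 2 ∨ d i = 3) (w : ℕ) (σ : CC d) :
    ∑ τ, c.mat τ σ * 2 ^ (w * ((eN d τ : Fin _) : ℕ)) =
      posCol w c.op (eN d σ) - negCol w c.op (eN d σ) := by
  simp only [eN_val]
  rw [mat_col, posCol, negCol, up_sum c hd, dn_sum c hd, dgVal_eq]
  simp [op]

theorem mat_nonneg (c : ChData K d) (τ σ : CC d) : 0 ≤ c.mat τ σ := by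
  unfold mat
  rw [Matrix.add_apply, Matrix.sum_apply]
  refine add_nonneg (sum_nonneg fun b _ => ?_) ?_
  · rw [Matrix.add_apply, Matrix.smul_apply, Matrix.smul_apply]
    refine add_nonneg (smul_nonneg (Int.natCast_nonneg _) ?_) (smul_nonneg (Int.natCast_nonneg _) ?_)
    · unfold hopM; simp only [Matrix.of_apply]; split_ifs <;> norm_num
    · unfold hopM; simp only [Matrix.of_apply]; split_ifs <;> norm_num
  · rw [Matrix.diagonal_apply]
    split_ifs
    · exact Int.natCast_nonneg _
    · exact le_rfl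

/-- local column sum of a bond -/
def bcs (p dj dk a a' : ℕ) : ℕ :=
  (if a' + 1 < dk ∧ 0 < a then p * (dj - 1) else 0) + (if a + 1 < dj ∧ 0 < a' then p * (dk - 1) else 0) +
    p * bvN dj dk a a'

/-- column sums -/
theorem col_sum (c : ChData K d) (σ : CC d) :
    ∑ τ, |c.mat τ σ| = ((∑ b : Fin K, bcs c.p (d b.castSucc) (d b.succ) (σ b.castSucc) (σ b.succ) +
      (c.fL (σ 0) + c.fR (σ (Fin.last K))) : ℕ) : ℤ) := by
  have h1 : ∑ τ, |c.mat τ σ| = ∑ τ, c.mat τ σ * 1 :=
    sum_congr rfl fun τ _ => by rw [abs_of_nonneg (mat_nonneg c τ σ), mul_one]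
  rw [h1, mat_col c σ (fun _ => 1)]
  simp only [Matrix.smul_apply, smul_eq_mul, mul_assoc]
  simp only [← mul_sum]
  simp only [hopM_col (σ := σ) (g := fun _ => 1)]
  unfold dv
  have h2 : ∀ b : Fin K, ((bcs c.p (d b.castSucc) (d b.succ) (σ b.castSucc) (σ b.succ) : ℕ) : ℤ) =
      ((c.p * (d b.castSucc - 1) : ℕ) : ℤ) * (if can b.succ b.castSucc σ then 1 else 0) +
      ((c.p * (d b.succ - 1) : ℕ) : ℤ) * (if can b.castSucc b.succ σ then 1 else 0) +
      ((c.p * bvN (d b.castSucc) (d b.succ) (σ b.castSucc) (σ b.succ) : ℕ) : ℤ) := by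
    intro b
    unfold bcs
    by_cases h3 : can b.succ b.castSucc σ
    · have h3' : (σ b.succ).val + 1 < d b.succ ∧ 0 < (σ b.castSucc).val := h3
      by_cases h4 : can b.castSucc b.succ σ
      · have h4' : (σ b.castSucc).val + 1 < d b.castSucc ∧ 0 < (σ b.succ).val := h4
        rw [if_pos h3, if_pos h4, if_pos h3', if_pos h4']; push_cast; ring
      · have h4' : ¬ ((σ b.castSucc).val + 1 < d b.castSucc ∧ 0 < (σ b.succ).val) := h4
        rw [if_pos h3, if_neg h4, if_pos h3', if_neg h4']; push_cast; ring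
    · have h3' : ¬ ((σ b.succ).val + 1 < d b.succ ∧ 0 < (σ b.castSucc).val) := h3
      by_cases h4 : can b.castSucc b.succ σ
      · have h4' : (σ b.castSucc).val + 1 < d b.castSucc ∧ 0 < (σ b.succ).val := h4
        rw [if_neg h3, if_pos h4, if_neg h3', if_pos h4']; push_cast; ring
      · have h4' : ¬ ((σ b.castSucc).val + 1 < d b.castSucc ∧ 0 < (σ b.succ).val) := h4
        rw [if_neg h3, if_neg h4, if_neg h3', if_neg h4']; push_cast; ring
  have h5 : ((∑ b : Fin K, bcs c.p (d b.castSucc) (d b.succ) (σ b.castSucc) (σ b.succ) : ℕ) : ℤ) =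
      ∑ b : Fin K, (((c.p * (d b.castSucc - 1) : ℕ) : ℤ) * (if can b.succ b.castSucc σ then 1 else 0)) +
      ∑ b : Fin K, (((c.p * (d b.succ - 1) : ℕ) : ℤ) * (if can b.castSucc b.succ σ then 1 else 0)) +
      ((∑ b : Fin K, c.p * bvN (d b.castSucc) (d b.succ) (σ b.castSucc) (σ b.succ) : ℕ) : ℤ) := by
    rw [Nat.cast_sum, sum_congr rfl fun b _ => h2 b, sum_add_distrib, sum_add_distrib, Nat.cast_sum]
  simp only [Nat.cast_add]
  rw [h5, mul_one]
  ring

theorem col_bound (c : ChData K d) {R : ℕ} (Rb : Fin K → ℕ) (RL RR : ℕ)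
    (hb : ∀ b : Fin K, ∀ a : Fin (d b.castSucc), ∀ a' : Fin (d b.succ),
      bcs c.p (d b.castSucc) (d b.succ) a a' ≤ Rb b)
    (hL : ∀ a : Fin (d 0), c.fL a ≤ RL) (hR : ∀ a : Fin (d (Fin.last K)), c.fR a ≤ RR)
    (hs : ∑ b, Rb b + (RL + RR) ≤ R) (σ : CC d) : ∑ τ, |c.mat τ σ| ≤ (R : ℤ) := by
  rw [col_sum]
  have h1 : ∑ b : Fin K, bcs c.p (d b.castSucc) (d b.succ) (σ b.castSucc) (σ b.succ) ≤ ∑ b, Rb b :=
    sum_le_sum fun b _ => hb b _ _
  have h2 := hL (σ 0)
  have h3 := hR (σ (Fin.last K))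
  exact_mod_cast (by omega : ∑ b : Fin K, bcs c.p (d b.castSucc) (d b.succ) (σ b.castSucc) (σ b.succ) +
      (c.fL (σ 0) + c.fR (σ (Fin.last K))) ≤ R)

theorem dv_le (c : ChData K d) {R : ℕ} (hR : ∀ σ, ∑ τ, |c.mat τ σ| ≤ (R : ℤ)) (σ : CC d) :
    c.dv σ ≤ R := by
  have h1 := hR σ
  rw [col_sum] at h1
  have h2 : c.dv σ ≤ ∑ b : Fin K, bcs c.p (d b.castSucc) (d b.succ) (σ b.castSucc) (σ b.succ) +
      (c.fL (σ 0) + c.fR (σ (Fin.last K))) := by
    unfold dv
    refine Nat.add_le_add_right (sum_le_sum fun b _ => ?_) _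
    unfold bcs
    exact Nat.le_add_left _ _
  have h3 : (∑ b : Fin K, bcs c.p (d b.castSucc) (d b.succ) (σ b.castSucc) (σ b.succ) +
      (c.fL (σ 0) + c.fR (σ (Fin.last K)))) ≤ R := by exact_mod_cast h1
  omega

/-- full specification -/
def fullS (d : Fin (K + 1) → ℕ) : List (List Bool) := specS (fun (i : Fin (K + 1)) (_ : Fin (d i)) => true)

/-- **side conditions** -/
theorem good (c : ChData K d) (hd : ∀ i, d i = 2 ∨ d i = 3) {w : ℕ} (hw : 8 ≤ w)
    (hc : ∀ e ∈ c.cs, e + 1 ≤ w) {R : ℕ} (hR : ∀ σ, ∑ τ, |c.mat τ σ| ≤ (R : ℤ)) (hR8 : R < 2 ^ 8) :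
    c.op.Good w (fullS d) := by
  have hdim : ∀ S : ∀ i, Fin (d i) → Bool, dimL (specS S) = preP d (K + 1) := fun S => dimL_specS S
  have hpos : ∀ k : ℕ, 0 < preP d k := by
    intro k
    induction k with
    | zero => exact Nat.one_pos
    | succ k ih =>
      rw [preP]
      refine Nat.mul_pos ih ?_
      split_ifs with h
      · rcases hd ⟨k, h⟩ with h | h <;> omega
      · exact Nat.one_pos
  have hs1 : ∀ b : Fin K, 1 ≤ preP d b.val * (d b.castSucc - 1) := by
    intro b
    have h1 := hpos b.val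
    have h2 : 1 ≤ d b.castSucc - 1 := by rcases hd b.castSucc with h | h <;> omega
    exact Nat.mul_pos h1 h2
  refine ⟨by omega, ?_, ?_, by intro h hh; exact absurd hh (by simp [op]),
    by intro h hh; exact absurd hh (by simp [op]), ?_, by intro h hh; exact absurd hh (by simp [op]),
    ?_, ?_, hw, ?_, hdim _⟩
  · intro h hh
    simp only [op, List.mem_flatMap, List.mem_map] at hh
    obtain ⟨b, _, e, _, rfl⟩ := hh
    exact hdim _
  · intro h hh
    simp only [op, List.mem_flatMap, List.mem_map] at hh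
    obtain ⟨b, _, e, he, rfl⟩ := hh
    refine ⟨hdim _, ?_⟩
    show e + (d b.succ - 2) ≤ w * (preP d b.val * (d b.castSucc - 1))
    have h1 := hc e he
    have h2 : d b.succ - 2 ≤ 1 := by rcases hd b.succ with h | h <;> omega
    calc e + (d b.succ - 2) ≤ w * 1 := by omega
      _ ≤ _ := Nat.mul_le_mul_left _ (hs1 b)
  · intro h hh i hi hm
    simp only [op, List.mem_flatMap, List.mem_map] at hh
    obtain ⟨b, _, e, he, rfl⟩ := hh
    obtain ⟨σ, rfl⟩ := ix_surj (d := d) hi
    have hne : (b.castSucc : Fin (K + 1)) ≠ b.succ := (Fin.castSucc_lt_succ (i := b)).ne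
    simp only at hm ⊢
    rw [memb_hopS hne, decide_eq_true_eq] at hm
    have h1 := ix_mv hne hm
    have h2 : preP d b.succ = preP d b.val * d b.castSucc := by
      show preP d (b.val + 1) = _
      rw [preP, dif_pos (by omega)]
      rfl
    have h3 : preP d (b.castSucc : Fin (K + 1)) = preP d b.val := rfl
    rw [h2, h3] at h1
    have h4 : 1 ≤ d b.castSucc := by rcases hd b.castSucc with h | h <;> omega
    obtain ⟨x, hx⟩ : ∃ x, d b.castSucc = x + 1 := ⟨d b.castSucc - 1, by omega⟩
    rw [hx] at h1 ⊢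
    rw [Nat.add_sub_cancel]
    rw [Nat.mul_succ] at h1
    omega
  · intro q hq
    simp only [op, List.mem_append, List.mem_flatMap, List.mem_map] at hq
    rcases hq with (⟨b, _, a, _, a', _, rfl⟩ | ⟨a, _, rfl⟩) | ⟨a, _, rfl⟩
    · exact hdim _
    · exact hdim _
    · exact hdim _
  · intro i hi
    obtain ⟨σ, rfl⟩ := ix_surj (d := d) hi
    rw [dgVal_eq]
    exact lt_of_le_of_lt (dv_le c hR σ) hR8
  · intro i hi
    obtain ⟨σ, rfl⟩ := ix_surj (d := d) hi
    unfold fullS ix
    rw [memb_specS]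
    simp

end ChData

end Hald
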