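import Crest.Agent.Hald.CwChain
import Crest.Agent.Hald.ChCol

/-!
# Row 347, M7: the chain Hamiltonian and the integer matrix `ChData.mat`

`2p (-Hch) + C = Q * mat * Q⁻¹`, `Q = diag (msign * RR)`.
-/

set_option autoImplicit false
set_option linter.unusedSectionVars false

namespace Hald

open Matrix Finset Crest.MathPhysics.SpinChain Hald.Cw

variable {K : ℕ} {d : Fin (K + 1) → ℕ}

/-- the additive constant -/
noncomputable def chC (c : ChData K d) (cL cR : ℝ) : ℝ :=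
  c.p * (∑ b : Fin K, ((d b.castSucc : ℝ) - 1) * ((d b.succ : ℝ) - 1)) / 2 + cL + cR

namespace ChLink

theorem amp_A {dj dk a e : ℕ} (hj : dj = 2 ∨ dj = 3) (hk : dk = 2 ∨ dk = 3)
    (ha : a + 1 < dj) (he : 1 ≤ e) (he' : e < dk) :
    amp dj * amp dk * (Cw.rho dj a * Cw.rho dk e) = ((dk : ℝ) - 1) * (Cw.rho dj (a + 1) * Cw.rho dk (e - 1)) := by
  have s2 := sqrt2_sq
  rcases hj with rfl | rfl <;> rcases hk with rfl | rfl
  · have ha0 : a = 0 := by omega
    have he0 : e = 1 := by omega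
    subst ha0; subst he0
    simp [amp, Cw.rho]; norm_num
  · have ha0 : a = 0 := by omega
    subst ha0
    simp [amp, Cw.rho]; norm_num
  · have he0 : e = 1 := by omega
    subst he0
    simp [amp, Cw.rho]; norm_num
  · simp [amp, Cw.rho]; norm_num

theorem amp_B {dj dk a e : ℕ} (hj : dj = 2 ∨ dj = 3) (hk : dk = 2 ∨ dk = 3)
    (ha : 1 ≤ a) (ha' : a < dj) (he : e + 1 < dk) :
    amp dj * amp dk * (Cw.rho dj a * Cw.rho dk e) = ((dj : ℝ) - 1) * (Cw.rho dj (a - 1) * Cw.rho dk (e + 1)) := by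
  have h := amp_A (a := e) (e := a) hk hj he ha ha'
  linarith

/-- the two forms of a move -/
theorem mv_eq_update {j k : Fin (K + 1)} (hjk : j ≠ k) (σ : CC d) (h : can j k σ) :
    mv j k σ = Function.update (Function.update σ j ⟨(σ j).val + 1, h.1⟩) k
      ⟨(σ k).val - 1, by have := (σ k).isLt; omega⟩ := by
  funext i
  by_cases hj : i = j
  · subst hj
    rw [Function.update_of_ne hjk, Function.update_self]
    apply Fin.ext
    simp [mv, incF, h.1]
  · by_cases hk : i = k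
    · subst hk
      rw [Function.update_self]
      apply Fin.ext
      simp [mv, decF, hj]
    · rw [Function.update_of_ne hk, Function.update_of_ne hj]
      simp [mv, hj, hk]

/-- conjugating vector -/
noncomputable def QQ (σ : CC d) : ℝ := msign σ * RR σ

theorem QQ_ne (σ : CC d) : QQ σ ≠ 0 := by
  unfold QQ
  refine mul_ne_zero ?_ (RR_pos σ).ne'
  intro h
  have := msign_sq σ
  rw [h] at this
  simp at this

/-- moving a unit across an even–odd bond -/
theorem QQ_mv (hd : ∀ i, d i = 2 ∨ d i = 3) {j k : Fin (K + 1)} (hjk : j ≠ k)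
    (hpar : (j.val + k.val) % 2 = 1) (σ : CC d) (h : can j k σ) :
    ((d k : ℝ) - 1) * QQ (mv j k σ) = -(amp (d j) * amp (d k) * QQ σ) := by
  have hm := mv_eq_update hjk σ h
  set σ₁ := Function.update σ j ⟨(σ j).val + 1, h.1⟩ with hσ₁
  have hsgn := msign_flip σ hjk hpar ⟨(σ j).val + 1, h.1⟩
    ⟨(σ k).val - 1, by have := (σ k).isLt; omega⟩ (Or.inl rfl)
    (Or.inr (by have := h.2; simp only; omega))
  rw [← hσ₁, ← hm] at hsgn
  have q1 := RR_update σ j ⟨(σ j).val + 1, h.1⟩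
  have q2 := RR_update σ₁ k ⟨(σ k).val - 1, by have := (σ k).isLt; omega⟩
  have hk1 : σ₁ k = σ k := by rw [hσ₁, Function.update_of_ne hjk.symm]
  rw [hk1, ← hm] at q2
  rw [← hσ₁] at q1
  simp only at q1 q2
  have key := amp_A (hd j) (hd k) h.1 h.2 (σ k).isLt
  have r1 : 0 < Cw.rho (d j) (σ j).val := rho_pos _ _
  have r2 : 0 < Cw.rho (d k) (σ k).val := rho_pos _ _
  have q3 : RR (mv j k σ) * (Cw.rho (d j) (σ j).val * Cw.rho (d k) (σ k).val) =
      RR σ * (Cw.rho (d j) ((σ j).val + 1) * Cw.rho (d k) ((σ k).val - 1)) := by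
    calc RR (mv j k σ) * (Cw.rho (d j) (σ j).val * Cw.rho (d k) (σ k).val)
        = (RR (mv j k σ) * Cw.rho (d k) (σ k).val) * Cw.rho (d j) (σ j).val := by ring
      _ = (RR σ₁ * Cw.rho (d j) (σ j).val) * Cw.rho (d k) ((σ k).val - 1) := by rw [q2]; ring
      _ = _ := by rw [q1]; ring
  have e1 : ((d k : ℝ) - 1) * RR (mv j k σ) = amp (d j) * amp (d k) * RR σ := by
    have hr : Cw.rho (d j) (σ j).val * Cw.rho (d k) (σ k).val ≠ 0 := (mul_pos r1 r2).ne'
    apply mul_right_cancel₀ hr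
    calc ((d k : ℝ) - 1) * RR (mv j k σ) * (Cw.rho (d j) (σ j).val * Cw.rho (d k) (σ k).val)
        = ((d k : ℝ) - 1) * (RR σ * (Cw.rho (d j) ((σ j).val + 1) * Cw.rho (d k) ((σ k).val - 1))) := by
          rw [← q3]; ring
      _ = RR σ * (amp (d j) * amp (d k) * (Cw.rho (d j) (σ j).val * Cw.rho (d k) (σ k).val)) := by
          rw [key]; ring
      _ = _ := by ring
  have e2 : msign (mv j k σ) = -msign σ := by
    have h1 := msign_sq σ
    calc msign (mv j k σ) = (msign σ * msign σ) * msign (mv j k σ) := by rw [h1, one_mul]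
      _ = msign σ * (msign σ * msign (mv j k σ)) := by ring
      _ = -msign σ := by rw [hsgn]; ring
  unfold QQ
  rw [e2]
  calc ((d k : ℝ) - 1) * (-msign σ * RR (mv j k σ))
      = -(msign σ * (((d k : ℝ) - 1) * RR (mv j k σ))) := by ring
    _ = _ := by rw [e1]; ring

theorem bond_link (hd : ∀ i, d i = 2 ∨ d i = 3) {j k : Fin (K + 1)} (hjk : j ≠ k)
    (hpar : (j.val + k.val) % 2 = 1) (g : CC d → ℝ) (σ : CC d) :
    -(2 * (Wb d (j, k) *ᵥ g) σ) * QQ σ =
      ((d j : ℝ) - 1) * (if can k j σ then g (mv k j σ) * QQ (mv k j σ) else 0) +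
      ((d k : ℝ) - 1) * (if can j k σ then g (mv j k σ) * QQ (mv j k σ) else 0) := by
  rw [Wb_mulVec d (j, k) hjk]
  simp only
  have hA : (if h : (σ j).val + 1 < d j ∧ 1 ≤ (σ k).val then
        amp (d j) * amp (d k) / 2 *
          g (Function.update (Function.update σ j ⟨(σ j).val + 1, h.1⟩) k
            ⟨(σ k).val - 1, by have := (σ k).isLt; omega⟩) else 0) * (2 * QQ σ) =
      -(((d k : ℝ) - 1) * (if can j k σ then g (mv j k σ) * QQ (mv j k σ) else 0)) := by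
    by_cases h : can j k σ
    · have h' : (σ j).val + 1 < d j ∧ 1 ≤ (σ k).val := ⟨h.1, h.2⟩
      rw [dif_pos h', if_pos h]
      have e := mv_eq_update hjk σ h
      rw [← e]
      have key := QQ_mv hd hjk hpar σ h
      linear_combination (g (mv j k σ)) * key
    · have h' : ¬ ((σ j).val + 1 < d j ∧ 1 ≤ (σ k).val) := fun hh => h ⟨hh.1, hh.2⟩
      rw [dif_neg h', if_neg h]; ring
  have hB : (if h : 1 ≤ (σ j).val ∧ (σ k).val + 1 < d k then
        amp (d j) * amp (d k) / 2 *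
          g (Function.update (Function.update σ j ⟨(σ j).val - 1, by have := (σ j).isLt; omega⟩) k
            ⟨(σ k).val + 1, h.2⟩) else 0) * (2 * QQ σ) =
      -(((d j : ℝ) - 1) * (if can k j σ then g (mv k j σ) * QQ (mv k j σ) else 0)) := by
    by_cases h : can k j σ
    · have h' : 1 ≤ (σ j).val ∧ (σ k).val + 1 < d k := ⟨h.2, h.1⟩
      rw [dif_pos h', if_pos h]
      have e := mv_eq_update hjk.symm σ h
      rw [Function.update_comm hjk.symm] at e
      rw [← e]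
      have key := QQ_mv hd hjk.symm (by omega) σ h
      linear_combination (g (mv k j σ)) * key
    · have h' : ¬ (1 ≤ (σ j).val ∧ (σ k).val + 1 < d k) := fun hh => h ⟨hh.2, hh.1⟩
      rw [dif_neg h', if_neg h]; ring
  linear_combination -hA - hB

theorem bv_link {dj dk a a' : ℕ} (hj : dj = 2 ∨ dj = 3) (hk : dk = 2 ∨ dk = 3) (ha : a < dj)
    (ha' : a' < dk) : (bvN dj dk a a' : ℝ) =
      ((dj : ℝ) - 1) * ((dk : ℝ) - 1) / 2 - 2 * (mag dj a * mag dk a') := by
  rcases hj with rfl | rfl <;> rcases hk with rfl | rfl <;> interval_cases a <;>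
    interval_cases a' <;> simp [bvN, mag] <;> norm_num

theorem mag_link {e a : ℕ} (h : e = 2 ∨ e = 3) : 2 * mag e a = (e : ℝ) - 1 - 2 * (a : ℝ) := by
  rcases h with rfl | rfl <;> simp [mag] <;> ring

theorem hopM_colR {n : ℕ} {d : Fin n → ℕ} (j k : Fin n) (σ : CC d) (g : CC d → ℝ) :
    ∑ τ, ((hopM j k τ σ : ℤ) : ℝ) * g τ = if can j k σ then g (mv j k σ) else 0 := by
  unfold hopM
  simp only [Matrix.of_apply]
  by_cases h : can j k σ
  · rw [if_pos h, sum_eq_single (mv j k σ)]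
    · simp [h]
    · intro τ _ hτ; simp [hτ]
    · intro h'; exact absurd (mem_univ _) h'
  · rw [if_neg h]
    exact sum_eq_zero fun τ _ => by simp [h]

theorem mat_colR (c : ChData K d) (hd : ∀ i, d i = 2 ∨ d i = 3) (σ : CC d) (g : CC d → ℝ) :
    ∑ τ, ((c.mat τ σ : ℤ) : ℝ) * g τ =
      ∑ b : Fin K, (c.p : ℝ) * (((d b.castSucc : ℝ) - 1) *
          (if can b.succ b.castSucc σ then g (mv b.succ b.castSucc σ) else 0) +
        ((d b.succ : ℝ) - 1) *
          (if can b.castSucc b.succ σ then g (mv b.castSucc b.succ σ) else 0)) +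
      (c.dv σ : ℝ) * g σ := by
  have e1 : ∀ τ, ((c.mat τ σ : ℤ) : ℝ) * g τ =
      (∑ b : Fin K, ((c.p : ℝ) * ((d b.castSucc : ℝ) - 1) *
          (((hopM b.succ b.castSucc τ σ : ℤ) : ℝ) * g τ) +
        (c.p : ℝ) * ((d b.succ : ℝ) - 1) *
          (((hopM b.castSucc b.succ τ σ : ℤ) : ℝ) * g τ))) +
      (Matrix.diagonal (fun σ => (c.dv σ : ℝ))) τ σ * g τ := by
    intro τ
    unfold ChData.mat
    simp only [Matrix.add_apply, Matrix.sum_apply, Matrix.smul_apply, smul_eq_mul]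
    have h1 : ∀ i, ((d i - 1 : ℕ) : ℝ) = (d i : ℝ) - 1 := fun i => by
      rw [Nat.cast_sub (by rcases hd i with h | h <;> omega), Nat.cast_one]
    have h2 : (((Matrix.diagonal (fun σ => ((c.dv σ : ℕ) : ℤ)) : Matrix (CC d) (CC d) ℤ) τ σ : ℤ) : ℝ) =
        (Matrix.diagonal (fun σ => (c.dv σ : ℝ))) τ σ := by
      by_cases h : τ = σ
      · subst h; simp
      · simp [h]
    rw [Int.cast_add, h2, add_mul, Int.cast_sum, sum_mul]
    congr 1
    refine sum_congr rfl fun b _ => ?_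
    push_cast [h1]
    ring
  rw [sum_congr rfl fun τ _ => e1 τ, sum_add_distrib, sum_comm]
  congr 1
  · refine sum_congr rfl fun b _ => ?_
    rw [sum_add_distrib, ← mul_sum, ← mul_sum, hopM_colR, hopM_colR]
    ring
  · rw [sum_eq_single σ]
    · simp
    · intro τ _ h; simp [h]
    · intro h; exact absurd (mem_univ _) h

theorem sum_chB {M : Type*} [AddCommMonoid M] (F : Fin (K + 1) × Fin (K + 1) → M) :
    ((chB K).map F).sum = ∑ b : Fin K, F (b.castSucc, b.succ) := by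
  rw [chB, List.map_ofFn, List.sum_ofFn]
  rfl

/-- the diagonal link -/
theorem dv_link (c : ChData K d) (hd : ∀ i, d i = 2 ∨ d i = 3) (h0 h1 cL cR : ℝ)
    (hL : ∀ a : Fin (d 0), (c.fL a : ℝ) = c.p * h0 * ((d 0 : ℝ) - 1 - 2 * (a : ℝ)) + cL)
    (hR : ∀ a : Fin (d (Fin.last K)),
      (c.fR a : ℝ) = c.p * h1 * ((d (Fin.last K) : ℝ) - 1 - 2 * (a : ℝ)) + cR) (σ : CC d) :
    (c.dv σ : ℝ) = -(2 * c.p * Dgen d (chB K) [(0, h0), (Fin.last K, h1)] σ) + chC c cL cR := by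
  unfold ChData.dv Dgen chC
  push_cast
  rw [hL, hR, sum_chB]
  have e1 : ∀ b : Fin K, (c.p : ℝ) * (bvN (d b.castSucc) (d b.succ) (σ b.castSucc) (σ b.succ) : ℝ) =
      (c.p : ℝ) * (((d b.castSucc : ℝ) - 1) * ((d b.succ : ℝ) - 1)) / 2 -
        2 * c.p * (mag (d b.castSucc) (σ b.castSucc) * mag (d b.succ) (σ b.succ)) := by
    intro b
    rw [bv_link (hd _) (hd _) (σ _).isLt (σ _).isLt]
    ring
  rw [sum_congr rfl fun b _ => e1 b, sum_sub_distrib, ← mul_sum, ← sum_div, ← mul_sum]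
  have e2 := mag_link (a := (σ 0).val) (hd 0)
  have e3 := mag_link (a := (σ (Fin.last K)).val) (hd (Fin.last K))
  simp only [List.map_cons, List.map_nil, List.sum_cons, List.sum_nil]
  linear_combination (-(c.p : ℝ) * h0) * e2 + (-(c.p : ℝ) * h1) * e3

/-- conjugation identity, entrywise (real) -/
theorem conj_entry (c : ChData K d) (hd : ∀ i, d i = 2 ∨ d i = 3) (h0 h1 cL cR : ℝ)
    (hL : ∀ a : Fin (d 0), (c.fL a : ℝ) = c.p * h0 * ((d 0 : ℝ) - 1 - 2 * (a : ℝ)) + cL)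
    (hR : ∀ a : Fin (d (Fin.last K)),
      (c.fR a : ℝ) = c.p * h1 * ((d (Fin.last K) : ℝ) - 1 - 2 * (a : ℝ)) + cR) (τ σ : CC d) :
    (-(2 * c.p * (Wgen d (chB K) τ σ + Matrix.diagonal (Dgen d (chB K) [(0, h0), (Fin.last K, h1)]) τ σ)) +
      chC c cL cR * (1 : Matrix (CC d) (CC d) ℝ) τ σ) * QQ σ = QQ τ * ((c.mat τ σ : ℤ) : ℝ) := by
  classical
  have hne : ∀ b ∈ chB K, b.1 ≠ b.2 := by
    intro b hb
    obtain ⟨i, rfl⟩ := chB_mem hb
    exact (Fin.castSucc_lt_succ (i := i)).ne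
  -- the column identity for all `g`
  have key : ∀ g : CC d → ℝ, ∑ τ, g τ *
      ((-(2 * c.p * (Wgen d (chB K) τ σ + Matrix.diagonal (Dgen d (chB K) [(0, h0), (Fin.last K, h1)]) τ σ)) +
      chC c cL cR * (1 : Matrix (CC d) (CC d) ℝ) τ σ) * QQ σ) =
      ∑ τ, g τ * (QQ τ * ((c.mat τ σ : ℤ) : ℝ)) := by
    intro g
    have l1 : ∑ τ, g τ *
      ((-(2 * c.p * (Wgen d (chB K) τ σ + Matrix.diagonal (Dgen d (chB K) [(0, h0), (Fin.last K, h1)]) τ σ)) +
      chC c cL cR * (1 : Matrix (CC d) (CC d) ℝ) τ σ) * QQ σ) =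
        (-(2 * c.p * ((Wgen d (chB K) *ᵥ g) σ + Dgen d (chB K) [(0, h0), (Fin.last K, h1)] σ * g σ)) +
          chC c cL cR * g σ) * QQ σ := by
      have s1 : ∑ τ, g τ * Wgen d (chB K) τ σ = (Wgen d (chB K) *ᵥ g) σ := by
        rw [Matrix.mulVec, dotProduct]
        refine sum_congr rfl fun τ _ => ?_
        have := congrFun (congrFun (Wgen_symm d (chB K) hne) σ) τ
        rw [Matrix.transpose_apply] at this
        rw [this, mul_comm]
      have s2 : ∑ τ, g τ * Matrix.diagonal (Dgen d (chB K) [(0, h0), (Fin.last K, h1)]) τ σ =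
          Dgen d (chB K) [(0, h0), (Fin.last K, h1)] σ * g σ := by
        rw [sum_eq_single σ]
        · simp [mul_comm]
        · intro τ _ h; simp [h]
        · intro h; exact absurd (mem_univ _) h
      have s3 : ∑ τ, g τ * (1 : Matrix (CC d) (CC d) ℝ) τ σ = g σ := by
        rw [sum_eq_single σ]
        · simp
        · intro τ _ h; simp [h]
        · intro h; exact absurd (mem_univ _) h
      rw [← s1, ← s2, ← s3, ← sum_add_distrib, mul_sum, mul_sum, ← sum_neg_distrib, ← sum_add_distrib,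
        sum_mul]
      refine sum_congr rfl fun τ _ => ?_
      ring
    rw [l1]
    have l2 : ∑ τ, g τ * (QQ τ * ((c.mat τ σ : ℤ) : ℝ)) =
        ∑ τ, ((c.mat τ σ : ℤ) : ℝ) * (g τ * QQ τ) := sum_congr rfl fun τ _ => by ring
    rw [l2, mat_colR c hd, dv_link c hd h0 h1 cL cR hL hR, Wgen_mulVec, sum_chB]
    have l3 : ∀ b : Fin K, (c.p : ℝ) * (((d b.castSucc : ℝ) - 1) *
          (if can b.succ b.castSucc σ then g (mv b.succ b.castSucc σ) * QQ (mv b.succ b.castSucc σ) else 0) +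
        ((d b.succ : ℝ) - 1) *
          (if can b.castSucc b.succ σ then g (mv b.castSucc b.succ σ) * QQ (mv b.castSucc b.succ σ) else 0)) =
        -(2 * c.p * QQ σ) * (Wb d (b.castSucc, b.succ) *ᵥ g) σ := by
      intro b
      have := bond_link hd (j := b.castSucc) (k := b.succ) (Fin.castSucc_lt_succ (i := b)).ne
        (by show (b.val + (b.val + 1)) % 2 = 1; omega) g σ
      rw [← this]; ring
    rw [sum_congr rfl fun b _ => l3 b, ← mul_sum]
    ring
  have := key (Pi.single τ 1)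
  rw [sum_eq_single τ, sum_eq_single τ] at this
  · simpa using this
  · intro x _ hx; simp [hx]
  · intro h; exact absurd (mem_univ _) h
  · intro x _ hx; simp [hx]
  · intro h; exact absurd (mem_univ _) h

end ChLink

open ChLink

/-- the shifted, scaled chain Hamiltonian -/
noncomputable def chA (c : ChData K d) (h0 h1 cL cR : ℝ) : Matrix (CC d) (CC d) ℂ :=
  ((2 * c.p : ℕ) : ℂ) • (-Hch K d h0 h1) + ((chC c cL cR : ℝ) : ℂ) • 1

theorem ch_conj (c : ChData K d) (hd : ∀ i, d i = 2 ∨ d i = 3) (h0 h1 cL cR : ℝ)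
    (hL : ∀ a : Fin (d 0), (c.fL a : ℝ) = c.p * h0 * ((d 0 : ℝ) - 1 - 2 * (a : ℝ)) + cL)
    (hR : ∀ a : Fin (d (Fin.last K)),
      (c.fR a : ℝ) = c.p * h1 * ((d (Fin.last K) : ℝ) - 1 - 2 * (a : ℝ)) + cR) :
    chA c h0 h1 cL cR * Matrix.diagonal (fun σ => ((QQ σ : ℝ) : ℂ)) =
      Matrix.diagonal (fun σ => ((QQ σ : ℝ) : ℂ)) * c.mat.map (fun z : ℤ => (z : ℂ)) := by
  have hne : ∀ b ∈ chB K, b.1 ≠ b.2 := by
    intro b hb
    obtain ⟨i, rfl⟩ := chB_mem hb
    exact (Fin.castSucc_lt_succ (i := i)).ne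
  have e1 : Hch K d h0 h1 = Hgen d (chB K) [(0, h0), (Fin.last K, h1)] :=
    Hch_eq_Hgen K d h0 h1 _ (by simp)
  ext τ σ
  rw [Matrix.mul_diagonal, Matrix.diagonal_mul]
  have h := conj_entry c hd h0 h1 cL cR hL hR τ σ
  have h' := congrArg (fun x : ℝ => (x : ℂ)) h
  simp only [Complex.ofReal_mul] at h'
  have e2 : chA c h0 h1 cL cR τ σ = ((-(2 * c.p * (Wgen d (chB K) τ σ +
      Matrix.diagonal (Dgen d (chB K) [(0, h0), (Fin.last K, h1)]) τ σ)) +
      chC c cL cR * (1 : Matrix (CC d) (CC d) ℝ) τ σ : ℝ) : ℂ) := by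
    unfold chA
    rw [e1, Hgen_eq d hd (chB K) hne]
    by_cases hτ : τ = σ
    · subst hτ
      simp
      ring
    · simp [hτ]
  rw [e2, h', Matrix.map_apply]
  push_cast
  rfl

/-- **traces of powers** -/
theorem ch_trace (c : ChData K d) (hd : ∀ i, d i = 2 ∨ d i = 3) (h0 h1 cL cR : ℝ)
    (hL : ∀ a : Fin (d 0), (c.fL a : ℝ) = c.p * h0 * ((d 0 : ℝ) - 1 - 2 * (a : ℝ)) + cL)
    (hR : ∀ a : Fin (d (Fin.last K)),
      (c.fR a : ℝ) = c.p * h1 * ((d (Fin.last K) : ℝ) - 1 - 2 * (a : ℝ)) + cR)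
    (g : CC d → ℂ) (k : ℕ) :
    (Matrix.diagonal g * (((2 * c.p : ℕ) : ℂ) • (-Hch K d h0 h1) +
      ((chC c cL cR : ℝ) : ℂ) • 1) ^ k).trace = ∑ σ, g σ * (((c.mat ^ k) σ σ : ℤ) : ℂ) := by
  have h := ch_conj c hd h0 h1 cL cR hL hR
  set Q : Matrix (CC d) (CC d) ℂ := Matrix.diagonal (fun σ => ((QQ σ : ℝ) : ℂ)) with hQ
  set Q' : Matrix (CC d) (CC d) ℂ := Matrix.diagonal (fun σ => ((QQ σ : ℝ) : ℂ)⁻¹) with hQ'
  have hQQ' : Q * Q' = 1 := by
    rw [hQ, hQ', Matrix.diagonal_mul_diagonal, ← Matrix.diagonal_one]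
    congr 1
    funext σ
    exact mul_inv_cancel₀ (by exact_mod_cast QQ_ne σ)
  have hpow : ∀ k : ℕ, chA c h0 h1 cL cR ^ k * Q = Q * (c.mat.map (fun z : ℤ => (z : ℂ))) ^ k := by
    intro k
    induction k with
    | zero => simp
    | succ k ih => rw [pow_succ, Matrix.mul_assoc, h, ← Matrix.mul_assoc, ih, pow_succ, Matrix.mul_assoc]
  have hmap : ∀ k : ℕ, (c.mat.map (fun z : ℤ => (z : ℂ))) ^ k = (c.mat ^ k).map (fun z : ℤ => (z : ℂ)) := by
    intro k
    exact ((RingHom.mapMatrix (Int.castRingHom ℂ)).map_pow c.mat k).symm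
  have e : chA c h0 h1 cL cR ^ k = Q * (c.mat ^ k).map (fun z : ℤ => (z : ℂ)) * Q' := by
    rw [← hmap, ← hpow, Matrix.mul_assoc, hQQ', Matrix.mul_one]
  show (Matrix.diagonal g * chA c h0 h1 cL cR ^ k).trace = _
  rw [e, Matrix.trace]
  refine sum_congr rfl fun σ _ => ?_
  rw [Matrix.diag_apply, Matrix.diagonal_mul, hQ', Matrix.mul_diagonal, hQ, Matrix.diagonal_mul,
    Matrix.map_apply]
  have hne : ((QQ σ : ℝ) : ℂ) ≠ 0 := by exact_mod_cast QQ_ne σ
  field_simp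

end Hald
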