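import Crest.Agent.Hald.ChRun

/-!
# Row 347, M7: traces of powers from packed runs

* `dsum` conservation, superposition of sectors: `run_val`
* `orb_sum`: orbit certificate (histogram of a canonical representative)
* `mom_of_runs`: even/odd parts of the traces from the sum of the runs
-/

set_option autoImplicit false

namespace Hald

open Finset

/-! ### digit sums -/

section

variable {n : ℕ} {d : Fin n → ℕ}

/-- digit sum of a configuration -/
def dsum (σ : CC d) : ℕ := ∑ i, (σ i : ℕ)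

theorem dsum_mv {j k : Fin n} (hjk : j ≠ k) {σ : CC d} (h : can j k σ) :
    dsum (mv j k σ) = dsum σ := by
  obtain ⟨h1, h2⟩ := h
  have key : ∀ F : CC d, dsum F = (F j : ℕ) + ((F k : ℕ) +
      ∑ i ∈ (univ.erase j).erase k, (F i : ℕ)) := by
    intro F
    unfold dsum
    rw [← add_sum_erase _ _ (mem_univ j), ← add_sum_erase _ _ (mem_erase.2 ⟨hjk.symm, mem_univ k⟩)]
  rw [key, key σ]
  have e1 : ((mv j k σ j : Fin _) : ℕ) = (σ j).val + 1 := by
    simp [mv, incF, h1]
  have e2 : ((mv j k σ k : Fin _) : ℕ) = (σ k).val - 1 := by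
    simp [mv, decF, hjk.symm]
  have e3 : ∑ i ∈ (univ.erase j).erase k, ((mv j k σ i : Fin _) : ℕ) =
      ∑ i ∈ (univ.erase j).erase k, ((σ i : Fin _) : ℕ) := by
    refine sum_congr rfl fun i hi => ?_
    have hk : i ≠ k := ne_of_mem_erase hi
    have hj : i ≠ j := ne_of_mem_erase (mem_of_mem_erase hi)
    simp [mv, hj, hk]
  rw [e1, e2, e3]
  omega

theorem hopM_cons {j k : Fin n} (hjk : j ≠ k) {τ σ : CC d} (h : dsum τ ≠ dsum σ) :
    hopM j k τ σ = 0 := by
  unfold hopM
  rw [Matrix.of_apply, if_neg]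
  rintro ⟨h1, rfl⟩
  exact h (dsum_mv hjk h1)

theorem dgS_ix (σ : CC d) : dgS (List.ofFn d) (ix σ) = dsum σ := by
  unfold ix dsum
  induction n with
  | zero => simp [dgS]
  | succ n ih =>
    have hd : 0 < d 0 := lt_of_le_of_lt (Nat.zero_le _) (σ 0).isLt
    have h1 : ∑ i : Fin (n + 1), (σ i : ℕ) * preP d i =
        σ 0 + d 0 * ∑ i : Fin n, (σ i.succ : ℕ) * preP (fun i : Fin n => d i.succ) i := by
      rw [Fin.sum_univ_succ, mul_sum]
      congr 1
      · simp [preP]
      · refine sum_congr rfl fun i _ => ?_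
        rw [Fin.val_succ, preP_succ]
        ring
    rw [List.ofFn_succ, dgS, h1, Nat.add_mul_mod_self_left, Nat.mod_eq_of_lt (σ 0).isLt,
      Nat.add_mul_div_left _ _ hd, Nat.div_eq_of_lt (σ 0).isLt, zero_add,
      ih (d := fun i => d i.succ) (fun i => σ i.succ), Fin.sum_univ_succ]

end

theorem pow_cons {ι : Type*} [Fintype ι] [DecidableEq ι] (N : Matrix ι ι ℤ) (s : ι → ℕ)
    (h : ∀ τ σ, s τ ≠ s σ → N τ σ = 0) (k : ℕ) : ∀ τ σ, s τ ≠ s σ → (N ^ k) τ σ = 0 := by
  induction k with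
  | zero =>
    intro τ σ hne
    rw [pow_zero, Matrix.one_apply_ne]
    rintro rfl
    exact hne rfl
  | succ k ih =>
    intro τ σ hne
    rw [pow_succ, Matrix.mul_apply]
    refine sum_eq_zero fun ρ _ => ?_
    by_cases h1 : s τ = s ρ
    · rw [h ρ σ (by rw [← h1]; exact hne), mul_zero]
    · rw [ih τ ρ h1, zero_mul]

namespace ChData

variable {K : ℕ} {d : Fin (K + 1) → ℕ}

theorem mat_cons (c : ChData K d) {τ σ : CC d} (h : dsum τ ≠ dsum σ) : c.mat τ σ = 0 := by
  unfold mat
  rw [Matrix.add_apply, Matrix.sum_apply, Matrix.diagonal_apply_ne _ (by rintro rfl; exact h rfl),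
    add_zero]
  refine sum_eq_zero fun b _ => ?_
  have hne : (b.succ : Fin (K + 1)) ≠ b.castSucc := (Fin.castSucc_lt_succ (i := b)).ne'
  rw [Matrix.add_apply, Matrix.smul_apply, Matrix.smul_apply, hopM_cons hne h,
    hopM_cons hne.symm h, smul_zero, smul_zero, add_zero]

/-- diagonal entries of the powers by index -/
noncomputable def dE (c : ChData K d) (k : ℕ) : ℕ → ℤ := ext (eN d) fun σ => (c.mat ^ k) σ σ

theorem dE_ix (c : ChData K d) (k : ℕ) (σ : CC d) : c.dE k (ix σ) = (c.mat ^ k) σ σ := by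
  unfold dE
  rw [← eN_val]
  exact ext_apply _ _ _

/-- superposition: the diagonal entries are read off -/
theorem superpos (c : ChData K d) (k : ℕ) (l : List ℕ) (hl : (l.map (dgS (List.ofFn d))).Nodup)
    {i : ℕ} (hi : i ∈ l) (hD : i < preP d (K + 1)) :
    ext (eN d) ((c.mat ^ k).mulVec fun σ => (l.count ((eN d σ : Fin _) : ℕ) : ℤ)) i = c.dE k i := by
  obtain ⟨σ, rfl⟩ := ix_surj (d := d) hD
  rw [dE_ix, ← eN_val, ext_apply, Matrix.mulVec, dotProduct, sum_eq_single σ]
  · rw [eN_val, List.count_eq_one_of_mem (List.Nodup.of_map _ hl) hi]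
    simp
  · intro τ _ hτ
    by_cases hm : ix τ ∈ l
    · rw [pow_cons c.mat dsum (fun τ σ h => mat_cons c h) k σ τ, zero_mul]
      intro he
      have h1 : dgS (List.ofFn d) (ix σ) = dgS (List.ofFn d) (ix τ) := by
        rw [dgS_ix, dgS_ix, he]
      have h2 := List.inj_on_of_nodup_map hl hi hm h1
      apply hτ
      have : eN d τ = eN d σ := Fin.ext (by rw [eN_val, eN_val, h2])
      exact (eN d).injective this
    · rw [eN_val, List.count_eq_zero_of_not_mem hm]
      simp
  · intro h; exact absurd (mem_univ _) h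

/-- value of one run -/
theorem run_val (c : ChData K d) (hd : ∀ i, d i = 2 ∨ d i = 3) {w wo Q R KK : ℕ} (hw : 8 ≤ w)
    (hc : ∀ e ∈ c.cs, e + 1 ≤ w) (hR : ∀ σ, ∑ τ, |c.mat τ σ| ≤ (R : ℤ)) (hR8 : R < 2 ^ 8)
    (hR1 : 1 ≤ R) (L : List (ℕ × ℕ)) (hL : ∀ p ∈ L, p.1 < preP d (K + 1))
    (hn : (L.map fun p => dgS (List.ofFn d) p.1).Nodup) (hb : R ^ KK * L.length < 2 ^ (w - 1)) :
    ((runN w wo (fullS d) c.op (L.map Prod.fst) (readsOf w Q (List.ofFn d) L) KK : ℕ) : ℤ) =
      ∑ k ∈ range (KK + 1), (L.map fun p => (p.2 : ℤ) * (2 ^ (w - 1) + c.dE k p.1) *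
        2 ^ (Q * (dgS (List.ofFn d) p.1 % 2))).sum * 2 ^ (wo * (KK - k)) := by
  have hw0 : 0 < w := by omega
  rw [runN_eq (eN d) c.mat (good c hd hw hc hR hR8) rfl (hcol c hd w) hR (K := KK)
    (starts := L.map Prod.fst) ?_ hR1 (by rwa [List.length_map]) ?_]
  · refine sum_congr rfl fun k _ => ?_
    congr 2
    unfold readsOf
    rw [List.map_map]
    apply List.map_congr_left
    intro p hp
    simp only [Function.comp]
    rw [Nat.mul_div_cancel_left _ hw0, superpos c k _ ?_ (List.mem_map_of_mem hp) (hL p hp)]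
    rw [List.map_map]
    exact hn
  · intro i hi
    obtain ⟨p, hp, rfl⟩ := List.mem_map.1 hi
    exact hL p hp
  · intro q hq
    obtain ⟨p, hp, rfl⟩ := List.mem_map.1 hq
    exact ⟨p.1, hL p hp, rfl⟩

/-- value of the sum of the runs -/
theorem runs_val (c : ChData K d) (hd : ∀ i, d i = 2 ∨ d i = 3) {w wo Q R KK S : ℕ} (hw : 8 ≤ w)
    (hc : ∀ e ∈ c.cs, e + 1 ≤ w) (hR : ∀ σ, ∑ τ, |c.mat τ σ| ≤ (R : ℤ)) (hR8 : R < 2 ^ 8)
    (hR1 : 1 ≤ R) (Rs : List (List (ℕ × ℕ))) (hL : ∀ L ∈ Rs, ∀ p ∈ L, p.1 < preP d (K + 1))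
    (hn : ∀ L ∈ Rs, (L.map fun p => dgS (List.ofFn d) p.1).Nodup) (hS : ∀ L ∈ Rs, L.length ≤ S)
    (hb : R ^ KK * S < 2 ^ (w - 1)) :
    ((runsN w wo Q (fullS d) c.op (List.ofFn d) KK Rs : ℕ) : ℤ) =
      ∑ k ∈ range (KK + 1), (Rs.flatten.map fun p => (p.2 : ℤ) * (2 ^ (w - 1) + c.dE k p.1) *
        2 ^ (Q * (dgS (List.ofFn d) p.1 % 2))).sum * 2 ^ (wo * (KK - k)) := by
  rw [runsN_eq]
  induction Rs with
  | nil => simp
  | cons L Rs ih =>
    rw [List.map_cons, List.sum_cons, Nat.cast_add, ih (fun L' h => hL L' (List.mem_cons_of_mem _ h))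
      (fun L' h => hn L' (List.mem_cons_of_mem _ h)) (fun L' h => hS L' (List.mem_cons_of_mem _ h)),
      run_val c hd hw hc hR hR8 hR1 L (hL L List.mem_cons_self) (hn L List.mem_cons_self)
        (lt_of_le_of_lt (Nat.mul_le_mul_left _ (hS L List.mem_cons_self)) hb),
      ← sum_add_distrib]
    refine sum_congr rfl fun k _ => ?_
    rw [List.flatten_cons, List.map_append, List.sum_append, add_mul]

end ChData

/-! ### orbit certificate -/

/-- histogram of the canonical representatives (kernel) -/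
noncomputable def histD (s : ℕ) (canon : ℕ → ℕ) (D : ℕ) : ℕ :=
  Nat.rec (motive := fun _ => ℕ → ℕ) (fun acc => acc)
    (fun j ih acc => force (Nat.add acc (Nat.pow 2 (Nat.mul s (canon j)))) ih) D 0

/-- histogram of a weighted list -/
noncomputable def histL (s : ℕ) (canon : ℕ → ℕ) (l : List (ℕ × ℕ)) : ℕ :=
  List.rec (motive := fun _ => ℕ → ℕ) (fun acc => acc)
    (fun p _ ih acc => force (Nat.add acc (Nat.mul p.2 (Nat.pow 2 (Nat.mul s (canon p.1))))) ih) l 0

theorem histD_eq (s : ℕ) (canon : ℕ → ℕ) (D : ℕ) :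
    histD s canon D = ∑ j ∈ range D, 2 ^ (s * canon j) := by
  unfold histD
  have key : ∀ (n acc : ℕ), Nat.rec (motive := fun _ => ℕ → ℕ) (fun acc => acc)
    (fun j ih acc => force (Nat.add acc (Nat.pow 2 (Nat.mul s (canon j)))) ih) n acc =
      acc + ∑ j ∈ range n, 2 ^ (s * canon j) := by
    intro n
    induction n with
    | zero => intro acc; simp
    | succ n ih =>
      intro acc
      show force (Nat.add acc (Nat.pow 2 (Nat.mul s (canon n)))) _ = _
      rw [force_eq, ih, sum_range_succ]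
      show (acc + 2 ^ (s * canon n)) + _ = _
      ring
  rw [key, zero_add]

theorem histL_eq (s : ℕ) (canon : ℕ → ℕ) (l : List (ℕ × ℕ)) :
    histL s canon l = (l.map fun p => p.2 * 2 ^ (s * canon p.1)).sum := by
  unfold histL
  have key : ∀ (l : List (ℕ × ℕ)) (acc : ℕ), List.rec (motive := fun _ => ℕ → ℕ) (fun acc => acc)
    (fun p _ ih acc => force (Nat.add acc (Nat.mul p.2 (Nat.pow 2 (Nat.mul s (canon p.1))))) ih) l acc =
      acc + (l.map fun p => p.2 * 2 ^ (s * canon p.1)).sum := by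
    intro l
    induction l with
    | nil => intro acc; simp
    | cons p l ih =>
      intro acc
      show force (Nat.add acc (Nat.mul p.2 (Nat.pow 2 (Nat.mul s (canon p.1))))) _ = _
      rw [force_eq, ih, List.map_cons, List.sum_cons]
      show (acc + p.2 * 2 ^ (s * canon p.1)) + _ = _
      ring
  rw [key, zero_add]

/-- **orbit certificate** -/
theorem orb_sum_of {s D : ℕ} {canon : ℕ → ℕ} {l : List (ℕ × ℕ)} (hs : D < 2 ^ s)
    (hw : (l.map Prod.snd).sum < 2 ^ s) (hl : ∀ p ∈ l, p.1 < D) (hcan : ∀ j < D, canon j < D)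
    (hh : histD s canon D = histL s canon l) (F : ℕ → ℤ) (hF : ∀ j < D, F (canon j) = F j) :
    (l.map fun p => (p.2 : ℤ) * F p.1).sum = ∑ j ∈ range D, F j := by
  rw [histD_eq, histL_eq] at hh
  set a : ℕ → ℕ := fun i => ∑ j ∈ range D, if canon j = i then 1 else 0 with ha
  set b : ℕ → ℕ := fun i => (l.map fun p => if canon p.1 = i then p.2 else 0).sum with hb
  have h1 : ∀ (X : ℕ → ℤ), ∑ j ∈ range D, X (canon j) = ∑ i ∈ range D, (a i : ℤ) * X i := by
    intro X
    have : ∀ i ∈ range D, (a i : ℤ) * X i = ∑ j ∈ range D, if canon j = i then X i else 0 := by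
      intro i _
      rw [ha]
      push_cast
      rw [sum_mul]
      refine sum_congr rfl fun j _ => ?_
      split_ifs <;> simp
    rw [sum_congr rfl this, sum_comm]
    refine sum_congr rfl fun j hj => ?_
    rw [sum_ite_eq, if_pos (mem_range.2 (hcan j (mem_range.1 hj)))]
  have h2 : ∀ (X : ℕ → ℤ), (l.map fun p => (p.2 : ℤ) * X (canon p.1)).sum =
      ∑ i ∈ range D, (b i : ℤ) * X i := by
    intro X
    rw [hb]
    clear hh hw
    simp only
    induction l with
    | nil => simp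
    | cons p l ih =>
      rw [List.map_cons, List.sum_cons, ih (fun q hq => hl q (List.mem_cons_of_mem _ hq)) rfl]
      have h3 : ∀ i ∈ range D, (((((p :: l).map fun p => if canon p.1 = i then p.2 else 0).sum : ℕ)) : ℤ) *
          X i = (if canon p.1 = i then (p.2 : ℤ) * X i else 0) +
            ((((l.map fun p => if canon p.1 = i then p.2 else 0).sum : ℕ)) : ℤ) * X i := by
        intro i _
        rw [List.map_cons, List.sum_cons]
        split_ifs <;> push_cast <;> ring
      rw [sum_congr rfl h3, sum_add_distrib, sum_ite_eq,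
        if_pos (mem_range.2 (hcan p.1 (hl p List.mem_cons_self)))]
  have e1 : pk s a D = pk s b D := by
    have g1 := h1 fun i => 2 ^ (s * i)
    have g2 := h2 fun i => 2 ^ (s * i)
    have g3 : ((∑ j ∈ range D, 2 ^ (s * canon j) : ℕ) : ℤ) =
        (((l.map fun p => p.2 * 2 ^ (s * canon p.1)).sum : ℕ) : ℤ) := by rw [hh]
    have g4 : (((l.map fun p => p.2 * 2 ^ (s * canon p.1)).sum : ℕ) : ℤ) =
        (l.map fun p => (p.2 : ℤ) * 2 ^ (s * canon p.1)).sum := by
      rw [Nat.cast_list_sum, List.map_map]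
      congr 1
    rw [g4, g2] at g3
    push_cast at g3
    rw [g1] at g3
    unfold pk
    exact_mod_cast g3
  have ha2 : ∀ i < D, a i < 2 ^ s := by
    intro i _
    refine lt_of_le_of_lt ?_ hs
    rw [ha]
    calc ∑ j ∈ range D, (if canon j = i then 1 else 0) ≤ ∑ j ∈ range D, 1 :=
          sum_le_sum fun j _ => by split_ifs <;> omega
      _ = D := by simp
  have hb2 : ∀ i < D, b i < 2 ^ s := by
    intro i _
    refine lt_of_le_of_lt ?_ hw
    rw [hb]
    apply List.sum_le_sum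
    intro p _
    split_ifs <;> omega
  have h3 := pk_inj ha2 hb2 e1
  have h4 : ∀ p ∈ l, (p.2 : ℤ) * F p.1 = (p.2 : ℤ) * F (canon p.1) := fun p hp => by
    rw [hF p.1 (hl p hp)]
  rw [List.map_congr_left h4, h2 F, sum_congr rfl fun j hj => (hF j (mem_range.1 hj)).symm, h1 F]
  exact sum_congr rfl fun i hi => by rw [h3 i (mem_range.1 hi)]

end Hald
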