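import Crest.Agent.Hald.M8Exp
import Crest.Agent.Hald.ChLink
import Crest.Agent.Hald.ChOrb

/-!
# Row 347, M8: from the integer moments of `ChData.mat` to rational bounds of `aStrip`, `aOpen`

`strip_num`, `strip_num_z`, `open_num_pp`, `open_num_pm`: one Boolean check `chainOk` per number.
-/

set_option autoImplicit false
set_option linter.unusedSectionVars false

namespace Hald

open Matrix Finset
open scoped ComplexOrder

/-- `chain_encl` without shift -/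
theorem chain_encl0 {N : ℕ} {d : Fin (N + 1) → ℕ} (hd : ∀ i, d i = 2 ∨ d i = 3) {h0 h1 c0 : ℝ}
    {Q : ℕ} {Gt : (d : ℕ) → Matrix (Fin d) (Fin d) ℂ} (h2 : Gt 2 * (Gt 2)ᴴ = 1)
    (h3 : Gt 3 * (Gt 3)ᴴ = 1) (hC : Q * cChain N d h0 h1 ≤ c0)
    (K : ℕ) {u w y s : ℕ} (hw : 0 < w) (hy : 0 < y) (μ₁ μ : List ℤ)
    (hlen : μ.length = K + 1)
    (hμ₁ : ((Msh N d h0 h1 Q c0) ^ K).trace = ((μ₁.getD K 0 : ℤ) : ℂ))
    (hμ : ∀ k ≤ K, (tens (κ := fun i => Fin (d i)) (fun i => Gt (d i)) *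
      (Msh N d h0 h1 Q c0) ^ k).trace = ((μ.getD k 0 : ℤ) : ℂ))
    {τ : List ℕ} (hτ : τ = chebL K) {lo hi : ℤ} {dim : ℕ} (hdim : ∏ i, d i = dim)
    (hspec : specOk K u y μ₁ = true)
    (hok : m8Ok K dim u w y s μ τ lo hi = true) :
    (lo : ℝ) / 2 ^ s ≤ Real.exp (-(2 * (y : ℝ)) / w + (u / w : ℝ) * c0) *
        (Zch Gt N d h0 h1 (u * Q / w)).re ∧
      Real.exp (-(2 * (y : ℝ)) / w + (u / w : ℝ) * c0) *
        (Zch Gt N d h0 h1 (u * Q / w)).re ≤ (hi : ℝ) / 2 ^ s := by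
  set A := Msh N d h0 h1 Q c0 with hAd
  have hA : A.IsHermitian := Msh_herm _ _ _ _ _ _
  set W := tens (κ := fun i => Fin (d i)) (fun i => Gt (d i)) with hWd
  have hW : W * Wᴴ = 1 := tens_Gt_unitary d hd h2 h3
  have hsp : ∀ i, 0 ≤ hA.eigenvalues i ∧ u * hA.eigenvalues i ≤ 2 * y := by
    intro i
    exact ⟨(Msh_posSemidef hd hC).eigenvalues_nonneg i,
      spec_of_ok hA (K := K) (μ := μ₁) hμ₁ hspec i⟩
  have hcard : Fintype.card (∀ i, Fin (d i)) = dim := by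
    rw [← hdim]
    simp
  have key := m8_bounds_re K (s := s) hw hy hA hW hsp μ hlen hμ hτ hcard hok
  have e : (W * NormedSpace.exp (((u : ℝ) / (w : ℝ)) • A)).trace.re =
      Real.exp ((u / w : ℝ) * c0) * (Zch Gt N d h0 h1 (u * Q / w)).re := by
    rw [hAd, exp_Msh, Matrix.mul_smul, Matrix.trace_smul, Complex.real_smul, Complex.re_ofReal_mul]
    unfold Zch
    congr 6
    ring
  rw [e] at key
  rw [Real.exp_add, mul_assoc]
  exact key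

/-- one check per number: `c0 = cn/cd`, `M'` factors `exp (β e')`, `e' = -en/ed` -/
def chainOk (dim Q K u w y s : ℕ) (μ₁ μ : List ℤ) (τ : List ℕ) (lo hi : ℤ)
    (cn cd M' en ed n j t : ℕ) (el eh A B : ℤ) (a : ℕ) : Bool :=
  decide (0 < w) && decide (0 < y) && decide (0 < cd) && decide (0 < ed) &&
  decide (μ.length = K + 1) &&
  specOk K u y μ₁ && m8Ok K dim u w y s μ τ lo hi &&
  enclOk n (2 * (y : ℤ) * cd * ed - (u : ℤ) * cn * ed - (Q : ℤ) * u * M' * en * cd) (w * cd * ed)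
    j t el eh lo hi s A B a

theorem chain_num {N : ℕ} {d : Fin (N + 1) → ℕ} (hd : ∀ i, d i = 2 ∨ d i = 3) {h0 h1 c0 : ℝ}
    {Q : ℕ} {Gt : (d : ℕ) → Matrix (Fin d) (Fin d) ℂ} (h2 : Gt 2 * (Gt 2)ᴴ = 1)
    (h3 : Gt 3 * (Gt 3)ᴴ = 1) (hC : Q * cChain N d h0 h1 ≤ c0) {cn cd : ℕ}
    (hc0 : c0 = (cn : ℝ) / cd) {K : ℕ} {μ₁ μ : List ℤ}
    (hμ₁ : ((Msh N d h0 h1 Q c0) ^ K).trace = ((μ₁.getD K 0 : ℤ) : ℂ))
    (hμ : ∀ k ≤ K, (tens (κ := fun i => Fin (d i)) (fun i => Gt (d i)) *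
      (Msh N d h0 h1 Q c0) ^ k).trace = ((μ.getD k 0 : ℤ) : ℂ))
    {τ : List ℕ} (hτ : τ = chebL K) {dim : ℕ} (hdim : ∏ i, d i = dim)
    {u w y s : ℕ} {lo hi : ℤ} {M' en ed n j t : ℕ} {el eh A B : ℤ} {a : ℕ}
    (hok : chainOk dim Q K u w y s μ₁ μ τ lo hi cn cd M' en ed n j t el eh A B a = true)
    {e' β : ℝ} (he : e' = -((en : ℝ) / ed)) (hβ : β = u * Q / w) :
    (A : ℝ) / 2 ^ a ≤ (Zch Gt N d h0 h1 β).re * Real.exp (β * M' * e') ∧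
      (Zch Gt N d h0 h1 β).re * Real.exp (β * M' * e') ≤ (B : ℝ) / 2 ^ a := by
  unfold chainOk at hok
  simp only [Bool.and_eq_true, decide_eq_true_eq] at hok
  obtain ⟨⟨⟨⟨⟨⟨⟨hw, hy⟩, hcd⟩, hed⟩, hlen⟩, hspec⟩, hm⟩, he'⟩ := hok
  have key := chain_encl0 hd h2 h3 hC K hw hy μ₁ μ hlen hμ₁ hμ hτ hdim hspec hm
  rw [← hβ] at key
  refine encl_final key ?_ n j t el eh A B a he'
  have hw' : (w : ℝ) ≠ 0 := by positivity
  have hcd' : (cd : ℝ) ≠ 0 := by positivity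
  have hed' : (ed : ℝ) ≠ 0 := by positivity
  rw [hβ, he, hc0]
  push_cast
  field_simp
  ring

/-! ### the constant -/

theorem cBond_eq {D D' : ℕ} (h : D = 2 ∨ D = 3) (h' : D' = 2 ∨ D' = 3) :
    cBond D D' = ((D : ℝ) - 1) * ((D' : ℝ) - 1) / 4 := by
  rcases h with rfl | rfl <;> rcases h' with rfl | rfl <;> norm_num [cBond]

theorem cField_eq {D : ℕ} (h : D = 2 ∨ D = 3) (x : ℝ) : cField D x = |x| * (((D : ℝ) - 1) / 2) := by
  rcases h with rfl | rfl <;> norm_num [cField]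

theorem chC_eq {K : ℕ} {d : Fin (K + 1) → ℕ} (hd : ∀ i, d i = 2 ∨ d i = 3) (c : ChData K d)
    (h0 h1 : ℝ) : chC c (c.p * |h0| * ((d 0 : ℝ) - 1)) (c.p * |h1| * ((d (Fin.last K) : ℝ) - 1)) =
      ((2 * c.p : ℕ) : ℝ) * cChain K d h0 h1 := by
  unfold chC cChain
  rw [cField_eq (hd 0), cField_eq (hd (Fin.last K))]
  have e : ∑ b : Fin K, cBond (d b.castSucc) (d b.succ) =
      (∑ b : Fin K, ((d b.castSucc : ℝ) - 1) * ((d b.succ : ℝ) - 1)) / 4 := by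
    rw [Finset.sum_div]
    exact Finset.sum_congr rfl fun b _ => cBond_eq (hd _) (hd _)
  rw [e]
  push_cast
  ring

/-! ### traces -/

section

variable {K : ℕ} {d : Fin (K + 1) → ℕ}

theorem tens_diagonal {κ : Type*} [Fintype κ] [DecidableEq κ] {n : κ → Type*}
    [∀ i, Fintype (n i)] [∀ i, DecidableEq (n i)] (g : ∀ i, n i → ℂ) :
    tens (κ := n) (fun i => Matrix.diagonal (g i)) = Matrix.diagonal (fun σ => ∏ i, g i (σ i)) := by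
  ext σ τ
  rw [tens_apply]
  by_cases h : σ = τ
  · subst h
    rw [Matrix.diagonal_apply_eq]
    exact Finset.prod_congr rfl fun i _ => Matrix.diagonal_apply_eq _ _
  · rw [Matrix.diagonal_apply_ne _ h]
    obtain ⟨i, hi⟩ := Function.ne_iff.1 h
    exact Finset.prod_eq_zero (Finset.mem_univ i) (Matrix.diagonal_apply_ne _ hi)

theorem tens_G1 : tens (κ := fun i => Fin (d i)) (fun i => G1 (d i)) = 1 := tens_one

theorem trace_G1 (c : ChData K d) (hd : ∀ i, d i = 2 ∨ d i = 3) {h0 h1 c0 : ℝ}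
    (hL : ∀ a : Fin (d 0), (c.fL a : ℝ) =
      c.p * h0 * ((d 0 : ℝ) - 1 - 2 * (a : ℝ)) + c.p * |h0| * ((d 0 : ℝ) - 1))
    (hR : ∀ a : Fin (d (Fin.last K)), (c.fR a : ℝ) =
      c.p * h1 * ((d (Fin.last K) : ℝ) - 1 - 2 * (a : ℝ)) + c.p * |h1| * ((d (Fin.last K) : ℝ) - 1))
    (hc0 : c0 = ((2 * c.p : ℕ) : ℝ) * cChain K d h0 h1) (k : ℕ) :
    (Msh K d h0 h1 (2 * c.p) c0 ^ k).trace = ((∑ σ, (c.mat ^ k) σ σ : ℤ) : ℂ) := by
  have h := ch_trace c hd h0 h1 _ _ hL hR (fun _ => 1) k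
  rw [chC_eq hd, ← hc0, Matrix.diagonal_one, Matrix.one_mul] at h
  unfold Msh
  rw [h]
  push_cast
  exact Finset.sum_congr rfl fun σ _ => one_mul _

theorem trace_diag (c : ChData K d) (hd : ∀ i, d i = 2 ∨ d i = 3) {h0 h1 c0 : ℝ}
    (hL : ∀ a : Fin (d 0), (c.fL a : ℝ) =
      c.p * h0 * ((d 0 : ℝ) - 1 - 2 * (a : ℝ)) + c.p * |h0| * ((d 0 : ℝ) - 1))
    (hR : ∀ a : Fin (d (Fin.last K)), (c.fR a : ℝ) =
      c.p * h1 * ((d (Fin.last K) : ℝ) - 1 - 2 * (a : ℝ)) + c.p * |h1| * ((d (Fin.last K) : ℝ) - 1))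
    (hc0 : c0 = ((2 * c.p : ℕ) : ℝ) * cChain K d h0 h1) (g : CC d → ℤ) (k : ℕ) :
    (Matrix.diagonal (fun σ => ((g σ : ℤ) : ℂ)) * Msh K d h0 h1 (2 * c.p) c0 ^ k).trace =
      ((∑ σ, g σ * (c.mat ^ k) σ σ : ℤ) : ℂ) := by
  have h := ch_trace c hd h0 h1 _ _ hL hR (fun σ => ((g σ : ℤ) : ℂ)) k
  rw [chC_eq hd, ← hc0] at h
  unfold Msh
  rw [h]
  push_cast
  rfl

theorem Gz_diag {D : ℕ} (h : D = 2 ∨ D = 3) :
    Gz D = Matrix.diagonal (fun a : Fin D => (-Complex.I) ^ (D - 1) * (-1) ^ (a : ℕ)) := by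
  rcases h with rfl | rfl
  · show (!![-Complex.I, 0; 0, Complex.I] : Matrix (Fin 2) (Fin 2) ℂ) = _
    ext i j
    fin_cases i <;> fin_cases j <;> simp
  · show (!![-1, 0, 0; 0, 1, 0; 0, 0, -1] : Matrix (Fin 3) (Fin 3) ℂ) = _
    ext i j
    fin_cases i <;> fin_cases j <;> simp

theorem tens_Gz_chain (hd : ∀ i, d i = 2 ∨ d i = 3) {r : ℕ} (hr : ∑ i, (d i - 1) = 2 * r) :
    tens (κ := fun i => Fin (d i)) (fun i => Gz (d i)) =
      Matrix.diagonal (fun σ : CC d => (((-1) ^ r * (-1) ^ (dsum σ) : ℤ) : ℂ)) := by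
  have e : (fun i => Gz (d i)) =
      fun i => Matrix.diagonal (fun a : Fin (d i) => (-Complex.I) ^ (d i - 1) * (-1) ^ (a : ℕ)) := by
    funext i
    exact Gz_diag (hd i)
  rw [e, tens_diagonal]
  congr 1
  funext σ
  rw [Finset.prod_mul_distrib, Finset.prod_pow_eq_pow_sum, Finset.prod_pow_eq_pow_sum, hr, pow_mul,
    neg_sq, Complex.I_sq]
  push_cast
  rfl

end

/-! ### strips -/

theorem chD22 (M : ℕ) (i : Fin (M + 2)) : chD 2 2 M i = 2 ∨ chD 2 2 M i = 3 := by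
  unfold chD
  split_ifs <;> simp

theorem chD22_sum {M : ℕ} (f : ℕ → ℕ) :
    ∑ i, f (chD 2 2 M i) = 2 * f 2 + M * f 3 := by
  rw [Fin.sum_univ_succ, Fin.sum_univ_castSucc, chD_zero]
  have h1 : ∀ i : Fin M, f (chD 2 2 M i.castSucc.succ) = f 3 := fun i => by rw [chD_mid]
  have h2 : chD 2 2 M (Fin.last M).succ = 2 := chD_last 2 2 M
  rw [Finset.sum_congr rfl fun i _ => h1 i, h2, Finset.sum_const, Finset.card_univ, Fintype.card_fin,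
    smul_eq_mul]
  ring

theorem chD22_prod {M : ℕ} : ∏ i, chD 2 2 M i = 4 * 3 ^ M := by
  rw [Fin.prod_univ_succ, Fin.prod_univ_castSucc, chD_zero]
  have h1 : ∀ i : Fin M, chD 2 2 M i.castSucc.succ = 3 := fun i => chD_mid 2 2 M i
  have h2 : chD 2 2 M (Fin.last M).succ = 2 := chD_last 2 2 M
  rw [Finset.prod_congr rfl fun i _ => h1 i, h2, Finset.prod_const, Finset.card_univ, Fintype.card_fin]
  ring

theorem cChain_strip {M : ℕ} (hM : 1 ≤ M) : cChain (M + 1) (chD 2 2 M) 0 0 = M := by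
  obtain ⟨n, rfl⟩ : ∃ n, M = n + 1 := ⟨M - 1, by omega⟩
  unfold cChain
  have e0 : ∀ D, cField D 0 = 0 := fun D => by simp [cField]
  rw [e0, e0, add_zero, add_zero, Fin.sum_univ_succ, Fin.sum_univ_castSucc]
  have h0 : cBond (chD 2 2 (n + 1) (0 : Fin (n + 2)).castSucc) (chD 2 2 (n + 1) (0 : Fin (n + 2)).succ) =
      1 / 2 := by
    have a1 : chD 2 2 (n + 1) (0 : Fin (n + 2)).castSucc = 2 := rfl
    have a2 : chD 2 2 (n + 1) (0 : Fin (n + 2)).succ = 3 := chD_mid 2 2 (n + 1) 0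
    rw [a1, a2]
    norm_num [cBond]
  have h1 : cBond (chD 2 2 (n + 1) (Fin.last n).succ.castSucc) (chD 2 2 (n + 1) (Fin.last n).succ.succ) =
      1 / 2 := by
    have a1 : chD 2 2 (n + 1) (Fin.last n).succ.castSucc = 3 := chD_mid 2 2 (n + 1) (Fin.last n)
    have a2 : chD 2 2 (n + 1) (Fin.last n).succ.succ = 2 := chD_last 2 2 (n + 1)
    rw [a1, a2]
    norm_num [cBond]
  have hm : ∀ i : Fin n, cBond (chD 2 2 (n + 1) i.castSucc.succ.castSucc)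
      (chD 2 2 (n + 1) i.castSucc.succ.succ) = 1 := by
    intro i
    have a1 : chD 2 2 (n + 1) i.castSucc.succ.castSucc = 3 := chD_mid 2 2 (n + 1) i.castSucc
    have a2 : chD 2 2 (n + 1) i.castSucc.succ.succ = 3 := chD_mid 2 2 (n + 1) i.succ
    rw [a1, a2]
    norm_num [cBond]
  rw [h0, h1, Finset.sum_congr rfl fun i _ => hm i]
  simp
  ring

theorem cChain_strip0 : cChain (0 + 1) (chD 2 2 0) 0 0 = 1 / 4 := by
  unfold cChain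
  have e0 : ∀ D, cField D 0 = 0 := fun D => by simp [cField]
  rw [e0, e0, add_zero, add_zero]
  have h0 : cBond (chD 2 2 0 (0 : Fin 1).castSucc) (chD 2 2 0 (0 : Fin 1).succ) = 1 / 4 := by
    have a1 : chD 2 2 0 (0 : Fin 1).castSucc = 2 := rfl
    have a2 : chD 2 2 0 (0 : Fin 1).succ = 2 := rfl
    rw [a1, a2]
    norm_num [cBond]
  simpa using h0

theorem strip_c0 {M p cn cd : ℕ} (h : (M = 0 ∧ cn = p ∧ cd = 2) ∨ (1 ≤ M ∧ cn = 2 * p * M ∧ cd = 1)) :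
    (cn : ℝ) / cd = ((2 * p : ℕ) : ℝ) * cChain (M + 1) (chD 2 2 M) 0 0 := by
  rcases h with ⟨rfl, rfl, rfl⟩ | ⟨hM, rfl, rfl⟩
  · rw [cChain_strip0]; push_cast; ring
  · rw [cChain_strip hM]; push_cast; ring

/-- **strips, untwisted** (`M = 0`: `cn/cd = p/2`; `M ≥ 1`: `cn/cd = 2pM/1`) -/
theorem strip_num {M : ℕ} (c : ChData (M + 1) (chD 2 2 M)) {p Q : ℕ} (hp : c.p = p)
    (hQ : Q = 2 * p) (hL : ∀ a < 2, c.fL a = 0) (hR : ∀ a < 2, c.fR a = 0) {K : ℕ} {μ : List ℤ}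
    (hμ : ∀ k ≤ K, ∑ σ, (c.mat ^ k) σ σ = μ.getD k 0)
    {τ : List ℕ} (hτ : τ = chebL K) {dim : ℕ} (hdim : 4 * 3 ^ M = dim) {cn cd : ℕ}
    (hcn : (M = 0 ∧ cn = p ∧ cd = 2) ∨ (1 ≤ M ∧ cn = 2 * p * M ∧ cd = 1))
    {u w y s : ℕ} {lo hi : ℤ} {en ed n j t : ℕ} {el eh A B : ℤ} {a : ℕ}
    (hok : chainOk dim Q K u w y s μ μ τ lo hi cn cd M en ed n j t el eh A B a = true)
    {e' β : ℝ} (he : e' = -((en : ℝ) / ed)) (hβ : β = u * Q / w) :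
    (A : ℝ) / 2 ^ a ≤ aStrip G1 e' β M ∧ aStrip G1 e' β M ≤ (B : ℝ) / 2 ^ a := by
  subst hp
  subst hQ
  have hc0 := strip_c0 hcn
  have hL' : ∀ a : Fin (chD 2 2 M 0), (c.fL a : ℝ) =
      c.p * (0 : ℝ) * ((chD 2 2 M 0 : ℝ) - 1 - 2 * (a : ℝ)) + c.p * |(0 : ℝ)| *
        ((chD 2 2 M 0 : ℝ) - 1) := by
    intro a
    rw [hL a a.isLt]; simp
  have hR' : ∀ a : Fin (chD 2 2 M (Fin.last (M + 1))), (c.fR a : ℝ) =
      c.p * (0 : ℝ) * ((chD 2 2 M (Fin.last (M + 1)) : ℝ) - 1 - 2 * (a : ℝ)) + c.p * |(0 : ℝ)| *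
        ((chD 2 2 M (Fin.last (M + 1)) : ℝ) - 1) := by
    intro a
    rw [hR a (lt_of_lt_of_eq a.isLt (chD_last 2 2 M))]; simp
  refine chain_num (chD22 M) (G1_unitary 2) (G1_unitary 3) hc0.ge (cn := cn) (cd := cd)
    rfl ?_ ?_ hτ (by rw [chD22_prod, hdim]) hok he hβ
  · rw [trace_G1 c (chD22 M) hL' hR' hc0, hμ K le_rfl]
  · intro k hk
    rw [tens_G1, Matrix.one_mul, trace_G1 c (chD22 M) hL' hR' hc0, hμ k hk]

/-- sign of the twisted strips -/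
def sgL (M : ℕ) (μ : List ℤ) : List ℤ := if M % 2 = 0 then μ.map (fun x => -x) else μ

theorem sgL_getD (M : ℕ) (μ : List ℤ) (k : ℕ) :
    (sgL M μ).getD k 0 = (-1) ^ (M + 1) * μ.getD k 0 := by
  unfold sgL
  split_ifs with h
  · have hM : Even M := Nat.even_iff.2 h
    rw [Even.add_one hM |>.neg_one_pow]
    simp only [List.getD_eq_getElem?_getD, List.getElem?_map]
    cases μ[k]? <;> simp
  · have hM : Odd M := Nat.odd_iff.2 (by omega)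
    rw [Odd.add_one hM |>.neg_one_pow, one_mul]

/-- **strips with the twist `z`** -/
theorem strip_num_z {M : ℕ} (c : ChData (M + 1) (chD 2 2 M)) {p Q : ℕ} (hp : c.p = p)
    (hQ : Q = 2 * p) (hL : ∀ a < 2, c.fL a = 0) (hR : ∀ a < 2, c.fR a = 0) {K : ℕ} {μ₁ μ : List ℤ}
    (hμ₁ : ∀ k ≤ K, ∑ σ, (c.mat ^ k) σ σ = μ₁.getD k 0)
    (hμ : ∀ k ≤ K, ∑ σ, (-1) ^ (dsum σ) * (c.mat ^ k) σ σ = μ.getD k 0)
    {τ : List ℕ} (hτ : τ = chebL K) {dim : ℕ} (hdim : 4 * 3 ^ M = dim) {cn cd : ℕ}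
    (hcn : (M = 0 ∧ cn = p ∧ cd = 2) ∨ (1 ≤ M ∧ cn = 2 * p * M ∧ cd = 1))
    {u w y s : ℕ} {lo hi : ℤ} {en ed n j t : ℕ} {el eh A B : ℤ} {a : ℕ}
    (hok : chainOk dim Q K u w y s μ₁ (sgL M μ) τ lo hi cn cd M en ed n j t el eh A B a = true)
    {e' β : ℝ} (he : e' = -((en : ℝ) / ed)) (hβ : β = u * Q / w) :
    (A : ℝ) / 2 ^ a ≤ aStrip Gz e' β M ∧ aStrip Gz e' β M ≤ (B : ℝ) / 2 ^ a := by
  subst hp
  subst hQ
  have hc0 := strip_c0 hcn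
  have hL' : ∀ a : Fin (chD 2 2 M 0), (c.fL a : ℝ) =
      c.p * (0 : ℝ) * ((chD 2 2 M 0 : ℝ) - 1 - 2 * (a : ℝ)) + c.p * |(0 : ℝ)| *
        ((chD 2 2 M 0 : ℝ) - 1) := by
    intro a
    rw [hL a a.isLt]; simp
  have hR' : ∀ a : Fin (chD 2 2 M (Fin.last (M + 1))), (c.fR a : ℝ) =
      c.p * (0 : ℝ) * ((chD 2 2 M (Fin.last (M + 1)) : ℝ) - 1 - 2 * (a : ℝ)) + c.p * |(0 : ℝ)| *
        ((chD 2 2 M (Fin.last (M + 1)) : ℝ) - 1) := by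
    intro a
    rw [hR a (lt_of_lt_of_eq a.isLt (chD_last 2 2 M))]; simp
  refine chain_num (chD22 M) Gz_unitary2 Gz_unitary3 hc0.ge (cn := cn) (cd := cd)
    rfl ?_ ?_ hτ (by rw [chD22_prod, hdim]) hok he hβ
  · rw [trace_G1 c (chD22 M) hL' hR' hc0, hμ₁ K le_rfl]
  · intro k hk
    rw [tens_Gz_chain (chD22 M) (r := M + 1) (by rw [chD22_sum (fun D => D - 1)]; ring),
      trace_diag c (chD22 M) hL' hR' hc0, sgL_getD, ← hμ k hk, Finset.mul_sum]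
    congr 1
    exact Finset.sum_congr rfl fun σ _ => by ring

/-! ### open chains -/

theorem cChain_open {N : ℕ} (h0 h1 : ℝ) :
    cChain (N + 1) (fun _ => 3) h0 h1 = N + 1 + |h0| + |h1| := by
  unfold cChain
  simp [cBond, cField]

/-- **open chains** with `N + 2` sites, fields `±3/5` given by the end tables -/
theorem open_num {N : ℕ} (c : ChData (N + 1) (fun _ => 3)) {p' Q : ℕ} (hp : c.p = 5 * p')
    (hQ : Q = 10 * p') {h0 h1 : ℝ}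
    (hL : (h0 = 3 / 5 ∧ ∀ a < 3, c.fL a = 6 * p' * (2 - a)) ∨
      (h0 = -(3 / 5) ∧ ∀ a < 3, c.fL a = 6 * p' * a))
    (hR : (h1 = 3 / 5 ∧ ∀ a < 3, c.fR a = 6 * p' * (2 - a)) ∨
      (h1 = -(3 / 5) ∧ ∀ a < 3, c.fR a = 6 * p' * a)) {K : ℕ} {μ : List ℤ}
    (hμ : ∀ k ≤ K, ∑ σ, (c.mat ^ k) σ σ = μ.getD k 0)
    {τ : List ℕ} (hτ : τ = chebL K) {dim : ℕ} (hdim : 3 ^ (N + 2) = dim) {cn M' : ℕ}
    (hcn : cn = p' * (10 * (N + 1) + 12)) (hM' : M' = N + 2)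
    {u w y s : ℕ} {lo hi : ℤ} {en ed n j t : ℕ} {el eh A B : ℤ} {a : ℕ}
    (hok : chainOk dim Q K u w y s μ μ τ lo hi cn 1 M' en ed n j t el eh A B a = true)
    {e' β : ℝ} (he : e' = -((en : ℝ) / ed)) (hβ : β = u * Q / w) :
    (A : ℝ) / 2 ^ a ≤ aOpen h0 h1 e' β N ∧ aOpen h0 h1 e' β N ≤ (B : ℝ) / 2 ^ a := by
  have hd : ∀ i : Fin (N + 1 + 1), (fun _ : Fin (N + 1 + 1) => 3) i = 2 ∨
      (fun _ : Fin (N + 1 + 1) => 3) i = 3 := fun _ => Or.inr rfl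
  have hQ' : Q = 2 * c.p := by rw [hQ, hp]; ring
  subst hQ'
  subst hM'
  have key : ∀ (f : ℕ → ℕ) (h : ℝ), ((h = 3 / 5 ∧ ∀ a < 3, f a = 6 * p' * (2 - a)) ∨
      (h = -(3 / 5) ∧ ∀ a < 3, f a = 6 * p' * a)) → |h| = 3 / 5 ∧ ∀ a : Fin 3, (f a : ℝ) =
        c.p * h * (((3 : ℕ) : ℝ) - 1 - 2 * (a : ℝ)) + c.p * |h| * (((3 : ℕ) : ℝ) - 1) := by
    rintro f h (⟨rfl, hf⟩ | ⟨rfl, hf⟩)
    · refine ⟨by norm_num, fun a => ?_⟩
      rw [hf a a.isLt, hp, abs_of_pos (by norm_num : (0 : ℝ) < 3 / 5)]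
      fin_cases a <;> norm_num <;> ring
    · refine ⟨by norm_num, fun a => ?_⟩
      rw [hf a a.isLt, hp, abs_of_neg (by norm_num : (-(3 / 5) : ℝ) < 0)]
      fin_cases a <;> norm_num <;> ring
  obtain ⟨a0, hL'⟩ := key c.fL h0 hL
  obtain ⟨a1, hR'⟩ := key c.fR h1 hR
  have hc0 : ((cn : ℕ) : ℝ) = ((2 * c.p : ℕ) : ℝ) * cChain (N + 1) (fun _ => 3) h0 h1 := by
    rw [cChain_open, a0, a1, hcn, hp]; push_cast; ring
  refine chain_num hd (G1_unitary 2) (G1_unitary 3) hc0.ge (cn := cn) (cd := 1)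
    (by simp) ?_ ?_ hτ (by rw [← hdim]; simp) hok he hβ
  · rw [trace_G1 c hd hL' hR' hc0, hμ K le_rfl]
  · intro k hk
    rw [tens_G1, Matrix.one_mul, trace_G1 c hd hL' hR' hc0, hμ k hk]

end Hald
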