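import Crest.Agent.Hald.ChCol

/-!
# Row 347, M7: symmetries of the chain matrices (flip and reflection)
-/

set_option autoImplicit false

namespace Hald

open Finset

section gen

variable {n : ℕ} {d : Fin n → ℕ}

/-- flip of all digits -/
def flipCC (σ : CC d) : CC d := fun i =>
  ⟨d i - 1 - (σ i).val, by have := (σ i).isLt; omega⟩

theorem flipCC_val (σ : CC d) (i : Fin n) : (flipCC σ i).val = d i - 1 - (σ i).val := rfl

theorem flipCC_flipCC (σ : CC d) : flipCC (flipCC σ) = σ := by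
  funext i
  apply Fin.ext
  rw [flipCC_val, flipCC_val]
  have := (σ i).isLt
  omega

theorem ix_succ {n : ℕ} {d : Fin (n + 1) → ℕ} (σ : CC d) :
    ix σ = (σ 0).val + d 0 * ix (d := fun i : Fin n => d i.succ) (fun i => σ i.succ) := by
  unfold ix
  rw [Fin.sum_univ_succ, mul_sum]
  congr 1
  · simp [preP]
  · refine sum_congr rfl fun i _ => ?_
    rw [Fin.val_succ, preP_succ]
    ring

theorem ix_flip_add {n : ℕ} {d : Fin n → ℕ} (σ : CC d) : ix (flipCC σ) + ix σ + 1 = preP d n := by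
  induction n with
  | zero => simp [ix, preP]
  | succ n ih =>
    have h1 := ih (d := fun i => d i.succ) (fun i => σ i.succ)
    rw [ix_succ, ix_succ σ, preP_succ, ← h1]
    have h2 : (fun i : Fin n => flipCC σ i.succ) =
        flipCC (d := fun i => d i.succ) (fun i => σ i.succ) := rfl
    rw [h2, flipCC_val]
    have h3 := (σ 0).isLt
    generalize ix (d := fun i : Fin n => d i.succ) (flipCC (fun i => σ i.succ)) = x
    generalize ix (d := fun i : Fin n => d i.succ) (fun i => σ i.succ) = y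
    have key : ∀ D s : ℕ, s < D → D - 1 - s + D * x + (s + D * y) + 1 = D * (x + y + 1) := by
      intro D s h
      obtain ⟨z, rfl⟩ : ∃ z, D = s + z + 1 := ⟨D - 1 - s, by omega⟩
      have h4 : s + z + 1 - 1 - s = z := by omega
      rw [h4]
      ring
    exact key _ _ h3

theorem ix_flipCC (σ : CC d) : ix (flipCC σ) = preP d n - 1 - ix σ := by
  have := ix_flip_add σ
  omega

/-- reflection -/
def reflCC (hp : ∀ i : Fin n, d i.rev = d i) (σ : CC d) : CC d := fun i =>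
  ⟨(σ i.rev).val, (σ i.rev).isLt.trans_eq (hp i)⟩

theorem reflCC_val (hp : ∀ i : Fin n, d i.rev = d i) (σ : CC d) (i : Fin n) :
    (reflCC hp σ i).val = (σ i.rev).val := rfl

theorem val_congr (σ : CC d) {i j : Fin n} (h : i = j) : (σ i).val = (σ j).val := by subst h; rfl

theorem reflCC_reflCC (hp : ∀ i : Fin n, d i.rev = d i) (σ : CC d) :
    reflCC hp (reflCC hp σ) = σ := by
  funext i
  apply Fin.ext
  rw [reflCC_val, reflCC_val]
  exact val_congr σ (Fin.rev_rev i)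

theorem ix_reflCC (hp : ∀ i : Fin n, d i.rev = d i) (σ : CC d) :
    ix (reflCC hp σ) = ∑ i, (σ i : ℕ) * preP d (i.rev : ℕ) := by
  unfold ix
  rw [← Equiv.sum_comp Fin.revPerm]
  refine sum_congr rfl fun i _ => ?_
  rw [Fin.revPerm_apply, reflCC_val, val_congr σ (Fin.rev_rev i)]

/-- evaluation of a digit functional -/
def rvL : List (ℕ × ℕ) → ℕ → ℕ
  | [], _ => 0
  | (b, m) :: l, j => j % b * m + rvL l (j / b)

theorem rvL_ix {n : ℕ} {d : Fin n → ℕ} (m : Fin n → ℕ) (σ : CC d) :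
    rvL (List.ofFn fun i => (d i, m i)) (ix σ) = ∑ i, (σ i : ℕ) * m i := by
  induction n with
  | zero => simp [rvL]
  | succ n ih =>
    rw [List.ofFn_succ, rvL, ix_succ, Fin.sum_univ_succ]
    have h3 := (σ 0).isLt
    have hd : 0 < d 0 := by omega
    rw [Nat.add_mul_mod_self_left, Nat.mod_eq_of_lt h3, Nat.add_mul_div_left _ _ hd,
      Nat.div_eq_of_lt h3, zero_add]
    rw [ih (d := fun i => d i.succ) (fun i => m i.succ) (fun i => σ i.succ)]

theorem flipCC_inj {τ σ : CC d} : flipCC τ = flipCC σ ↔ τ = σ :=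
  ⟨fun h => by rw [← flipCC_flipCC τ, h, flipCC_flipCC], fun h => by rw [h]⟩

theorem reflCC_inj (hp : ∀ i : Fin n, d i.rev = d i) {τ σ : CC d} :
    reflCC hp τ = reflCC hp σ ↔ τ = σ :=
  ⟨fun h => by rw [← reflCC_reflCC hp τ, h, reflCC_reflCC], fun h => by rw [h]⟩

theorem can_flip {j k : Fin n} {σ : CC d} : can j k (flipCC σ) ↔ can k j σ := by
  unfold can
  rw [flipCC_val, flipCC_val]
  have h1 := (σ j).isLt
  have h2 := (σ k).isLt
  omega

theorem mv_val_j {j k : Fin n} {σ : CC d} (h : can j k σ) : (mv j k σ j).val = (σ j).val + 1 := by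
  obtain ⟨h1, h2⟩ := h
  simp [mv, incF, h1]

theorem mv_val_k {j k : Fin n} (hjk : j ≠ k) {σ : CC d} : (mv j k σ k).val = (σ k).val - 1 := by
  simp [mv, decF, hjk.symm]

theorem mv_val_i {j k i : Fin n} {σ : CC d} (hj : i ≠ j) (hk : i ≠ k) :
    (mv j k σ i).val = (σ i).val := by
  simp [mv, hj, hk]

theorem mv_flip {j k : Fin n} (hjk : j ≠ k) {σ : CC d} (h : can k j σ) :
    mv j k (flipCC σ) = flipCC (mv k j σ) := by
  have h' := can_flip.2 h
  funext i
  apply Fin.ext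
  rw [flipCC_val]
  by_cases hj : i = j
  · subst hj
    rw [mv_val_j h', flipCC_val, mv_val_k hjk.symm]
    have h1 := (σ i).isLt
    have h2 := h.2
    omega
  · by_cases hk : i = k
    · subst hk
      rw [mv_val_k hjk, flipCC_val, mv_val_j h]
      have h1 := (σ i).isLt
      have h2 := h.1
      omega
    · rw [mv_val_i hj hk, mv_val_i hk hj, flipCC_val]

theorem hopM_apply (j k : Fin n) (τ σ : CC d) :
    hopM j k τ σ = if can j k σ ∧ τ = mv j k σ then 1 else 0 := rfl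

/-- the inverse move -/
theorem mv_inv {j k : Fin n} (hjk : j ≠ k) {τ σ : CC d} (h : can j k σ ∧ τ = mv j k σ) :
    can k j τ ∧ σ = mv k j τ := by
  obtain ⟨h1, rfl⟩ := h
  have hc : can k j (mv j k σ) := by
    unfold can
    rw [mv_val_j h1, mv_val_k hjk]
    have h2 := (σ k).isLt
    have h3 := h1.2
    omega
  refine ⟨hc, ?_⟩
  funext i
  apply Fin.ext
  by_cases hj : i = j
  · subst hj
    rw [mv_val_k hjk.symm, mv_val_j h1]
    omega
  · by_cases hk : i = k
    · subst hk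
      rw [mv_val_j hc, mv_val_k hjk]
      have := h1.2
      omega
    · rw [mv_val_i hk hj, mv_val_i hj hk]

theorem hopM_transpose {j k : Fin n} (hjk : j ≠ k) (τ σ : CC d) :
    hopM j k τ σ = hopM k j σ τ := by
  rw [hopM_apply, hopM_apply]
  by_cases h : can j k σ ∧ τ = mv j k σ
  · rw [if_pos h, if_pos (mv_inv hjk h)]
  · rw [if_neg h, if_neg fun h' => h (mv_inv hjk.symm h')]

theorem hopM_flip {j k : Fin n} (hjk : j ≠ k) (τ σ : CC d) :
    hopM j k (flipCC τ) (flipCC σ) = hopM j k σ τ := by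
  rw [hopM_transpose hjk σ τ, hopM_apply, hopM_apply]
  by_cases h : can k j σ
  · rw [mv_flip hjk h]
    simp only [can_flip, flipCC_inj]
  · rw [if_neg fun h' => h (can_flip.1 h'.1), if_neg fun h' => h h'.1]

theorem can_refl (hp : ∀ i : Fin n, d i.rev = d i) {j k : Fin n} {σ : CC d} :
    can j k (reflCC hp σ) ↔ can j.rev k.rev σ := by
  unfold can
  rw [reflCC_val, reflCC_val]
  have h := hp j
  constructor
  · rintro ⟨h1, h2⟩
    exact ⟨h1.trans_eq h.symm, h2⟩
  · rintro ⟨h1, h2⟩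
    exact ⟨h1.trans_eq h, h2⟩

theorem mv_refl (hp : ∀ i : Fin n, d i.rev = d i) {j k : Fin n} (hjk : j ≠ k) {σ : CC d}
    (h : can j.rev k.rev σ) : mv j k (reflCC hp σ) = reflCC hp (mv j.rev k.rev σ) := by
  have h' := (can_refl hp).2 h
  have hjk' : j.rev ≠ k.rev := fun h => hjk (Fin.rev_inj.1 h)
  funext i
  apply Fin.ext
  rw [reflCC_val]
  by_cases hj : i = j
  · subst hj
    rw [mv_val_j h', reflCC_val, mv_val_j h]
  · by_cases hk : i = k
    · subst hk
      rw [mv_val_k hjk, reflCC_val, mv_val_k hjk']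
    · rw [mv_val_i hj hk, mv_val_i (fun h => hj (Fin.rev_inj.1 h)) (fun h => hk (Fin.rev_inj.1 h)),
        reflCC_val]

theorem hopM_refl (hp : ∀ i : Fin n, d i.rev = d i) {j k : Fin n} (hjk : j ≠ k) (τ σ : CC d) :
    hopM j k (reflCC hp τ) (reflCC hp σ) = hopM j.rev k.rev τ σ := by
  rw [hopM_apply, hopM_apply]
  by_cases h : can j.rev k.rev σ
  · rw [mv_refl hp hjk h]
    simp only [can_refl, reflCC_inj]
  · rw [if_neg fun h' => h ((can_refl hp).1 h'.1), if_neg fun h' => h h'.1]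

/-- powers, transposed version -/
theorem pow_of_symmT {Ω : Type*} [Fintype Ω] [DecidableEq Ω] (M : Matrix Ω Ω ℤ) (f : Ω → Ω)
    (hf : ∀ x, f (f x) = x) (h : ∀ τ σ, M (f τ) (f σ) = M σ τ) (k : ℕ) (τ σ : Ω) :
    (M ^ k) (f τ) (f σ) = (M ^ k) σ τ := by
  induction k generalizing τ σ with
  | zero =>
    simp only [pow_zero, Matrix.one_apply]
    by_cases hx : τ = σ
    · subst hx; simp
    · have h1 : f τ ≠ f σ := fun h => hx (by rw [← hf τ, h, hf])
      rw [if_neg h1, if_neg (Ne.symm hx)]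
  | succ k ih =>
    have e1 : (M ^ (k + 1)) (f τ) (f σ) = ∑ x, (M ^ k) (f τ) x * M x (f σ) := by
      rw [pow_succ, Matrix.mul_apply]
    have e2 : (M ^ (k + 1)) σ τ = ∑ x, M σ x * (M ^ k) x τ := by
      rw [pow_succ', Matrix.mul_apply]
    rw [e1, e2]
    let e : Ω ≃ Ω := ⟨f, f, hf, hf⟩
    rw [← Equiv.sum_comp e]
    refine sum_congr rfl fun x _ => ?_
    show (M ^ k) (f τ) (f x) * M (f x) (f σ) = _
    rw [ih, h, mul_comm]

theorem pow_of_symm {Ω : Type*} [Fintype Ω] [DecidableEq Ω] (M : Matrix Ω Ω ℤ) (f : Ω → Ω)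
    (hf : ∀ x, f (f x) = x) (h : ∀ τ σ, M (f τ) (f σ) = M τ σ) (k : ℕ) (τ σ : Ω) :
    (M ^ k) (f τ) (f σ) = (M ^ k) τ σ := by
  induction k generalizing τ σ with
  | zero =>
    simp only [pow_zero, Matrix.one_apply]
    by_cases hx : τ = σ
    · subst hx; simp
    · have h1 : f τ ≠ f σ := fun h => hx (by rw [← hf τ, h, hf])
      rw [if_neg h1, if_neg hx]
  | succ k ih =>
    rw [pow_succ, Matrix.mul_apply, Matrix.mul_apply]
    let e : Ω ≃ Ω := ⟨f, f, hf, hf⟩
    rw [← Equiv.sum_comp e]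
    refine sum_congr rfl fun x _ => ?_
    show (M ^ k) (f τ) (f x) * M (f x) (f σ) = _
    rw [ih, h]

end gen

section mat

variable {K : ℕ} {d : Fin (K + 1) → ℕ}

namespace ChData

/-- hop part -/
def hopP (c : ChData K d) : Matrix (CC d) (CC d) ℤ :=
  ∑ b : Fin K, (((c.p * (d b.castSucc - 1) : ℕ) : ℤ) • hopM b.succ b.castSucc +
    ((c.p * (d b.succ - 1) : ℕ) : ℤ) • hopM b.castSucc b.succ)

/-- bond diagonal part -/
def dvB (c : ChData K d) (σ : CC d) : ℕ :=
  ∑ b : Fin K, c.p * bvN (d b.castSucc) (d b.succ) (σ b.castSucc) (σ b.succ)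

theorem mat_apply (c : ChData K d) (τ σ : CC d) :
    c.mat τ σ = c.hopP τ σ +
      if τ = σ then ((c.dvB σ + (c.fL (σ 0) + c.fR (σ (Fin.last K))) : ℕ) : ℤ) else 0 := by
  unfold mat hopP
  rw [Matrix.add_apply, Matrix.diagonal_apply]
  congr 1
  by_cases h : τ = σ
  · subst h; rfl
  · rw [if_neg h, if_neg h]

theorem hopP_apply (c : ChData K d) (τ σ : CC d) :
    c.hopP τ σ = ∑ b : Fin K, (((c.p * (d b.castSucc - 1) : ℕ) : ℤ) * hopM b.succ b.castSucc τ σ +
      ((c.p * (d b.succ - 1) : ℕ) : ℤ) * hopM b.castSucc b.succ τ σ) := by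
  unfold hopP
  simp only [Matrix.sum_apply, Matrix.add_apply, Matrix.smul_apply, smul_eq_mul]

theorem hopP_flip (c : ChData K d) (τ σ : CC d) : c.hopP (flipCC τ) (flipCC σ) = c.hopP σ τ := by
  rw [hopP_apply, hopP_apply]
  refine sum_congr rfl fun b _ => ?_
  have hne : (b.succ : Fin (K + 1)) ≠ b.castSucc := (Fin.castSucc_lt_succ (i := b)).ne'
  rw [hopM_flip hne, hopM_flip hne.symm]

theorem hopP_refl (c : ChData K d) (hp : ∀ i, d i.rev = d i) (τ σ : CC d) :
    c.hopP (reflCC hp τ) (reflCC hp σ) = c.hopP τ σ := by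
  rw [hopP_apply, hopP_apply, ← Equiv.sum_comp Fin.revPerm]
  refine sum_congr rfl fun b _ => ?_
  have hne : ∀ b : Fin K, (b.succ : Fin (K + 1)) ≠ b.castSucc :=
    fun b => (Fin.castSucc_lt_succ (i := b)).ne'
  rw [Fin.revPerm_apply, hopM_refl hp (hne _), hopM_refl hp (hne _).symm]
  have e1 : (b.rev.succ).rev = b.castSucc := by rw [Fin.rev_succ, Fin.rev_rev]
  have e2 : (b.rev.castSucc).rev = b.succ := by rw [Fin.rev_castSucc, Fin.rev_rev]
  have e3 : d b.rev.castSucc = d b.succ := by rw [← hp, e2]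
  have e4 : d b.rev.succ = d b.castSucc := by rw [← hp, e1]
  rw [e1, e2, e3, e4, add_comm]

theorem bvN_flip {dj dk a a' : ℕ} (h : a < dj) (h' : a' < dk) :
    bvN dj dk (dj - 1 - a) (dk - 1 - a') = bvN dj dk a a' := by
  unfold bvN
  have h1 : dj - 1 - (dj - 1 - a) = a := by omega
  have h2 : dk - 1 - (dk - 1 - a') = a' := by omega
  rw [h1, h2, add_comm, mul_comm, mul_comm (dk - 1 - a')]

theorem bvN_swap (dj dk a a' : ℕ) : bvN dj dk a a' = bvN dk dj a' a := by
  unfold bvN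
  rw [add_comm]

theorem dvB_flip (c : ChData K d) (σ : CC d) : c.dvB (flipCC σ) = c.dvB σ := by
  unfold dvB
  refine sum_congr rfl fun b _ => ?_
  rw [flipCC_val, flipCC_val, bvN_flip (σ _).isLt (σ _).isLt]

theorem dvB_refl (c : ChData K d) (hp : ∀ i, d i.rev = d i) (σ : CC d) :
    c.dvB (reflCC hp σ) = c.dvB σ := by
  unfold dvB
  rw [← Equiv.sum_comp Fin.revPerm]
  refine sum_congr rfl fun b _ => ?_
  have e1 : (b.rev.succ).rev = b.castSucc := by rw [Fin.rev_succ, Fin.rev_rev]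
  have e2 : (b.rev.castSucc).rev = b.succ := by rw [Fin.rev_castSucc, Fin.rev_rev]
  have e3 : d b.rev.castSucc = d b.succ := by rw [← hp, e2]
  have e4 : d b.rev.succ = d b.castSucc := by rw [← hp, e1]
  rw [Fin.revPerm_apply, reflCC_val, reflCC_val, e3, e4, val_congr σ e1, val_congr σ e2, bvN_swap]

theorem mat_flip (c : ChData K d) (hL : ∀ a < d 0, c.fL (d 0 - 1 - a) = c.fL a)
    (hR : ∀ a < d (Fin.last K), c.fR (d (Fin.last K) - 1 - a) = c.fR a) (τ σ : CC d) :
    c.mat (flipCC τ) (flipCC σ) = c.mat σ τ := by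
  rw [mat_apply, mat_apply, hopP_flip]
  congr 1
  by_cases h : τ = σ
  · subst h
    rw [if_pos rfl, if_pos rfl, dvB_flip, flipCC_val, flipCC_val, hL _ (τ 0).isLt,
      hR _ (τ (Fin.last K)).isLt]
  · rw [if_neg fun h' => h (flipCC_inj.1 h'), if_neg (Ne.symm h)]

theorem mat_refl (c : ChData K d) (hp : ∀ i, d i.rev = d i) (hf : ∀ a < d 0, c.fL a = c.fR a)
    (τ σ : CC d) : c.mat (reflCC hp τ) (reflCC hp σ) = c.mat τ σ := by
  rw [mat_apply, mat_apply, hopP_refl]
  congr 1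
  by_cases h : τ = σ
  · subst h
    rw [if_pos rfl, if_pos rfl, dvB_refl, reflCC_val, reflCC_val]
    have e1 : (Fin.rev 0 : Fin (K + 1)) = Fin.last K := Fin.rev_zero K
    have e2 : (Fin.last K).rev = 0 := Fin.rev_last K
    have e3 : d (Fin.last K) = d 0 := by rw [← hp, e2]
    rw [val_congr τ e1, val_congr τ e2, hf _ (by rw [← e3]; exact (τ _).isLt),
      ← hf _ (τ 0).isLt, add_comm (c.fR _)]
  · rw [if_neg fun h' => h ((reflCC_inj hp).1 h'), if_neg h]

theorem mat_flip_refl (c : ChData K d) (hp : ∀ i, d i.rev = d i)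
    (hf : ∀ a < d 0, c.fL (d 0 - 1 - a) = c.fR a) (τ σ : CC d) :
    c.mat (flipCC (reflCC hp τ)) (flipCC (reflCC hp σ)) = c.mat σ τ := by
  rw [mat_apply, mat_apply, hopP_flip, hopP_refl]
  congr 1
  by_cases h : τ = σ
  · subst h
    rw [if_pos rfl, if_pos rfl, dvB_flip, dvB_refl, flipCC_val, flipCC_val, reflCC_val, reflCC_val]
    have e1 : (Fin.rev 0 : Fin (K + 1)) = Fin.last K := Fin.rev_zero K
    have e2 : (Fin.last K).rev = 0 := Fin.rev_last K
    have e3 : d (Fin.last K) = d 0 := by rw [← hp, e2]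
    have h0 := (τ 0).isLt
    have h1 : (τ (Fin.last K)).val < d 0 := by rw [← e3]; exact (τ _).isLt
    have h2 := hf (d 0 - 1 - (τ 0).val) (by omega)
    have h3 : d 0 - 1 - (d 0 - 1 - (τ 0).val) = (τ 0).val := by omega
    rw [h3] at h2
    have h4 : d (Fin.last K) - 1 - (τ 0).val = d 0 - 1 - (τ 0).val := by omega
    rw [val_congr τ e1, val_congr τ e2, hf _ h1, h4, ← h2, add_comm (c.fR _)]
  · rw [if_neg fun h' => h ((reflCC_inj hp).1 (flipCC_inj.1 h')), if_neg (Ne.symm h)]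

theorem flip_refl_comm (hp : ∀ i, d i.rev = d i) (σ : CC d) :
    flipCC (reflCC hp σ) = reflCC hp (flipCC σ) := by
  funext i
  apply Fin.ext
  rw [flipCC_val, reflCC_val, reflCC_val, flipCC_val]
  have := hp i
  omega

theorem pow_flip (c : ChData K d) (hL : ∀ a < d 0, c.fL (d 0 - 1 - a) = c.fL a)
    (hR : ∀ a < d (Fin.last K), c.fR (d (Fin.last K) - 1 - a) = c.fR a) (k : ℕ) (σ : CC d) :
    (c.mat ^ k) (flipCC σ) (flipCC σ) = (c.mat ^ k) σ σ :=
  pow_of_symmT c.mat flipCC flipCC_flipCC (c.mat_flip hL hR) k σ σ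

theorem pow_refl (c : ChData K d) (hp : ∀ i, d i.rev = d i) (hf : ∀ a < d 0, c.fL a = c.fR a)
    (k : ℕ) (σ : CC d) : (c.mat ^ k) (reflCC hp σ) (reflCC hp σ) = (c.mat ^ k) σ σ :=
  pow_of_symm c.mat (reflCC hp) (reflCC_reflCC hp) (c.mat_refl hp hf) k σ σ

theorem pow_flip_refl (c : ChData K d) (hp : ∀ i, d i.rev = d i)
    (hf : ∀ a < d 0, c.fL (d 0 - 1 - a) = c.fR a) (k : ℕ) (σ : CC d) :
    (c.mat ^ k) (flipCC (reflCC hp σ)) (flipCC (reflCC hp σ)) = (c.mat ^ k) σ σ :=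
  pow_of_symmT c.mat (fun x => flipCC (reflCC hp x))
    (fun x => by
      show flipCC (reflCC hp (flipCC (reflCC hp x))) = x
      rw [flip_refl_comm, flipCC_flipCC, reflCC_reflCC])
    (c.mat_flip_refl hp hf) k σ σ

end ChData

end mat

end Hald
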