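import Crest.Agent.Hald.ChOrb
import Crest.Agent.Hald.ChSym

/-!
# Row 347, M7: the moments of a chain from the packed runs

`moments_of_runs`: even and odd parts of `∑ σ, (c.mat ^ k) σ σ` from the total `T` of the runs.
-/

set_option autoImplicit false

namespace Hald

open Finset

/-! ### canonical representatives (kernel friendly) -/

noncomputable def rvK (l : List (ℕ × ℕ)) : ℕ → ℕ :=
  List.rec (motive := fun _ => ℕ → ℕ) (fun _ => 0)
    (fun p _ ih j => force (Nat.div j p.1) fun q => Nat.add (Nat.mul (Nat.mod j p.1) p.2) (ih q)) l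

theorem rvK_eq (l : List (ℕ × ℕ)) (j : ℕ) : rvK l j = rvL l j := by
  induction l generalizing j with
  | nil => rfl
  | cons p l ih =>
    show force (Nat.div j p.1) (fun q => Nat.add (Nat.mul (Nat.mod j p.1) p.2) (rvK l q)) = _
    rw [force_eq, ih, rvL]
    rfl

noncomputable def mnK (a b : ℕ) : ℕ := Bool.rec (motive := fun _ => ℕ) b a (Nat.ble a b)

theorem mnK_or (a b : ℕ) : mnK a b = a ∨ mnK a b = b := by
  unfold mnK
  cases Nat.ble a b
  · exact Or.inr rfl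
  · exact Or.inl rfl

/-- flip and reflection -/
noncomputable def cFR (D1 : ℕ) (l : List (ℕ × ℕ)) (j : ℕ) : ℕ :=
  force (rvK l j) fun r => mnK (mnK j (Nat.sub D1 j)) (mnK r (Nat.sub D1 r))

/-- reflection -/
noncomputable def cRR (l : List (ℕ × ℕ)) (j : ℕ) : ℕ :=
  force (rvK l j) fun r => mnK j r

/-- flip ∘ reflection -/
noncomputable def cXX (D1 : ℕ) (l : List (ℕ × ℕ)) (j : ℕ) : ℕ :=
  force (rvK l j) fun r => mnK j (Nat.sub D1 r)

section

variable {D1 : ℕ} {l : List (ℕ × ℕ)} {F : ℕ → ℤ}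

theorem cFR_inv (hf : ∀ j ≤ D1, F (D1 - j) = F j) (hr : ∀ j ≤ D1, rvL l j ≤ D1 ∧ F (rvL l j) = F j) :
    ∀ j ≤ D1, cFR D1 l j ≤ D1 ∧ F (cFR D1 l j) = F j := by
  intro j hj
  obtain ⟨h1, h2⟩ := hr j hj
  unfold cFR
  rw [force_eq, rvK_eq]
  have e1 : Nat.sub D1 j = D1 - j := rfl
  have e2 : Nat.sub D1 (rvL l j) = D1 - rvL l j := rfl
  rw [e1, e2]
  rcases mnK_or (mnK j (D1 - j)) (mnK (rvL l j) (D1 - rvL l j)) with h | h <;> rw [h]
  · rcases mnK_or j (D1 - j) with h | h <;> rw [h]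
    · exact ⟨hj, rfl⟩
    · exact ⟨Nat.sub_le _ _, hf j hj⟩
  · rcases mnK_or (rvL l j) (D1 - rvL l j) with h | h <;> rw [h]
    · exact ⟨h1, h2⟩
    · exact ⟨Nat.sub_le _ _, by rw [hf _ h1, h2]⟩

theorem cRR_inv (hr : ∀ j ≤ D1, rvL l j ≤ D1 ∧ F (rvL l j) = F j) :
    ∀ j ≤ D1, cRR l j ≤ D1 ∧ F (cRR l j) = F j := by
  intro j hj
  obtain ⟨h1, h2⟩ := hr j hj
  unfold cRR
  rw [force_eq, rvK_eq]
  rcases mnK_or j (rvL l j) with h | h <;> rw [h]
  · exact ⟨hj, rfl⟩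
  · exact ⟨h1, h2⟩

theorem cXX_inv (hr : ∀ j ≤ D1, rvL l j ≤ D1 ∧ F (D1 - rvL l j) = F j) :
    ∀ j ≤ D1, cXX D1 l j ≤ D1 ∧ F (cXX D1 l j) = F j := by
  intro j hj
  obtain ⟨h1, h2⟩ := hr j hj
  unfold cXX
  rw [force_eq, rvK_eq]
  have e2 : Nat.sub D1 (rvL l j) = D1 - rvL l j := rfl
  rw [e2]
  rcases mnK_or j (D1 - rvL l j) with h | h <;> rw [h]
  · exact ⟨hj, rfl⟩
  · exact ⟨Nat.sub_le _ _, h2⟩

end

/-! ### decoding -/

/-- even part -/
def decE (w wo Q KK nE T k : ℕ) : ℤ :=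
  ((((T >>> (wo * (KK - k))) % 2 ^ wo) % 2 ^ Q : ℕ) : ℤ) - nE * 2 ^ (w - 1)

/-- odd part -/
def decO (w wo Q KK nO T k : ℕ) : ℤ :=
  ((((T >>> (wo * (KK - k))) % 2 ^ wo) >>> Q : ℕ) : ℤ) - nO * 2 ^ (w - 1)

theorem decode {w wo Q KK T : ℕ} (hwo : wo = Q + Q) (E O : ℕ → ℕ) (hE : ∀ k ≤ KK, E k < 2 ^ Q)
    (hO : ∀ k ≤ KK, O k < 2 ^ Q)
    (hT : (T : ℤ) = ∑ k ∈ range (KK + 1), ((E k : ℤ) + 2 ^ Q * (O k : ℤ)) * 2 ^ (wo * (KK - k)))
    (nE nO k : ℕ) (hk : k ≤ KK) :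
    decE w wo Q KK nE T k = (E k : ℤ) - nE * 2 ^ (w - 1) ∧
      decO w wo Q KK nO T k = (O k : ℤ) - nO * 2 ^ (w - 1) := by
  have h1 : T = pk wo (fun j => E (KK - j) + 2 ^ Q * O (KK - j)) (KK + 1) := by
    have h2 : T = ∑ k ∈ range (KK + 1), (E k + 2 ^ Q * O k) * 2 ^ (wo * (KK - k)) := by
      exact_mod_cast hT
    rw [h2, pk, ← sum_range_reflect]
    refine sum_congr rfl fun j hj => ?_
    rw [mem_range] at hj
    have e1 : KK + 1 - 1 - j = KK - j := by omega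
    have e2 : KK - (KK - j) = j := by omega
    rw [e1, e2]
  have hb : ∀ j < KK + 1, E (KK - j) + 2 ^ Q * O (KK - j) < 2 ^ wo := by
    intro j _
    have h3 := hE (KK - j) (by omega)
    have h4 := hO (KK - j) (by omega)
    rw [hwo, pow_add]
    calc E (KK - j) + 2 ^ Q * O (KK - j) < 2 ^ Q + 2 ^ Q * O (KK - j) := by omega
      _ = 2 ^ Q * (O (KK - j) + 1) := by ring
      _ ≤ 2 ^ Q * 2 ^ Q := Nat.mul_le_mul_left _ h4
  have h5 := read_pk hb (i := KK - k) (by omega)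
  rw [← h1] at h5
  have e3 : KK - (KK - k) = k := by omega
  simp only [e3] at h5
  unfold decE decO
  rw [h5]
  have h6 := hE k hk
  constructor
  · rw [Nat.add_mul_mod_self_left, Nat.mod_eq_of_lt h6]
  · rw [Nat.shiftRight_eq_div_pow, Nat.add_mul_div_left _ _ (by positivity), Nat.div_eq_of_lt h6,
      zero_add]

/-! ### the moments -/

namespace ChData

variable {K : ℕ} {d : Fin (K + 1) → ℕ}

/-- even part of the trace -/
def tE (c : ChData K d) (k : ℕ) : ℤ := ∑ σ, if dsum σ % 2 = 0 then (c.mat ^ k) σ σ else 0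
/-- odd part of the trace -/
def tO (c : ChData K d) (k : ℕ) : ℤ := ∑ σ, if dsum σ % 2 = 0 then 0 else (c.mat ^ k) σ σ

theorem pow_nonneg_entry (c : ChData K d) (k : ℕ) : ∀ τ σ, 0 ≤ (c.mat ^ k) τ σ := by
  induction k with
  | zero =>
    intro τ σ
    rw [pow_zero, Matrix.one_apply]
    split_ifs <;> norm_num
  | succ k ih =>
    intro τ σ
    rw [pow_succ, Matrix.mul_apply]
    exact sum_nonneg fun ρ _ => mul_nonneg (ih τ ρ) (mat_nonneg c ρ σ)

theorem diag_le (c : ChData K d) {R : ℕ} (hR : ∀ σ, ∑ τ, |c.mat τ σ| ≤ (R : ℤ)) (k : ℕ) (σ : CC d) :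
    (c.mat ^ k) σ σ ≤ (R : ℤ) ^ k := by
  have h := abs_pow_mulVec_le c.mat R (Int.natCast_nonneg _) hR (Pi.single σ 1) k
  have h1 : ∑ τ, |(Pi.single σ (1 : ℤ) : CC d → ℤ) τ| = 1 := by
    rw [sum_eq_single σ]
    · simp
    · intro τ _ hτ; simp [Pi.single_eq_of_ne hτ]
    · intro h; exact absurd (mem_univ _) h
  rw [h1, mul_one] at h
  have h2 : ((c.mat ^ k).mulVec (Pi.single σ 1)) σ = (c.mat ^ k) σ σ := by
    rw [Matrix.mulVec_single_one]
    rfl
  calc (c.mat ^ k) σ σ ≤ |((c.mat ^ k).mulVec (Pi.single σ 1)) σ| := by rw [h2]; exact le_abs_self _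
    _ ≤ ∑ τ, |((c.mat ^ k).mulVec (Pi.single σ 1)) τ| :=
        single_le_sum (f := fun τ => |((c.mat ^ k).mulVec (Pi.single σ 1)) τ|)
          (fun τ _ => abs_nonneg _) (mem_univ σ)
    _ ≤ _ := h

/-- the summand of the class `r` -/
noncomputable def FF (c : ChData K d) (X : ℤ) (k r : ℕ) (i : ℕ) : ℤ :=
  if dgS (List.ofFn d) i % 2 = r then X + c.dE k i else 0

theorem sum_ix (g : ℕ → ℤ) : ∑ i ∈ range (preP d (K + 1)), g i = ∑ σ : CC d, g (ix σ) := by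
  rw [← Fin.sum_univ_eq_sum_range (fun i => g i), ← Equiv.sum_comp (eN d)]
  exact sum_congr rfl fun σ _ => by rw [eN_val]

theorem FF_sum (c : ChData K d) (X : ℤ) (k r : ℕ) :
    ∑ i ∈ range (preP d (K + 1)), c.FF X k r i =
      (∑ i ∈ range (preP d (K + 1)), if dgS (List.ofFn d) i % 2 = r then (1 : ℤ) else 0) * X +
        ∑ σ : CC d, if dsum σ % 2 = r then (c.mat ^ k) σ σ else 0 := by
  rw [sum_ix, sum_ix, sum_mul, ← sum_add_distrib]
  refine sum_congr rfl fun σ _ => ?_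
  unfold FF
  rw [dgS_ix, dE_ix]
  split_ifs <;> simp

theorem FF_split (c : ChData K d) (X : ℤ) (k Q : ℕ) (l : List (ℕ × ℕ)) :
    (l.map fun p => (p.2 : ℤ) * (X + c.dE k p.1) * 2 ^ (Q * (dgS (List.ofFn d) p.1 % 2))).sum =
      (l.map fun p => (p.2 : ℤ) * c.FF X k 0 p.1).sum +
        2 ^ Q * (l.map fun p => (p.2 : ℤ) * c.FF X k 1 p.1).sum := by
  induction l with
  | nil => simp
  | cons p l ih =>
    simp only [List.map_cons, List.sum_cons]
    rw [ih]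
    have h : (p.2 : ℤ) * (X + c.dE k p.1) * 2 ^ (Q * (dgS (List.ofFn d) p.1 % 2)) =
        (p.2 : ℤ) * c.FF X k 0 p.1 + 2 ^ Q * ((p.2 : ℤ) * c.FF X k 1 p.1) := by
      unfold FF
      rcases Nat.mod_two_eq_zero_or_one (dgS (List.ofFn d) p.1) with h | h
      · rw [h, if_pos rfl, if_neg (by norm_num), Nat.mul_zero, pow_zero]; ring
      · rw [h, if_pos rfl, if_neg (by norm_num), Nat.mul_one]; ring
    rw [h]
    ring

/-- **the moments from the runs**: `canon` is any canonical representative function -/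
theorem moments_of_runs (c : ChData K d) (hd : ∀ i, d i = 2 ∨ d i = 3) {w wo Q R KK S s nE nO : ℕ}
    (hw : 8 ≤ w) (hc : ∀ e ∈ c.cs, e + 1 ≤ w) (hR : ∀ σ, ∑ τ, |c.mat τ σ| ≤ (R : ℤ))
    (hR8 : R < 2 ^ 8) (hR1 : 1 ≤ R) (Rs : List (List (ℕ × ℕ)))
    (hL : ∀ L ∈ Rs, ∀ p ∈ L, p.1 < preP d (K + 1))
    (hn : ∀ L ∈ Rs, (L.map fun p => dgS (List.ofFn d) p.1).Nodup) (hS : ∀ L ∈ Rs, L.length ≤ S)
    (hb : R ^ KK * S < 2 ^ (w - 1)) (hRw : R ^ KK < 2 ^ (w - 1)) (hwo : wo = Q + Q)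
    (hQ : preP d (K + 1) * 2 ^ w < 2 ^ Q)
    {canon : ℕ → ℕ} (hs : preP d (K + 1) < 2 ^ s)
    (hws : (Rs.flatten.map Prod.snd).sum < 2 ^ s)
    (hh : histD s canon (preP d (K + 1)) = histL s canon Rs.flatten)
    (hcD : ∀ j < preP d (K + 1), canon j < preP d (K + 1))
    (hcF : ∀ (X : ℤ) (k r : ℕ), ∀ j < preP d (K + 1), c.FF X k r (canon j) = c.FF X k r j)
    (hcP : ∀ j < preP d (K + 1), dgS (List.ofFn d) (canon j) % 2 = dgS (List.ofFn d) j % 2)
    (hnE : (Rs.flatten.map fun p => if dgS (List.ofFn d) p.1 % 2 = 0 then p.2 else 0).sum = nE)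
    (hnO : (Rs.flatten.map fun p => if dgS (List.ofFn d) p.1 % 2 = 1 then p.2 else 0).sum = nO)
    {T : ℕ} (hT : runsN w wo Q (fullS d) c.op (List.ofFn d) KK Rs = T) (k : ℕ) (hk : k ≤ KK) :
    c.tE k = decE w wo Q KK nE T k ∧ c.tO k = decO w wo Q KK nO T k := by
  have hLf : ∀ p ∈ Rs.flatten, p.1 < preP d (K + 1) := by
    intro p hp
    obtain ⟨L, hL1, hp1⟩ := List.mem_flatten.1 hp
    exact hL L hL1 p hp1
  have horb := fun F hF => orb_sum_of hs hws hLf hcD hh F hF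
  -- counts
  have hcnt : ∀ r n : ℕ, (Rs.flatten.map fun p => if dgS (List.ofFn d) p.1 % 2 = r then p.2 else 0).sum
      = n → (∑ i ∈ range (preP d (K + 1)), if dgS (List.ofFn d) i % 2 = r then (1 : ℤ) else 0) = n := by
    intro r n h
    rw [← horb (fun i => if dgS (List.ofFn d) i % 2 = r then (1 : ℤ) else 0) (fun j hj => by
      simp only [hcP j hj]), ← h, Nat.cast_list_sum, List.map_map]
    congr 1
    apply List.map_congr_left
    intro p _
    simp only [Function.comp]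
    split_ifs <;> simp
  have hX : ∀ (k r : ℕ), (Rs.flatten.map fun p => (p.2 : ℤ) * c.FF (2 ^ (w - 1)) k r p.1).sum =
      ∑ i ∈ range (preP d (K + 1)), c.FF (2 ^ (w - 1)) k r i := fun k r =>
    horb _ (hcF (2 ^ (w - 1)) k r)
  have hRk : ∀ k ≤ KK, (R : ℤ) ^ k < 2 ^ (w - 1) := by
    intro k hk
    have h1 : R ^ k ≤ R ^ KK := Nat.pow_le_pow_right hR1 hk
    exact_mod_cast lt_of_le_of_lt h1 hRw
  have h2w : (2 : ℤ) ^ w = 2 ^ (w - 1) + 2 ^ (w - 1) := by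
    obtain ⟨k, rfl⟩ : ∃ k, w = k + 1 := ⟨w - 1, by omega⟩
    simp [pow_succ]; ring
  have hFF0 : ∀ k r i, i < preP d (K + 1) → 0 ≤ c.FF (2 ^ (w - 1)) k r i := by
    intro k r i hi
    obtain ⟨σ, rfl⟩ := ix_surj (d := d) hi
    unfold FF
    rw [dE_ix]
    split_ifs
    · have := pow_nonneg_entry c k σ σ
      positivity
    · exact le_rfl
  have hFF1 : ∀ k ≤ KK, ∀ r i, i < preP d (K + 1) → c.FF (2 ^ (w - 1)) k r i ≤ 2 ^ w := by
    intro k hk r i hi
    obtain ⟨σ, rfl⟩ := ix_surj (d := d) hi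
    unfold FF
    rw [dE_ix]
    split_ifs
    · have h1 := diag_le c hR k σ
      have h2 := hRk k hk
      rw [h2w]
      linarith
    · positivity
  have hN : ∀ k r, ∃ n : ℕ, (n : ℤ) = ∑ i ∈ range (preP d (K + 1)), c.FF (2 ^ (w - 1)) k r i := by
    intro k r
    exact Int.eq_ofNat_of_zero_le (sum_nonneg fun i hi => hFF0 k r i (mem_range.1 hi)) |>.imp
      fun n h => h.symm
  choose NN hNN using hN
  have hNlt : ∀ k ≤ KK, ∀ r, NN k r < 2 ^ Q := by
    intro k hk r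
    have h1 : ((NN k r : ℕ) : ℤ) ≤ ∑ i ∈ range (preP d (K + 1)), (2 : ℤ) ^ w := by
      rw [hNN]
      exact sum_le_sum fun i hi => hFF1 k hk r i (mem_range.1 hi)
    rw [sum_const, card_range, nsmul_eq_mul] at h1
    have h2 : ((NN k r : ℕ) : ℤ) < 2 ^ Q := lt_of_le_of_lt h1 (by exact_mod_cast hQ)
    exact_mod_cast h2
  have hval := runs_val c hd (wo := wo) (Q := Q) hw hc hR hR8 hR1 Rs hL hn hS hb
  rw [hT] at hval
  have hT2 : (T : ℤ) = ∑ k ∈ range (KK + 1), (((NN k 0 : ℕ) : ℤ) + 2 ^ Q * ((NN k 1 : ℕ) : ℤ)) *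
      2 ^ (wo * (KK - k)) := by
    rw [hval]
    refine sum_congr rfl fun k _ => ?_
    rw [FF_split, hX, hX, hNN, hNN]
  have hdec := decode (w := w) hwo (fun k => NN k 0) (fun k => NN k 1) (fun k hk => hNlt k hk 0)
    (fun k hk => hNlt k hk 1) hT2 nE nO k hk
  rw [hdec.1, hdec.2, hNN, hNN, FF_sum, FF_sum, hcnt 0 nE hnE, hcnt 1 nO hnO]
  constructor
  · unfold tE
    ring
  · unfold tO
    have : ∀ σ : CC d, (if dsum σ % 2 = 0 then 0 else (c.mat ^ k) σ σ) =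
        (if dsum σ % 2 = 1 then (c.mat ^ k) σ σ else 0) := by
      intro σ
      rcases Nat.mod_two_eq_zero_or_one (dsum σ) with h | h <;> simp [h]
    rw [sum_congr rfl fun σ _ => this σ]
    ring

/-! ### invariance -/

theorem dsum_flip (σ : CC d) : dsum (flipCC σ) + dsum σ = ∑ i, (d i - 1) := by
  unfold dsum
  rw [← sum_add_distrib]
  refine sum_congr rfl fun i _ => ?_
  rw [flipCC_val]
  have := (σ i).isLt
  omega

theorem dsum_refl (hp : ∀ i, d i.rev = d i) (σ : CC d) : dsum (reflCC hp σ) = dsum σ := by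
  unfold dsum
  rw [← Equiv.sum_comp Fin.revPerm]
  refine sum_congr rfl fun i _ => ?_
  rw [Fin.revPerm_apply, reflCC_val, val_congr σ (Fin.rev_rev i)]

theorem par_flip (he : Even (∑ i, (d i - 1))) (σ : CC d) : dsum (flipCC σ) % 2 = dsum σ % 2 := by
  have h := dsum_flip σ
  rw [← h] at he
  have := Nat.even_iff.1 he
  omega

/-- list for the reflection -/
def revL (d : Fin (K + 1) → ℕ) : List (ℕ × ℕ) := List.ofFn fun i => (d i, preP d (i.rev : ℕ))

theorem rvL_revL (hp : ∀ i, d i.rev = d i) (σ : CC d) : rvL (revL d) (ix σ) = ix (reflCC hp σ) := by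
  unfold revL
  rw [rvL_ix (fun i : Fin (K + 1) => preP d (i.rev : ℕ)), ix_reflCC]

theorem preP_pos (hd : ∀ i, d i = 2 ∨ d i = 3) : 0 < preP d (K + 1) := by
  rw [← cc_dim]
  exact Finset.prod_pos fun i _ => by rcases hd i with h | h <;> omega

theorem FF_flip (c : ChData K d) (hL : ∀ a < d 0, c.fL (d 0 - 1 - a) = c.fL a)
    (hR : ∀ a < d (Fin.last K), c.fR (d (Fin.last K) - 1 - a) = c.fR a)
    (he : Even (∑ i, (d i - 1))) (X : ℤ) (k r : ℕ) (σ : CC d) :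
    c.FF X k r (ix (flipCC σ)) = c.FF X k r (ix σ) := by
  unfold FF
  rw [dgS_ix, dgS_ix, dE_ix, dE_ix, pow_flip c hL hR, par_flip he]

theorem FF_refl (c : ChData K d) (hp : ∀ i, d i.rev = d i) (hf : ∀ a < d 0, c.fL a = c.fR a)
    (X : ℤ) (k r : ℕ) (σ : CC d) :
    c.FF X k r (ix (reflCC hp σ)) = c.FF X k r (ix σ) := by
  unfold FF
  rw [dgS_ix, dgS_ix, dE_ix, dE_ix, pow_refl c hp hf, dsum_refl]

theorem FF_flip_refl (c : ChData K d) (hp : ∀ i, d i.rev = d i)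
    (hf : ∀ a < d 0, c.fL (d 0 - 1 - a) = c.fR a) (he : Even (∑ i, (d i - 1)))
    (X : ℤ) (k r : ℕ) (σ : CC d) :
    c.FF X k r (ix (flipCC (reflCC hp σ))) = c.FF X k r (ix σ) := by
  unfold FF
  rw [dgS_ix, dgS_ix, dE_ix, dE_ix, pow_flip_refl c hp hf, par_flip he, dsum_refl]

/-- the three kinds of symmetric chains: canonical representatives -/
theorem canon_FR (c : ChData K d) (hp : ∀ i, d i.rev = d i)
    (hL : ∀ a < d 0, c.fL (d 0 - 1 - a) = c.fL a)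
    (hR : ∀ a < d (Fin.last K), c.fR (d (Fin.last K) - 1 - a) = c.fR a)
    (hf : ∀ a < d 0, c.fL a = c.fR a) (he : Even (∑ i, (d i - 1)))
    {D1 : ℕ} (hD : preP d (K + 1) = D1 + 1) {l : List (ℕ × ℕ)} (hl : l = revL d) :
    (∀ j < preP d (K + 1), cFR D1 l j < preP d (K + 1)) ∧
    (∀ (X : ℤ) (k r : ℕ), ∀ j < preP d (K + 1), c.FF X k r (cFR D1 l j) = c.FF X k r j) ∧
    (∀ j < preP d (K + 1), dgS (List.ofFn d) (cFR D1 l j) % 2 = dgS (List.ofFn d) j % 2) := by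
  subst hl
  have hf1 : ∀ σ : CC d, D1 - ix σ = ix (flipCC σ) := fun σ => by rw [ix_flipCC, hD]; rfl
  have key : ∀ F : ℕ → ℤ, (∀ σ : CC d, F (ix (flipCC σ)) = F (ix σ)) →
      (∀ σ : CC d, F (ix (reflCC hp σ)) = F (ix σ)) →
      ∀ j ≤ D1, cFR D1 (revL d) j ≤ D1 ∧ F (cFR D1 (revL d) j) = F j := by
    intro F h1 h2
    apply cFR_inv
    · intro j hj
      obtain ⟨σ, rfl⟩ := ix_surj (d := d) (show j < preP d (K + 1) by omega)
      rw [hf1, h1]
    · intro j hj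
      obtain ⟨σ, rfl⟩ := ix_surj (d := d) (show j < preP d (K + 1) by omega)
      rw [rvL_revL hp]
      have := ix_lt (reflCC hp σ)
      exact ⟨by omega, h2 σ⟩
  refine ⟨?_, ?_, ?_⟩
  · intro j hj
    have := (key (fun _ => 0) (fun _ => rfl) (fun _ => rfl) j (by omega)).1
    omega
  · intro X k r j hj
    exact (key _ (FF_flip c hL hR he X k r) (FF_refl c hp hf X k r) j (by omega)).2
  · intro j hj
    have := (key (fun i => ((dgS (List.ofFn d) i % 2 : ℕ) : ℤ)) (fun σ => by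
      simp only [dgS_ix, par_flip he]) (fun σ => by simp only [dgS_ix, dsum_refl]) j (by omega)).2
    exact_mod_cast this

theorem canon_RR (c : ChData K d) (hp : ∀ i, d i.rev = d i)
    (hf : ∀ a < d 0, c.fL a = c.fR a)
    {D1 : ℕ} (hD : preP d (K + 1) = D1 + 1) {l : List (ℕ × ℕ)} (hl : l = revL d) :
    (∀ j < preP d (K + 1), cRR l j < preP d (K + 1)) ∧
    (∀ (X : ℤ) (k r : ℕ), ∀ j < preP d (K + 1), c.FF X k r (cRR l j) = c.FF X k r j) ∧
    (∀ j < preP d (K + 1), dgS (List.ofFn d) (cRR l j) % 2 = dgS (List.ofFn d) j % 2) := by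
  subst hl
  have key : ∀ F : ℕ → ℤ, (∀ σ : CC d, F (ix (reflCC hp σ)) = F (ix σ)) →
      ∀ j ≤ D1, cRR (revL d) j ≤ D1 ∧ F (cRR (revL d) j) = F j := by
    intro F h2
    apply cRR_inv
    intro j hj
    obtain ⟨σ, rfl⟩ := ix_surj (d := d) (show j < preP d (K + 1) by omega)
    rw [rvL_revL hp]
    have := ix_lt (reflCC hp σ)
    exact ⟨by omega, h2 σ⟩
  refine ⟨?_, ?_, ?_⟩
  · intro j hj
    have := (key (fun _ => 0) (fun _ => rfl) j (by omega)).1
    omega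
  · intro X k r j hj
    exact (key _ (FF_refl c hp hf X k r) j (by omega)).2
  · intro j hj
    have := (key (fun i => ((dgS (List.ofFn d) i % 2 : ℕ) : ℤ))
      (fun σ => by simp only [dgS_ix, dsum_refl]) j (by omega)).2
    exact_mod_cast this

theorem canon_XX (c : ChData K d) (hp : ∀ i, d i.rev = d i)
    (hf : ∀ a < d 0, c.fL (d 0 - 1 - a) = c.fR a) (he : Even (∑ i, (d i - 1)))
    {D1 : ℕ} (hD : preP d (K + 1) = D1 + 1) {l : List (ℕ × ℕ)} (hl : l = revL d) :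
    (∀ j < preP d (K + 1), cXX D1 l j < preP d (K + 1)) ∧
    (∀ (X : ℤ) (k r : ℕ), ∀ j < preP d (K + 1), c.FF X k r (cXX D1 l j) = c.FF X k r j) ∧
    (∀ j < preP d (K + 1), dgS (List.ofFn d) (cXX D1 l j) % 2 = dgS (List.ofFn d) j % 2) := by
  subst hl
  have hf1 : ∀ σ : CC d, D1 - ix σ = ix (flipCC σ) := fun σ => by rw [ix_flipCC, hD]; rfl
  have key : ∀ F : ℕ → ℤ, (∀ σ : CC d, F (ix (flipCC (reflCC hp σ))) = F (ix σ)) →
      ∀ j ≤ D1, cXX D1 (revL d) j ≤ D1 ∧ F (cXX D1 (revL d) j) = F j := by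
    intro F h2
    apply cXX_inv
    intro j hj
    obtain ⟨σ, rfl⟩ := ix_surj (d := d) (show j < preP d (K + 1) by omega)
    rw [rvL_revL hp]
    have := ix_lt (reflCC hp σ)
    exact ⟨by omega, by rw [hf1, h2]⟩
  refine ⟨?_, ?_, ?_⟩
  · intro j hj
    have := (key (fun _ => 0) (fun _ => rfl) j (by omega)).1
    omega
  · intro X k r j hj
    exact (key _ (FF_flip_refl c hp hf he X k r) j (by omega)).2
  · intro j hj
    have := (key (fun i => ((dgS (List.ofFn d) i % 2 : ℕ) : ℤ))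
      (fun σ => by simp only [dgS_ix, par_flip he, dsum_refl]) j (by omega)).2
    exact_mod_cast this

end ChData

end Hald
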