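import Crest.Agent.Hald.PackRun

/-!
# Row 347, M7: packed operators of open chains with arbitrary local dimensions

`CC d`: configurations `∀ i, Fin (d i)`, index `finPiFinEquiv` (site 0 least significant).
`hopM j k`: raise digit `j`, lower digit `k`.
`ChData`: coefficients; `ChData.mat`: the integer matrix; `ChData.op`: the packed operator;
`ChData.hcol`, `ChData.good`: correctness.
-/

set_option autoImplicit false

namespace Hald

open Finset

/-- configurations -/
abbrev CC {n : ℕ} (d : Fin n → ℕ) := ∀ i : Fin n, Fin (d i)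

/-- product of the first `k` dimensions (kernel friendly) -/
def preP {n : ℕ} (d : Fin n → ℕ) : ℕ → ℕ
  | 0 => 1
  | k + 1 => preP d k * (if h : k < n then d ⟨k, h⟩ else 1)

theorem preP_eq {n : ℕ} (d : Fin n → ℕ) : ∀ (k : ℕ) (hk : k ≤ n),
    preP d k = ∏ j : Fin k, d (Fin.castLE hk j)
  | 0, _ => by simp [preP]
  | k + 1, hk => by
    rw [preP, preP_eq d k (by omega), Fin.prod_univ_castSucc, dif_pos (by omega : k < n)]
    rfl

theorem cc_index {n : ℕ} {d : Fin n → ℕ} (σ : CC d) :
    ((finPiFinEquiv σ : Fin _) : ℕ) = ∑ i, (σ i : ℕ) * preP d i := by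
  rw [finPiFinEquiv_apply]
  exact sum_congr rfl fun i _ => by rw [preP_eq d i i.is_lt.le]

theorem cc_dim {n : ℕ} (d : Fin n → ℕ) : ∏ i, d i = preP d n := by
  rw [preP_eq d n le_rfl]
  rfl

/-- specification from allowed digit sets -/
def specS {n : ℕ} {d : Fin n → ℕ} (S : ∀ i, Fin (d i) → Bool) : List (List Bool) :=
  List.ofFn fun i => List.ofFn (S i)

theorem specS_succ {n : ℕ} {d : Fin (n + 1) → ℕ} (S : ∀ i, Fin (d i) → Bool) :
    specS S = List.ofFn (S 0) :: specS (d := fun i => d i.succ) (fun i => S i.succ) := by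
  unfold specS
  rw [List.ofFn_succ]

theorem preP_succ {n : ℕ} (d : Fin (n + 1) → ℕ) (k : ℕ) :
    preP d (k + 1) = d 0 * preP (fun i : Fin n => d i.succ) k := by
  induction k with
  | zero => simp [preP]
  | succ k ih =>
    rw [preP, ih, preP, mul_assoc]
    congr 2
    by_cases h : k < n
    · rw [dif_pos h, dif_pos (by omega : k + 1 < n + 1)]
      rfl
    · rw [dif_neg h, dif_neg (by omega)]

theorem dimL_specS {n : ℕ} {d : Fin n → ℕ} (S : ∀ i, Fin (d i) → Bool) :
    dimL (specS S) = preP d n := by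
  induction n with
  | zero => simp [specS, dimL, preP]
  | succ n ih =>
    rw [specS_succ, dimL, ih, preP_succ, List.length_ofFn]

theorem memb_specS {n : ℕ} {d : Fin n → ℕ} (S : ∀ i, Fin (d i) → Bool) (σ : CC d) :
    memb (specS S) (∑ i, (σ i : ℕ) * preP d i) = decide (∀ i, S i (σ i) = true) := by
  induction n with
  | zero => simp [specS, memb]
  | succ n ih =>
    rw [specS_succ, memb, List.length_ofFn]
    have hd : 0 < d 0 := lt_of_le_of_lt (Nat.zero_le _) (σ 0).isLt
    have h1 : ∑ i : Fin (n + 1), (σ i : ℕ) * preP d i =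
        σ 0 + d 0 * ∑ i : Fin n, (σ i.succ : ℕ) * preP (fun i : Fin n => d i.succ) i := by
      rw [Fin.sum_univ_succ, mul_sum]
      congr 1
      · simp [preP]
      · refine sum_congr rfl fun i _ => ?_
        rw [Fin.val_succ, preP_succ]
        ring
    rw [h1, Nat.add_mul_mod_self_left, Nat.mod_eq_of_lt (σ 0).isLt, Nat.add_mul_div_left _ _ hd,
      Nat.div_eq_of_lt (σ 0).isLt, zero_add, ih (fun i => S i.succ) (fun i => σ i.succ)]
    have h2 : (List.ofFn (S 0)).getD (σ 0 : ℕ) false = S 0 (σ 0) := by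
      rw [List.getD_eq_getElem _ _ (by rw [List.length_ofFn]; exact (σ 0).isLt), List.getElem_ofFn]
    rw [h2, Bool.eq_iff_iff]
    simp only [Bool.and_eq_true, decide_eq_true_eq]
    exact (Fin.forall_fin_succ (P := fun i => S i (σ i) = true)).symm

variable {n : ℕ} {d : Fin n → ℕ}

/-- the index as a natural number -/
def ix (σ : CC d) : ℕ := ∑ i, (σ i : ℕ) * preP d i

theorem ix_eq (σ : CC d) : ((finPiFinEquiv σ : Fin _) : ℕ) = ix σ := cc_index σ

theorem ix_lt (σ : CC d) : ix σ < preP d n := by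
  rw [← ix_eq, ← cc_dim]
  exact (finPiFinEquiv σ).isLt

theorem ix_surj {i : ℕ} (hi : i < preP d n) : ∃ σ : CC d, ix σ = i := by
  rw [← cc_dim] at hi
  refine ⟨finPiFinEquiv.symm ⟨i, hi⟩, ?_⟩
  rw [← ix_eq, Equiv.apply_symm_apply]

def incF {m : ℕ} (a : Fin m) : Fin m := if h : a.val + 1 < m then ⟨a.val + 1, h⟩ else a
def decF {m : ℕ} (a : Fin m) : Fin m := ⟨a.val - 1, lt_of_le_of_lt (Nat.sub_le _ _) a.isLt⟩

/-- the move "raise `j`, lower `k`" -/
def mv (j k : Fin n) (σ : CC d) : CC d := fun i =>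
  if i = j then incF (σ i) else if i = k then decF (σ i) else σ i

/-- the move is allowed -/
def can (j k : Fin n) (σ : CC d) : Prop := (σ j).val + 1 < d j ∧ 0 < (σ k).val

instance (j k : Fin n) (σ : CC d) : Decidable (can j k σ) := by unfold can; infer_instance

/-- allowed digits for the move -/
def hopS (d : Fin n → ℕ) (j k : Fin n) : ∀ i, Fin (d i) → Bool := fun i a =>
  if i = j then Nat.blt (a.val + 1) (d i) else if i = k then Nat.blt 0 a.val else true

theorem hopS_iff {j k : Fin n} (hjk : j ≠ k) (σ : CC d) :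
    (∀ i, hopS d j k i (σ i) = true) ↔ can j k σ := by
  unfold hopS can
  constructor
  · intro h
    have h1 := h j
    have h2 := h k
    rw [if_pos rfl] at h1
    rw [if_neg hjk.symm, if_pos rfl] at h2
    exact ⟨by simpa using h1, by simpa using h2⟩
  · rintro ⟨h1, h2⟩ i
    by_cases hj : i = j
    · subst hj; rw [if_pos rfl]; simpa using h1
    · by_cases hk : i = k
      · subst hk; rw [if_neg hj, if_pos rfl]; simpa using h2
      · rw [if_neg hj, if_neg hk]

theorem memb_hopS {j k : Fin n} (hjk : j ≠ k) (σ : CC d) :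
    memb (specS (hopS d j k)) (ix σ) = decide (can j k σ) := by
  unfold ix
  rw [memb_specS, decide_eq_decide]
  exact hopS_iff hjk σ

theorem ix_mv {j k : Fin n} (hjk : j ≠ k) {σ : CC d} (h : can j k σ) :
    ix (mv j k σ) + preP d k = ix σ + preP d j := by
  obtain ⟨h1, h2⟩ := h
  have key : ∀ F : CC d, ix F = (F j : ℕ) * preP d j + ((F k : ℕ) * preP d k +
      ∑ i ∈ (univ.erase j).erase k, (F i : ℕ) * preP d i) := by
    intro F
    unfold ix
    rw [← add_sum_erase _ _ (mem_univ j), ← add_sum_erase _ _ (mem_erase.2 ⟨hjk.symm, mem_univ k⟩)]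
  rw [key, key σ]
  have e1 : ((mv j k σ j : Fin _) : ℕ) = (σ j).val + 1 := by
    simp [mv, incF, h1]
  have e2 : ((mv j k σ k : Fin _) : ℕ) = (σ k).val - 1 := by
    simp [mv, decF, hjk.symm]
  have e3 : ∑ i ∈ (univ.erase j).erase k, ((mv j k σ i : Fin _) : ℕ) * preP d i =
      ∑ i ∈ (univ.erase j).erase k, ((σ i : Fin _) : ℕ) * preP d i := by
    refine sum_congr rfl fun i hi => ?_
    have hk : i ≠ k := ne_of_mem_erase hi
    have hj : i ≠ j := ne_of_mem_erase (mem_of_mem_erase hi)
    simp [mv, hj, hk]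
  rw [e1, e2, e3]
  obtain ⟨c, hc⟩ : ∃ c, (σ k).val = c + 1 := ⟨(σ k).val - 1, by omega⟩
  rw [hc, Nat.add_sub_cancel]
  ring

/-- hop matrix -/
def hopM (j k : Fin n) : Matrix (CC d) (CC d) ℤ :=
  Matrix.of fun τ σ => if can j k σ ∧ τ = mv j k σ then 1 else 0

theorem hopM_col (j k : Fin n) (σ : CC d) (g : CC d → ℤ) :
    ∑ τ, hopM j k τ σ * g τ = if can j k σ then g (mv j k σ) else 0 := by
  unfold hopM
  simp only [Matrix.of_apply]
  by_cases h : can j k σ
  · rw [if_pos h, sum_eq_single (mv j k σ)]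
    · simp [h]
    · intro τ _ hτ; simp [hτ]
    · intro h'; exact absurd (mem_univ _) h'
  · rw [if_neg h]
    exact sum_eq_zero fun τ _ => by simp [h]

end Hald
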