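import Crest.Agent.Hald.ChCol

/-!
# Row 347, M7: several packed runs with common masks

`runsN`: sum of the outputs of several runs; each run is a list of `(start index, weight)`; the reads are
`(w i, weight, Q * (digit sum of i mod 2))`.
-/

set_option autoImplicit false

namespace Hald

open Finset

/-- digit sum in mixed radix -/
def dgS : List ℕ → ℕ → ℕ
  | [], _ => 0
  | b :: l, j => j % b + dgS l (j / b)

/-- reads of a run -/
def readsOf (w Q : ℕ) (bs : List ℕ) (l : List (ℕ × ℕ)) : List (ℕ × ℕ × ℕ) :=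
  l.map fun p => (w * p.1, p.2, Q * (dgS bs p.1 % 2))

/-- evaluated reads (kernel) -/
noncomputable def mkReads {α : Type} (w Q : ℕ) (bs : List ℕ) (l : List (ℕ × ℕ)) :
    (List (ℕ × ℕ × ℕ) → α) → α :=
  List.rec (motive := fun _ => (List (ℕ × ℕ × ℕ) → α) → α) (fun k => k [])
    (fun p _ ih k => force (w * p.1) fun a => force p.2 fun wt => force (Q * (dgS bs p.1 % 2)) fun q =>
      ih fun l' => k ((a, wt, q) :: l')) l

theorem mkReads_eq {α : Type} (w Q : ℕ) (bs : List ℕ) (l : List (ℕ × ℕ)) (k : List (ℕ × ℕ × ℕ) → α) :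
    mkReads w Q bs l k = k (readsOf w Q bs l) := by
  induction l generalizing k with
  | nil => rfl
  | cons p l ih =>
    show force (w * p.1) (fun a => force p.2 fun wt => force (Q * (dgS bs p.1 % 2)) fun q =>
      mkReads w Q bs l fun l' => k ((a, wt, q) :: l')) = _
    rw [force_eq, force_eq, force_eq, ih]
    rfl

/-- packed start vector -/
noncomputable def startsN (w : ℕ) (l : List (ℕ × ℕ)) : ℕ :=
  List.rec (motive := fun _ => ℕ) 0 (fun p _ ih => Nat.add (Nat.pow 2 (Nat.mul w p.1)) ih) l

theorem startsN_eq (w : ℕ) (l : List (ℕ × ℕ)) : startsN w l = startPk w (l.map Prod.fst) := by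
  induction l with
  | nil => rfl
  | cons p l ih =>
    show 2 ^ (w * p.1) + startsN w l = _
    rw [ih]; rfl

/-- the sum of the runs -/
noncomputable def runsN (w wo Q : ℕ) (fs : List (List Bool)) (o : OpData) (bs : List ℕ) (K : ℕ)
    (Rs : List (List (ℕ × ℕ))) : ℕ :=
  force (rep w fs) fun full =>
  force (Nat.mul full (2 ^ (w - 1))) fun H =>
  force (dgPk w o.dg) fun d =>
  forceL (hopsL w o.up ++ planes w full d o.np) fun pL =>
  forceL (hopsR w o.dn) fun pR =>
  forceL (hopsL w o.nup) fun nL =>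
  forceL (hopsR w o.ndn) fun nR =>
  force (Nat.add (Nat.add (sumL H nL) (sumR H nR)) H) fun o1 =>
  force (Nat.add (sumL H pL) (sumR H pR)) fun o2 =>
  force (2 ^ w) fun w2 =>
  List.rec (motive := fun _ => ℕ) 0 (fun L _ ih =>
    Nat.add (mkReads w Q bs L fun reads => force (Nat.add H (startsN w L)) fun v0 =>
      loopN pL pR nL nR o1 o2 w2 wo reads K v0 0) ih) Rs

theorem runsN_eq (w wo Q : ℕ) (fs : List (List Bool)) (o : OpData) (bs : List ℕ) (K : ℕ)
    (Rs : List (List (ℕ × ℕ))) :
    runsN w wo Q fs o bs K Rs =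
      (Rs.map fun L => runN w wo fs o (L.map Prod.fst) (readsOf w Q bs L) K).sum := by
  unfold runsN runN
  simp only [force_eq, forceL_eq, mkReads_eq, startsN_eq]
  induction Rs with
  | nil => rfl
  | cons L Rs ih =>
    rw [List.map_cons, List.sum_cons, ← ih]
    rfl

end Hald
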