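import Crest.Agent.Hald.TimeShift

/-!
# Row 347, module M3 (3c): half time shift
-/

set_option autoImplicit false
set_option linter.unusedSectionVars false

namespace Hald

open Matrix Finset Filter Topology

/-- `rho g` for a diagonal rotation is diagonal. -/
theorem rho_diag {g : Matrix (Fin 3) (Fin 3) ℝ} (hg : IsDiagRot g) (n : ℕ) :
    rho g n = Matrix.diagonal fun ω : Om n => ∏ t, eps g (ω t) := by
  ext w v
  rw [rho_apply, Matrix.diagonal_apply]
  split_ifs with h
  · subst h; rfl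
  · obtain ⟨t, ht⟩ := Function.ne_iff.1 h
    exact Finset.prod_eq_zero (Finset.mem_univ t) (rho4_offdiag hg ht)

/-- signed permutation matrix -/
noncomputable def sperm {N : Type*} [DecidableEq N] (s : N → ℝ) (σ : N → N) : Matrix N N ℝ :=
  Matrix.of fun ω ω' => if ω' = σ ω then s ω else 0

section Sperm

variable {N : Type*} [Fintype N] [DecidableEq N] {s : N → ℝ} {σ : N → N}

theorem sperm_mul (s : N → ℝ) (σ : N → N) (A : Matrix N N ℝ) (ω ω' : N) :
    (sperm s σ * A) ω ω' = s ω * A (σ ω) ω' := by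
  simp [sperm, Matrix.mul_apply]

theorem mul_sperm (hσ : Function.Involutive σ) (s : N → ℝ) (A : Matrix N N ℝ) (ω ω' : N) :
    (A * sperm s σ) ω ω' = A ω (σ ω') * s (σ ω') := by
  have h : ∀ ν, (ω' = σ ν) ↔ ν = σ ω' := fun ν =>
    ⟨fun h => by rw [h, hσ], fun h => by rw [h, hσ]⟩
  simp [sperm, Matrix.mul_apply, h]

theorem sperm_transpose (hσ : Function.Involutive σ) (s : N → ℝ) :
    (sperm s σ)ᵀ = sperm (fun ω => s (σ ω)) σ := by
  ext ω ω'
  simp only [sperm, Matrix.transpose_apply, Matrix.of_apply]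
  by_cases h : ω = σ ω'
  · have h' : ω' = σ ω := by rw [h, hσ]
    rw [if_pos h, if_pos h', ← h']
  · have h' : ¬ ω' = σ ω := fun h' => h (by rw [h', hσ])
    rw [if_neg h, if_neg h']

theorem sperm_sperm (hσ : Function.Involutive σ) (s s' : N → ℝ) :
    sperm s σ * sperm s' σ = Matrix.diagonal fun ω => s ω * s' (σ ω) := by
  ext ω ω'
  rw [sperm_mul, Matrix.diagonal_apply]
  simp only [sperm, Matrix.of_apply, hσ ω]
  by_cases h : ω = ω'
  · subst h; simp
  · rw [if_neg h, if_neg (fun h' => h h'.symm), mul_zero]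

end Sperm

/-- moving a diagonal rotation through a product of letters -/
theorem diag_mul_word {g : Matrix (Fin 3) (Fin 3) ℝ} (hg : IsDiagRot g) (τ : ℝ) {k : ℕ}
    (u v : Fin k → Fin 4) :
    g * (List.ofFn fun t => Xr τ (u t) * Xr τ (v t)).prod =
      ((∏ t, eps g (u t)) * ∏ t, eps g (v t)) •
        ((List.ofFn fun t => Xr τ (u t) * Xr τ (v t)).prod * g) := by
  induction k with
  | zero => simp
  | succ k ih =>
    rw [List.ofFn_succ, List.prod_cons, Fin.prod_univ_succ, Fin.prod_univ_succ]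
    have h1 := ih (fun t => u t.succ) (fun t => v t.succ)
    set W := (List.ofFn fun t : Fin k => Xr τ (u t.succ) * Xr τ (v t.succ)).prod
    have h2 : g * (Xr τ (u 0) * Xr τ (v 0) * W) =
        (eps g (u 0) * eps g (v 0)) • (Xr τ (u 0) * Xr τ (v 0) * (g * W)) := by
      calc g * (Xr τ (u 0) * Xr τ (v 0) * W) = (g * Xr τ (u 0)) * Xr τ (v 0) * W := by
            simp only [Matrix.mul_assoc]
        _ = eps g (u 0) • (Xr τ (u 0) * (g * Xr τ (v 0)) * W) := by
            rw [Xr_mul_diag hg]; simp only [Matrix.smul_mul, Matrix.mul_assoc]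
        _ = _ := by
            rw [Xr_mul_diag hg]
            simp only [Matrix.smul_mul, Matrix.mul_smul, Matrix.mul_assoc, smul_smul]
    rw [h2, h1]
    simp only [Matrix.mul_smul, smul_smul, Matrix.mul_assoc]
    congr 1
    ring

/-- half time flip of a word -/
def flipOm {k : ℕ} (ω : Om (k + k)) : Om (k + k) := fun t => ω (finAddFlip t)

theorem flipOm_invol {k : ℕ} : Function.Involutive (flipOm (k := k)) := by
  intro ω
  funext t
  unfold flipOm
  congr 1
  refine Fin.addCases (fun i => ?_) (fun i => ?_) t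
  · rw [finAddFlip_apply_castAdd, finAddFlip_apply_natAdd]
  · rw [finAddFlip_apply_natAdd, finAddFlip_apply_castAdd]

/-- sign of the second half of a word -/
noncomputable def halfSgn (g : Matrix (Fin 3) (Fin 3) ℝ) {k : ℕ} (ω : Om (k + k)) : ℝ :=
  ∏ t : Fin k, eps g (ω (Fin.natAdd k t))

theorem halfSgn_sq {g : Matrix (Fin 3) (Fin 3) ℝ} (hg : IsDiagRot g) {k : ℕ} (ω : Om (k + k)) :
    halfSgn g ω * halfSgn g ω = 1 := by
  unfold halfSgn
  rw [← Finset.prod_mul_distrib]
  exact Finset.prod_eq_one fun t _ => eps_sq hg _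

theorem halfSgn_flip (g : Matrix (Fin 3) (Fin 3) ℝ) {k : ℕ} (ω : Om (k + k)) :
    halfSgn g ω * halfSgn g (flipOm ω) = ∏ t, eps g (ω t) := by
  unfold halfSgn flipOm
  rw [Fin.prod_univ_add, mul_comm]
  congr 1
  exact Finset.prod_congr rfl fun t _ => by rw [finAddFlip_apply_natAdd]

theorem Kn_flip {g : Matrix (Fin 3) (Fin 3) ℝ} (hg : IsDiagRot g) (β : ℝ) (k : ℕ)
    (ω ω' : Om (k + k)) :
    Kn g β (k + k) (flipOm ω) (flipOm ω') =
      halfSgn g ω * halfSgn g ω' * Kn g β (k + k) ω ω' := by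
  unfold Kn
  simp only [Matrix.of_apply]
  set τ := β / ((k + k : ℕ) : ℝ) with hτ
  have h1 : (List.ofFn fun t : Fin (k + k) => Xr τ (flipOm ω t) * Xr τ (flipOm ω' t)).prod =
      (List.ofFn fun t : Fin k => Xr τ (ω (Fin.natAdd k t)) * Xr τ (ω' (Fin.natAdd k t))).prod *
      (List.ofFn fun t : Fin k => Xr τ (ω (Fin.castAdd k t)) * Xr τ (ω' (Fin.castAdd k t))).prod := by
    rw [List.ofFn_add, List.prod_append]
    simp only [flipOm]
    congr 2
    · congr 1
      funext t
      have e : finAddFlip (Fin.castAdd k t) = Fin.natAdd k t := finAddFlip_apply_castAdd t k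
      have e' : (Fin.castLE (Nat.le_add_right k k) t) = Fin.castAdd k t := rfl
      rw [e', e]
    · congr 1
      funext t
      rw [finAddFlip_apply_natAdd]
  have h2 : (List.ofFn fun t : Fin (k + k) => Xr τ (ω t) * Xr τ (ω' t)).prod =
      (List.ofFn fun t : Fin k => Xr τ (ω (Fin.castAdd k t)) * Xr τ (ω' (Fin.castAdd k t))).prod *
      (List.ofFn fun t : Fin k => Xr τ (ω (Fin.natAdd k t)) * Xr τ (ω' (Fin.natAdd k t))).prod := by
    rw [List.ofFn_add, List.prod_append]
    rfl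
  rw [h1, h2]
  set A := (List.ofFn fun t : Fin k => Xr τ (ω (Fin.castAdd k t)) * Xr τ (ω' (Fin.castAdd k t))).prod
  have h3 := diag_mul_word hg τ (fun t : Fin k => ω (Fin.natAdd k t))
    (fun t : Fin k => ω' (Fin.natAdd k t))
  set B := (List.ofFn fun t : Fin k => Xr τ (ω (Fin.natAdd k t)) * Xr τ (ω' (Fin.natAdd k t))).prod
  rw [← Matrix.mul_assoc g B A, h3, Matrix.smul_mul, Matrix.trace_smul, smul_eq_mul]
  unfold halfSgn
  congr 1
  rw [Matrix.mul_assoc B g A, Matrix.trace_mul_comm, Matrix.mul_assoc]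

/-- **(3c)** half time shift: a square root of `rho g` commuting with everything. -/
theorem half_time_shift {g : Matrix (Fin 3) (Fin 3) ℝ} (hg : IsDiagRot g) (β : ℝ) (k : ℕ) :
    ∃ J : Matrix (Om (k + k)) (Om (k + k)) ℝ,
      J * Jᵀ = 1 ∧ Jᵀ * J = 1 ∧ J * J = rho g (k + k) ∧
      J * Kn g β (k + k) = Kn g β (k + k) * J ∧
      ∀ g' : Matrix (Fin 3) (Fin 3) ℝ, IsDiagRot g' →
        J * rho g' (k + k) = rho g' (k + k) * J := by
  have hσ := flipOm_invol (k := k)
  have hsq := fun ω => halfSgn_sq hg (k := k) ω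
  refine ⟨sperm (halfSgn g) flipOm, ?_, ?_, ?_, ?_, ?_⟩
  · rw [sperm_transpose hσ, sperm_sperm hσ]
    ext ω ω'
    rw [Matrix.diagonal_apply, hσ ω, hsq, Matrix.one_apply]
  · rw [sperm_transpose hσ, sperm_sperm hσ]
    ext ω ω'
    rw [Matrix.diagonal_apply, hsq, Matrix.one_apply]
  · rw [sperm_sperm hσ, rho_diag hg]
    congr 1
    funext ω
    exact halfSgn_flip g ω
  · ext ω ω'
    rw [sperm_mul, mul_sperm hσ]
    have h := Kn_flip hg β k ω (flipOm ω')
    rw [hσ ω'] at h
    rw [h]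
    calc halfSgn g ω * (halfSgn g ω * halfSgn g (flipOm ω') * Kn g β (k + k) ω (flipOm ω')) =
        (halfSgn g ω * halfSgn g ω) * (Kn g β (k + k) ω (flipOm ω') * halfSgn g (flipOm ω')) := by
          ring
      _ = _ := by rw [hsq, one_mul]
  · intro g' hg'
    have hχ : ∀ ω : Om (k + k), ∏ t, eps g' (flipOm ω t) = ∏ t, eps g' (ω t) := fun ω =>
      Equiv.prod_comp finAddFlip (fun t => eps g' (ω t))
    ext ω ω'
    rw [rho_diag hg', sperm_mul, mul_sperm hσ, Matrix.diagonal_apply, Matrix.diagonal_apply]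
    by_cases h : flipOm ω = ω'
    · have h' : ω = flipOm ω' := by rw [← h, hσ]
      rw [if_pos h, if_pos h', hχ, ← h', mul_comm]
    · have h' : ¬ ω = flipOm ω' := fun h' => h (by rw [h', hσ])
      rw [if_neg h, if_neg h', mul_zero, zero_mul]

end Hald
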