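import Crest.Agent.Hald.SymmConcrete
import Crest.Agent.Hald.HalfTime

/-!
# Row 347, M8: every bond is `≥ -1`

`bond_posSemidef : (nbond h j k + 1).PosSemidef` for a rotation `h`;
`negH_posSemidef : (negH h m + (2m)•1).PosSemidef`.
-/

set_option autoImplicit false
set_option linter.unusedSectionVars false

namespace Hald

open Matrix Finset

section

variable {ι : Type*} [Fintype ι] [DecidableEq ι]

theorem pair_entry {j k : ι} (h : j ≠ k) (A B : Matrix (Fin 3) (Fin 3) ℝ) (σ τ : ι → Fin 3) :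
    (site (κ := fun _ => Fin 3) j A * site (κ := fun _ => Fin 3) k B) σ τ =
      if (∀ i, i ≠ j → i ≠ k → σ i = τ i) then A (σ j) (τ j) * B (σ k) (τ k) else 0 := by
  rw [site_mul_site h]
  simp only [tens_apply]
  rw [← Finset.mul_prod_erase _ _ (Finset.mem_univ j),
    ← Finset.mul_prod_erase _ _ (Finset.mem_erase.2 ⟨h.symm, Finset.mem_univ k⟩),
    pairFam_left, pairFam_right h, ← mul_assoc]
  have h1 : ∀ i ∈ (Finset.univ.erase j).erase k,
      (pairFam (κ := fun _ => Fin 3) j k A B) i (σ i) (τ i) =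
        (1 : Matrix (Fin 3) (Fin 3) ℝ) (σ i) (τ i) := by
    intro i hi
    rw [pairFam_other (Finset.ne_of_mem_erase (Finset.mem_of_mem_erase hi))
      (Finset.ne_of_mem_erase hi)]
  rw [Finset.prod_congr rfl h1]
  by_cases hr : ∀ i, i ≠ j → i ≠ k → σ i = τ i
  · rw [if_pos hr]
    have : ∏ i ∈ (Finset.univ.erase j).erase k, (1 : Matrix (Fin 3) (Fin 3) ℝ) (σ i) (τ i) = 1 :=
      Finset.prod_eq_one fun i hi => by
        rw [hr i (Finset.ne_of_mem_erase (Finset.mem_of_mem_erase hi))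
          (Finset.ne_of_mem_erase hi), Matrix.one_apply_eq]
    rw [this, mul_one]
  · rw [if_neg hr]
    push Not at hr
    obtain ⟨i, hj, hk, hne⟩ := hr
    have : ∏ i ∈ (Finset.univ.erase j).erase k, (1 : Matrix (Fin 3) (Fin 3) ℝ) (σ i) (τ i) = 0 :=
      Finset.prod_eq_zero (Finset.mem_erase.2 ⟨hk, Finset.mem_erase.2 ⟨hj, Finset.mem_univ i⟩⟩)
        (Matrix.one_apply_ne hne)
    rw [this, mul_zero]

theorem Lr_pair (b c d e : Fin 3) :
    ∑ a, Lr a b c * Lr a d e =
      (if b = d ∧ c = e then 1 else 0) - (if c = d ∧ e = b then (1 : ℝ) else 0) := by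
  fin_cases b <;> fin_cases c <;> fin_cases d <;> fin_cases e <;>
    simp [Lr, Fin.sum_univ_three]

/-- the exchange of two sites -/
def swp (j k : ι) (σ : ι → Fin 3) : ι → Fin 3 := fun i => σ (Equiv.swap j k i)

theorem swp_invol (j k : ι) : Function.Involutive (swp j k) := by
  intro σ
  funext i
  simp [swp]

theorem swp_eq_iff {j k : ι} (h : j ≠ k) (σ τ : ι → Fin 3) :
    τ = swp j k σ ↔ (∀ i, i ≠ j → i ≠ k → σ i = τ i) ∧ (τ j = σ k ∧ τ k = σ j) := by
  constructor
  · rintro rfl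
    refine ⟨fun i hj hk => ?_, ?_, ?_⟩
    · simp [swp, Equiv.swap_apply_of_ne_of_ne hj hk]
    · simp [swp]
    · simp [swp]
  · rintro ⟨h1, h2, h3⟩
    funext i
    by_cases hj : i = j
    · subst hj; simp [swp, h2]
    · by_cases hk : i = k
      · subst hk; simp [swp, h3]
      · simp [swp, Equiv.swap_apply_of_ne_of_ne hj hk, h1 i hj hk]

/-- partial contraction of two sites -/
noncomputable def contr (j k : ι) : Matrix ({i // i ≠ j ∧ i ≠ k} → Fin 3) (ι → Fin 3) ℝ :=
  Matrix.of fun ρ σ => if (∀ i : {i // i ≠ j ∧ i ≠ k}, ρ i = σ i) ∧ σ j = σ k then 1 else 0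

theorem contr_sq {j k : ι} (σ τ : ι → Fin 3) :
    ((contr j k)ᵀ * contr j k) σ τ =
      if (∀ i, i ≠ j → i ≠ k → σ i = τ i) then (if σ j = σ k ∧ τ j = τ k then 1 else 0) else 0 := by
  rw [Matrix.mul_apply]
  have h1 : ∀ ρ : {i // i ≠ j ∧ i ≠ k} → Fin 3, ρ ≠ (fun i : {i // i ≠ j ∧ i ≠ k} => σ i) →
      (contr j k)ᵀ σ ρ * contr j k ρ τ = 0 := by
    intro ρ hρ
    have : ¬ ((∀ i : {i // i ≠ j ∧ i ≠ k}, ρ i = σ i) ∧ σ j = σ k) := by
      rintro ⟨h, -⟩
      exact hρ (funext h)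
    simp only [contr, Matrix.transpose_apply, Matrix.of_apply]
    rw [if_neg this, zero_mul]
  rw [Finset.sum_eq_single (fun i : {i // i ≠ j ∧ i ≠ k} => σ i) (fun ρ _ h => h1 ρ h)
    (fun h => absurd (Finset.mem_univ _) h)]
  simp only [contr, Matrix.transpose_apply, Matrix.of_apply]
  by_cases hr : ∀ i, i ≠ j → i ≠ k → σ i = τ i
  · have hr' : ∀ i : {i // i ≠ j ∧ i ≠ k}, σ i = τ i := fun i => hr i i.2.1 i.2.2
    rw [if_pos hr]
    by_cases h2 : σ j = σ k <;> by_cases h3 : τ j = τ k <;> simp [h2, h3, hr']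
  · have hr' : ¬ ((∀ i : {i // i ≠ j ∧ i ≠ k}, σ i = τ i) ∧ τ j = τ k) := fun h =>
      hr fun i hj hk => h.1 ⟨i, hj, hk⟩
    rw [if_neg hr, if_neg hr', mul_zero]

theorem nbond_one_eq {j k : ι} (h : j ≠ k) :
    nbond 1 j k = (contr j k)ᵀ * contr j k - sperm (fun _ => 1) (swp j k) := by
  ext σ τ
  have h1 : nbond 1 j k σ τ =
      if (∀ i, i ≠ j → i ≠ k → σ i = τ i) then ∑ a, Lr a (σ j) (τ j) * Lr a (σ k) (τ k) else 0 := by
    unfold nbond
    rw [Matrix.sum_apply]
    simp only [Matrix.one_mul, Matrix.transpose_one, Matrix.mul_one]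
    simp only [pair_entry h]
    split_ifs <;> simp
  rw [h1, Matrix.sub_apply, contr_sq]
  simp only [sperm, Matrix.of_apply]
  by_cases hr : ∀ i, i ≠ j → i ≠ k → σ i = τ i
  · rw [if_pos hr, if_pos hr, Lr_pair]
    congr 1
    apply if_congr _ rfl rfl
    rw [swp_eq_iff h]
    exact ⟨fun h' => ⟨hr, h'⟩, fun h' => h'.2⟩
  · rw [if_neg hr, if_neg hr, if_neg, sub_zero]
    intro h'
    exact hr ((swp_eq_iff h σ τ).1 h').1

theorem swap_posSemidef (j k : ι) :
    ((1 : Matrix (ι → Fin 3) (ι → Fin 3) ℝ) - sperm (fun _ => 1) (swp j k)).PosSemidef := by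
  set S : Matrix (ι → Fin 3) (ι → Fin 3) ℝ := sperm (fun _ => 1) (swp j k) with hS
  have h1 : Sᵀ = S := sperm_transpose (swp_invol j k) _
  have h2 : S * S = 1 := by
    rw [hS, sperm_sperm (swp_invol j k)]
    simp
  have h3 : (1 : Matrix (ι → Fin 3) (ι → Fin 3) ℝ) - S = (1 / 2 : ℝ) • ((1 - S)ᴴ * (1 - S)) := by
    have h4 : (1 - S)ᴴ = 1 - S := by
      rw [Matrix.conjTranspose_eq_transpose_of_trivial, Matrix.transpose_sub, h1,
        Matrix.transpose_one]
    rw [h4, Matrix.sub_mul, Matrix.mul_sub, Matrix.mul_sub, h2]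
    ext a b
    simp only [Matrix.sub_apply, Matrix.smul_apply, Matrix.mul_one, Matrix.one_mul, smul_eq_mul]
    ring
  rw [h3]
  exact (Matrix.posSemidef_conjTranspose_mul_self _).smul (by norm_num)

/-- every bond is `≥ -1` -/
theorem bond_posSemidef_one {j k : ι} (h : j ≠ k) : (nbond 1 j k + 1).PosSemidef := by
  rw [nbond_one_eq h]
  have e : (contr j k)ᵀ * contr j k - sperm (fun _ => 1) (swp j k) + 1 =
      (contr j k)ᴴ * contr j k + ((1 : Matrix (ι → Fin 3) (ι → Fin 3) ℝ) - sperm (fun _ => 1) (swp j k)) := by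
    rw [Matrix.conjTranspose_eq_transpose_of_trivial]
    abel
  rw [e]
  exact (Matrix.posSemidef_conjTranspose_mul_self _).add (swap_posSemidef j k)

theorem bond_posSemidef {h : Matrix (Fin 3) (Fin 3) ℝ} (hh : IsRot h) {j k : ι} (hjk : j ≠ k) :
    (nbond h j k + 1).PosSemidef := by
  have hU : ∀ i, IsRot (Function.update (fun _ : ι => (1 : Matrix (Fin 3) (Fin 3) ℝ)) k h i) := by
    intro i
    by_cases hi : i = k
    · subst hi; simpa using hh
    · rw [Function.update_of_ne hi]; exact isRot_one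
  have h1 := nbond_conj (Function.update (fun _ : ι => (1 : Matrix (Fin 3) (Fin 3) ℝ)) k h) hU 1 j k
  rw [Function.update_self, Function.update_of_ne hjk, Matrix.transpose_one, Matrix.mul_one,
    Matrix.mul_one] at h1
  set V := tens (κ := fun _ : ι => Fin 3)
    (Function.update (fun _ : ι => (1 : Matrix (Fin 3) (Fin 3) ℝ)) k h) with hV
  have hVT : tens (κ := fun _ : ι => Fin 3)
      (fun i => (Function.update (fun _ : ι => (1 : Matrix (Fin 3) (Fin 3) ℝ)) k h i)ᵀ) = Vᴴ := by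
    rw [Matrix.conjTranspose_eq_transpose_of_trivial, hV, tens_transpose]
  have hVV : V * Vᴴ = 1 := by
    rw [← hVT]
    exact tens_mul_eq_one fun i => (hU i).orth
  have h2 : nbond h j k + 1 = V * (nbond 1 j k + 1) * Vᴴ := by
    rw [Matrix.mul_add, Matrix.add_mul, Matrix.mul_one, hVV, ← hVT, h1]
  rw [h2]
  exact (bond_posSemidef_one hjk).mul_mul_conjTranspose_same V

/-- `negH h m ≥ -2m` -/
theorem negH_posSemidef {h : Matrix (Fin 3) (Fin 3) ℝ} (hh : IsRot h) (m : ℕ) :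
    (negH h m + (2 * m : ℝ) • (1 : Matrix (RSite m → Fin 3) (RSite m → Fin 3) ℝ)).PosSemidef := by
  have e : negH h m + (2 * m : ℝ) • (1 : Matrix (RSite m → Fin 3) (RSite m → Fin 3) ℝ) =
      (∑ i : Fin m, (nbond 1 ((i, 0) : RSite m) (i, 1) + 1)) +
        ∑ i : Fin m, (nbond (if i.val + 1 = m then h else 1) ((i, 1) : RSite m) (nxt i, 0) + 1) := by
    unfold negH
    rw [Finset.sum_add_distrib, Finset.sum_add_distrib, Finset.sum_const, Finset.card_univ,
      Fintype.card_fin, ← Nat.cast_smul_eq_nsmul ℝ, two_mul, add_smul]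
    abel
  rw [e]
  refine Matrix.PosSemidef.add (Matrix.posSemidef_sum _ fun i _ => ?_)
    (Matrix.posSemidef_sum _ fun i _ => ?_)
  · exact bond_posSemidef_one (by simp)
  · apply bond_posSemidef
    · split_ifs
      · exact hh
      · exact isRot_one
    · simp

end

end Hald
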