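import Crest.Agent.Hald.ChainEnergy
import Crest.Agent.Hald.M8Bond

/-!
# Row 347, M8: lower bounds for `-Hch` (every bond, every field term)
-/

set_option autoImplicit false
set_option linter.unusedSectionVars false

namespace Hald

open Matrix Finset Crest.MathPhysics.SpinChain
open scoped ComplexOrder

/-! ### one-site algebra -/

/-- matrix units adapted to spin 1 -/
structure Units3 (D : ℕ) (e : Fin 3 → Fin 3 → Matrix (Fin D) (Fin D) ℂ) : Prop where
  mul : ∀ p q r s, e p q * e r s = if q = r then e p s else 0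
  star : ∀ p q, (e p q)ᴴ = e q p
  sum : ∑ p, e p p = 1
  spin : ∀ a, Sp D a = Complex.I • ∑ p, ∑ q, ((Lr a p q : ℝ) : ℂ) • e p q

theorem exists_units3 {D : ℕ} (hD : D = 3) : ∃ e, Units3 D e := by
  subst hD
  refine ⟨fun p q => cartU * Matrix.single p q 1 * cartUᴴ, ?_, ?_, ?_, ?_⟩
  · intro p q r s
    rw [show cartU * Matrix.single p q (1 : ℂ) * cartUᴴ * (cartU * Matrix.single r s 1 * cartUᴴ) =
      cartU * (Matrix.single p q (1 : ℂ) * (cartUᴴ * cartU) * Matrix.single r s 1) * cartUᴴ by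
        simp only [Matrix.mul_assoc]]
    rw [conj_mul_cartU, Matrix.mul_one]
    by_cases h : q = r
    · subst h
      rw [if_pos rfl, Matrix.single_mul_single_same, mul_one]
    · rw [if_neg h, Matrix.single_mul_single_of_ne _ _ _ _ h, Matrix.mul_zero, Matrix.zero_mul]
  · intro p q
    rw [Matrix.conjTranspose_mul, Matrix.conjTranspose_mul, Matrix.conjTranspose_conjTranspose,
      Matrix.conjTranspose_single, star_one, Matrix.mul_assoc]
  · rw [← Finset.sum_mul, ← Finset.mul_sum]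
    have : ∑ p : Fin 3, Matrix.single p p (1 : ℂ) = 1 := by
      ext i j
      rw [Matrix.sum_apply]
      simp only [Matrix.single_apply]
      by_cases h : i = j
      · subst h; simp
      · rw [Matrix.one_apply_ne h]
        refine Finset.sum_eq_zero fun p _ => if_neg ?_
        rintro ⟨rfl, rfl⟩
        exact h rfl
    rw [this, Matrix.mul_one, cartU_mul_conj]
  · intro a
    rw [Sp3_eq]
    congr 1
    have : cplx (Lr a) = ∑ p, ∑ q, ((Lr a p q : ℝ) : ℂ) • Matrix.single p q (1 : ℂ) := by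
      ext i j
      simp only [Matrix.sum_apply, Matrix.smul_apply, smul_eq_mul, Matrix.single_apply]
      rw [Finset.sum_eq_single i (fun p _ hp => Finset.sum_eq_zero fun q _ => by
        rw [if_neg (fun h => hp h.1), mul_zero]) (fun h => absurd (Finset.mem_univ _) h),
        Finset.sum_eq_single j (fun q _ hq => by rw [if_neg (fun h => hq h.2), mul_zero])
          (fun h => absurd (Finset.mem_univ _) h)]
      simp [cplx]
    rw [this, Finset.mul_sum, Finset.sum_mul]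
    refine Finset.sum_congr rfl fun p _ => ?_
    rw [Finset.mul_sum, Finset.sum_mul]
    refine Finset.sum_congr rfl fun q _ => ?_
    rw [Matrix.mul_smul, Matrix.smul_mul]

/-- relations of spin ½ -/
structure Rel2 (D : ℕ) : Prop where
  sq : ∀ a, Sp D a * Sp D a = (1 / 4 : ℂ) • 1
  m01 : Sp D 0 * Sp D 1 = (Complex.I / 2) • Sp D 2
  m10 : Sp D 1 * Sp D 0 = (-(Complex.I / 2)) • Sp D 2
  m12 : Sp D 1 * Sp D 2 = (Complex.I / 2) • Sp D 0
  m21 : Sp D 2 * Sp D 1 = (-(Complex.I / 2)) • Sp D 0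
  m20 : Sp D 2 * Sp D 0 = (Complex.I / 2) • Sp D 1
  m02 : Sp D 0 * Sp D 2 = (-(Complex.I / 2)) • Sp D 1

macro "rel2" : tactic => `(tactic| (ext i j <;> fin_cases i <;> fin_cases j <;>
    simp [Sp, sHalf, Matrix.mul_apply, Fin.sum_univ_two] <;>
    ring_nf <;> (try simp [Complex.I_sq]) <;> (try ring_nf)))

theorem rel2 {D : ℕ} (hD : D = 2) : Rel2 D := by
  subst hD
  refine ⟨?_, by rel2, by rel2, by rel2, by rel2, by rel2, by rel2⟩
  intro a
  fin_cases a <;> rel2

/-- relations of spin 1 -/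
structure Rel3 (D : ℕ) : Prop where
  cas : Sp D 0 * Sp D 0 + Sp D 1 * Sp D 1 + Sp D 2 * Sp D 2 = (2 : ℂ) • 1
  c01 : Sp D 0 * Sp D 1 - Sp D 1 * Sp D 0 = Complex.I • Sp D 2
  c12 : Sp D 1 * Sp D 2 - Sp D 2 * Sp D 1 = Complex.I • Sp D 0
  c20 : Sp D 2 * Sp D 0 - Sp D 0 * Sp D 2 = Complex.I • Sp D 1

theorem Sp3_mul (a b : Fin 3) : Sp 3 a * Sp 3 b = -(cartU * cplx (Lr a * Lr b) * cartUᴴ) := by
  rw [Sp3_eq, Sp3_eq, Matrix.smul_mul, Matrix.mul_smul, smul_smul, Complex.I_mul_I, neg_one_smul,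
    cplx_mul]
  rw [show cartU * cplx (Lr a) * cartUᴴ * (cartU * cplx (Lr b) * cartUᴴ) =
    cartU * cplx (Lr a) * (cartUᴴ * cartU) * cplx (Lr b) * cartUᴴ by simp only [Matrix.mul_assoc]]
  rw [conj_mul_cartU, Matrix.mul_one]
  simp only [Matrix.mul_assoc]

theorem Sp3_comm {a b c : Fin 3} (h : Lr a * Lr b - Lr b * Lr a = Lr c) :
    Sp 3 a * Sp 3 b - Sp 3 b * Sp 3 a = Complex.I • Sp 3 c := by
  have hsub : cplx (Lr a * Lr b) - cplx (Lr b * Lr a) = cplx (Lr c) := by
    rw [← h]; ext i j; simp [cplx]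
  rw [Sp3_mul, Sp3_mul, Sp3_eq, smul_smul, Complex.I_mul_I, neg_one_smul, ← hsub, Matrix.mul_sub,
    Matrix.sub_mul]
  abel

macro "lr3" : tactic => `(tactic| (ext i j <;> fin_cases i <;> fin_cases j <;>
    simp [Lr, Matrix.mul_apply, Fin.sum_univ_three]))

theorem rel3 {D : ℕ} (hD : D = 3) : Rel3 D := by
  subst hD
  refine ⟨?_, Sp3_comm (by lr3), Sp3_comm (by lr3), Sp3_comm (by lr3)⟩
  rw [Sp3_mul, Sp3_mul, Sp3_mul]
  have h : cplx (Lr 0 * Lr 0) + cplx (Lr 1 * Lr 1) + cplx (Lr 2 * Lr 2) =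
      (-2 : ℂ) • (1 : Matrix (Fin 3) (Fin 3) ℂ) := by
    ext i j
    fin_cases i <;> fin_cases j <;>
      simp [Lr, cplx, Matrix.mul_apply, Fin.sum_univ_three] <;> norm_num
  have h2 : -(cartU * cplx (Lr 0 * Lr 0) * cartUᴴ) + -(cartU * cplx (Lr 1 * Lr 1) * cartUᴴ) +
      -(cartU * cplx (Lr 2 * Lr 2) * cartUᴴ) =
      -(cartU * (cplx (Lr 0 * Lr 0) + cplx (Lr 1 * Lr 1) + cplx (Lr 2 * Lr 2)) * cartUᴴ) := by
    rw [Matrix.mul_add, Matrix.mul_add, Matrix.add_mul, Matrix.add_mul]; abel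
  rw [h2, h, Matrix.mul_smul, Matrix.smul_mul, Matrix.mul_one, cartU_mul_conj]
  simp

/-! ### two-site algebra -/

section

variable {ι : Type*} [Fintype ι] [DecidableEq ι] {d : ι → ℕ} {j k : ι}

local notation "st" => site (κ := fun i => Fin (d i)) (R := ℂ)

/-- the bond -/
noncomputable def bnd (d : ι → ℕ) (j k : ι) : Matrix (∀ i, Fin (d i)) (∀ i, Fin (d i)) ℂ :=
  ∑ a : Fin 3, site (κ := fun i => Fin (d i)) j (Sp (d j) a) *
    site (κ := fun i => Fin (d i)) k (Sp (d k) a)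

theorem bnd_herm (hjk : j ≠ k) : (bnd d j k)ᴴ = bnd d j k := by
  unfold bnd
  rw [Matrix.conjTranspose_sum]
  refine Finset.sum_congr rfl fun a _ => ?_
  rw [Matrix.conjTranspose_mul, site_conjTranspose, site_conjTranspose, Sp_conjTranspose,
    Sp_conjTranspose]
  exact site_comm hjk.symm _ _

theorem bnd_symm (hjk : j ≠ k) : bnd d j k = bnd d k j := by
  unfold bnd
  exact Finset.sum_congr rfl fun a _ => site_comm hjk _ _

theorem pr_mul (hjk : j ≠ k) (A A' : Matrix (Fin (d j)) (Fin (d j)) ℂ)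
    (B B' : Matrix (Fin (d k)) (Fin (d k)) ℂ) :
    st j A * st k B * (st j A' * st k B') = st j (A * A') * st k (B * B') := by
  calc st j A * st k B * (st j A' * st k B') = st j A * (st k B * st j A') * st k B' := by
        simp only [Matrix.mul_assoc]
    _ = st j A * (st j A' * st k B) * st k B' := by rw [site_comm hjk.symm]
    _ = (st j A * st j A') * (st k B * st k B') := by simp only [Matrix.mul_assoc]
    _ = _ := by rw [site_mul_same, site_mul_same]

theorem collapse3 {N : Type*} [AddCommGroup N] [Module ℂ N] (X : Fin 3 → Fin 3 → N)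
    (p q : Fin 3) :
    ∑ r, ∑ s, ((((if p = r ∧ q = s then 1 else 0) - (if q = r ∧ s = p then (1 : ℝ) else 0)) : ℝ) :
      ℂ) • X r s = X p q - X q p := by
  fin_cases p <;> fin_cases q <;> simp [Fin.sum_univ_three] <;> abel

/-- spin 1 – spin 1 -/
theorem bond_lower_33 (hjk : j ≠ k) (hj : d j = 3) (hk : d k = 3) :
    (((1 : ℝ) : ℂ) • (1 : Matrix (∀ i, Fin (d i)) (∀ i, Fin (d i)) ℂ) - bnd d j k).PosSemidef := by
  obtain ⟨e, he⟩ := exists_units3 hj
  obtain ⟨f, hf⟩ := exists_units3 hk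
  set P : Matrix (∀ i, Fin (d i)) (∀ i, Fin (d i)) ℂ := ∑ p, ∑ q, st j (e p q) * st k (f q p) with hP
  set Kc : Matrix (∀ i, Fin (d i)) (∀ i, Fin (d i)) ℂ := ∑ p, ∑ q, st j (e p q) * st k (f p q) with hK
  have hPs : Pᴴ = P := by
    rw [hP, Matrix.conjTranspose_sum]
    simp only [Matrix.conjTranspose_sum, Matrix.conjTranspose_mul, site_conjTranspose, he.star,
      hf.star]
    rw [Finset.sum_comm]
    refine Finset.sum_congr rfl fun q _ => Finset.sum_congr rfl fun p _ => ?_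
    exact site_comm hjk.symm _ _
  have hKs : Kcᴴ = Kc := by
    rw [hK, Matrix.conjTranspose_sum]
    simp only [Matrix.conjTranspose_sum, Matrix.conjTranspose_mul, site_conjTranspose, he.star,
      hf.star]
    rw [Finset.sum_comm]
    refine Finset.sum_congr rfl fun q _ => Finset.sum_congr rfl fun p _ => ?_
    exact site_comm hjk.symm _ _
  have hPP : P * P = 1 := by
    have h1 : P * P = ∑ p, ∑ q, ∑ r, ∑ s, st j (e p q * e r s) * st k (f q p * f s r) := by
      have hA : ∀ X : Matrix (∀ i, Fin (d i)) (∀ i, Fin (d i)) ℂ,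
          X * P = ∑ r, ∑ s, X * (st j (e r s) * st k (f s r)) := by
        intro X; rw [hP]; simp only [Finset.mul_sum]
      have hB : ∀ Y : Matrix (∀ i, Fin (d i)) (∀ i, Fin (d i)) ℂ,
          P * Y = ∑ p, ∑ q, (st j (e p q) * st k (f q p)) * Y := by
        intro Y; rw [hP]; simp only [Finset.sum_mul]
      rw [hB]
      refine Finset.sum_congr rfl fun p _ => Finset.sum_congr rfl fun q _ => ?_
      rw [hA]
      refine Finset.sum_congr rfl fun r _ => Finset.sum_congr rfl fun s _ => ?_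
      exact pr_mul hjk _ _ _ _
    have h2 : ∑ p, ∑ q, ∑ r, ∑ s, st j (e p q * e r s) * st k (f q p * f s r) =
        ∑ p, ∑ q, st j (e p p) * st k (f q q) := by
      refine Finset.sum_congr rfl fun p _ => Finset.sum_congr rfl fun q _ => ?_
      rw [Finset.sum_eq_single q (fun r _ hr => Finset.sum_eq_zero fun s _ => by
        rw [he.mul, if_neg (Ne.symm hr), site_zero, Matrix.zero_mul])
        (fun h => absurd (Finset.mem_univ _) h)]
      rw [Finset.sum_eq_single p (fun s _ hs => by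
        rw [hf.mul, if_neg (Ne.symm hs), site_zero, Matrix.mul_zero])
        (fun h => absurd (Finset.mem_univ _) h)]
      rw [he.mul, if_pos rfl, hf.mul, if_pos rfl]
    rw [h1, h2, ← Finset.sum_mul_sum, ← site_sum, ← site_sum, he.sum, hf.sum, site_one, site_one,
      Matrix.one_mul]
  have hKK : Kc * Kc = (3 : ℂ) • Kc := by
    have h1 : Kc * Kc = ∑ p, ∑ q, ∑ r, ∑ s, st j (e p q * e r s) * st k (f p q * f r s) := by
      have hA : ∀ X : Matrix (∀ i, Fin (d i)) (∀ i, Fin (d i)) ℂ,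
          X * Kc = ∑ r, ∑ s, X * (st j (e r s) * st k (f r s)) := by
        intro X; rw [hK]; simp only [Finset.mul_sum]
      have hB : ∀ Y : Matrix (∀ i, Fin (d i)) (∀ i, Fin (d i)) ℂ,
          Kc * Y = ∑ p, ∑ q, (st j (e p q) * st k (f p q)) * Y := by
        intro Y; rw [hK]; simp only [Finset.sum_mul]
      rw [hB]
      refine Finset.sum_congr rfl fun p _ => Finset.sum_congr rfl fun q _ => ?_
      rw [hA]
      refine Finset.sum_congr rfl fun r _ => Finset.sum_congr rfl fun s _ => ?_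
      exact pr_mul hjk _ _ _ _
    have h2 : ∑ p, ∑ q, ∑ r, ∑ s, st j (e p q * e r s) * st k (f p q * f r s) =
        ∑ p, ∑ q : Fin 3, ∑ s, st j (e p s) * st k (f p s) := by
      refine Finset.sum_congr rfl fun p _ => Finset.sum_congr rfl fun q _ => ?_
      rw [Finset.sum_eq_single q (fun r _ hr => Finset.sum_eq_zero fun s _ => by
        rw [he.mul, if_neg (Ne.symm hr), site_zero, Matrix.zero_mul])
        (fun h => absurd (Finset.mem_univ _) h)]
      refine Finset.sum_congr rfl fun s _ => ?_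
      rw [he.mul, if_pos rfl, hf.mul, if_pos rfl]
    rw [h1, h2, hK, Finset.smul_sum]
    refine Finset.sum_congr rfl fun p _ => ?_
    rw [Finset.sum_const, Finset.card_univ, Fintype.card_fin, ← Nat.cast_smul_eq_nsmul ℂ]
    norm_num
  have hX : bnd d j k = P - Kc := by
    unfold bnd
    have h1 : ∀ a, st j (Sp (d j) a) * st k (Sp (d k) a) =
        -∑ p, ∑ q, ∑ r, ∑ s, (((Lr a p q * Lr a r s : ℝ)) : ℂ) • (st j (e p q) * st k (f r s)) := by
      intro a
      have e1 : st j (Sp (d j) a) =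
          Complex.I • ∑ p, ∑ q, ((Lr a p q : ℝ) : ℂ) • st j (e p q) := by
        rw [he.spin]; simp only [site_smul, site_sum]
      have e2 : st k (Sp (d k) a) =
          Complex.I • ∑ p, ∑ q, ((Lr a p q : ℝ) : ℂ) • st k (f p q) := by
        rw [hf.spin]; simp only [site_smul, site_sum]
      rw [e1, e2, Matrix.smul_mul, Matrix.mul_smul, smul_smul, Complex.I_mul_I, neg_one_smul]
      congr 1
      simp only [Finset.sum_mul, Matrix.smul_mul]
      refine Finset.sum_congr rfl fun p _ => Finset.sum_congr rfl fun q _ => ?_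
      simp only [Finset.mul_sum, Matrix.mul_smul, Finset.smul_sum, smul_smul]
      refine Finset.sum_congr rfl fun r _ => Finset.sum_congr rfl fun s _ => ?_
      rw [Complex.ofReal_mul]
    rw [Finset.sum_congr rfl fun a _ => h1 a, Finset.sum_neg_distrib]
    have h2 : ∑ a, ∑ p, ∑ q, ∑ r, ∑ s, (((Lr a p q * Lr a r s : ℝ)) : ℂ) •
        (st j (e p q) * st k (f r s)) = ∑ p, ∑ q, ∑ r, ∑ s,
          (((∑ a, Lr a p q * Lr a r s : ℝ)) : ℂ) • (st j (e p q) * st k (f r s)) := by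
      rw [Finset.sum_comm]
      refine Finset.sum_congr rfl fun p _ => ?_
      rw [Finset.sum_comm]
      refine Finset.sum_congr rfl fun q _ => ?_
      rw [Finset.sum_comm]
      refine Finset.sum_congr rfl fun r _ => ?_
      rw [Finset.sum_comm]
      refine Finset.sum_congr rfl fun s _ => ?_
      rw [← Finset.sum_smul, Complex.ofReal_sum]
    rw [h2]
    simp only [Lr_pair]
    have h3 : ∀ p q : Fin 3, ∑ r, ∑ s, ((((if p = r ∧ q = s then 1 else 0) -
        (if q = r ∧ s = p then (1 : ℝ) else 0)) : ℝ) : ℂ) • (st j (e p q) * st k (f r s)) =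
        st j (e p q) * st k (f p q) - st j (e p q) * st k (f q p) := fun p q =>
      collapse3 (fun r s => st j (e p q) * st k (f r s)) p q
    simp only [h3, Finset.sum_sub_distrib]
    rw [hP, hK, neg_sub]
  have hY : ((1 : ℝ) : ℂ) • (1 : Matrix (∀ i, Fin (d i)) (∀ i, Fin (d i)) ℂ) - bnd d j k =
      (1 / 2 : ℂ) • ((1 - P)ᴴ * (1 - P)) + (1 / 3 : ℂ) • (Kcᴴ * Kc) := by
    rw [Matrix.conjTranspose_sub, Matrix.conjTranspose_one, hPs, hKs, hKK, hX, Matrix.sub_mul,
      Matrix.mul_sub, Matrix.mul_sub, hPP, Complex.ofReal_one]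
    ext a b
    simp only [Matrix.sub_apply, Matrix.add_apply, Matrix.smul_apply, Matrix.mul_one,
      Matrix.one_mul, smul_eq_mul]
    ring
  rw [hY]
  have hh : (0 : ℂ) ≤ 1 / 2 := by rw [Complex.le_def]; norm_num
  have ht : (0 : ℂ) ≤ 1 / 3 := by rw [Complex.le_def]; norm_num
  exact ((Matrix.posSemidef_conjTranspose_mul_self _).smul hh).add
    ((Matrix.posSemidef_conjTranspose_mul_self _).smul ht)

theorem site_sub' (j : ι) (A B : Matrix (Fin (d j)) (Fin (d j)) ℂ) :
    st j (A - B) = st j A - st j B := by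
  rw [sub_eq_add_neg, sub_eq_add_neg, site_add, ← neg_one_smul ℂ B, site_smul, neg_one_smul]

theorem bnd_sq_expand (hjk : j ≠ k) : bnd d j k * bnd d j k =
    ∑ a : Fin 3, ∑ b : Fin 3, st j (Sp (d j) a * Sp (d j) b) * st k (Sp (d k) a * Sp (d k) b) := by
  unfold bnd
  rw [Finset.sum_mul]
  refine Finset.sum_congr rfl fun a _ => ?_
  rw [Finset.mul_sum]
  exact Finset.sum_congr rfl fun b _ => pr_mul hjk _ _ _ _

theorem bnd_sq_23 (hjk : j ≠ k) (hj : d j = 2) (hk : d k = 3) :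
    bnd d j k * bnd d j k = (1 / 2 : ℂ) • 1 - (1 / 2 : ℂ) • bnd d j k := by
  have r := rel2 hj
  have t := rel3 hk
  rw [bnd_sq_expand hjk]
  unfold bnd
  simp only [Fin.sum_univ_three]
  rw [r.sq 0, r.sq 1, r.sq 2, r.m01, r.m10, r.m12, r.m21, r.m20, r.m02]
  simp only [site_smul, site_one]
  have t1 : st k (Sp (d k) 1 * Sp (d k) 0) = st k (Sp (d k) 0 * Sp (d k) 1) -
      Complex.I • st k (Sp (d k) 2) := by
    rw [← site_smul, ← t.c01, site_sub']; abel
  have t2 : st k (Sp (d k) 2 * Sp (d k) 1) = st k (Sp (d k) 1 * Sp (d k) 2) -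
      Complex.I • st k (Sp (d k) 0) := by
    rw [← site_smul, ← t.c12, site_sub']; abel
  have t3 : st k (Sp (d k) 0 * Sp (d k) 2) = st k (Sp (d k) 2 * Sp (d k) 0) -
      Complex.I • st k (Sp (d k) 1) := by
    rw [← site_smul, ← t.c20, site_sub']; abel
  have t4 : st k (Sp (d k) 2 * Sp (d k) 2) = (2 : ℂ) • 1 - st k (Sp (d k) 0 * Sp (d k) 0) -
      st k (Sp (d k) 1 * Sp (d k) 1) := by
    rw [← site_one (κ := fun i => Fin (d i)) k, ← site_smul, ← t.cas, site_add, site_add]; abel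
  rw [t1, t2, t3, t4]
  simp only [Matrix.smul_mul, Matrix.one_mul, Matrix.mul_sub, Matrix.mul_smul]
  match_scalars <;> ring_nf <;> simp [Complex.I_sq] <;> ring

theorem bnd_sq_22 (hjk : j ≠ k) (hj : d j = 2) (hk : d k = 2) :
    bnd d j k * bnd d j k = (3 / 16 : ℂ) • 1 - (1 / 2 : ℂ) • bnd d j k := by
  have r := rel2 hj
  have t := rel2 hk
  rw [bnd_sq_expand hjk]
  unfold bnd
  simp only [Fin.sum_univ_three]
  rw [r.sq 0, r.sq 1, r.sq 2, r.m01, r.m10, r.m12, r.m21, r.m20, r.m02,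
    t.sq 0, t.sq 1, t.sq 2, t.m01, t.m10, t.m12, t.m21, t.m20, t.m02]
  simp only [site_smul, site_one]
  simp only [Matrix.smul_mul, Matrix.one_mul, Matrix.mul_sub, Matrix.mul_smul]
  match_scalars <;> ring_nf <;> simp [Complex.I_sq] <;> ring

theorem bond_lower_23 (hjk : j ≠ k) (hj : d j = 2) (hk : d k = 3) :
    (((1 / 2 : ℝ) : ℂ) • (1 : Matrix (∀ i, Fin (d i)) (∀ i, Fin (d i)) ℂ) - bnd d j k).PosSemidef := by
  have hY : ((1 / 2 : ℝ) : ℂ) • (1 : Matrix (∀ i, Fin (d i)) (∀ i, Fin (d i)) ℂ) - bnd d j k =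
      (2 / 3 : ℂ) • ((((1 / 2 : ℝ) : ℂ) • 1 - bnd d j k)ᴴ * (((1 / 2 : ℝ) : ℂ) • 1 - bnd d j k)) := by
    rw [Matrix.conjTranspose_sub, Matrix.conjTranspose_smul, Matrix.conjTranspose_one,
      bnd_herm hjk, Matrix.sub_mul, Matrix.mul_sub, Matrix.mul_sub, bnd_sq_23 hjk hj hk]
    have hs : star (((1 / 2 : ℝ) : ℂ)) = (((1 / 2 : ℝ) : ℂ)) := Complex.conj_ofReal _
    rw [hs]
    simp only [Matrix.smul_mul, Matrix.one_mul, Matrix.mul_smul, Matrix.mul_one]
    push_cast
    module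
  rw [hY]
  have hh : (0 : ℂ) ≤ 2 / 3 := by rw [Complex.le_def]; norm_num
  exact (Matrix.posSemidef_conjTranspose_mul_self _).smul hh

theorem bond_lower_32 (hjk : j ≠ k) (hj : d j = 3) (hk : d k = 2) :
    (((1 / 2 : ℝ) : ℂ) • (1 : Matrix (∀ i, Fin (d i)) (∀ i, Fin (d i)) ℂ) - bnd d j k).PosSemidef := by
  rw [bnd_symm hjk]
  exact bond_lower_23 hjk.symm hk hj

theorem bond_lower_22 (hjk : j ≠ k) (hj : d j = 2) (hk : d k = 2) :
    (((1 / 4 : ℝ) : ℂ) • (1 : Matrix (∀ i, Fin (d i)) (∀ i, Fin (d i)) ℂ) - bnd d j k).PosSemidef := by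
  have hY : ((1 / 4 : ℝ) : ℂ) • (1 : Matrix (∀ i, Fin (d i)) (∀ i, Fin (d i)) ℂ) - bnd d j k =
      (1 : ℂ) • ((((1 / 4 : ℝ) : ℂ) • 1 - bnd d j k)ᴴ * (((1 / 4 : ℝ) : ℂ) • 1 - bnd d j k)) := by
    rw [Matrix.conjTranspose_sub, Matrix.conjTranspose_smul, Matrix.conjTranspose_one,
      bnd_herm hjk, Matrix.sub_mul, Matrix.mul_sub, Matrix.mul_sub, bnd_sq_22 hjk hj hk]
    have hs : star (((1 / 4 : ℝ) : ℂ)) = (((1 / 4 : ℝ) : ℂ)) := Complex.conj_ofReal _
    rw [hs]
    simp only [Matrix.smul_mul, Matrix.one_mul, Matrix.mul_smul, Matrix.mul_one]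
    push_cast
    module
  rw [hY]
  have hh : (0 : ℂ) ≤ 1 := by rw [Complex.le_def]; norm_num
  exact (Matrix.posSemidef_conjTranspose_mul_self _).smul hh

/-- constant of a bond -/
noncomputable def cBond (D D' : ℕ) : ℝ :=
  if D = 3 then (if D' = 3 then 1 else 1 / 2) else (if D' = 3 then 1 / 2 else 1 / 4)

theorem bond_lower (hjk : j ≠ k) (hj : d j = 2 ∨ d j = 3) (hk : d k = 2 ∨ d k = 3) :
    (((cBond (d j) (d k) : ℝ) : ℂ) • (1 : Matrix (∀ i, Fin (d i)) (∀ i, Fin (d i)) ℂ) -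
      bnd d j k).PosSemidef := by
  rcases hj with hj | hj <;> rcases hk with hk | hk
  · have : cBond (d j) (d k) = 1 / 4 := by rw [hj, hk]; norm_num [cBond]
    rw [this]; exact bond_lower_22 hjk hj hk
  · have : cBond (d j) (d k) = 1 / 2 := by rw [hj, hk]; norm_num [cBond]
    rw [this]; exact bond_lower_23 hjk hj hk
  · have : cBond (d j) (d k) = 1 / 2 := by rw [hj, hk]; norm_num [cBond]
    rw [this]; exact bond_lower_32 hjk hj hk
  · have : cBond (d j) (d k) = 1 := by rw [hj, hk]; norm_num [cBond]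
    rw [this]; exact bond_lower_33 hjk hj hk

/-- constant of a field term -/
noncomputable def cField (D : ℕ) (h : ℝ) : ℝ := |h| * (if D = 3 then 1 else 1 / 2)

theorem field_one {D : ℕ} (hD : D = 2 ∨ D = 3) (h : ℝ) :
    (((cField D h : ℝ) : ℂ) • (1 : Matrix (Fin D) (Fin D) ℂ) + (h : ℂ) • Sp D 2).PosSemidef := by
  have ha := abs_nonneg h
  have h1 := neg_abs_le h
  have h2 := le_abs_self h
  rcases hD with rfl | rfl
  · have e : (((cField 2 h : ℝ) : ℂ) • (1 : Matrix (Fin 2) (Fin 2) ℂ) + (h : ℂ) • Sp 2 2) =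
        Matrix.diagonal (fun i : Fin 2 => (((if i = 0 then (|h| + h) / 2 else (|h| - h) / 2) : ℝ) : ℂ)) := by
      ext i j
      fin_cases i <;> fin_cases j <;> simp [cField, Sp, sHalf] <;> push_cast <;> ring
    rw [e]
    refine Matrix.PosSemidef.diagonal fun i => ?_
    have : (0 : ℝ) ≤ (if i = 0 then (|h| + h) / 2 else (|h| - h) / 2) := by
      split_ifs <;> linarith
    show (0 : ℂ) ≤ (((if i = 0 then (|h| + h) / 2 else (|h| - h) / 2) : ℝ) : ℂ)
    exact_mod_cast this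
  · have e : (((cField 3 h : ℝ) : ℂ) • (1 : Matrix (Fin 3) (Fin 3) ℂ) + (h : ℂ) • Sp 3 2) =
        Matrix.diagonal (fun i : Fin 3 => (((if i = 0 then |h| + h else
          if i = 1 then |h| else |h| - h) : ℝ) : ℂ)) := by
      ext i j
      fin_cases i <;> fin_cases j <;> simp [cField, Sp, spinOp, spinZ, magneticNumber] <;> ring
    rw [e]
    refine Matrix.PosSemidef.diagonal fun i => ?_
    have : (0 : ℝ) ≤ (if i = 0 then |h| + h else if i = 1 then |h| else |h| - h) := by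
      split_ifs <;> linarith
    show (0 : ℂ) ≤ (((if i = 0 then |h| + h else if i = 1 then |h| else |h| - h) : ℝ) : ℂ)
    exact_mod_cast this

theorem site_posSemidef (j : ι) {A : Matrix (Fin (d j)) (Fin (d j)) ℂ} (hA : A.PosSemidef) :
    (st j A).PosSemidef := by
  obtain ⟨U, h1, h2, hd⟩ := herm_decomp hA.isHermitian
  set w := hA.isHermitian.eigenvalues with hw
  have hw0 : ∀ i, 0 ≤ w i := hA.eigenvalues_nonneg
  set B : Matrix (Fin (d j)) (Fin (d j)) ℂ :=
    Matrix.diagonal (fun i => ((Real.sqrt (w i) : ℝ) : ℂ)) * Uᴴ with hB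
  have e : A = Bᴴ * B := by
    have hD : (Matrix.diagonal (fun i => ((Real.sqrt (w i) : ℝ) : ℂ)))ᴴ =
        Matrix.diagonal (fun i => ((Real.sqrt (w i) : ℝ) : ℂ)) := by
      rw [Matrix.diagonal_conjTranspose]
      congr 1
      funext i
      exact Complex.conj_ofReal _
    rw [hB, Matrix.conjTranspose_mul, Matrix.conjTranspose_conjTranspose, hD]
    conv_lhs => rw [hd]
    rw [show U * Matrix.diagonal (fun i => ((Real.sqrt (w i) : ℝ) : ℂ)) *
      (Matrix.diagonal (fun i => ((Real.sqrt (w i) : ℝ) : ℂ)) * Uᴴ) =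
      U * (Matrix.diagonal (fun i => ((Real.sqrt (w i) : ℝ) : ℂ)) *
        Matrix.diagonal (fun i => ((Real.sqrt (w i) : ℝ) : ℂ))) * Uᴴ by
        simp only [Matrix.mul_assoc]]
    rw [Matrix.diagonal_mul_diagonal]
    congr 3
    funext i
    rw [← Complex.ofReal_mul, Real.mul_self_sqrt (hw0 i)]
  rw [e, ← site_mul_same, ← site_conjTranspose]
  exact Matrix.posSemidef_conjTranspose_mul_self _

theorem field_lower (hj : d j = 2 ∨ d j = 3) (h : ℝ) :
    (((cField (d j) h : ℝ) : ℂ) • (1 : Matrix (∀ i, Fin (d i)) (∀ i, Fin (d i)) ℂ) +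
      (h : ℂ) • st j (Sp (d j) 2)).PosSemidef := by
  have := site_posSemidef j (field_one hj h)
  rw [site_add, site_smul, site_one, site_smul] at this
  exact this

end

/-- the constant of a chain -/
noncomputable def cChain (K : ℕ) (d : Fin (K + 1) → ℕ) (h0 h1 : ℝ) : ℝ :=
  ∑ b : Fin K, cBond (d b.castSucc) (d b.succ) + cField (d 0) h0 + cField (d (Fin.last K)) h1

/-- **`-Hch + c ≥ 0`** -/
theorem Hch_lower (K : ℕ) (d : Fin (K + 1) → ℕ) (hd : ∀ i, d i = 2 ∨ d i = 3) (h0 h1 : ℝ) :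
    (-Hch K d h0 h1 + ((cChain K d h0 h1 : ℝ) : ℂ) • 1).PosSemidef := by
  have h := ((Matrix.posSemidef_sum Finset.univ fun b _ =>
    bond_lower (Fin.castSucc_lt_succ (i := b)).ne (hd b.castSucc) (hd b.succ)).add
      (field_lower (hd 0) h0)).add (field_lower (hd (Fin.last K)) h1)
  convert h using 1
  unfold Hch cChain
  rw [Finset.sum_sub_distrib, ← Finset.sum_smul]
  push_cast
  unfold bnd
  rw [add_smul, add_smul]
  abel

end Hald
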