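import Crest.Agent.Hald.M8Spec
import Crest.Agent.Hald.ChainJoint
import Crest.Agent.Hald.ChainBond

/-!
# Row 347, M8: enclosures of the (twisted) partition functions of the open chains

`Msh K d h0 h1 Q c0 = Q (-H) + c0` (the integer matrix of `ch_trace`, `Q = 2p`, `c0 = chC`).
`chain_encl`: rational bounds of `exp(-2y/w + (u/w)(c0 + C)) * Re Zch Gt K d h0 h1 (u Q / w)` from the
integer moments of `Msh` (twisted `μ`, untwisted `μ₁`) for an integer shift `C` with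
`Q cChain ≤ c0 + C`.
-/

set_option autoImplicit false
set_option linter.unusedSectionVars false

namespace Hald

open Matrix Finset
open scoped ComplexOrder

section Gen

variable {κ : Type*} [Fintype κ] [DecidableEq κ]

/-- shifting moments -/
theorem shift_moments (W N : Matrix κ κ ℂ) (C : ℤ) (n : ℕ) (μ : List ℤ) (hlen : μ.length = n + 1)
    (hμ : ∀ k ≤ n, (W * N ^ k).trace = ((μ.getD k 0 : ℤ) : ℂ)) :
    ∀ k ≤ n, (W * (N + ((C : ℤ) : ℂ) • 1) ^ k).trace = (((shiftMom C (n + 1) μ).getD k 0 : ℤ) : ℂ) := by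
  intro k hk
  set A := N + ((C : ℤ) : ℂ) • (1 : Matrix κ κ ℂ) with hA
  have h1 := shiftMom_getD C (fun i j => (W * (A ^ i * N ^ j)).trace) (by
      intro i j
      have e : A ^ (i + 1) * N ^ j = A ^ i * N ^ (j + 1) + ((C : ℤ) : ℂ) • (A ^ i * N ^ j) := by
        rw [pow_succ, Matrix.mul_assoc]
        conv_lhs => rw [hA]
        rw [Matrix.add_mul, Matrix.mul_add, ← pow_succ', Matrix.smul_mul, Matrix.one_mul,
          Matrix.mul_smul, ← hA]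
      show (W * (A ^ (i + 1) * N ^ j)).trace = _
      rw [e, Matrix.mul_add, Matrix.trace_add, Matrix.mul_smul, Matrix.trace_smul, smul_eq_mul])
    (n + 1) 0 μ (by omega) (by
      intro j hj
      have h2 := hμ j (by omega)
      show (W * (A ^ 0 * N ^ j)).trace = _
      rw [pow_zero, Matrix.one_mul, h2]) k (by omega)
  rw [h1]
  show _ = (W * (A ^ (0 + k) * N ^ 0)).trace
  rw [zero_add, pow_zero, Matrix.mul_one]

theorem exp_add_scalar (B : Matrix κ κ ℂ) (t : ℝ) :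
    NormedSpace.exp (B + ((t : ℝ) : ℂ) • (1 : Matrix κ κ ℂ)) = Real.exp t • NormedSpace.exp B := by
  have hc : Commute B (((t : ℝ) : ℂ) • (1 : Matrix κ κ ℂ)) := (Commute.one_right _).smul_right _
  rw [Matrix.exp_add_of_commute _ _ hc]
  have h2 : NormedSpace.exp (((t : ℝ) : ℂ) • (1 : Matrix κ κ ℂ)) =
      ((Real.exp t : ℝ) : ℂ) • (1 : Matrix κ κ ℂ) := by
    have h3 : ((t : ℝ) : ℂ) • (1 : Matrix κ κ ℂ) = Matrix.diagonal (fun _ => ((t : ℝ) : ℂ)) := by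
      rw [← Matrix.diagonal_one, ← Matrix.diagonal_smul]
      congr 1
      funext i
      simp
    have h4 : ((Real.exp t : ℝ) : ℂ) • (1 : Matrix κ κ ℂ) =
        Matrix.diagonal (fun _ => ((Real.exp t : ℝ) : ℂ)) := by
      rw [← Matrix.diagonal_one, ← Matrix.diagonal_smul]
      congr 1
      funext i
      simp
    rw [h3, h4, Matrix.exp_diagonal]
    congr 1
    funext i
    rw [Pi.coe_exp, Complex.ofReal_exp, Complex.exp_eq_exp_ℂ]
  rw [h2, Matrix.mul_smul, Matrix.mul_one]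
  ext i j
  simp

/-- real part version of `m8_bounds` (no reality needed) -/
theorem m8_bounds_re (K : ℕ) {u w y s : ℕ} (hw : 0 < w) (hy : 0 < y) {A W : Matrix κ κ ℂ}
    (hA : A.IsHermitian) (hW : W * Wᴴ = 1)
    (hspec : ∀ i, 0 ≤ hA.eigenvalues i ∧ u * hA.eigenvalues i ≤ 2 * y)
    (μ : List ℤ) (hlen : μ.length = K + 1)
    (hμ : ∀ k ≤ K, (W * A ^ k).trace = ((μ.getD k 0 : ℤ) : ℂ)) {τ : List ℕ} (hτ : τ = chebL K)
    {lo hi : ℤ} {dim : ℕ} (hdim : Fintype.card κ = dim)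
    (hok : m8Ok K dim u w y s μ τ lo hi = true) :
    (lo : ℝ) / 2 ^ s ≤ Real.exp (-(2 * (y : ℝ)) / w) *
        (W * NormedSpace.exp (((u : ℝ) / (w : ℝ)) • A)).trace.re ∧
      Real.exp (-(2 * (y : ℝ)) / w) *
        (W * NormedSpace.exp (((u : ℝ) / (w : ℝ)) • A)).trace.re ≤ (hi : ℝ) / 2 ^ s := by
  subst hτ
  subst hdim
  unfold m8Ok at hok
  simp only [Bool.and_eq_true, decide_eq_true_eq] at hok
  obtain ⟨⟨hD, hl⟩, hh⟩ := hok
  have h0 := m8_trace K hw hy hA hW hspec μ hlen hμ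
  have h := (Complex.abs_re_le_norm _).trans h0
  set Z := (W * NormedSpace.exp (((u : ℝ) / (w : ℝ)) • A)).trace
  set F := m8F u w y μ (chebL K)
  set D := m8D w y (chebL K)
  set z := Real.exp (-(2 * (y : ℝ)) / w) * Z.re with hz
  have e : (((F : ℤ) : ℂ) - ((D : ℤ) : ℂ) * (((Real.exp (-(2 * (y : ℝ)) / w) : ℝ) : ℂ) * Z)).re =
      (F : ℝ) - (D : ℝ) * z := by
    rw [Complex.sub_re, hz]
    have e1 : ((D : ℤ) : ℂ) = (((D : ℤ) : ℝ) : ℂ) := by push_cast; rfl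
    have e2 : ((F : ℤ) : ℂ) = (((F : ℤ) : ℝ) : ℂ) := by push_cast; rfl
    rw [e1, e2, Complex.re_ofReal_mul, Complex.re_ofReal_mul, Complex.ofReal_re]
  rw [e, abs_le] at h
  have hD' : (0 : ℝ) < D := by exact_mod_cast hD
  have hl' : (lo : ℝ) * D ≤ ((F : ℝ) - Fintype.card κ * (y : ℝ) ^ K) * 2 ^ s := by exact_mod_cast hl
  have hh' : ((F : ℝ) + Fintype.card κ * (y : ℝ) ^ K) * 2 ^ s ≤ (hi : ℝ) * D := by exact_mod_cast hh
  have h2s : (0 : ℝ) < 2 ^ s := by positivity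
  constructor
  · rw [div_le_iff₀ h2s]
    have h3 : ((F : ℝ) - Fintype.card κ * (y : ℝ) ^ K) * 2 ^ s ≤ (D * z) * 2 ^ s :=
      mul_le_mul_of_nonneg_right (by linarith [h.2]) h2s.le
    have h4 : (lo : ℝ) * D ≤ (z * 2 ^ s) * D := by linarith
    exact le_of_mul_le_mul_right h4 hD'
  · rw [le_div_iff₀ h2s]
    have h3 : (D * z) * 2 ^ s ≤ ((F : ℝ) + Fintype.card κ * (y : ℝ) ^ K) * 2 ^ s :=
      mul_le_mul_of_nonneg_right (by linarith [h.1]) h2s.le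
    have h4 : (z * 2 ^ s) * D ≤ (hi : ℝ) * D := by linarith
    exact le_of_mul_le_mul_right h4 hD'

end Gen

/-! ### the chain -/

/-- the matrix `Q (-H) + c0` -/
noncomputable def Msh (K : ℕ) (d : Fin (K + 1) → ℕ) (h0 h1 : ℝ) (Q : ℕ) (c0 : ℝ) :
    Matrix (∀ i, Fin (d i)) (∀ i, Fin (d i)) ℂ :=
  ((Q : ℕ) : ℂ) • (-Hch K d h0 h1) + ((c0 : ℝ) : ℂ) • 1

theorem Msh_herm (K : ℕ) (d : Fin (K + 1) → ℕ) (h0 h1 : ℝ) (Q : ℕ) (c0 : ℝ) :
    (Msh K d h0 h1 Q c0).IsHermitian := by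
  unfold Matrix.IsHermitian Msh
  rw [Matrix.conjTranspose_add, Matrix.conjTranspose_smul, Matrix.conjTranspose_smul,
    Matrix.conjTranspose_neg, (Hch_isHermitian K d h0 h1).eq, Matrix.conjTranspose_one]
  congr 2
  · simp
  · exact Complex.conj_ofReal _

theorem Msh_add (K : ℕ) (d : Fin (K + 1) → ℕ) (h0 h1 : ℝ) (Q : ℕ) (c0 : ℝ) (C : ℤ) :
    Msh K d h0 h1 Q (c0 + C) = Msh K d h0 h1 Q c0 + ((C : ℤ) : ℂ) • 1 := by
  unfold Msh
  rw [add_assoc, ← add_smul]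
  congr 2
  push_cast
  rfl

theorem Msh_posSemidef {K : ℕ} {d : Fin (K + 1) → ℕ} (hd : ∀ i, d i = 2 ∨ d i = 3) {h0 h1 : ℝ}
    {Q : ℕ} {c : ℝ} (hc : Q * cChain K d h0 h1 ≤ c) : (Msh K d h0 h1 Q c).PosSemidef := by
  have q1 := (Hch_lower K d hd h0 h1).smul (a := ((Q : ℕ) : ℂ)) (by
    have : ((Q : ℕ) : ℂ) = (((Q : ℕ) : ℝ) : ℂ) := by push_cast; rfl
    rw [this]
    exact Complex.zero_le_real.mpr (Nat.cast_nonneg _))
  have q2 : (((c - Q * cChain K d h0 h1 : ℝ) : ℂ) •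
      (1 : Matrix (∀ i, Fin (d i)) (∀ i, Fin (d i)) ℂ)).PosSemidef :=
    Matrix.PosSemidef.one.smul (Complex.zero_le_real.mpr (by linarith))
  have e : Msh K d h0 h1 Q c = ((Q : ℕ) : ℂ) • (-Hch K d h0 h1 + ((cChain K d h0 h1 : ℝ) : ℂ) • 1) +
      ((c - Q * cChain K d h0 h1 : ℝ) : ℂ) • 1 := by
    unfold Msh
    rw [smul_add, smul_smul, add_assoc, ← add_smul]
    congr 2
    push_cast
    ring
  rw [e]
  exact q1.add q2

theorem exp_Msh (K : ℕ) (d : Fin (K + 1) → ℕ) (h0 h1 : ℝ) (Q : ℕ) (c t : ℝ) :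
    NormedSpace.exp (t • Msh K d h0 h1 Q c) =
      Real.exp (t * c) • NormedSpace.exp ((-(t * Q)) • Hch K d h0 h1) := by
  rw [← exp_add_scalar]
  congr 1
  unfold Msh
  ext i j
  simp only [Matrix.smul_apply, Matrix.add_apply, Matrix.neg_apply, smul_eq_mul, Complex.real_smul]
  push_cast
  ring

/-- check for the spectral bound `u λ ≤ 2 y`: `u^K Tr A^K ≤ (2y)^K` -/
def specOk (K u y : ℕ) (μ : List ℤ) : Bool :=
  decide (Even K) && decide (0 < K) && decide (μ.getD K 0 * (u : ℤ) ^ K ≤ (2 * y : ℤ) ^ K)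

theorem spec_of_ok {κ : Type*} [Fintype κ] [DecidableEq κ] {A : Matrix κ κ ℂ} (hA : A.IsHermitian)
    {K u y : ℕ} {μ : List ℤ} (hμ : (A ^ K).trace = ((μ.getD K 0 : ℤ) : ℂ))
    (hok : specOk K u y μ = true) (i : κ) : u * hA.eigenvalues i ≤ 2 * y := by
  unfold specOk at hok
  simp only [Bool.and_eq_true, decide_eq_true_eq] at hok
  obtain ⟨⟨hK, hK0⟩, h⟩ := hok
  rcases Nat.eq_zero_or_pos u with hu | hu
  · subst hu
    simp
  have hu' : (0 : ℝ) < u := by exact_mod_cast hu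
  have h1 := eig_le_of_moment hA hK hK0 (b := 2 * y / u) (by positivity) (by
    rw [hμ]
    have e : (((μ.getD K 0 : ℤ) : ℂ)).re = ((μ.getD K 0 : ℤ) : ℝ) := by
      have : ((μ.getD K 0 : ℤ) : ℂ) = (((μ.getD K 0 : ℤ) : ℝ) : ℂ) := by push_cast; rfl
      rw [this, Complex.ofReal_re]
    rw [e, div_pow, le_div_iff₀ (by positivity)]
    exact_mod_cast h) i
  rw [le_div_iff₀ hu'] at h1
  linarith

theorem tens_Gt_unitary {K : ℕ} (d : Fin (K + 1) → ℕ) (hd : ∀ i, d i = 2 ∨ d i = 3)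
    {Gt : (d : ℕ) → Matrix (Fin d) (Fin d) ℂ} (h2 : Gt 2 * (Gt 2)ᴴ = 1) (h3 : Gt 3 * (Gt 3)ᴴ = 1) :
    tens (κ := fun i => Fin (d i)) (fun i => Gt (d i)) *
      (tens (κ := fun i => Fin (d i)) (fun i => Gt (d i)))ᴴ = 1 := by
  rw [tens_conjTranspose]
  exact tens_mul_eq_one fun i => by
    have h : ∀ D : ℕ, (D = 2 ∨ D = 3) → Gt D * (Gt D)ᴴ = 1 := by
      rintro D (rfl | rfl)
      · exact h2
      · exact h3
    exact h _ (hd i)

theorem G1_unitary (D : ℕ) : G1 D * (G1 D)ᴴ = 1 := by simp [G1]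

theorem Gz_unitary2 : Gz 2 * (Gz 2)ᴴ = 1 := by
  unfold Gz
  ext i j
  fin_cases i <;> fin_cases j <;> simp [Matrix.mul_apply, Fin.sum_univ_two, Matrix.conjTranspose_apply]

theorem Gz_unitary3 : Gz 3 * (Gz 3)ᴴ = 1 := by
  unfold Gz
  ext i j
  fin_cases i <;> fin_cases j <;> simp [Matrix.mul_apply, Fin.sum_univ_three, Matrix.conjTranspose_apply]

/-- **Enclosures for the chains.** -/
theorem chain_encl {N : ℕ} {d : Fin (N + 1) → ℕ} (hd : ∀ i, d i = 2 ∨ d i = 3) {h0 h1 c0 : ℝ}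
    {Q : ℕ} {Gt : (d : ℕ) → Matrix (Fin d) (Fin d) ℂ} (h2 : Gt 2 * (Gt 2)ᴴ = 1)
    (h3 : Gt 3 * (Gt 3)ᴴ = 1) (C : ℤ) (hC : Q * cChain N d h0 h1 ≤ c0 + C)
    (K : ℕ) {u w y s : ℕ} (hw : 0 < w) (hy : 0 < y) (μ₁ μ : List ℤ)
    (hlen₁ : μ₁.length = K + 1) (hlen : μ.length = K + 1)
    (hμ₁ : ∀ k ≤ K, ((Msh N d h0 h1 Q c0) ^ k).trace = ((μ₁.getD k 0 : ℤ) : ℂ))
    (hμ : ∀ k ≤ K, (tens (κ := fun i => Fin (d i)) (fun i => Gt (d i)) *
      (Msh N d h0 h1 Q c0) ^ k).trace = ((μ.getD k 0 : ℤ) : ℂ))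
    {τ : List ℕ} (hτ : τ = chebL K) {lo hi : ℤ} {dim : ℕ} (hdim : ∏ i, d i = dim)
    (hspec : specOk K u y (shiftMom C (K + 1) μ₁) = true)
    (hok : m8Ok K dim u w y s (shiftMom C (K + 1) μ) τ lo hi = true) :
    (lo : ℝ) / 2 ^ s ≤ Real.exp (-(2 * (y : ℝ)) / w + (u / w : ℝ) * (c0 + C)) *
        (Zch Gt N d h0 h1 (u * Q / w)).re ∧
      Real.exp (-(2 * (y : ℝ)) / w + (u / w : ℝ) * (c0 + C)) *
        (Zch Gt N d h0 h1 (u * Q / w)).re ≤ (hi : ℝ) / 2 ^ s := by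
  set A := Msh N d h0 h1 Q (c0 + C) with hAd
  have hA : A.IsHermitian := Msh_herm _ _ _ _ _ _
  set W := tens (κ := fun i => Fin (d i)) (fun i => Gt (d i)) with hWd
  have hW : W * Wᴴ = 1 := tens_Gt_unitary d hd h2 h3
  have hm₁ := shift_moments 1 (Msh N d h0 h1 Q c0) C K μ₁ hlen₁ (by
    intro k hk; rw [Matrix.one_mul]; exact hμ₁ k hk)
  have hm := shift_moments W (Msh N d h0 h1 Q c0) C K μ hlen hμ
  rw [← Msh_add] at hm hm₁
  have hsp : ∀ i, 0 ≤ hA.eigenvalues i ∧ u * hA.eigenvalues i ≤ 2 * y := by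
    intro i
    refine ⟨(Msh_posSemidef hd hC).eigenvalues_nonneg i, ?_⟩
    refine spec_of_ok hA (K := K) (μ := shiftMom C (K + 1) μ₁) ?_ hspec i
    have := hm₁ K le_rfl
    rwa [Matrix.one_mul] at this
  have hcard : Fintype.card (∀ i, Fin (d i)) = dim := by
    rw [← hdim]
    simp
  have key := m8_bounds_re K (s := s) hw hy hA hW hsp (shiftMom C (K + 1) μ)
    (shiftMom_length _ _ _) hm hτ hcard hok
  have e : (W * NormedSpace.exp (((u : ℝ) / (w : ℝ)) • A)).trace.re =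
      Real.exp ((u / w : ℝ) * (c0 + C)) * (Zch Gt N d h0 h1 (u * Q / w)).re := by
    rw [hAd, exp_Msh, Matrix.mul_smul, Matrix.trace_smul, Complex.real_smul, Complex.re_ofReal_mul]
    unfold Zch
    congr 6
    ring
  rw [e] at key
  rw [Real.exp_add, mul_assoc]
  exact key

end Hald
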