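import Crest.Agent.Hald.ChFin
import Crest.Agent.Hald.ChLink
import Crest.Agent.Hald.M8Chain

/-!
# Row 347, M7: traces of `Msh` from the even/odd parts of the moments
-/

set_option autoImplicit false
set_option linter.unusedSectionVars false

namespace Hald

open Finset Matrix

/-- diagonal phase of one site -/
noncomputable def zph : ℕ → ℂ := fun D => if D = 2 then -Complex.I else -1

theorem Gz_apply_diag {D : ℕ} (hD : D = 2 ∨ D = 3) (a b : Fin D) :
    Gz D a b = if a = b then zph D * (-1) ^ (a : ℕ) else 0 := by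
  rcases hD with rfl | rfl
  · fin_cases a <;> fin_cases b <;> simp [Gz, zph]
  · fin_cases a <;> fin_cases b <;> simp [Gz, zph]

variable {K : ℕ} {d : Fin (K + 1) → ℕ}

theorem tens_Gz (hd : ∀ i, d i = 2 ∨ d i = 3) :
    tens (κ := fun i => Fin (d i)) (fun i => Gz (d i)) =
      Matrix.diagonal fun σ : CC d => (∏ i, zph (d i)) * (-1) ^ dsum σ := by
  ext σ τ
  rw [tens_apply]
  by_cases h : σ = τ
  · subst h
    rw [Matrix.diagonal_apply_eq]
    rw [dsum, ← Finset.prod_pow_eq_pow_sum, ← Finset.prod_mul_distrib]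
    refine prod_congr rfl fun i _ => ?_
    rw [Gz_apply_diag (hd i), if_pos rfl]
  · rw [Matrix.diagonal_apply_ne _ h]
    obtain ⟨i, hi⟩ : ∃ i, σ i ≠ τ i := by
      by_contra hcon
      push Not at hcon
      exact h (funext hcon)
    refine prod_eq_zero (mem_univ i) ?_
    rw [Gz_apply_diag (hd i), if_neg hi]

namespace ChData

theorem tE_add_tO (c : ChData K d) (k : ℕ) : c.tE k + c.tO k = ∑ σ, (c.mat ^ k) σ σ := by
  unfold tE tO
  rw [← sum_add_distrib]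
  exact sum_congr rfl fun σ _ => by split_ifs <;> simp

theorem tE_sub_tO (c : ChData K d) (k : ℕ) :
    c.tE k - c.tO k = ∑ σ, (-1) ^ dsum σ * (c.mat ^ k) σ σ := by
  unfold tE tO
  rw [← sum_sub_distrib]
  refine sum_congr rfl fun σ _ => ?_
  split_ifs with h
  · rw [Even.neg_one_pow (Nat.even_iff.2 h)]; ring
  · rw [Odd.neg_one_pow (Nat.odd_iff.2 (by omega))]; ring

theorem msh_trace (c : ChData K d) (hd : ∀ i, d i = 2 ∨ d i = 3) (h0 h1 cL cR : ℝ)
    (hL : ∀ a : Fin (d 0), (c.fL a : ℝ) = c.p * h0 * ((d 0 : ℝ) - 1 - 2 * (a : ℝ)) + cL)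
    (hR : ∀ a : Fin (d (Fin.last K)),
      (c.fR a : ℝ) = c.p * h1 * ((d (Fin.last K) : ℝ) - 1 - 2 * (a : ℝ)) + cR) (k : ℕ) :
    ((Msh K d h0 h1 (2 * c.p) (chC c cL cR)) ^ k).trace = ((c.tE k + c.tO k : ℤ) : ℂ) := by
  have h := ch_trace c hd h0 h1 cL cR hL hR (fun _ => 1) k
  have e : (Matrix.diagonal fun _ : CC d => (1 : ℂ)) = 1 := Matrix.diagonal_one
  rw [e, Matrix.one_mul] at h
  rw [tE_add_tO]
  push_cast
  have h' : ((Msh K d h0 h1 (2 * c.p) (chC c cL cR)) ^ k).trace =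
      ∑ σ, 1 * (((c.mat ^ k) σ σ : ℤ) : ℂ) := h
  rw [h']
  exact sum_congr rfl fun σ _ => one_mul _

theorem msh_trace_z (c : ChData K d) (hd : ∀ i, d i = 2 ∨ d i = 3) (h0 h1 cL cR : ℝ)
    (hL : ∀ a : Fin (d 0), (c.fL a : ℝ) = c.p * h0 * ((d 0 : ℝ) - 1 - 2 * (a : ℝ)) + cL)
    (hR : ∀ a : Fin (d (Fin.last K)),
      (c.fR a : ℝ) = c.p * h1 * ((d (Fin.last K) : ℝ) - 1 - 2 * (a : ℝ)) + cR) (k : ℕ) :
    (tens (κ := fun i => Fin (d i)) (fun i => Gz (d i)) *
      (Msh K d h0 h1 (2 * c.p) (chC c cL cR)) ^ k).trace =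
      (∏ i, zph (d i)) * ((c.tE k - c.tO k : ℤ) : ℂ) := by
  have h := ch_trace c hd h0 h1 cL cR hL hR (fun σ : CC d => (∏ i, zph (d i)) * (-1) ^ dsum σ) k
  rw [tE_sub_tO, tens_Gz hd]
  have h' : (Matrix.diagonal (fun σ : CC d => (∏ i, zph (d i)) * (-1) ^ dsum σ) *
      (Msh K d h0 h1 (2 * c.p) (chC c cL cR)) ^ k).trace =
      ∑ σ, ((∏ i, zph (d i)) * (-1) ^ dsum σ) * (((c.mat ^ k) σ σ : ℤ) : ℂ) := h
  rw [h']
  push_cast
  rw [mul_sum]
  exact sum_congr rfl fun σ _ => by ring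

end ChData

/-- phase of a strip -/
theorem zph_strip (M : ℕ) : ∏ i, zph (chD 2 2 M i) = (-1) ^ (M + 1) := by
  rw [Fin.prod_univ_succ, Fin.prod_univ_castSucc, chD_zero, Fin.succ_last, chD_last]
  have h : ∀ i : Fin M, zph (chD 2 2 M i.castSucc.succ) = -1 := by
    intro i; rw [chD_mid]; simp [zph]
  rw [prod_congr rfl fun i _ => h i, prod_const, card_univ, Fintype.card_fin]
  have h2 : zph 2 = -Complex.I := by simp [zph]
  rw [h2, pow_succ]
  have : Complex.I * Complex.I = -1 := Complex.I_mul_I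
  linear_combination ((-1 : ℂ) ^ M) * this

theorem chD22_dims (M : ℕ) : ∀ i, chD 2 2 M i = 2 ∨ chD 2 2 M i = 3 := by
  intro i
  unfold chD
  split_ifs <;> simp

/-- the data of the strips -/
def cStrip (M : ℕ) : ChData (M + 1) (chD 2 2 M) := ⟨[0], fun _ => 0, fun _ => 0⟩

theorem cStrip_p (M : ℕ) : (cStrip M).p = 1 := rfl

/-- moments of a strip -/
theorem strip_msh (M k : ℕ) :
    ((Msh (M + 1) (chD 2 2 M) 0 0 2 (chC (cStrip M) 0 0)) ^ k).trace =
      (((cStrip M).tE k + (cStrip M).tO k : ℤ) : ℂ) := by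
  have h := (cStrip M).msh_trace (chD22_dims M) 0 0 0 0 (by intro a; simp [cStrip])
    (by intro a; simp [cStrip]) k
  exact h

theorem strip_msh_z (M k : ℕ) :
    (tens (κ := fun i => Fin (chD 2 2 M i)) (fun i => Gz (chD 2 2 M i)) *
      (Msh (M + 1) (chD 2 2 M) 0 0 2 (chC (cStrip M) 0 0)) ^ k).trace =
      (((-1) ^ (M + 1) * ((cStrip M).tE k - (cStrip M).tO k) : ℤ) : ℂ) := by
  have h := (cStrip M).msh_trace_z (chD22_dims M) 0 0 0 0 (by intro a; simp [cStrip])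
    (by intro a; simp [cStrip]) k
  rw [zph_strip] at h
  push_cast at h ⊢
  exact h

/-- the additive constant of a strip -/
theorem chC_strip (M : ℕ) : chC (cStrip (M + 1)) 0 0 = 2 * ((M : ℝ) + 1) := by
  unfold chC
  rw [cStrip_p, Fin.sum_univ_succ, Fin.sum_univ_castSucc]
  have h0 : (Fin.castSucc (0 : Fin (M + 2))) = 0 := rfl
  have h1 : chD 2 2 (M + 1) (Fin.succ (0 : Fin (M + 2))) = 3 := chD_mid 2 2 (M + 1) 0
  have hl : chD 2 2 (M + 1) (Fin.last M).succ.succ = 2 := by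
    rw [Fin.succ_last, Fin.succ_last]; exact chD_last 2 2 (M + 1)
  have hl2 : chD 2 2 (M + 1) (Fin.castSucc (Fin.last M).succ) = 3 := by
    have : (Fin.castSucc (Fin.last M).succ : Fin (M + 3)) = (Fin.last M).castSucc.succ := rfl
    rw [this]
    exact chD_mid 2 2 (M + 1) (Fin.last M)
  have hm1 : ∀ i : Fin M, chD 2 2 (M + 1) (Fin.castSucc i.castSucc.succ) = 3 := fun i =>
    chD_mid 2 2 (M + 1) i.castSucc
  have hm2 : ∀ i : Fin M, chD 2 2 (M + 1) (i.castSucc.succ.succ) = 3 := fun i =>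
    chD_mid 2 2 (M + 1) i.succ
  rw [h0, chD_zero, h1, hl, hl2]
  simp only [hm1, hm2]
  rw [Finset.sum_const, card_univ, Fintype.card_fin, nsmul_eq_mul]
  push_cast
  ring

end Hald
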