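import Crest.Agent.Hald.ChTr

/-!
# Row 347, M7: wrapper for the run files (all side conditions as kernel checks)
-/

set_option autoImplicit false

namespace Hald

open Finset

theorem runsN_append (w wo Q : ℕ) (fs : List (List Bool)) (o : OpData) (bs : List ℕ) (K : ℕ)
    (Rs Rs' : List (List (ℕ × ℕ))) :
    runsN w wo Q fs o bs K (Rs ++ Rs') = runsN w wo Q fs o bs K Rs + runsN w wo Q fs o bs K Rs' := by
  rw [runsN_eq, runsN_eq, runsN_eq, List.map_append, List.sum_append]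

/-- check of one run: indices `< D`, digit sums strictly increasing -/
def chkRun (bs : List ℕ) (D : ℕ) : ℕ → List (ℕ × ℕ) → Bool
  | _, [] => true
  | prev, p :: l => Nat.blt p.1 D && (Nat.blt prev (dgS bs p.1 + 1) && chkRun bs D (dgS bs p.1 + 1) l)

theorem chkRun_lt {bs : List ℕ} {D : ℕ} {l : List (ℕ × ℕ)} : ∀ {prev : ℕ},
    chkRun bs D prev l = true → ∀ p ∈ l, p.1 < D := by
  induction l with
  | nil => intro _ _ p hp; exact absurd hp (by simp)
  | cons q l ih =>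
    intro prev h p hp
    simp only [chkRun, Bool.and_eq_true, Nat.blt_eq] at h
    rcases List.mem_cons.1 hp with rfl | hp
    · exact h.1
    · exact ih h.2.2 p hp

theorem chkRun_gt {bs : List ℕ} {D : ℕ} {l : List (ℕ × ℕ)} : ∀ {prev : ℕ},
    chkRun bs D prev l = true → ∀ p ∈ l, prev < dgS bs p.1 + 1 := by
  induction l with
  | nil => intro _ _ p hp; exact absurd hp (by simp)
  | cons q l ih =>
    intro prev h p hp
    simp only [chkRun, Bool.and_eq_true, Nat.blt_eq] at h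
    rcases List.mem_cons.1 hp with rfl | hp
    · exact h.2.1
    · exact h.2.1.trans (ih h.2.2 p hp)

theorem chkRun_nodup {bs : List ℕ} {D : ℕ} {l : List (ℕ × ℕ)} : ∀ {prev : ℕ},
    chkRun bs D prev l = true → (l.map fun p => dgS bs p.1).Nodup := by
  induction l with
  | nil => intro _ _; simp
  | cons q l ih =>
    intro prev h
    simp only [chkRun, Bool.and_eq_true, Nat.blt_eq] at h
    rw [List.map_cons, List.nodup_cons]
    refine ⟨?_, ih h.2.2⟩
    intro hm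
    obtain ⟨p, hp, he⟩ := List.mem_map.1 hm
    have := chkRun_gt h.2.2 p hp
    omega

/-- all runs -/
def chkRuns (bs : List ℕ) (D S : ℕ) : List (List (ℕ × ℕ)) → Bool
  | [] => true
  | L :: Rs => chkRun bs D 0 L && (Nat.ble L.length S && chkRuns bs D S Rs)

theorem chkRuns_spec {bs : List ℕ} {D S : ℕ} {Rs : List (List (ℕ × ℕ))}
    (h : chkRuns bs D S Rs = true) :
    ∀ L ∈ Rs, chkRun bs D 0 L = true ∧ L.length ≤ S := by
  induction Rs with
  | nil => intro L hL; exact absurd hL (by simp)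
  | cons L Rs ih =>
    simp only [chkRuns, Bool.and_eq_true] at h
    intro L' hL'
    rcases List.mem_cons.1 hL' with rfl | hL'
    · exact ⟨h.1, Nat.le_of_ble_eq_true h.2.1⟩
    · exact ih h.2.2 L' hL'

/-- weights: (total, even, odd) -/
def wtSum (bs : List ℕ) : List (ℕ × ℕ) → ℕ × ℕ × ℕ
  | [] => (0, 0, 0)
  | p :: l => (p.2 + (wtSum bs l).1, (if dgS bs p.1 % 2 = 0 then p.2 else 0) + (wtSum bs l).2.1,
      (if dgS bs p.1 % 2 = 1 then p.2 else 0) + (wtSum bs l).2.2)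

theorem wtSum_eq (bs : List ℕ) (l : List (ℕ × ℕ)) :
    wtSum bs l = ((l.map Prod.snd).sum, (l.map fun p => if dgS bs p.1 % 2 = 0 then p.2 else 0).sum,
      (l.map fun p => if dgS bs p.1 % 2 = 1 then p.2 else 0).sum) := by
  induction l with
  | nil => rfl
  | cons p l ih => rw [wtSum, ih]; rfl

/-- decoded moments agree with the lists -/
def muChk (w Q KK nE nO T : ℕ) (mu mz : List ℤ) : Bool :=
  decide (∀ k < KK + 1, decE w (Q + Q) Q KK nE T k + decO w (Q + Q) Q KK nO T k = mu.getD k 0 ∧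
    decE w (Q + Q) Q KK nE T k - decO w (Q + Q) Q KK nO T k = mz.getD k 0)

/-- numeric side conditions -/
def numChk (w Q KK S R s D : ℕ) (cs : List ℕ) : Bool :=
  Nat.ble 8 w && (cs.all fun e => Nat.ble (e + 1) w) && Nat.blt R 256 && Nat.ble 1 R &&
    Nat.blt (R ^ KK * S) (2 ^ (w - 1)) && Nat.ble 1 S && Nat.blt (D * 2 ^ w) (2 ^ Q) && Nat.blt D (2 ^ s)

variable {K : ℕ} {d : Fin (K + 1) → ℕ}

theorem wrap (c : ChData K d) (hd : ∀ i, d i = 2 ∨ d i = 3) {w Q R KK S s nE nO D : ℕ}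
    (bs : List ℕ) (hbs : List.ofFn d = bs) (hD : preP d (K + 1) = D)
    (hR : ∀ σ, ∑ τ, |c.mat τ σ| ≤ (R : ℤ)) (hnum : numChk w Q KK S R s D c.cs = true)
    (Rs : List (List (ℕ × ℕ))) (hrun : chkRuns bs D S Rs = true)
    (hwt : wtSum bs Rs.flatten = (D, nE, nO)) {canon : ℕ → ℕ}
    (hh : histD s canon D = histL s canon Rs.flatten)
    (hcan : (∀ j < preP d (K + 1), canon j < preP d (K + 1)) ∧
      (∀ (X : ℤ) (k r : ℕ), ∀ j < preP d (K + 1), c.FF X k r (canon j) = c.FF X k r j) ∧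
      (∀ j < preP d (K + 1), dgS (List.ofFn d) (canon j) % 2 = dgS (List.ofFn d) j % 2))
    {T : ℕ} (hT : runsN w (Q + Q) Q (ChData.fullS d) c.op bs KK Rs = T) (mu mz : List ℤ)
    (hmu : muChk w Q KK nE nO T mu mz = true) (k : ℕ) (hk : k ≤ KK) :
    c.tE k + c.tO k = mu.getD k 0 ∧ c.tE k - c.tO k = mz.getD k 0 := by
  subst hbs
  unfold numChk at hnum
  simp only [Bool.and_eq_true, Nat.ble_eq, Nat.blt_eq, List.all_eq_true] at hnum
  obtain ⟨⟨⟨⟨⟨⟨⟨h8, hcs⟩, hR8⟩, hR1⟩, hb⟩, hS1⟩, hQ⟩, hs⟩ := hnum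
  rw [wtSum_eq, Prod.mk.injEq, Prod.mk.injEq] at hwt
  obtain ⟨hw1, hw2, hw3⟩ := hwt
  have hspec := chkRuns_spec hrun
  have hm := ChData.moments_of_runs c hd (w := w) (wo := Q + Q) (Q := Q) (R := R) (KK := KK) (S := S)
    (s := s) (nE := nE) (nO := nO) h8 (fun e he => hcs e he) hR hR8 hR1 Rs
    (fun L hL p hp => by rw [hD]; exact chkRun_lt (hspec L hL).1 p hp)
    (fun L hL => chkRun_nodup (hspec L hL).1) (fun L hL => (hspec L hL).2) hb
    (lt_of_le_of_lt (Nat.le_mul_of_pos_right _ hS1) hb) rfl (by rw [hD]; exact hQ) (canon := canon)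
    (by rw [hD]; exact hs) (by rw [hw1]; exact hs) (by rw [hD]; exact hh) hcan.1 hcan.2.1 hcan.2.2 hw2 hw3
    hT k hk
  unfold muChk at hmu
  rw [decide_eq_true_eq] at hmu
  have := hmu k (by omega)
  rw [hm.1, hm.2]
  exact this

/-- local column bounds check -/
def bcsOk (p : ℕ) (d : Fin (K + 1) → ℕ) (Rb : Fin K → ℕ) : Prop :=
  ∀ b : Fin K, ∀ a : Fin (d b.castSucc), ∀ a' : Fin (d b.succ),
      ChData.bcs p (d b.castSucc) (d b.succ) a a' ≤ Rb b

instance (p : ℕ) (d : Fin (K + 1) → ℕ) (Rb : Fin K → ℕ) : Decidable (bcsOk p d Rb) := by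
  unfold bcsOk; infer_instance

/-- strips -/
theorem strip_wrap (M : ℕ) {w Q R KK S s nE nO D1 : ℕ} (bs : List ℕ)
    (hbs : List.ofFn (chD 2 2 M) = bs) (hD : preP (chD 2 2 M) (M + 1 + 1) = D1 + 1)
    (Rb : Fin (M + 1) → ℕ) (hRb : bcsOk 1 (chD 2 2 M) Rb) (hRs : ∑ b, Rb b ≤ R)
    (hnum : numChk w Q KK S R s (D1 + 1) [0] = true)
    (Rs : List (List (ℕ × ℕ))) (hrun : chkRuns bs (D1 + 1) S Rs = true)
    (hwt : wtSum bs Rs.flatten = (D1 + 1, nE, nO)) (l : List (ℕ × ℕ))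
    (hl : l = ChData.revL (chD 2 2 M))
    (hh : histD s (cFR D1 l) (D1 + 1) = histL s (cFR D1 l) Rs.flatten)
    (hp : ∀ i, chD 2 2 M i.rev = chD 2 2 M i) (he : (∑ i, (chD 2 2 M i - 1)) % 2 = 0)
    {T : ℕ} (hT : runsN w (Q + Q) Q (ChData.fullS (chD 2 2 M)) (cStrip M).op bs KK Rs = T)
    (mu mz : List ℤ)
    (hmu : muChk w Q KK nE nO T mu mz = true) (k : ℕ) (hk : k ≤ KK) :
    (cStrip M).tE k + (cStrip M).tO k = mu.getD k 0 ∧
      (cStrip M).tE k - (cStrip M).tO k = mz.getD k 0 := by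
  refine wrap (cStrip M) (chD22_dims M) bs hbs hD
    (ChData.col_bound (cStrip M) Rb 0 0 hRb (fun _ => le_rfl) (fun _ => le_rfl) (by omega)) hnum Rs hrun
    hwt hh ?_ hT mu mz hmu k hk
  exact ChData.canon_FR (cStrip M) hp (fun _ _ => rfl) (fun _ _ => rfl) (fun _ _ => rfl)
    (Nat.even_iff.2 he) hD hl

end Hald
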