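import Crest.Agent.Hald.ChWrap

/-!
# Row 347, M7: wrapper for the open chains of spins 1 with end fields `(3/5, ±3/5)`
-/

set_option autoImplicit false

namespace Hald

open Finset

/-- open chain with `N + 2` spins 1, fields `(3/5, 3/5)`, multiplier `5` -/
def cOpP (N : ℕ) : ChData (N + 1) (fun _ => 3) := ⟨[0, 2], fun a => 6 * (2 - a), fun a => 6 * (2 - a)⟩

/-- open chain with `N + 2` spins 1, fields `(3/5, -3/5)`, multiplier `5` -/
def cOpM (N : ℕ) : ChData (N + 1) (fun _ => 3) := ⟨[0, 2], fun a => 6 * (2 - a), fun a => 6 * a⟩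

theorem d3_dims (n : ℕ) : ∀ i : Fin n, (fun _ : Fin n => 3) i = 2 ∨ (fun _ : Fin n => 3) i = 3 :=
  fun _ => Or.inr rfl

theorem openP_wrap (N : ℕ) {w Q R KK S s nE nO D1 : ℕ} (bs : List ℕ)
    (hbs : List.ofFn (fun _ : Fin (N + 1 + 1) => 3) = bs)
    (hD : preP (fun _ : Fin (N + 1 + 1) => 3) (N + 1 + 1) = D1 + 1)
    (Rb : Fin (N + 1) → ℕ) (hRb : bcsOk 5 (fun _ : Fin (N + 1 + 1) => 3) Rb) (hRs : ∑ b, Rb b + 24 ≤ R)
    (hnum : numChk w Q KK S R s (D1 + 1) [0, 2] = true)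
    (Rs : List (List (ℕ × ℕ))) (hrun : chkRuns bs (D1 + 1) S Rs = true)
    (hwt : wtSum bs Rs.flatten = (D1 + 1, nE, nO)) (l : List (ℕ × ℕ))
    (hl : l = ChData.revL (fun _ : Fin (N + 1 + 1) => 3))
    (hh : histD s (cRR l) (D1 + 1) = histL s (cRR l) Rs.flatten)
    {T : ℕ} (hT : runsN w (Q + Q) Q (ChData.fullS (fun _ : Fin (N + 1 + 1) => 3)) (cOpP N).op bs KK Rs = T)
    (mu mz : List ℤ)
    (hmu : muChk w Q KK nE nO T mu mz = true) (k : ℕ) (hk : k ≤ KK) :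
    ∑ σ, ((cOpP N).mat ^ k) σ σ = mu.getD k 0 := by
  rw [← ChData.tE_add_tO]
  refine (wrap (cOpP N) (d3_dims _) bs hbs hD
    (ChData.col_bound (cOpP N) Rb 12 12 hRb (fun a => ?_) (fun a => ?_) (by omega)) hnum Rs hrun
    hwt hh ?_ hT mu mz hmu k hk).1
  · show 6 * (2 - (a : ℕ)) ≤ 12; omega
  · show 6 * (2 - (a : ℕ)) ≤ 12; omega
  · exact ChData.canon_RR (cOpP N) (fun _ => rfl) (fun _ _ => rfl) hD hl

theorem openM_wrap (N : ℕ) {w Q R KK S s nE nO D1 : ℕ} (bs : List ℕ)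
    (hbs : List.ofFn (fun _ : Fin (N + 1 + 1) => 3) = bs)
    (hD : preP (fun _ : Fin (N + 1 + 1) => 3) (N + 1 + 1) = D1 + 1)
    (Rb : Fin (N + 1) → ℕ) (hRb : bcsOk 5 (fun _ : Fin (N + 1 + 1) => 3) Rb) (hRs : ∑ b, Rb b + 24 ≤ R)
    (hnum : numChk w Q KK S R s (D1 + 1) [0, 2] = true)
    (Rs : List (List (ℕ × ℕ))) (hrun : chkRuns bs (D1 + 1) S Rs = true)
    (hwt : wtSum bs Rs.flatten = (D1 + 1, nE, nO)) (l : List (ℕ × ℕ))
    (hl : l = ChData.revL (fun _ : Fin (N + 1 + 1) => 3))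
    (hh : histD s (cXX D1 l) (D1 + 1) = histL s (cXX D1 l) Rs.flatten)
    {T : ℕ} (hT : runsN w (Q + Q) Q (ChData.fullS (fun _ : Fin (N + 1 + 1) => 3)) (cOpM N).op bs KK Rs = T)
    (mu mz : List ℤ)
    (hmu : muChk w Q KK nE nO T mu mz = true) (k : ℕ) (hk : k ≤ KK) :
    ∑ σ, ((cOpM N).mat ^ k) σ σ = mu.getD k 0 := by
  rw [← ChData.tE_add_tO]
  refine (wrap (cOpM N) (d3_dims _) bs hbs hD
    (ChData.col_bound (cOpM N) Rb 12 12 hRb (fun a => ?_) (fun a => ?_) (by omega)) hnum Rs hrun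
    hwt hh ?_ hT mu mz hmu k hk).1
  · show 6 * (2 - (a : ℕ)) ≤ 12; omega
  · have := a.isLt
    show 6 * (a : ℕ) ≤ 12
    omega
  · refine ChData.canon_XX (cOpM N) (fun _ => rfl) (fun a ha => ?_) ?_ hD hl
    · have ha' : a < 3 := ha
      show 6 * (2 - (3 - 1 - a)) = 6 * a
      omega
    · rw [Nat.even_iff]
      simp [Finset.sum_const]

end Hald
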