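import Mathlib

/-!
# Row 347: abstract interface ("World") between the operator side and the renormalisation-group side

`Z t β m` is the normalised twisted partition function of the ring of `L = 2m` sites,
`Z t β m = Zp (tw t).1 (tw t).2 β m * exp (β * 2m * e)` with `e = lim E₀(L)/L`.
-/

set_option autoImplicit false

namespace Hald

/-- "power sum" property: `f = ∑ λ_j ^ (c x)` with nonnegative `λ_j`, every `λ_j` of multiplicity `≥ μ`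
(μ = 1 or 2).  Only the consequences used later are recorded. -/
structure PS {α : Type*} (S : Set α) (c : α → ℝ) (μ : ℝ) (f : α → ℝ) : Prop where
  nonneg : ∀ x ∈ S, 0 ≤ f x
  pow : ∀ x ∈ S, ∀ y ∈ S, c x ≤ c y → f y / μ ≤ (f x / μ) ^ (c y / c x)
  logc : ∀ x ∈ S, ∀ y ∈ S, ∀ z ∈ S, c x ≤ c y → c y ≤ c z →
    f y ^ (c z - c x) ≤ f x ^ (c z - c y) * f z ^ (c y - c x)

/-- power sum with a distinguished largest element `t` (per unit of `c`). -/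
structure PSTop {α : Type*} (S : Set α) (c : α → ℝ) (μ : ℝ) (f : α → ℝ) (t : ℝ) : Prop where
  t_nonneg : 0 ≤ t
  rem : PS S c μ (fun x => f x - t ^ (c x))
  ratio : ∀ x ∈ S, ∀ y ∈ S, c x ≤ c y → f y ≤ t ^ (c y - c x) * f x

/-- A-sectors (space direction): 0 A1, 1 Aw, 2 AT, 3 D0, 4 Dx, 5 Dy, 6 E0, 7 E1, as linear functions of
`z = (u,v,tv,w,tw,p,q,r)` -/
noncomputable def secA (k : Fin 8) (z : Fin 8 → ℝ) : ℝ :=
  ![(z 0 + 3 * z 1 + 8 * z 2) / 12, (z 0 + 3 * z 1 - 4 * z 2) / 12, (z 0 - z 1) / 4,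
    (z 3 + z 5 + 2 * z 6) / 4, (z 3 + z 5 - 2 * z 6) / 4, (z 3 - z 5) / 4,
    (z 4 + 2 * z 7) / 3, (z 4 - z 7) / 3] k

/-- B-sectors (time direction): 0 B1, 1 Bw, 2 BT, 3 C0, 4 Cx, 5 Cy, 6 G0, 7 G1 -/
noncomputable def secB (k : Fin 8) (z : Fin 8 → ℝ) : ℝ :=
  ![(z 0 + 3 * z 3 + 8 * z 4) / 12, (z 0 + 3 * z 3 - 4 * z 4) / 12, (z 0 - z 3) / 4,
    (z 1 + z 5 + 2 * z 6) / 4, (z 1 + z 5 - 2 * z 6) / 4, (z 1 - z 5) / 4,
    (z 2 + 2 * z 7) / 3, (z 2 - z 7) / 3] k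

/-- multiplicities: only `Dy` (resp. `Cy`, for even `m`) has guaranteed multiplicity 2 -/
noncomputable def muA (k : Fin 8) : ℝ := if k = 5 then 2 else 1
noncomputable def muB (k : Fin 8) (m : ℕ) : ℝ := if k = 5 ∧ Even m then 2 else 1

/-- The abstract world. `V 0 = V`, `V 1 = V_x` (per site, functions of β); `W 0 = W`, `W 1 = W_x`
(per unit of β, functions of `m`). -/
structure World where
  Z : Fin 8 → ℝ → ℕ → ℝ
  V : Fin 2 → ℝ → ℝ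
  W : Fin 2 → ℕ → ℝ
  hA : ∀ β : ℝ, 0 < β → ∀ k : Fin 8,
    PS {m : ℕ | 1 ≤ m} (fun m => 2 * (m : ℝ)) (muA k) (fun m => secA k (fun t => Z t β m))
  hAtop0 : ∀ β : ℝ, 0 < β →
    PSTop {m : ℕ | 1 ≤ m} (fun m => 2 * (m : ℝ)) 1 (fun m => secA 0 (fun t => Z t β m)) (V 0 β)
  hAtop1 : ∀ β : ℝ, 0 < β →
    PSTop {m : ℕ | 1 ≤ m} (fun m => 2 * (m : ℝ)) 1 (fun m => secA 4 (fun t => Z t β m)) (V 1 β)
  hB : ∀ m : ℕ, 1 ≤ m → ∀ k : Fin 8,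
    PS {β : ℝ | 0 < β} (fun β => β) (muB k m) (fun β => secB k (fun t => Z t β m))
  hBtop0 : ∀ m : ℕ, 1 ≤ m →
    PSTop {β : ℝ | 0 < β} (fun β => β) 1 (fun β => secB 0 (fun t => Z t β m)) (W 0 m)
  hBtop1 : ∀ m : ℕ, 1 ≤ m →
    PSTop {β : ℝ | 0 < β} (fun β => β) 1 (fun β => secB 4 (fun t => Z t β m)) (W 1 m)
  V_anti : ∀ β β' : ℝ, 0 < β → β ≤ β' → V 0 β' ≤ V 0 β
  one_le_V : ∀ β : ℝ, 0 < β → 1 ≤ V 0 β
  Vx_le : ∀ β : ℝ, 0 < β → V 1 β ≤ V 0 β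
  W_anti : ∀ m m' : ℕ, 1 ≤ m → m ≤ m' → W 0 m' ≤ W 0 m
  one_le_W : ∀ m : ℕ, 1 ≤ m → 1 ≤ W 0 m
  Wx_le : ∀ m : ℕ, 1 ≤ m → W 1 m ≤ W 0 m
  /-- total trace (all sectors) is also a power sum in both directions, with the same tops -/
  hZtopA : ∀ β : ℝ, 0 < β →
    PSTop {m : ℕ | 1 ≤ m} (fun m => 2 * (m : ℝ)) 1 (fun m => Z 0 β m) (V 0 β)
  hZtopB : ∀ m : ℕ, 1 ≤ m →
    PSTop {β : ℝ | 0 < β} (fun β => β) 1 (fun β => Z 0 β m) (W 0 m)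

end Hald
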