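import Crest.Agent.Hald.Defs
import Crest.Agent.Hald.World

/-!
# Row 347: transfer matrices (definitions only)
-/

set_option autoImplicit false

namespace Hald

open Matrix

/-- `X^0 = 1`, `X^{a+1} = √τ L_a` (real Cartesian basis) -/
noncomputable def Xr (τ : ℝ) : Fin 4 → Matrix (Fin 3) (Fin 3) ℝ :=
  Fin.cons 1 (fun a => Real.sqrt τ • Lr a)

/-- index set of the time line -/
abbrev Om (n : ℕ) := Fin n → Fin 4

/-- ring transfer matrix with time twist `g`: `K_g(ω,ω') = tr (g ∏_t X^{ω_t} X^{ω'_t})`, `τ = β/n` -/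
noncomputable def Kn (g : Matrix (Fin 3) (Fin 3) ℝ) (β : ℝ) (n : ℕ) : Matrix (Om n) (Om n) ℝ :=
  Matrix.of fun ω ω' =>
    Matrix.trace (g * (List.ofFn fun t : Fin n => Xr (β / n) (ω t) * Xr (β / n) (ω' t)).prod)

/-- `1 ⊕ h` -/
noncomputable def rho4 (h : Matrix (Fin 3) (Fin 3) ℝ) : Matrix (Fin 4) (Fin 4) ℝ :=
  Matrix.of fun a b => Fin.cases (Fin.cases 1 (fun _ => 0) b) (fun a' => Fin.cases 0 (fun b' => h a' b') b) a

/-- action of a rotation on the time line: tensor power of `1 ⊕ h` -/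
noncomputable def rho (h : Matrix (Fin 3) (Fin 3) ℝ) (n : ℕ) : Matrix (Om n) (Om n) ℝ :=
  tens (κ := fun _ : Fin n => Fin 4) (fun _ => rho4 h)

/-- Trotterised twisted ring partition function in the space direction -/
noncomputable def Zn (g h : Matrix (Fin 3) (Fin 3) ℝ) (β : ℝ) (n m : ℕ) : ℝ :=
  Matrix.trace (rho h n * (Kn g β n * (Kn g β n)ᵀ) ^ m)

/-- cyclic time shift on `Om n` (permutation of the index set) -/
def shiftOm {n : ℕ} (ω : Om n) : Om n := fun t => ω (finRotate n t)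

end Hald
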