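import Crest.Agent.Hald.Label
import Crest.Agent.Hald.Transfer

/-!
# Row 347, module M3 (auxiliary): letters, rotations and the action `rho` on words

* `rot_conj_Lr`: `h L_a hᵀ = ∑_b h_{ba} L_b` for a rotation `h`;
* `rot_conj_Xr`: `h X^a hᵀ = ∑_b (rho4 h)_{ba} X^b`;
* `ofFn_prod_smul`, `word_expand`;
* `rho` is multiplicative, transposes, is orthogonal; `Kn` commutes with `rho h` if `g h = h g`.
-/

set_option autoImplicit false
set_option linter.unusedSectionVars false

namespace Hald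

open Matrix Finset

/-- rotation matrices -/
structure IsRot (h : Matrix (Fin 3) (Fin 3) ℝ) : Prop where
  orth : h * hᵀ = 1
  orth' : hᵀ * h = 1
  det : h.det = 1

theorem IsRot.adj {h : Matrix (Fin 3) (Fin 3) ℝ} (hh : IsRot h) : h.adjugate = hᵀ := by
  have h1 : h * h.adjugate = 1 := by rw [Matrix.mul_adjugate, hh.det, one_smul]
  calc h.adjugate = (hᵀ * h) * h.adjugate := by rw [hh.orth', Matrix.one_mul]
    _ = hᵀ := by rw [Matrix.mul_assoc, h1, Matrix.mul_one]

/-- polynomial identity behind the adjoint representation -/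
theorem conj_Lr_adj (h : Matrix (Fin 3) (Fin 3) ℝ) (a : Fin 3) :
    h * Lr a * hᵀ = ∑ b, (h.adjugate a b) • Lr b := by
  ext i j
  fin_cases a <;> fin_cases i <;> fin_cases j <;>
    simp [Lr, Matrix.mul_apply, Fin.sum_univ_three, Matrix.adjugate_fin_three, Matrix.sum_apply] <;>
    ring

theorem rot_conj_Lr {h : Matrix (Fin 3) (Fin 3) ℝ} (hh : IsRot h) (a : Fin 3) :
    h * Lr a * hᵀ = ∑ b, (h b a) • Lr b := by
  rw [conj_Lr_adj, hh.adj]
  rfl

/-- twisted letters -/
noncomputable def Xh (h : Matrix (Fin 3) (Fin 3) ℝ) (τ : ℝ) (a : Fin 4) :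
    Matrix (Fin 3) (Fin 3) ℝ := h * Xr τ a * hᵀ

theorem rot_conj_Xr {h : Matrix (Fin 3) (Fin 3) ℝ} (hh : IsRot h) (τ : ℝ) (a : Fin 4) :
    h * Xr τ a * hᵀ = ∑ b, (rho4 h b a) • Xr τ b := by
  rw [Fin.sum_univ_succ]
  refine Fin.cases ?_ (fun a' => ?_) a
  · simp [Xr, rho4, hh.orth]
  · simp only [Xr, rho4, Fin.cons_succ, Fin.cons_zero, Matrix.of_apply, Fin.cases_zero,
      Fin.cases_succ, zero_smul, zero_add]
    rw [Matrix.mul_smul, Matrix.smul_mul, rot_conj_Lr hh, Finset.smul_sum]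
    exact Finset.sum_congr rfl fun b _ => smul_comm _ _ _

theorem ofFn_prod_smul {R A : Type*} [CommRing R] [Ring A] [Algebra R A] {n : ℕ}
    (c : Fin n → R) (Y : Fin n → A) :
    (List.ofFn fun t => c t • Y t).prod = (∏ t, c t) • (List.ofFn Y).prod := by
  induction n with
  | zero => simp
  | succ n ih =>
    rw [List.ofFn_succ, List.prod_cons, ih, List.ofFn_succ, List.prod_cons, Fin.prod_univ_succ]
    rw [smul_mul_smul_comm]

/-- Linear substitution in all letters of a word. -/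
theorem word_expand {R A W : Type*} [CommRing R] [Ring A] [Algebra R A] [Fintype W] {n : ℕ}
    (c : Fin n → W → R) (Y : Fin n → W → A) :
    (List.ofFn fun t => ∑ b, c t b • Y t b).prod =
      ∑ w : Fin n → W, (∏ t, c t (w t)) • (List.ofFn fun t => Y t (w t)).prod := by
  rw [ofFn_prod_sum (fun t b => c t b • Y t b)]
  exact Finset.sum_congr rfl fun w _ => ofFn_prod_smul _ _

theorem rho_apply (h : Matrix (Fin 3) (Fin 3) ℝ) (n : ℕ) (w v : Om n) :
    rho h n w v = ∏ t, rho4 h (w t) (v t) := rfl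

theorem rho4_one : rho4 1 = 1 := by
  ext a b
  refine Fin.cases ?_ (fun a' => ?_) a <;> refine Fin.cases ?_ (fun b' => ?_) b
  · simp [rho4]
  · simp [rho4, Matrix.one_apply, (Fin.succ_ne_zero b').symm]
  · simp [rho4, Matrix.one_apply]
  · simp [rho4, Matrix.one_apply]

theorem rho4_mul (g h : Matrix (Fin 3) (Fin 3) ℝ) : rho4 (g * h) = rho4 g * rho4 h := by
  ext a b
  rw [Matrix.mul_apply, Fin.sum_univ_succ]
  refine Fin.cases ?_ (fun a' => ?_) a <;> refine Fin.cases ?_ (fun b' => ?_) b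
  · simp [rho4]
  · simp [rho4]
  · simp [rho4]
  · simp [rho4, Matrix.mul_apply]

theorem rho4_transpose (h : Matrix (Fin 3) (Fin 3) ℝ) : rho4 hᵀ = (rho4 h)ᵀ := by
  ext a b
  refine Fin.cases ?_ (fun a' => ?_) a <;> refine Fin.cases ?_ (fun b' => ?_) b <;>
    simp [rho4]

theorem rho_one (n : ℕ) : rho 1 n = 1 := by
  unfold rho
  rw [rho4_one]
  exact tens_one

theorem rho_mul (g h : Matrix (Fin 3) (Fin 3) ℝ) (n : ℕ) : rho (g * h) n = rho g n * rho h n := by
  unfold rho
  rw [rho4_mul]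
  exact (tens_mul _ _).symm

theorem rho_transpose (h : Matrix (Fin 3) (Fin 3) ℝ) (n : ℕ) : rho hᵀ n = (rho h n)ᵀ := by
  unfold rho
  rw [rho4_transpose]
  exact (tens_transpose _).symm

theorem rho_orth {h : Matrix (Fin 3) (Fin 3) ℝ} (hh : IsRot h) (n : ℕ) :
    rho h n * (rho h n)ᵀ = 1 := by
  rw [← rho_transpose, ← rho_mul, hh.orth, rho_one]

theorem rho_orth' {h : Matrix (Fin 3) (Fin 3) ℝ} (hh : IsRot h) (n : ℕ) :
    (rho h n)ᵀ * rho h n = 1 := by
  rw [← rho_transpose, ← rho_mul, hh.orth', rho_one]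

/-- `(K ρ(h))(u,v) = tr (g ∏ X^{u_t} (h X^{v_t} hᵀ))`. -/
theorem Kn_mul_rho {h : Matrix (Fin 3) (Fin 3) ℝ} (hh : IsRot h) (g : Matrix (Fin 3) (Fin 3) ℝ)
    (β : ℝ) (n : ℕ) (u v : Om n) :
    (Kn g β n * rho h n) u v =
      Matrix.trace (g * (List.ofFn fun t : Fin n => Xr (β / n) (u t) * Xh h (β / n) (v t)).prod) := by
  have h1 : (List.ofFn fun t : Fin n => Xr (β / n) (u t) * Xh h (β / n) (v t)) =
      List.ofFn fun t : Fin n => ∑ b, rho4 h b (v t) • (Xr (β / n) (u t) * Xr (β / n) b) := by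
    congr 1
    funext t
    unfold Xh
    rw [rot_conj_Xr hh, Finset.mul_sum]
    exact Finset.sum_congr rfl fun b _ => Matrix.mul_smul _ _ _
  rw [h1, word_expand (fun (t : Fin n) b => rho4 h b (v t))
    (fun (t : Fin n) b => Xr (β / n) (u t) * Xr (β / n) b), Finset.mul_sum, Matrix.trace_sum,
    Matrix.mul_apply]
  refine Finset.sum_congr rfl fun w _ => ?_
  rw [Matrix.mul_smul, Matrix.trace_smul, smul_eq_mul, mul_comm, rho_apply]
  rfl

/-- `(ρ(h)ᵀ K)(u,v) = tr (g ∏ (h X^{u_t} hᵀ) X^{v_t})`. -/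
theorem rhoT_mul_Kn {h : Matrix (Fin 3) (Fin 3) ℝ} (hh : IsRot h) (g : Matrix (Fin 3) (Fin 3) ℝ)
    (β : ℝ) (n : ℕ) (u v : Om n) :
    ((rho h n)ᵀ * Kn g β n) u v =
      Matrix.trace (g * (List.ofFn fun t : Fin n => Xh h (β / n) (u t) * Xr (β / n) (v t)).prod) := by
  have h1 : (List.ofFn fun t : Fin n => Xh h (β / n) (u t) * Xr (β / n) (v t)) =
      List.ofFn fun t : Fin n => ∑ b, rho4 h b (u t) • (Xr (β / n) b * Xr (β / n) (v t)) := by
    congr 1
    funext t
    unfold Xh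
    rw [rot_conj_Xr hh, Finset.sum_mul]
    exact Finset.sum_congr rfl fun b _ => Matrix.smul_mul _ _ _
  rw [h1, word_expand (fun (t : Fin n) b => rho4 h b (u t))
    (fun (t : Fin n) b => Xr (β / n) b * Xr (β / n) (v t)), Finset.mul_sum, Matrix.trace_sum,
    Matrix.mul_apply]
  refine Finset.sum_congr rfl fun w _ => ?_
  rw [Matrix.mul_smul, Matrix.trace_smul, smul_eq_mul, Matrix.transpose_apply, rho_apply]
  rfl

theorem ofFn_prod_conj {R k : Type*} [CommRing R] [Fintype k] [DecidableEq k] {n : ℕ}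
    {h h' : Matrix k k R} (hh : h' * h = 1) (hh' : h * h' = 1) (Y : Fin n → Matrix k k R) :
    (List.ofFn fun t => h * Y t * h').prod = h * (List.ofFn Y).prod * h' := by
  induction n with
  | zero => simp [hh']
  | succ n ih =>
    rw [List.ofFn_succ, List.prod_cons, ih, List.ofFn_succ, List.prod_cons]
    calc h * Y 0 * h' * (h * (List.ofFn fun i : Fin n => Y i.succ).prod * h') =
        h * Y 0 * (h' * h) * (List.ofFn fun i : Fin n => Y i.succ).prod * h' := by
          simp only [Matrix.mul_assoc]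
      _ = _ := by rw [hh, Matrix.mul_one]; simp only [Matrix.mul_assoc]

/-- `Kn g` commutes with `rho h` when `g h = h g`. -/
theorem Kn_rho_comm {g h : Matrix (Fin 3) (Fin 3) ℝ} (hh : IsRot h) (hc : g * h = h * g) (β : ℝ)
    (n : ℕ) : Kn g β n * rho h n = rho h n * Kn g β n := by
  -- it suffices that `ρᵀ (K ρ) = K`
  have key : (rho h n)ᵀ * Kn g β n = Kn g β n * (rho h n)ᵀ := by
    rw [← rho_transpose]
    have hT : IsRot hᵀ := ⟨by rw [Matrix.transpose_transpose]; exact hh.orth',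
      by rw [Matrix.transpose_transpose]; exact hh.orth, by rw [Matrix.det_transpose]; exact hh.det⟩
    ext u v
    rw [Kn_mul_rho hT, rho_transpose, rhoT_mul_Kn hh]
    have h2 : (List.ofFn fun t : Fin n => Xh h (β / n) (u t) * Xr (β / n) (v t)) =
        List.ofFn fun t : Fin n => h * (Xr (β / n) (u t) * Xh hᵀ (β / n) (v t)) * hᵀ := by
      congr 1
      funext t
      unfold Xh
      rw [Matrix.transpose_transpose]
      calc h * Xr (β / n) (u t) * hᵀ * Xr (β / n) (v t) =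
          h * Xr (β / n) (u t) * hᵀ * Xr (β / n) (v t) * (h * hᵀ) := by rw [hh.orth, Matrix.mul_one]
        _ = _ := by simp only [Matrix.mul_assoc]
    rw [h2, ofFn_prod_conj hh.orth' hh.orth]
    rw [show g * (h * (List.ofFn fun t : Fin n => Xr (β / n) (u t) * Xh hᵀ (β / n) (v t)).prod * hᵀ)
      = (g * h * (List.ofFn fun t : Fin n => Xr (β / n) (u t) * Xh hᵀ (β / n) (v t)).prod) * hᵀ by
        simp only [Matrix.mul_assoc]]
    rw [Matrix.trace_mul_comm, hc, Matrix.mul_assoc h, ← Matrix.mul_assoc hᵀ, hh.orth',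
      Matrix.one_mul]
  calc Kn g β n * rho h n = (rho h n * (rho h n)ᵀ) * Kn g β n * rho h n := by
        rw [rho_orth hh, Matrix.one_mul]
    _ = rho h n * ((rho h n)ᵀ * Kn g β n) * rho h n := by simp only [Matrix.mul_assoc]
    _ = rho h n * (Kn g β n * (rho h n)ᵀ) * rho h n := by rw [key]
    _ = rho h n * Kn g β n * ((rho h n)ᵀ * rho h n) := by simp only [Matrix.mul_assoc]
    _ = rho h n * Kn g β n := by rw [rho_orth' hh, Matrix.mul_one]

end Hald
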