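import Crest.Agent.Hald.World

/-!
# Row 347: abstract interface for the open chain (S0546)

`ao β M` (M ≥ 2 sites) = normalised trace `Tr e^{-βH} · e^{βMe}` of the open chain with end fields
(h,-h) if `M` is even, (h,h) if `M` is odd (h = 3/5), `om2 = ω²`, `G M = exp(-(E₀ - M e))`.
-/

set_option autoImplicit false

namespace Hald

structure EdgeWorld (w : World) where
  ao : ℝ → ℕ → ℝ
  om2 : ℝ → ℝ
  G : ℕ → ℝ
  om2_nonneg : ∀ β, 0 < β → 0 ≤ om2 β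
  ao_pos : ∀ β, 0 < β → ∀ M, 2 ≤ M → 0 < ao β M
  rem_nonneg : ∀ β, 0 < β → ∀ M, 2 ≤ M → Even M → om2 β * (w.V 0 β) ^ (M - 2) ≤ ao β M
  /-- every eigenvalue `λ²` of `K Kᵀ` except one copy of `V²` lies in the sector A1 (rest), w (or its
  conjugate) or T, hence `λ ≤ q` under the three hypotheses -/
  decay : ∀ β, 0 < β → ∀ q : ℝ, 0 < q →
    (∃ m : ℕ, 1 ≤ m ∧ secA 0 (fun t => w.Z t β m) - (w.V 0 β) ^ (2 * m) ≤ q ^ (2 * m)) →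
    (∃ m : ℕ, 1 ≤ m ∧ secA 1 (fun t => w.Z t β m) ≤ q ^ (2 * m)) →
    (∃ m : ℕ, 1 ≤ m ∧ secA 2 (fun t => w.Z t β m) ≤ q ^ (2 * m)) → ∀ M, 2 ≤ M → Even M →
    ao β (M + 2) - om2 β * (w.V 0 β) ^ M ≤ q ^ 2 * (ao β M - om2 β * (w.V 0 β) ^ (M - 2))
  odd : ∀ β, 0 < β → ∀ M, 3 ≤ M → Odd M →
    |ao β M - om2 β * (w.V 0 β) ^ (M - 2)| ≤
      Real.sqrt ((ao β (M - 1) - om2 β * (w.V 0 β) ^ (M - 3)) *
        (ao β (M + 1) - om2 β * (w.V 0 β) ^ (M - 1)))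
  time : ∀ M, 2 ≤ M → PSTop {β : ℝ | 0 < β} (fun β => β) 1 (fun β => ao β M) (G M)

end Hald
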