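import Crest.Agent.Hald.LinkRing
import Crest.Agent.Hald.EdgeWorld

/-!
# Row 347, M1 (1e): the open chain of the prelude and the gap from the abstract `EdgeWorld`
-/

set_option autoImplicit false
set_option linter.unusedSectionVars false

namespace Hald

open Matrix Finset Crest.MathPhysics.SpinChain

theorem spinOp_conjTranspose (a : Fin 3) : (spinOp a)ᴴ = spinOp a := by
  rw [spinOp_eq, Matrix.conjTranspose_mul, Matrix.conjTranspose_mul,
    Matrix.conjTranspose_conjTranspose, Matrix.conjTranspose_smul, ← Matrix.mul_assoc]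
  congr 2
  have h1 : ((Lr a).map (fun x : ℝ => (x : ℂ)))ᴴ = -(Lr a).map (fun x : ℝ => (x : ℂ)) := by
    have := cplx_conjTranspose (Lr a)
    rw [Lr_transpose] at this
    unfold cplx at this
    rw [this]
    ext i j
    simp
  rw [h1]
  simp

section

variable {ι : Type*} [Fintype ι] [DecidableEq ι]

theorem onSite_conjTranspose (A : Matrix (Fin 3) (Fin 3) ℂ) (j : ι) :
    (onSite A j)ᴴ = onSite Aᴴ j := by
  rw [onSite_eq_site, onSite_eq_site]
  exact site_conjTranspose (κ := fun _ : ι => Fin 3) j A

theorem bond_isHermitian {j k : ι} (hjk : j ≠ k) : (bond j k).IsHermitian := by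
  unfold Matrix.IsHermitian bond
  rw [Matrix.conjTranspose_sum]
  refine Finset.sum_congr rfl fun a _ => ?_
  rw [Matrix.conjTranspose_mul, onSite_conjTranspose, onSite_conjTranspose, spinOp_conjTranspose,
    onSite_eq_site, onSite_eq_site]
  exact site_comm (κ := fun _ : ι => Fin 3) hjk.symm _ _

end

theorem openChainEndField_isHermitian (n : ℕ) (h : ℝ) : (openChainEndField n h).IsHermitian := by
  unfold openChainEndField
  have h1 : (∑ j : Fin n, bond (Fin.castSucc j) (Fin.succ j)).IsHermitian := by
    unfold Matrix.IsHermitian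
    rw [Matrix.conjTranspose_sum]
    exact Finset.sum_congr rfl fun j _ => bond_isHermitian (Fin.castSucc_lt_succ (i := j)).ne
  have h2 : ((h : ℂ) • (onSite spinZ (0 : Fin (n + 1)) + onSite spinZ (Fin.last n))).IsHermitian := by
    unfold Matrix.IsHermitian
    rw [Matrix.conjTranspose_smul, Matrix.conjTranspose_add, onSite_conjTranspose,
      onSite_conjTranspose]
    have hz : spinZᴴ = spinZ := spinOp_conjTranspose 2
    rw [hz]
    simp
  exact h1.sub h2

/-- **(1e)** gap of the open chain from the abstract edge world (`n + 1` sites). -/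
theorem open_gap {w : World} (E : EdgeWorld w) (e : ℝ) {n : ℕ} (hn : 1 ≤ n) {h : ℝ}
    (hao : ∀ β : ℝ, 0 < β → E.ao β (n + 1) =
      (NormedSpace.exp ((-β) • openChainEndField n h)).trace.re * Real.exp (β * ((n + 1) * e)))
    {β c : ℝ} (hβ : 0 < β)
    (hg : E.ao β (n + 1) < (E.G (n + 1)) ^ β * (1 + Real.exp (-(β * c)))) :
    HasSimpleGroundStateWithGap (openChainEndField n h) c := by
  have hB := E.time (n + 1) (by omega)
  refine gap_of_top_hermitian (openChainEndField_isHermitian n h) (fun β => E.ao β (n + 1))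
    ((n + 1) * e) (E.G (n + 1)) hB.t_nonneg hao ?_ hβ hg
  intro b hb
  have : 0 ≤ E.ao b (n + 1) - (E.G (n + 1)) ^ b := hB.rem.nonneg b hb
  linarith

end Hald
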