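import Mathlib

/-!
# Row 347, module M2 (2c), (2d): Lie–Trotter product formula

* `tendsto_pow_exp`: if `f 0 = 1` and `f` has derivative `A` at `0` then
  `f (β / n) ^ n → exp (β • A)` in any real Banach algebra.
* `tendsto_pow_exp_of_seq`: the same for a sequence `A n` with
  `n * ‖A n - (1 + (β / n) • N)‖ → 0`; `tendsto_pow_exp_of_bound`: with `≤ C / n ^ 2`.
* `hasDerivAt_list_prod`: products of factors `f_i` with `f_i 0 = 1`.
* matrix versions (product topology on matrices, real or complex entries):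
  `matrix_tendsto_pow_exp`, `matrix_tendsto_pow_exp_of_deriv`, traces and matrix elements.
-/

set_option autoImplicit false
open Filter Topology

namespace Hald

section Banach

variable {𝔸 : Type*} [NormedRing 𝔸] [NormOneClass 𝔸]

theorem norm_pow_sub_pow_le' {a b : 𝔸} {M : ℝ} (hM : 1 ≤ M) (ha : ‖a‖ ≤ M) (hb : ‖b‖ ≤ M)
    (n : ℕ) : ‖a ^ n - b ^ n‖ ≤ n * M ^ n * ‖a - b‖ := by
  have hM0 : 0 ≤ M := le_trans zero_le_one hM
  induction n with
  | zero => simp
  | succ n ih =>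
    have h1 : a ^ (n + 1) - b ^ (n + 1) = a * (a ^ n - b ^ n) + (a - b) * b ^ n := by
      rw [pow_succ' a, pow_succ' b]; noncomm_ring
    have hbn : ‖b ^ n‖ ≤ M ^ n := (norm_pow_le b n).trans (pow_le_pow_left₀ (norm_nonneg _) hb n)
    calc ‖a ^ (n + 1) - b ^ (n + 1)‖ = ‖a * (a ^ n - b ^ n) + (a - b) * b ^ n‖ := by rw [h1]
      _ ≤ ‖a‖ * ‖a ^ n - b ^ n‖ + ‖a - b‖ * ‖b ^ n‖ :=
          (norm_add_le _ _).trans (add_le_add (norm_mul_le _ _) (norm_mul_le _ _))
      _ ≤ M * (n * M ^ n * ‖a - b‖) + ‖a - b‖ * M ^ n := by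
          gcongr
      _ ≤ ((n + 1 : ℕ) : ℝ) * M ^ (n + 1) * ‖a - b‖ := by
          have : ‖a - b‖ * M ^ n ≤ ‖a - b‖ * M ^ (n + 1) :=
            mul_le_mul_of_nonneg_left (pow_le_pow_right₀ hM (Nat.le_succ n)) (norm_nonneg _)
          have e1 : M * (n * M ^ n * ‖a - b‖) = n * (M ^ (n + 1) * ‖a - b‖) := by ring
          rw [e1]
          push_cast
          linarith [this, mul_comm (‖a - b‖) (M ^ (n + 1)),
            (by ring : ((n : ℝ) + 1) * M ^ (n + 1) * ‖a - b‖ =
              n * (M ^ (n + 1) * ‖a - b‖) + M ^ (n + 1) * ‖a - b‖)]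

variable [NormedAlgebra ℝ 𝔸] [CompleteSpace 𝔸]

/-- Sequence form of the Lie–Trotter formula: `A n = 1 + (β / n) N + o(1/n)`. -/
theorem tendsto_pow_exp_of_seq {A : ℕ → 𝔸} {N : 𝔸} {β : ℝ}
    (hA : Tendsto (fun n : ℕ => (n : ℝ) * ‖A n - (1 + (β / n) • N)‖) atTop (𝓝 0)) :
    Tendsto (fun n : ℕ => A n ^ n) atTop (𝓝 (NormedSpace.exp (β • N))) := by
  -- comparison with the exact exponential
  have hg : HasDerivAt (fun t : ℝ => NormedSpace.exp (t • N)) N 0 := by
    simpa using (hasDerivAt_exp_smul_const (𝕂 := ℝ) N (0 : ℝ))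
  have ho : (fun t : ℝ => NormedSpace.exp (t • N) - (1 + t • N)) =o[𝓝 0] (fun t : ℝ => t) := by
    have := hg.isLittleO
    simp only [zero_smul, NormedSpace.exp_zero, sub_zero] at this
    refine this.congr_left fun t => by abel
  have hlim : Tendsto (fun n : ℕ => β / (n : ℝ)) atTop (𝓝 0) :=
    tendsto_const_div_atTop_nhds_zero_nat β
  -- `n * ‖exp (β/n N) - (1 + β/n N)‖ → 0`
  have hE : Tendsto (fun n : ℕ => (n : ℝ) *
      ‖NormedSpace.exp ((β / (n : ℝ)) • N) - (1 + (β / n) • N)‖) atTop (𝓝 0) := by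
    rw [Metric.tendsto_atTop]
    intro ε hε
    have hε' : 0 < ε / (2 * (|β| + 1)) := by positivity
    have h7 := (hlim.eventually (ho.bound hε')).and (eventually_gt_atTop 0)
    obtain ⟨N0, hN⟩ := eventually_atTop.1 h7
    refine ⟨N0, fun n hn => ?_⟩
    obtain ⟨h8, h9⟩ := hN n hn
    have hn' : (0 : ℝ) < n := by exact_mod_cast h9
    rw [Real.dist_eq, sub_zero, abs_of_nonneg (by positivity)]
    calc (n : ℝ) * ‖NormedSpace.exp ((β / (n : ℝ)) • N) - (1 + (β / (n : ℝ)) • N)‖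
        ≤ n * (ε / (2 * (|β| + 1)) * ‖β / (n : ℝ)‖) := by gcongr
      _ = ε * (|β| / (2 * (|β| + 1))) := by
          rw [Real.norm_eq_abs, abs_div, abs_of_pos hn']
          field_simp
      _ ≤ ε * (1 / 2) := by
          refine mul_le_mul_of_nonneg_left ?_ hε.le
          rw [div_le_div_iff₀ (by positivity) (by norm_num)]
          linarith [abs_nonneg β]
      _ < ε := by linarith
  have hAE : Tendsto (fun n : ℕ => (n : ℝ) *
      ‖A n - NormedSpace.exp ((β / (n : ℝ)) • N)‖) atTop (𝓝 0) := by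
    have h2 := hA.add hE
    rw [add_zero] at h2
    refine squeeze_zero (fun n => by positivity) (fun n => ?_) h2
    rw [← mul_add]
    refine mul_le_mul_of_nonneg_left ?_ (Nat.cast_nonneg n)
    have : A n - NormedSpace.exp ((β / (n : ℝ)) • N) =
        (A n - (1 + (β / (n : ℝ)) • N)) -
          (NormedSpace.exp ((β / (n : ℝ)) • N) - (1 + (β / (n : ℝ)) • N)) := by abel
    rw [this]
    exact norm_sub_le _ _
  -- norm bounds
  set C : ℝ := ‖N‖ * |β| + 1 with hC
  have hC0 : 0 < C := by positivity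
  have hb : ∀ {B : ℕ → 𝔸}, Tendsto (fun n : ℕ => (n : ℝ) * ‖B n - (1 + (β / n) • N)‖) atTop (𝓝 0) →
      ∀ᶠ n : ℕ in atTop, ‖B n‖ ≤ 1 + C / n := by
    intro B hB
    have h1 := (hB.eventually (gt_mem_nhds one_pos)).and (eventually_gt_atTop 0)
    filter_upwards [h1] with n hn
    obtain ⟨hn1, hn2⟩ := hn
    have hn' : (0 : ℝ) < n := by exact_mod_cast hn2
    have h3 : B n = (1 + (β / (n : ℝ)) • N) + (B n - (1 + (β / (n : ℝ)) • N)) := by abel
    have h4 : ‖B n - (1 + (β / (n : ℝ)) • N)‖ ≤ 1 / n := by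
      rw [le_div_iff₀ hn', mul_comm]; exact hn1.le
    calc ‖B n‖ = ‖(1 + (β / (n : ℝ)) • N) + (B n - (1 + (β / (n : ℝ)) • N))‖ := by rw [← h3]
      _ ≤ ‖(1 : 𝔸)‖ + ‖(β / (n : ℝ)) • N‖ + ‖B n - (1 + (β / (n : ℝ)) • N)‖ := norm_add₃_le
      _ ≤ 1 + |β| / n * ‖N‖ + 1 / n := by
          gcongr
          · exact norm_one.le
          · refine (norm_smul_le _ _).trans ?_
            rw [Real.norm_eq_abs, abs_div, abs_of_pos hn']
      _ = 1 + C / n := by rw [hC]; field_simp; ring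
  have hE0 : Tendsto (fun n : ℕ => (n : ℝ) *
      ‖(fun n : ℕ => NormedSpace.exp ((β / (n : ℝ)) • N)) n - (1 + (β / n) • N)‖) atTop (𝓝 0) := hE
  have hfb := hb hA
  have hgb := hb hE0
  have hmain : Tendsto (fun n : ℕ => A n ^ n - NormedSpace.exp ((β / (n : ℝ)) • N) ^ n) atTop
      (𝓝 0) := by
    rw [tendsto_zero_iff_norm_tendsto_zero]
    have hbound : ∀ᶠ n : ℕ in atTop,
        ‖A n ^ n - NormedSpace.exp ((β / (n : ℝ)) • N) ^ n‖ ≤
          Real.exp C * ((n : ℝ) * ‖A n - NormedSpace.exp ((β / (n : ℝ)) • N)‖) := by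
      filter_upwards [hfb, hgb, eventually_gt_atTop 0] with n h1 h2 hn
      have hn' : (0 : ℝ) < n := by exact_mod_cast hn
      have hM : (1 : ℝ) ≤ 1 + C / n := by
        have : 0 ≤ C / (n : ℝ) := by positivity
        linarith
      have h3 := norm_pow_sub_pow_le' hM h1 h2 n
      have h4 : (1 + C / n) ^ n ≤ Real.exp C := by
        have h5 : 1 + C / (n : ℝ) ≤ Real.exp (C / n) := by
          have := Real.add_one_le_exp (C / (n : ℝ))
          linarith
        calc (1 + C / (n : ℝ)) ^ n ≤ (Real.exp (C / n)) ^ n :=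
              pow_le_pow_left₀ (by linarith) h5 n
          _ = Real.exp C := by
              rw [← Real.exp_nat_mul]
              congr 1
              field_simp
      calc ‖A n ^ n - NormedSpace.exp ((β / (n : ℝ)) • N) ^ n‖
          ≤ n * (1 + C / n) ^ n * ‖A n - NormedSpace.exp ((β / (n : ℝ)) • N)‖ := h3
        _ ≤ n * Real.exp C * ‖A n - NormedSpace.exp ((β / (n : ℝ)) • N)‖ := by
            gcongr
        _ = _ := by ring
    have hz := hAE.const_mul (Real.exp C)
    rw [mul_zero] at hz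
    exact squeeze_zero' (Eventually.of_forall fun n => norm_nonneg _) hbound hz
  have hexp : (fun n : ℕ => NormedSpace.exp ((β / (n : ℝ)) • N) ^ n) =ᶠ[atTop]
      fun _ => NormedSpace.exp (β • N) := by
    filter_upwards [eventually_gt_atTop 0] with n hn
    have hn' : (n : ℝ) ≠ 0 := by exact_mod_cast hn.ne'
    let _ : NormedAlgebra ℚ 𝔸 := NormedAlgebra.restrictScalars ℚ ℝ 𝔸
    rw [← NormedSpace.exp_nsmul]
    congr 1
    rw [← Nat.cast_smul_eq_nsmul ℝ, smul_smul]
    congr 1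
    field_simp
  have := hmain.add (tendsto_const_nhds.congr' hexp.symm)
  simpa using this

/-- (2c): error bound `C / n ^ 2`. -/
theorem tendsto_pow_exp_of_bound {A : ℕ → 𝔸} {N : 𝔸} {β C : ℝ}
    (hA : ∀ᶠ n : ℕ in atTop, ‖A n - (1 + (β / n) • N)‖ ≤ C / (n : ℝ) ^ 2) :
    Tendsto (fun n : ℕ => A n ^ n) atTop (𝓝 (NormedSpace.exp (β • N))) := by
  apply tendsto_pow_exp_of_seq
  have h1 : Tendsto (fun n : ℕ => C / (n : ℝ)) atTop (𝓝 0) :=
    tendsto_const_div_atTop_nhds_zero_nat C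
  refine squeeze_zero' (Eventually.of_forall fun n => by positivity) ?_ h1
  filter_upwards [hA, eventually_gt_atTop 0] with n hn hn0
  have hn' : (0 : ℝ) < n := by exact_mod_cast hn0
  calc (n : ℝ) * ‖A n - (1 + (β / n) • N)‖ ≤ n * (C / (n : ℝ) ^ 2) := by gcongr
    _ = C / n := by field_simp

/-- Derivative form of the Lie–Trotter formula. -/
theorem tendsto_pow_exp {f : ℝ → 𝔸} {A : 𝔸} (h0 : f 0 = 1) (hf : HasDerivAt f A 0) (β : ℝ) :
    Tendsto (fun n : ℕ => f (β / n) ^ n) atTop (𝓝 (NormedSpace.exp (β • A))) := by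
  apply tendsto_pow_exp_of_seq
  have ho : (fun t : ℝ => f t - (1 + t • A)) =o[𝓝 0] (fun t : ℝ => t) := by
    have := hf.isLittleO
    simp only [h0, sub_zero] at this
    refine this.congr_left fun t => by abel
  have hlim : Tendsto (fun n : ℕ => β / (n : ℝ)) atTop (𝓝 0) :=
    tendsto_const_div_atTop_nhds_zero_nat β
  rw [Metric.tendsto_atTop]
  intro ε hε
  have hε' : 0 < ε / (2 * (|β| + 1)) := by positivity
  have h7 := (hlim.eventually (ho.bound hε')).and (eventually_gt_atTop 0)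
  obtain ⟨N0, hN⟩ := eventually_atTop.1 h7
  refine ⟨N0, fun n hn => ?_⟩
  obtain ⟨h8, h9⟩ := hN n hn
  have hn' : (0 : ℝ) < n := by exact_mod_cast h9
  rw [Real.dist_eq, sub_zero, abs_of_nonneg (by positivity)]
  calc (n : ℝ) * ‖f (β / (n : ℝ)) - (1 + (β / (n : ℝ)) • A)‖
      ≤ n * (ε / (2 * (|β| + 1)) * ‖β / (n : ℝ)‖) := by gcongr
    _ = ε * (|β| / (2 * (|β| + 1))) := by
        rw [Real.norm_eq_abs, abs_div, abs_of_pos hn']
        field_simp
    _ ≤ ε * (1 / 2) := by
        refine mul_le_mul_of_nonneg_left ?_ hε.le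
        rw [div_le_div_iff₀ (by positivity) (by norm_num)]
        linarith [abs_nonneg β]
    _ < ε := by linarith

omit [NormOneClass 𝔸] [CompleteSpace 𝔸] in
/-- Products of factors that are `1` at `0`: the derivative at `0` is the sum of the derivatives. -/
theorem hasDerivAt_list_prod (l : List ((ℝ → 𝔸) × 𝔸))
    (h : ∀ p ∈ l, p.1 0 = 1 ∧ HasDerivAt p.1 p.2 0) :
    (fun t : ℝ => (l.map fun p => p.1 t).prod) 0 = 1 ∧
      HasDerivAt (fun t : ℝ => (l.map fun p => p.1 t).prod) (l.map fun p => p.2).sum 0 := by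
  induction l with
  | nil => exact ⟨by simp, by simpa using hasDerivAt_const (0 : ℝ) (1 : 𝔸)⟩
  | cons a l ih =>
    obtain ⟨ih0, ih1⟩ := ih fun p hp => h p (List.mem_cons_of_mem _ hp)
    obtain ⟨h0, h1⟩ := h a List.mem_cons_self
    refine ⟨?_, ?_⟩
    · simp only [List.map_cons, List.prod_cons, h0, one_mul]
      exact ih0
    · have h2 := h1.fun_mul ih1
      simp only [h0, one_mul] at h2
      have ih0' : (l.map fun p => p.1 0).prod = 1 := ih0
      rw [ih0', mul_one] at h2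
      simpa using h2

omit [NormOneClass 𝔸] [CompleteSpace 𝔸] in
theorem hasDerivAt_one_add_smul (h : 𝔸) : HasDerivAt (fun t : ℝ => 1 + t • h) h 0 := by
  have := (hasDerivAt_id (0 : ℝ)).smul_const h
  simpa using this.const_add (1 : 𝔸)

omit [NormOneClass 𝔸] in
theorem hasDerivAt_exp_smul_zero (h : 𝔸) :
    HasDerivAt (fun t : ℝ => NormedSpace.exp (t • h)) h 0 := by
  simpa using (hasDerivAt_exp_smul_const (𝕂 := ℝ) h (0 : ℝ))

/-- Lie–Trotter product formula for a list of generators. -/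
theorem tendsto_list_prod_pow_exp {l : List 𝔸} (β : ℝ) :
    Tendsto (fun n : ℕ => ((l.map fun h => 1 + (β / n) • h).prod) ^ n) atTop
      (𝓝 (NormedSpace.exp (β • l.sum))) := by
  have key := hasDerivAt_list_prod (l.map fun h => ((fun t : ℝ => 1 + t • h), h))
    (by
      intro p hp
      rw [List.mem_map] at hp
      obtain ⟨h, -, rfl⟩ := hp
      exact ⟨by simp, hasDerivAt_one_add_smul h⟩)
  have := tendsto_pow_exp key.1 key.2 β
  simpa [List.map_map, Function.comp_def] using this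

/-- Lie–Trotter product formula for general factors `f_i` with `f_i 0 = 1`, `f_i' 0 = A_i`. -/
theorem tendsto_list_prod_pow_exp' (l : List ((ℝ → 𝔸) × 𝔸))
    (h : ∀ p ∈ l, p.1 0 = 1 ∧ HasDerivAt p.1 p.2 0) (β : ℝ) :
    Tendsto (fun n : ℕ => ((l.map fun p => p.1 (β / n)).prod) ^ n) atTop
      (𝓝 (NormedSpace.exp (β • (l.map fun p => p.2).sum))) :=
  tendsto_pow_exp (hasDerivAt_list_prod l h).1 (hasDerivAt_list_prod l h).2 β

end Banach

section Matrix

open Matrix

variable {𝕜 κ : Type*} [RCLike 𝕜] [Fintype κ] [DecidableEq κ] [Nonempty κ]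

section

attribute [local instance] Matrix.linftyOpNormedRing Matrix.linftyOpNormedAlgebra

/-- Derivative form of the Lie–Trotter formula for matrices with real or complex entries
(product topology; `HasDerivAt` can be checked entrywise, see `hasDerivAt_matrix`). -/
theorem matrix_tendsto_pow_exp_of_deriv {f : ℝ → Matrix κ κ 𝕜} {A : Matrix κ κ 𝕜} (h0 : f 0 = 1)
    (hf : HasDerivAt f A 0) (β : ℝ) :
    Tendsto (fun n : ℕ => f (β / n) ^ n) atTop (𝓝 (NormedSpace.exp (β • A))) :=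
  tendsto_pow_exp (𝔸 := Matrix κ κ 𝕜) h0 hf β

/-- Lie–Trotter product formula for matrices (product topology): list of generators. -/
theorem matrix_tendsto_pow_exp (l : List (Matrix κ κ 𝕜)) (β : ℝ) :
    Tendsto (fun n : ℕ => ((l.map fun h => 1 + (β / n) • h).prod) ^ n) atTop
      (𝓝 (NormedSpace.exp (β • l.sum))) :=
  tendsto_list_prod_pow_exp (𝔸 := Matrix κ κ 𝕜) β

/-- Lie–Trotter product formula for matrices: general factors `f_i` with `f_i 0 = 1`. -/
theorem matrix_tendsto_pow_exp' (l : List ((ℝ → Matrix κ κ 𝕜) × Matrix κ κ 𝕜))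
    (h : ∀ p ∈ l, p.1 0 = 1 ∧ HasDerivAt p.1 p.2 0) (β : ℝ) :
    Tendsto (fun n : ℕ => ((l.map fun p => p.1 (β / n)).prod) ^ n) atTop
      (𝓝 (NormedSpace.exp (β • (l.map fun p => p.2).sum))) :=
  tendsto_list_prod_pow_exp' (𝔸 := Matrix κ κ 𝕜) l h β

omit [Nonempty κ] in
theorem matrix_hasDerivAt_one_add_smul (h : Matrix κ κ 𝕜) :
    HasDerivAt (fun t : ℝ => 1 + t • h) h 0 :=
  hasDerivAt_one_add_smul (𝔸 := Matrix κ κ 𝕜) h

omit [Nonempty κ] in
theorem matrix_hasDerivAt_exp_smul_zero (h : Matrix κ κ 𝕜) :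
    HasDerivAt (fun t : ℝ => NormedSpace.exp (t • h)) h 0 :=
  hasDerivAt_exp_smul_zero (𝔸 := Matrix κ κ 𝕜) h

end

omit [Nonempty κ] [DecidableEq κ] in
/-- Derivatives of matrix valued functions are computed entrywise. -/
theorem hasDerivAt_matrix {f : ℝ → Matrix κ κ 𝕜} {A : Matrix κ κ 𝕜} {x : ℝ} :
    HasDerivAt f A x ↔ ∀ i j, HasDerivAt (fun t => f t i j) (A i j) x := by
  have h1 : HasDerivAt f A x ↔ ∀ i, HasDerivAt (fun t => f t i) (A i) x := hasDerivAt_pi
  rw [h1]
  exact forall_congr' fun i => hasDerivAt_pi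

/-- Traces against a fixed matrix converge along the Trotter products. -/
theorem matrix_tendsto_trace_mul_pow (U : Matrix κ κ 𝕜) (l : List (Matrix κ κ 𝕜)) (β : ℝ) :
    Tendsto (fun n : ℕ => (U * ((l.map fun h => 1 + (β / n) • h).prod) ^ n).trace) atTop
      (𝓝 (U * NormedSpace.exp (β • l.sum)).trace) := by
  have h := matrix_tendsto_pow_exp l β
  have hc : Continuous fun A : Matrix κ κ 𝕜 => (U * A).trace :=
    (continuous_const.matrix_mul continuous_id).matrix_trace
  exact (hc.tendsto _).comp h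

theorem matrix_tendsto_trace_mul_pow' (U : Matrix κ κ 𝕜)
    (l : List ((ℝ → Matrix κ κ 𝕜) × Matrix κ κ 𝕜))
    (h : ∀ p ∈ l, p.1 0 = 1 ∧ HasDerivAt p.1 p.2 0) (β : ℝ) :
    Tendsto (fun n : ℕ => (U * ((l.map fun p => p.1 (β / n)).prod) ^ n).trace) atTop
      (𝓝 (U * NormedSpace.exp (β • (l.map fun p => p.2).sum)).trace) := by
  have h := matrix_tendsto_pow_exp' l h β
  have hc : Continuous fun A : Matrix κ κ 𝕜 => (U * A).trace :=
    (continuous_const.matrix_mul continuous_id).matrix_trace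
  exact (hc.tendsto _).comp h

/-- Matrix elements `v ⬝ᵥ (A *ᵥ w)` converge along the Trotter products. -/
theorem matrix_tendsto_dot_pow (v w : κ → 𝕜) (l : List (Matrix κ κ 𝕜)) (β : ℝ) :
    Tendsto (fun n : ℕ => v ⬝ᵥ (((l.map fun h => 1 + (β / n) • h).prod) ^ n) *ᵥ w) atTop
      (𝓝 (v ⬝ᵥ (NormedSpace.exp (β • l.sum)) *ᵥ w)) := by
  have h := matrix_tendsto_pow_exp l β
  have hc : Continuous fun A : Matrix κ κ 𝕜 => v ⬝ᵥ A *ᵥ w :=
    continuous_const.dotProduct (continuous_id.matrix_mulVec continuous_const)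
  exact (hc.tendsto _).comp h

end Matrix

end Hald
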