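import Crest.Agent.Hald.ChainExpand
import Crest.Agent.Hald.Letters
import Crest.Agent.Hald.Trotter
import Crest.Agent.Hald.LinkOpen

/-!
# Row 347, M5 (5a): open chains with end fields and spin-½ ends (definitions)

Sites `i : Fin (K+1)` with local dimensions `Fin (d i)`, `d i ∈ {2,3}`; `finPiFinEquiv` numbers the
configurations in mixed radix.
-/

set_option autoImplicit false
set_option linter.unusedSectionVars false

namespace Hald

open Matrix Finset Crest.MathPhysics.SpinChain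

/-- spin-½ operators `σ_a / 2` -/
noncomputable def sHalf : Fin 3 → Matrix (Fin 2) (Fin 2) ℂ :=
  ![!![0, 1 / 2; 1 / 2, 0], !![0, -Complex.I / 2; Complex.I / 2, 0], !![1 / 2, 0; 0, -1 / 2]]

/-- spin operators by local dimension: `2 ↦` spin ½, `3 ↦` spin 1 (prelude basis) -/
noncomputable def Sp : (d : ℕ) → Fin 3 → Matrix (Fin d) (Fin d) ℂ
  | 2, a => sHalf a
  | 3, a => spinOp a
  | 0, _ => 0
  | 1, _ => 0
  | (_ + 4), _ => 0

/-- Hamiltonian of the open chain with local dimensions `d` and end fields `h0, h1`. -/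
noncomputable def Hch (K : ℕ) (d : Fin (K + 1) → ℕ) (h0 h1 : ℝ) :
    Matrix (∀ i, Fin (d i)) (∀ i, Fin (d i)) ℂ :=
  (∑ b : Fin K, ∑ a : Fin 3, site (κ := fun i => Fin (d i)) b.castSucc (Sp (d b.castSucc) a) *
      site (κ := fun i => Fin (d i)) b.succ (Sp (d b.succ) a)) -
    ((h0 : ℂ) • site (κ := fun i => Fin (d i)) 0 (Sp (d 0) 2) +
      (h1 : ℂ) • site (κ := fun i => Fin (d i)) (Fin.last K) (Sp (d (Fin.last K)) 2))

/-- local dimensions of a chain with ends `dl, dr` and `M` spins 1 in between -/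
def chD (dl dr M : ℕ) : Fin (M + 2) → ℕ :=
  fun i => if i = 0 then dl else if i = Fin.last (M + 1) then dr else 3

theorem chD_zero (dl dr M : ℕ) : chD dl dr M 0 = dl := by simp [chD]
theorem chD_last (dl dr M : ℕ) : chD dl dr M (Fin.last (M + 1)) = dr := by
  unfold chD
  rw [if_neg (by simp [Fin.ext_iff]), if_pos rfl]
theorem chD_mid (dl dr M : ℕ) (i : Fin M) : chD dl dr M i.castSucc.succ = 3 := by
  unfold chD
  rw [if_neg (Fin.succ_ne_zero _), if_neg]
  intro h
  have := congrArg Fin.val h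
  simp at this
  omega
theorem chD_three (M : ℕ) : chD 3 3 M = fun _ => 3 := by
  funext i; unfold chD; split_ifs <;> rfl

/-- unnormalised (twisted) partition function of a chain: `Tr (⊗ Gt(d i) · e^{-βH})` -/
noncomputable def Zch (Gt : (d : ℕ) → Matrix (Fin d) (Fin d) ℂ) (K : ℕ) (d : Fin (K + 1) → ℕ)
    (h0 h1 β : ℝ) : ℂ :=
  Matrix.trace (tens (κ := fun i => Fin (d i)) (fun i => Gt (d i)) *
    NormedSpace.exp ((-β) • Hch K d h0 h1))

/-- no twist -/
noncomputable def G1 (d : ℕ) : Matrix (Fin d) (Fin d) ℂ := 1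

/-- rotation by `π` about the `z` axis: `diag(-i, i)` (spin ½), `diag(-1, 1, -1)` (spin 1) -/
noncomputable def Gz : (d : ℕ) → Matrix (Fin d) (Fin d) ℂ
  | 2 => !![-Complex.I, 0; 0, Complex.I]
  | 3 => !![-1, 0, 0; 0, 1, 0; 0, 0, -1]
  | 0 => 1
  | 1 => 1
  | (_ + 4) => 1

/-- complex letters `1, √τ (-i) S_a` -/
noncomputable def Xc (d : ℕ) (τ : ℝ) : Fin 4 → Matrix (Fin d) (Fin d) ℂ :=
  letters ((Real.sqrt τ : ℝ) : ℂ) (fun a => (-Complex.I) • Sp d a)

/-- boundary vector of a chain: end spin of dimension `d`, field `h`, twist `Gt` -/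
noncomputable def wv (Gt : (d : ℕ) → Matrix (Fin d) (Fin d) ℂ) (d : ℕ) (h β : ℝ) (n : ℕ) :
    Om n → ℂ :=
  bdryVec n (Gt d) (fun w => Xc d (β / n) w * NormedSpace.exp ((β / n) • ((h : ℂ) • Sp d 2)))

/-! ### basic facts -/

theorem Sp_conjTranspose (d : ℕ) (a : Fin 3) : (Sp d a)ᴴ = Sp d a := by
  match d with
  | 0 => simp [Sp]
  | 1 => simp [Sp]
  | 2 =>
    show (sHalf a)ᴴ = sHalf a
    fin_cases a <;> ext i j <;> fin_cases i <;> fin_cases j <;> simp [sHalf, neg_div]
  | 3 => exact spinOp_conjTranspose a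
  | (n + 4) => simp [Sp]

theorem Hch_isHermitian (K : ℕ) (d : Fin (K + 1) → ℕ) (h0 h1 : ℝ) : (Hch K d h0 h1).IsHermitian := by
  unfold Matrix.IsHermitian Hch
  rw [Matrix.conjTranspose_sub, Matrix.conjTranspose_sum, Matrix.conjTranspose_add,
    Matrix.conjTranspose_smul, Matrix.conjTranspose_smul, site_conjTranspose, site_conjTranspose,
    Sp_conjTranspose, Sp_conjTranspose]
  have hh : ∀ h : ℝ, star (h : ℂ) = h := fun h => Complex.conj_ofReal h
  rw [hh, hh]
  congr 1
  refine Finset.sum_congr rfl fun b _ => ?_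
  rw [Matrix.conjTranspose_sum]
  refine Finset.sum_congr rfl fun a _ => ?_
  rw [Matrix.conjTranspose_mul, site_conjTranspose, site_conjTranspose, Sp_conjTranspose,
    Sp_conjTranspose]
  exact site_comm (Fin.castSucc_lt_succ (i := b)).ne' _ _

/-- the prelude chain -/
theorem openChainEndField_eq (n : ℕ) (h : ℝ) :
    openChainEndField n h = Hch n (fun _ => 3) h h := by
  unfold openChainEndField Hch bond
  rw [smul_add]
  simp only [onSite_eq_site]
  rfl

end Hald
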