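import Mathlib

/-!
# Row 347, M5 (5f): limit of the open chain moments (pure analysis)
-/

set_option autoImplicit false

namespace Hald

open Filter Topology Finset

private theorem edge_cs {J : Type*} (F : Finset J) (u w κ : J → ℝ) (hu : ∀ j, |u j| ≤ w j) (k : ℕ) :
    |∑ j ∈ F, u j * κ j ^ (2 * k + 1)| ≤
      Real.sqrt ((∑ j ∈ F, w j * κ j ^ (2 * k)) * (∑ j ∈ F, w j * κ j ^ (2 * k + 2))) := by
  have hw : ∀ j, 0 ≤ w j := fun j => (abs_nonneg _).trans (hu j)
  have h1 : |∑ j ∈ F, u j * κ j ^ (2 * k + 1)| ≤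
      ∑ j ∈ F, (Real.sqrt (w j) * |κ j| ^ k) * (Real.sqrt (w j) * |κ j| ^ (k + 1)) := by
    refine (Finset.abs_sum_le_sum_abs _ _).trans (Finset.sum_le_sum fun j _ => ?_)
    rw [abs_mul, abs_pow]
    calc |u j| * |κ j| ^ (2 * k + 1) ≤ w j * |κ j| ^ (2 * k + 1) := by gcongr; exact hu j
      _ = (Real.sqrt (w j) * Real.sqrt (w j)) * (|κ j| ^ k * |κ j| ^ (k + 1)) := by
          rw [Real.mul_self_sqrt (hw j), ← pow_add]
          congr 2
          ring
      _ = _ := by ring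
  refine h1.trans ?_
  apply Real.le_sqrt_of_sq_le
  refine (Finset.sum_mul_sq_le_sq_mul_sq F _ _).trans (le_of_eq ?_)
  congr 1
  · refine Finset.sum_congr rfl fun j _ => ?_
    rw [mul_pow, Real.sq_sqrt (hw j), ← pow_mul, mul_comm k 2, pow_mul |κ j| 2 k, sq_abs, ← pow_mul]
  · refine Finset.sum_congr rfl fun j _ => ?_
    have e : 2 * k + 2 = 2 * (k + 1) := by ring
    rw [mul_pow, Real.sq_sqrt (hw j), ← pow_mul, mul_comm (k + 1) 2, pow_mul |κ j| 2 (k + 1), sq_abs,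
      ← pow_mul, e]

private theorem edge_decay {J : Type*} (F : Finset J) (w κ : J → ℝ) (hw : ∀ j, 0 ≤ w j) {q : ℝ}
    (hq : ∀ j ∈ F, |κ j| ≤ q) {M : ℕ} (hM : Even M) :
    ∑ j ∈ F, w j * κ j ^ (M + 2) ≤ q ^ 2 * ∑ j ∈ F, w j * κ j ^ M := by
  rw [Finset.mul_sum]
  refine Finset.sum_le_sum fun j hj => ?_
  have h1 : κ j ^ 2 ≤ q ^ 2 := by
    rw [← sq_abs (κ j)]
    exact pow_le_pow_left₀ (abs_nonneg _) (hq j hj) 2
  have h2 : 0 ≤ κ j ^ M := hM.pow_nonneg _
  calc w j * κ j ^ (M + 2) = (w j * κ j ^ M) * κ j ^ 2 := by ring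
    _ ≤ (w j * κ j ^ M) * q ^ 2 := by
        apply mul_le_mul_of_nonneg_left h1
        exact mul_nonneg (hw j) h2
    _ = _ := by ring

private theorem edge_case2 {J : ℕ → Type*} [∀ n, Fintype (J n)] (κ r s : ∀ n, J n → ℝ)
    (hr : ∀ n j, 0 ≤ r n j) (hs : ∀ n j, 0 ≤ s n j) {v : ℕ → ℝ} {V : ℝ}
    (hv : Tendsto v atTop (𝓝 V)) {e : ℕ → ℝ}
    (he : ∀ M, Even M → Tendsto (fun n => ∑ j, (r n j + s n j) * κ n j ^ M) atTop (𝓝 (e M)))
    (ho : ∀ M, Odd M → Tendsto (fun n => ∑ j, (r n j - s n j) * κ n j ^ M) atTop (𝓝 (e M)))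
    (hpos : ∀ M, 0 < e M)
    (Q : ℝ → Prop)
    (hiso : ∀ q, 0 < q → Q q → ∀ q', q < q' → q' < V → ∀ᶠ n in atTop, ∀ j, q' < |κ n j| →
      |κ n j| = v n ∧ s n j = 0 ∧ ∀ k, q' < |κ n k| → k = j)
    {q₀ : ℝ} (hq₀ : 0 < q₀) (hq₀V : q₀ < V) (hQ : Q q₀) :
    ∃ c : ℝ, 0 ≤ c ∧ (∀ M, Even M → c * V ^ M ≤ e M) ∧
      (∀ q, 0 < q → Q q → ∀ M, Even M →
        e (M + 2) - c * V ^ (M + 2) ≤ q ^ 2 * (e M - c * V ^ M)) ∧
      (∀ M, Odd M → |e M - c * V ^ M| ≤
        Real.sqrt ((e (M - 1) - c * V ^ (M - 1)) * (e (M + 1) - c * V ^ (M + 1)))) := by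
  classical
  set μ := (q₀ + V) / 2 with hμ
  have hμ0 : 0 < μ := by linarith
  have hμ1 : q₀ < μ := by linarith
  have hμ2 : μ < V := by linarith
  let F : ∀ n, Finset (J n) := fun n => univ.filter (fun j => |κ n j| ≤ μ)
  let T : ∀ n, Finset (J n) := fun n => univ.filter (fun j => ¬ |κ n j| ≤ μ)
  have hsplit : ∀ n (g : J n → ℝ), ∑ j, g j = ∑ j ∈ F n, g j + ∑ j ∈ T n, g j := fun n g =>
    (Finset.sum_filter_add_sum_filter_not univ (fun j => |κ n j| ≤ μ) g).symm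
  have hF : ∀ n, ∀ j ∈ F n, |κ n j| ≤ μ := fun n j hj => (Finset.mem_filter.mp hj).2
  have hT : ∀ n, ∀ j ∈ T n, μ < |κ n j| := fun n j hj => not_le.mp (Finset.mem_filter.mp hj).2
  let c : ℕ → ℝ := fun n => ∑ j ∈ T n, r n j
  let S : ℕ → Prop := fun n => ∃ j ∈ T n, κ n j < 0
  have hev := hiso q₀ hq₀ hQ μ hμ1 hμ2
  -- identities
  have hE : ∀ᶠ n in atTop, ∀ M, Even M →
      ∑ j, (r n j + s n j) * κ n j ^ M = c n * v n ^ M + ∑ j ∈ F n, (r n j + s n j) * κ n j ^ M := by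
    filter_upwards [hev] with n hn M hM
    rw [hsplit n, add_comm]
    congr 1
    simp only [c]
    rw [Finset.sum_mul]
    refine Finset.sum_congr rfl fun j hj => ?_
    obtain ⟨h1, h2, -⟩ := hn j (hT n j hj)
    rw [h2, add_zero, ← h1, hM.pow_abs]
  have hO1 : ∀ᶠ n in atTop, ¬ S n → ∀ M, Odd M →
      ∑ j, (r n j - s n j) * κ n j ^ M = c n * v n ^ M + ∑ j ∈ F n, (r n j - s n j) * κ n j ^ M := by
    filter_upwards [hev] with n hn hS M hM
    rw [hsplit n, add_comm]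
    congr 1
    simp only [c]
    rw [Finset.sum_mul]
    refine Finset.sum_congr rfl fun j hj => ?_
    obtain ⟨h1, h2, -⟩ := hn j (hT n j hj)
    have h3 : 0 ≤ κ n j := by
      by_contra hcon
      exact hS ⟨j, hj, not_le.mp hcon⟩
    rw [h2, sub_zero, ← h1, abs_of_nonneg h3]
  have hO2 : ∀ᶠ n in atTop, S n → ∀ M, Odd M →
      ∑ j, (r n j - s n j) * κ n j ^ M = -(c n * v n ^ M) +
        ∑ j ∈ F n, (r n j - s n j) * κ n j ^ M := by
    filter_upwards [hev] with n hn hS M hM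
    obtain ⟨k, hk, hk0⟩ := hS
    rw [hsplit n, add_comm]
    congr 1
    simp only [c]
    rw [Finset.sum_mul, ← Finset.sum_neg_distrib]
    refine Finset.sum_congr rfl fun j hj => ?_
    obtain ⟨h1, h2, h3⟩ := hn j (hT n j hj)
    have h4 : k = j := h3 k (hT n k hk)
    subst h4
    rw [h2, sub_zero, ← h1, abs_of_neg hk0, hM.neg_pow]
    ring
  -- bounds for `c`
  have hc0 : ∀ n, 0 ≤ c n := fun n => Finset.sum_nonneg fun j _ => hr n j
  have hcb : ∀ᶠ n in atTop, c n ∈ Set.Icc 0 (e 0 + 1) := by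
    have h0 := he 0 (by simp)
    filter_upwards [h0.eventually (gt_mem_nhds (lt_add_one (e 0)))] with n hn
    refine ⟨hc0 n, le_trans ?_ hn.le⟩
    simp only [pow_zero, mul_one]
    calc c n ≤ ∑ j, r n j := Finset.sum_le_sum_of_subset_of_nonneg (Finset.filter_subset _ _)
          (fun j _ _ => hr n j)
      _ ≤ _ := Finset.sum_le_sum fun j _ => by linarith [hs n j]
  let U : Ultrafilter ℕ := Ultrafilter.of atTop
  have hU : (U : Filter ℕ) ≤ atTop := Ultrafilter.of_le atTop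
  obtain ⟨c₀, hc₀m, hc₀⟩ := isCompact_Icc.ultrafilter_le_nhds' (U.map c) (by
    rw [Ultrafilter.mem_map]
    exact hU hcb)
  have hc₀' : Tendsto c U (𝓝 c₀) := hc₀
  have hvU : Tendsto v U (𝓝 V) := hv.mono_left hU
  have hcv : ∀ M, Tendsto (fun n => c n * v n ^ M) U (𝓝 (c₀ * V ^ M)) := fun M =>
    hc₀'.mul (hvU.pow M)
  -- limits of the remainders
  have hRE : ∀ M, Even M → Tendsto (fun n => ∑ j ∈ F n, (r n j + s n j) * κ n j ^ M) U
      (𝓝 (e M - c₀ * V ^ M)) := by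
    intro M hM
    have h1 := ((he M hM).mono_left hU).sub (hcv M)
    refine h1.congr' ?_
    filter_upwards [hU hE] with n hn
    rw [hn M hM]
    ring
  have hRE0 : ∀ M, Even M → 0 ≤ e M - c₀ * V ^ M := by
    intro M hM
    refine ge_of_tendsto' (hRE M hM) fun n => Finset.sum_nonneg fun j _ => ?_
    exact mul_nonneg (add_nonneg (hr n j) (hs n j)) (hM.pow_nonneg _)
  have hdec : ∀ q, (∀ᶠ n in atTop, ∀ j ∈ F n, |κ n j| ≤ q) → ∀ M, Even M →
      e (M + 2) - c₀ * V ^ (M + 2) ≤ q ^ 2 * (e M - c₀ * V ^ M) := by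
    intro q hq M hM
    refine le_of_tendsto_of_tendsto (hRE (M + 2) (hM.add even_two)) ((hRE M hM).const_mul (q ^ 2)) ?_
    filter_upwards [hU hq] with n hn
    exact edge_decay (F n) (fun j => r n j + s n j) (κ n) (fun j => add_nonneg (hr n j) (hs n j)) hn hM
  have hdecμ : ∀ M, Even M → e (M + 2) - c₀ * V ^ (M + 2) ≤ μ ^ 2 * (e M - c₀ * V ^ M) :=
    hdec μ (Eventually.of_forall fun n j hj => hF n j hj)
  -- odd estimate
  have hodd : ∀ M, Odd M → ∀ a : ℝ,
      Tendsto (fun n => ∑ j ∈ F n, (r n j - s n j) * κ n j ^ M) U (𝓝 a) →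
      |a| ≤ Real.sqrt ((e (M - 1) - c₀ * V ^ (M - 1)) * (e (M + 1) - c₀ * V ^ (M + 1))) := by
    intro M hM a ha
    obtain ⟨k, rfl⟩ := hM
    have e1 : 2 * k + 1 - 1 = 2 * k := by omega
    have e2 : 2 * k + 1 + 1 = 2 * k + 2 := by ring
    rw [e1, e2]
    have h1 := (hRE (2 * k) (even_two_mul k)).mul (hRE (2 * k + 2) ((even_two_mul k).add even_two))
    have h2 := (Real.continuous_sqrt.tendsto _).comp h1
    refine le_of_tendsto_of_tendsto ha.abs h2 (Eventually.of_forall fun n => ?_)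
    exact edge_cs (F n) (fun j => r n j - s n j) (fun j => r n j + s n j) (κ n) (fun j => by
      rw [abs_le]
      constructor <;> linarith [hr n j, hs n j]) k
  have hVM : 0 < V := by linarith
  -- the sign
  have hsign : ∀ M, Odd M → Tendsto (fun n => ∑ j ∈ F n, (r n j - s n j) * κ n j ^ M) U
      (𝓝 (e M - c₀ * V ^ M)) := by
    by_cases hS : ∀ᶠ n in (U : Filter ℕ), S n
    · -- `σ = -1`, then `c₀ = 0`
      have h1 : ∀ M, Odd M → Tendsto (fun n => ∑ j ∈ F n, (r n j - s n j) * κ n j ^ M) U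
          (𝓝 (e M + c₀ * V ^ M)) := by
        intro M hM
        have h1 := ((ho M hM).mono_left hU).add (hcv M)
        refine h1.congr' ?_
        filter_upwards [hU hO2, hS] with n hn hSn
        rw [hn hSn M hM]
        ring
      have hc00 : c₀ = 0 := by
        by_contra hne
        have hcpos : 0 < c₀ := lt_of_le_of_ne hc₀m.1 (Ne.symm hne)
        have hRb : ∀ k : ℕ, e (2 * k) - c₀ * V ^ (2 * k) ≤ μ ^ (2 * k) * (e 0 - c₀ * V ^ 0) := by
          intro k
          induction k with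
          | zero => simp
          | succ k ih =>
            have h2 := hdecμ (2 * k) (even_two_mul k)
            have e3 : 2 * (k + 1) = 2 * k + 2 := by ring
            rw [e3]
            calc e (2 * k + 2) - c₀ * V ^ (2 * k + 2) ≤ μ ^ 2 * (e (2 * k) - c₀ * V ^ (2 * k)) := h2
              _ ≤ μ ^ 2 * (μ ^ (2 * k) * (e 0 - c₀ * V ^ 0)) := by gcongr
              _ = _ := by ring
        set R0 := e 0 - c₀ * V ^ 0 with hR0
        have hR00 : 0 ≤ R0 := hRE0 0 (by simp)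
        have h2 : ∀ k : ℕ, c₀ * V ^ (2 * k + 1) ≤ μ ^ (2 * k + 1) * R0 := by
          intro k
          have h3 := hodd (2 * k + 1) ⟨k, rfl⟩ _ (h1 (2 * k + 1) ⟨k, rfl⟩)
          have e1 : 2 * k + 1 - 1 = 2 * k := by omega
          have e2 : 2 * k + 1 + 1 = 2 * (k + 1) := by ring
          rw [e1, e2] at h3
          have h4 : Real.sqrt ((e (2 * k) - c₀ * V ^ (2 * k)) *
              (e (2 * (k + 1)) - c₀ * V ^ (2 * (k + 1)))) ≤ μ ^ (2 * k + 1) * R0 := by
            apply Real.sqrt_le_iff.mpr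
            refine ⟨by positivity, ?_⟩
            have ha := hRE0 (2 * k) (even_two_mul k)
            have hb := hRE0 (2 * (k + 1)) (even_two_mul (k + 1))
            calc (e (2 * k) - c₀ * V ^ (2 * k)) * (e (2 * (k + 1)) - c₀ * V ^ (2 * (k + 1)))
                ≤ (μ ^ (2 * k) * R0) * (μ ^ (2 * (k + 1)) * R0) := by
                  apply mul_le_mul (hRb k) (hRb (k + 1)) hb (by positivity)
              _ = _ := by ring
          have h5 := le_abs_self (e (2 * k + 1) + c₀ * V ^ (2 * k + 1))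
          have h6 := hpos (2 * k + 1)
          linarith
        -- contradiction
        have h3 : ∀ k : ℕ, (V / μ) ^ (2 * k + 1) ≤ R0 / c₀ := by
          intro k
          rw [div_pow, div_le_div_iff₀ (by positivity) hcpos]
          linarith [h2 k]
        have h4 : 1 < V / μ := by rwa [one_lt_div hμ0]
        obtain ⟨k, hk⟩ := pow_unbounded_of_one_lt (R0 / c₀) h4
        have h5 : (V / μ) ^ k ≤ (V / μ) ^ (2 * k + 1) := pow_le_pow_right₀ h4.le (by omega)
        linarith [h3 k]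
      intro M hM
      have := h1 M hM
      rw [hc00] at this ⊢
      simpa using this
    · have hS' : ∀ᶠ n in (U : Filter ℕ), ¬ S n := by
        rwa [← Ultrafilter.eventually_not] at hS
      intro M hM
      have h1 := ((ho M hM).mono_left hU).sub (hcv M)
      refine h1.congr' ?_
      filter_upwards [hU hO1, hS'] with n hn hSn
      rw [hn hSn M hM]
      ring
  refine ⟨c₀, hc₀m.1, fun M hM => by linarith [hRE0 M hM], ?_, ?_⟩
  · intro q hq hQq M hM
    rcases lt_or_ge q V with hqV | hqV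
    · -- all `q' ∈ (q, V)`
      have h1 : ∀ q', q < q' → q' < V →
          e (M + 2) - c₀ * V ^ (M + 2) ≤ q' ^ 2 * (e M - c₀ * V ^ M) := by
        intro q' h1 h2
        refine hdec q' ?_ M hM
        filter_upwards [hiso q hq hQq q' h1 h2, hv.eventually (lt_mem_nhds hμ2)] with n hn hvn j hj
        by_contra hcon
        push Not at hcon
        obtain ⟨h3, -, -⟩ := hn j hcon
        have := hF n j hj
        linarith
      have h2 : Tendsto (fun q' : ℝ => q' ^ 2 * (e M - c₀ * V ^ M)) (𝓝[>] q)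
          (𝓝 (q ^ 2 * (e M - c₀ * V ^ M))) := by
        apply Tendsto.mono_left _ nhdsWithin_le_nhds
        exact ((continuous_id.pow 2).mul continuous_const).tendsto q
      refine ge_of_tendsto h2 ?_
      have h3 : Set.Ioo q V ∈ 𝓝[>] q := Ioo_mem_nhdsGT hqV
      filter_upwards [h3] with q' hq'
      exact h1 q' hq'.1 hq'.2
    · have h1 := hdecμ M hM
      have h2 := hRE0 M hM
      refine h1.trans ?_
      have h3 : μ ^ 2 ≤ q ^ 2 := pow_le_pow_left₀ hμ0.le (by linarith) 2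
      exact mul_le_mul_of_nonneg_right h3 h2
  · intro M hM
    exact hodd M hM _ (hsign M hM)

/-- Abstract existence of the ground state weight `c` for the open chain.

PROOF.  Write `x_M n = ∑_j (r_j + s_j) κ_j^M` (M even), `x_M n = ∑_j (r_j - s_j) κ_j^M` (M odd).

(0) For all `M` even: `e (M+2) ≤ V^2 e M`: for `q > V` eventually `|κ_j| ≤ q`, so
`x_{M+2} ≤ q^2 x_M`; let `n → ∞`, `q → V`.  For `M` odd (so `M ≥ 1`): Cauchy–Schwarz
`|x_M| ≤ ∑ (r+s)|κ|^M ≤ √(x_{M-1} x_{M+1})`, so `|e M| ≤ √(e (M-1) * e (M+1))`.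

CASE 1: there is no `q` with `0 < q < V` and `Q q`.  Take `c = 0`: if `Q q` then `q ≥ V` and
`e (M+2) ≤ V^2 e M ≤ q^2 e M`.

CASE 2: `Q q₀`, `0 < q₀ < V`.  Let `μ = (q₀ + V)/2`, `q₀ < μ < V`.  By `hiso q₀ μ` eventually:
every `j` with `|κ_j| > μ` has `|κ_j| = v n`, `s_j = 0` and is the only such index.  Let
`c_n = ∑_{j : |κ_j| > μ} r_j` (0 or one term), `σ_n = 1` if the index exists and `κ_j > 0` or if there is no
index, `σ_n = -1` otherwise.  Then eventually
* `x_M n - c_n v_n^M = ∑_{|κ_j| ≤ μ} (r_j + s_j) κ_j^M` for `M` even  (≥ 0);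
* `x_M n - σ_n c_n v_n^M = ∑_{|κ_j| ≤ μ} (r_j - s_j) κ_j^M` for `M` odd, and by Cauchy–Schwarz
  `|x_M n - σ_n c_n v_n^M| ≤ √((x_{M-1} - c_n v_n^{M-1}) (x_{M+1} - c_n v_n^{M+1}))`.
`c_n ≤ x_0 n` is bounded; take a subsequence (or an ultrafilter below `atTop`) along which `c_n → c ≥ 0` and
`σ_n = σ` is constant.  In the limit:
* `c V^M ≤ e M` (M even);
* decay for `q` with `Q q`: if `q < V`: for `q < q' < V`, `hiso q q'`: eventually all `j` with `|κ_j| ≤ μ` satisfy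
  `|κ_j| ≤ q'` or `|κ_j| = v n`; as `v n → V > μ` the latter is impossible; so
  `∑_{|κ_j| ≤ μ} (r+s) κ^{M+2} ≤ q'^2 ∑_{|κ_j| ≤ μ} (r+s) κ^M`; limit `n → ∞`, then `q' → q`.
  If `q ≥ V`: the same with `μ` instead of `q'` (`μ ≤ q`, and the right-hand factor is `≥ 0`).
* odd: `|e M - σ c V^M| ≤ √(R (M-1) * R (M+1))` where `R M := e M - c V^M ≥ 0` (M even), and
  `R (M+2) ≤ μ^2 R M`, so `R M ≤ μ^M R 0`.
Finally `σ = 1` or `c = 0`: if `σ = -1` and `c > 0` then for `M` odd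
`0 < e M ≤ -c V^M + √(R (M-1) R (M+1)) ≤ -c V^M + μ^M R 0`, which is false for large `M` as `μ < V`. -/
theorem edge_limit {J : ℕ → Type*} [∀ n, Fintype (J n)] (κ r s : ∀ n, J n → ℝ)
    (hr : ∀ n j, 0 ≤ r n j) (hs : ∀ n j, 0 ≤ s n j) {v : ℕ → ℝ} {V : ℝ} (hV : 0 < V)
    (hv : Tendsto v atTop (𝓝 V)) {e : ℕ → ℝ}
    (he : ∀ M, Even M → Tendsto (fun n => ∑ j, (r n j + s n j) * κ n j ^ M) atTop (𝓝 (e M)))
    (ho : ∀ M, Odd M → Tendsto (fun n => ∑ j, (r n j - s n j) * κ n j ^ M) atTop (𝓝 (e M)))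
    (hpos : ∀ M, 0 < e M) (hub : ∀ q, V < q → ∀ᶠ n in atTop, ∀ j, |κ n j| ≤ q)
    (Q : ℝ → Prop)
    (hiso : ∀ q, 0 < q → Q q → ∀ q', q < q' → q' < V → ∀ᶠ n in atTop, ∀ j, q' < |κ n j| →
      |κ n j| = v n ∧ s n j = 0 ∧ ∀ k, q' < |κ n k| → k = j) :
    ∃ c : ℝ, 0 ≤ c ∧ (∀ M, Even M → c * V ^ M ≤ e M) ∧
      (∀ q, 0 < q → Q q → ∀ M, Even M →
        e (M + 2) - c * V ^ (M + 2) ≤ q ^ 2 * (e M - c * V ^ M)) ∧
      (∀ M, Odd M → |e M - c * V ^ M| ≤
        Real.sqrt ((e (M - 1) - c * V ^ (M - 1)) * (e (M + 1) - c * V ^ (M + 1)))) := by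
  classical
  by_cases hex : ∃ q₀, 0 < q₀ ∧ q₀ < V ∧ Q q₀
  · obtain ⟨q₀, h1, h2, h3⟩ := hex
    exact edge_case2 κ r s hr hs hv he ho hpos Q hiso h1 h2 h3
  · refine ⟨0, le_rfl, fun M _ => by simpa using (hpos M).le, ?_, ?_⟩
    · intro q hq hQq M hM
      have hqV : V ≤ q := by
        by_contra hcon
        exact hex ⟨q, hq, not_le.mp hcon, hQq⟩
      have h1 : ∀ q', V < q' → e (M + 2) ≤ q' ^ 2 * e M := by
        intro q' hq'
        refine le_of_tendsto_of_tendsto (he (M + 2) (hM.add even_two)) ((he M hM).const_mul (q' ^ 2)) ?_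
        filter_upwards [hub q' hq'] with n hn
        exact edge_decay univ (fun j => r n j + s n j) (κ n)
          (fun j => add_nonneg (hr n j) (hs n j)) (fun j _ => hn j) hM
      have h2 : Tendsto (fun q' : ℝ => q' ^ 2 * e M) (𝓝[>] V) (𝓝 (V ^ 2 * e M)) := by
        apply Tendsto.mono_left _ nhdsWithin_le_nhds
        exact ((continuous_id.pow 2).mul continuous_const).tendsto V
      have h3 : e (M + 2) ≤ V ^ 2 * e M := by
        refine ge_of_tendsto h2 ?_
        filter_upwards [self_mem_nhdsWithin] with q' hq'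
        exact h1 q' hq'
      have h4 : V ^ 2 * e M ≤ q ^ 2 * e M :=
        mul_le_mul_of_nonneg_right (pow_le_pow_left₀ hV.le hqV 2) (hpos M).le
      simp only [zero_mul, sub_zero]
      linarith
    · intro M hM
      simp only [zero_mul, sub_zero]
      obtain ⟨k, rfl⟩ := hM
      have e1 : 2 * k + 1 - 1 = 2 * k := by omega
      have e2 : 2 * k + 1 + 1 = 2 * k + 2 := by ring
      rw [e1, e2]
      have h1 := (he (2 * k) (even_two_mul k)).mul (he (2 * k + 2) ((even_two_mul k).add even_two))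
      have h2 := (Real.continuous_sqrt.tendsto _).comp h1
      refine le_of_tendsto_of_tendsto (ho (2 * k + 1) ⟨k, rfl⟩).abs h2
        (Eventually.of_forall fun n => ?_)
      exact edge_cs univ (fun j => r n j - s n j) (fun j => r n j + s n j) (κ n) (fun j => by
        rw [abs_le]
        constructor <;> linarith [hr n j, hs n j]) k

end Hald
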