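import Crest.Agent.Hald.StripOut
import Crest.Agent.Hald.EdgeLimit

/-!
# Row 347, M5 (5f): open chains with end fields, isolation of the top
-/

set_option autoImplicit false
set_option linter.unusedSectionVars false

namespace Hald

open Matrix Finset Filter Topology
open scoped ComplexOrder

/-! ### resolution of the identity -/

section

variable {Ω : Type*} [Fintype Ω] [DecidableEq Ω] {X Y C : Matrix Ω Ω ℝ}

theorem PD_sum : PD 1 1 X Y + PD 1 (-1) X Y + PD (-1) 1 X Y + PD (-1) (-1) X Y = 1 := by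
  unfold PD
  ext i j
  simp only [Matrix.add_apply, Matrix.smul_apply, smul_eq_mul]
  ring

theorem PZ_sum : PZ 1 C + PZ om3 C + PZ (om3 * om3) C = 1 := by
  have h1 := om3_add
  have h2 := om3_cube
  unfold PZ
  ext i j
  simp only [Matrix.add_apply, Matrix.smul_apply, smul_eq_mul]
  linear_combination (1 / 3 : ℂ) * (cplx C i j + cplx (C * C) i j) * h1 +
    (1 / 3 : ℂ) * om3 * cplx (C * C) i j * h2

theorem PA_sum (X Y C : Matrix Ω Ω ℝ) :
    PA 1 X Y C + PA om3 X Y C + PA (om3 * om3) X Y C + cplx (PD 1 (-1) X Y) +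
      cplx (PD (-1) 1 X Y) + cplx (PD (-1) (-1) X Y) = 1 := by
  unfold PA
  rw [← Matrix.mul_add, ← Matrix.mul_add, PZ_sum, Matrix.mul_one, ← cplx_add, ← cplx_add,
    ← cplx_add, PD_sum, cplx_one]

end

theorem om3_sq_star : star (om3 * om3) = om3 * om3 * (om3 * om3) := by
  rw [star_mul', om3_star]

theorem om3_sq_cube : om3 * om3 * (om3 * om3) * (om3 * om3) = 1 := by
  calc om3 * om3 * (om3 * om3) * (om3 * om3) = (om3 * om3 * om3) * (om3 * om3 * om3) := by ring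
    _ = 1 := by rw [om3_cube, one_mul]

/-- the conjugate sector -/
noncomputable def sec1' {β : ℝ} (hβ : 0 < β) :
    Sector 1 β theE (fun m => secA 1 (fun t => theWorld.Z t β m)) where
  P := fun n => PA (om3 * om3) (rho gx n) (rho gy n) (rho gc n)
  hP := fun n => PA_hproj (rho_A4 n) om3_sq_cube om3_sq_star
  hPT := fun n => TN_comm_of (PA_comm (TA_comm isRot_gx (by simp)) (TA_comm isRot_gy (by simp))
    (TA_comm isRot_gc (by simp)))
  hlim := fun m hm => (world_secA 1 hβ hm).congr fun n => (TN_trace (by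
    rw [PA_trace (rho_A4 n) (comm_pow (TA_comm isRot_gx (by simp)) m)
      (comm_pow (TA_comm isRot_gy (by simp)) m) (comm_pow (TA_comm isRot_gc (by simp)) m)
      (transpose_pow_eq TA_transpose m), ← Zn_one, ← Zn_eq, ← Zn_eq]
    have h1 : om3 * om3 + om3 * om3 * (om3 * om3) = -1 := by
      linear_combination om3_add + om3 * om3_cube
    rw [h1]
    simp only [secA, tw, Matrix.cons_val_zero, Matrix.cons_val_one, Matrix.cons_val]
    push_cast
    ring)).symm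

/-- the three parts of the triplet sector -/
noncomputable def sec2ab {β : ℝ} (hβ : 0 < β) {a b : ℝ} (ha : a * a = 1) (hb : b * b = 1)
    (hab : a + b + a * b = -1) :
    Sector 1 β theE (fun m => secA 2 (fun t => theWorld.Z t β m)) where
  P := fun n => cplx (PD a b (rho gx n) (rho gy n))
  hP := fun n => PD_hproj (rho_D2 n) ha hb
  hPT := fun n => TN_comm_of (by
    rw [← cplx_mul, ← cplx_mul, PD_comm (TA_comm isRot_gx (by simp)) (TA_comm isRot_gy (by simp))])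
  hlim := fun m hm => (world_secA 2 hβ hm).congr fun n => (TN_trace (by
    rw [← cplx_mul, cplx_trace, PD_trace, ← rho_mul, gx_gy, ← Zn_one, ← Zn_eq, ← Zn_eq, ← Zn_eq,
      Zn_one_gy, Zn_one_gz]
    have h1 : a * Zn 1 gx β n m + b * Zn 1 gx β n m + a * b * Zn 1 gx β n m =
        -Zn 1 gx β n m := by
      linear_combination Zn 1 gx β n m * hab
    have h2 : Zn 1 1 β n m + a * Zn 1 gx β n m + b * Zn 1 gx β n m + a * b * Zn 1 gx β n m =
        Zn 1 1 β n m - Zn 1 gx β n m := by linear_combination h1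
    rw [h2]
    simp only [secA, tw, Matrix.cons_val_zero, Matrix.cons_val_one, Matrix.cons_val])).symm

/-! ### growth -/

theorem exists_pow_bound {b : ℕ → ℝ} {V : ℝ} (hV : 0 < V)
    (g2 : ∀ m, 1 ≤ m → b m ≤ V ^ (2 * (m - 1)) * b 1) {q : ℝ} (hq : V < q) :
    ∃ m, 1 ≤ m ∧ b m < q ^ (2 * m) := by
  have hq0 : 0 < q := hV.trans hq
  have hr : 1 < (q / V) ^ 2 := by
    apply one_lt_pow₀ _ (by norm_num)
    rwa [one_lt_div hV]
  obtain ⟨k, hk⟩ := pow_unbounded_of_one_lt (b 1 / V ^ 2) hr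
  refine ⟨k + 1, by omega, ?_⟩
  have h5 := g2 (k + 1) (by omega)
  rw [Nat.add_sub_cancel] at h5
  have hk1 : (q / V) ^ (2 * k) ≤ (q / V) ^ (2 * (k + 1)) :=
    pow_le_pow_right₀ ((one_lt_div hV).2 hq).le (by omega)
  rw [← pow_mul] at hk
  have h6 : b 1 / V ^ 2 < q ^ (2 * (k + 1)) / V ^ (2 * (k + 1)) := by
    rw [← div_pow]; linarith
  rw [div_lt_div_iff₀ (by positivity) (by positivity)] at h6
  have h7 : V ^ (2 * k) * b 1 < q ^ (2 * (k + 1)) := by
    have h8 : b 1 * V ^ (2 * (k + 1)) = (V ^ (2 * k) * b 1) * V ^ 2 := by ring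
    rw [h8] at h6
    exact lt_of_mul_lt_mul_right h6 (by positivity)
  linarith

/-- the three hypotheses on `q` -/
def QHyp (β q : ℝ) : Prop :=
  (∃ m : ℕ, 1 ≤ m ∧ secA 0 (fun t => theWorld.Z t β m) - (theWorld.V 0 β) ^ (2 * m) ≤ q ^ (2 * m)) ∧
  (∃ m : ℕ, 1 ≤ m ∧ secA 1 (fun t => theWorld.Z t β m) ≤ q ^ (2 * m)) ∧
  (∃ m : ℕ, 1 ≤ m ∧ secA 2 (fun t => theWorld.Z t β m) ≤ q ^ (2 * m))

/-- outside the sector -/
theorem Sector.eq_zero {g : Matrix (Fin 3) (Fin 3) ℝ} {β e : ℝ} {b : ℕ → ℝ} (S : Sector g β e b)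
    {n : ℕ} {q : ℝ} (hb : ∀ (μ : ℝ) (y : Om n → ℂ), y ≠ 0 → S.P n *ᵥ y = y →
      cplx (TN g β e n) *ᵥ y = (μ : ℂ) • y → μ ≤ q ^ 2) {u : Om n → ℂ} {μ : ℝ}
    (hu : cplx (TN g β e n) *ᵥ u = (μ : ℂ) • u) (hμ : q ^ 2 < μ) : S.P n *ᵥ u = 0 := by
  by_contra h0
  have := hb μ (S.P n *ᵥ u) h0 (by rw [Matrix.mulVec_mulVec, (S.hP n).idem]) (by
    rw [Matrix.mulVec_mulVec, ← S.hPT, ← Matrix.mulVec_mulVec, hu, Matrix.mulVec_smul])
  linarith

/-- **Isolation of the top.**  `κ n j` eigenvalues, `u n j` orthonormal real eigenvectors. -/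
theorem edge_iso {β : ℝ} (hβ : 0 < β) {v : ℕ → ℝ}
    (hv : Tendsto v atTop (𝓝 (theWorld.V 0 β)))
    (htop : ∀ᶠ n in atTop, IsTopOf ((sec0 hβ).P n) (cplx (TN 1 β theE n)) (v n)) {q q' : ℝ}
    (hq : 0 < q) (hQ : QHyp β q) (hqq : q < q') :
    ∀ᶠ n in atTop, ∀ (κ : Om n → ℝ) (u : Om n → Om n → ℝ),
      (∀ j k, u j ⬝ᵥ u k = if j = k then 1 else 0) →
      (∀ j, κ j ≠ 0 → TN 1 β theE n *ᵥ u j = (κ j ^ 2) • u j) →
      ∀ j, q' < |κ j| → |κ j| = v n ∧ (cplx (rho gy n) *ᵥ cv (u j) = cv (u j)) ∧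
        ∀ k, q' < |κ k| → k = j := by
  obtain ⟨⟨m0, hm0, h0⟩, ⟨m1, hm1, h1⟩, ⟨m2, hm2, h2⟩⟩ := hQ
  have hq' : 0 < q' := hq.trans hqq
  have hlt : ∀ m, 1 ≤ m → q ^ (2 * m) < q' ^ (2 * m) := fun m hm =>
    pow_lt_pow_left₀ hqq hq.le (by omega)
  have b1 := (sec1 hβ).bound hm1 hq' (h1.trans_lt (hlt m1 hm1))
  have b1' := (sec1' hβ).bound hm1 hq' (h1.trans_lt (hlt m1 hm1))
  have b2 := (sec2ab hβ (a := 1) (b := -1) (by norm_num) (by norm_num) (by norm_num)).bound hm2 hq'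
    (h2.trans_lt (hlt m2 hm2))
  have b2' := (sec2ab hβ (a := -1) (b := 1) (by norm_num) (by norm_num) (by norm_num)).bound hm2 hq'
    (h2.trans_lt (hlt m2 hm2))
  have b2'' := (sec2ab hβ (a := -1) (b := -1) (by norm_num) (by norm_num) (by norm_num)).bound hm2
    hq' (h2.trans_lt (hlt m2 hm2))
  have b0 : ∀ᶠ n in atTop, ((sec0 hβ).P n * cplx (TN 1 β theE n) ^ m0).trace.re - v n ^ (2 * m0) <
      q' ^ (2 * m0) :=
    (((sec0 hβ).hlim m0 hm0).sub (hv.pow (2 * m0))).eventually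
      (gt_mem_nhds (h0.trans_lt (hlt m0 hm0)))
  filter_upwards [b1, b1', b2, b2', b2'', b0, htop] with n c1 c1' c2 c2' c2'' c0 ct κ u hu hT j hj
  -- eigenvectors with large eigenvalue lie in the trivial sector
  have hsec : ∀ k, q' < |κ k| → cplx (TN 1 β theE n) *ᵥ cv (u k) = ((κ k ^ 2 : ℝ) : ℂ) • cv (u k) ∧
      (sec0 hβ).P n *ᵥ cv (u k) = cv (u k) ∧ q' ^ 2 < κ k ^ 2 ∧ cv (u k) ≠ 0 := by
    intro k hk
    have hκ0 : κ k ≠ 0 := by
      intro h; rw [h, abs_zero] at hk; linarith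
    have e1 : cplx (TN 1 β theE n) *ᵥ cv (u k) = ((κ k ^ 2 : ℝ) : ℂ) • cv (u k) := by
      rw [cplx_mulVec, hT k hκ0, cv_smul]
    have e2 : q' ^ 2 < κ k ^ 2 := by
      rw [← sq_abs (κ k)]
      exact pow_lt_pow_left₀ hk hq'.le (by norm_num)
    refine ⟨e1, ?_, e2, ?_⟩
    · have z1 := (sec1 hβ).eq_zero c1 e1 e2
      have z1' := (sec1' hβ).eq_zero c1' e1 e2
      have z2 := (sec2ab hβ (a := 1) (b := -1) (by norm_num) (by norm_num) (by norm_num)).eq_zero
        c2 e1 e2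
      have z2' := (sec2ab hβ (a := -1) (b := 1) (by norm_num) (by norm_num) (by norm_num)).eq_zero
        c2' e1 e2
      have z2'' := (sec2ab hβ (a := -1) (b := -1) (by norm_num) (by norm_num)
        (by norm_num)).eq_zero c2'' e1 e2
      have hsum := congrArg (fun A => A *ᵥ cv (u k)) (PA_sum (rho gx n) (rho gy n) (rho gc n))
      simp only [Matrix.add_mulVec, Matrix.one_mulVec] at hsum
      have hP0 : (sec0 hβ).P n = PA 1 (rho gx n) (rho gy n) (rho gc n) := rfl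
      rw [hP0]
      have y1 : PA om3 (rho gx n) (rho gy n) (rho gc n) *ᵥ cv (u k) = 0 := z1
      have y1' : PA (om3 * om3) (rho gx n) (rho gy n) (rho gc n) *ᵥ cv (u k) = 0 := z1'
      have y2 : cplx (PD 1 (-1) (rho gx n) (rho gy n)) *ᵥ cv (u k) = 0 := z2
      have y2' : cplx (PD (-1) 1 (rho gx n) (rho gy n)) *ᵥ cv (u k) = 0 := z2'
      have y2'' : cplx (PD (-1) (-1) (rho gx n) (rho gy n)) *ᵥ cv (u k) = 0 := z2''
      rw [y1, y1', y2, y2', y2'', add_zero, add_zero, add_zero, add_zero, add_zero] at hsum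
      exact hsum
    · intro h
      have h3 : u k = 0 := cv_inj (by rw [h, cv_zero])
      have h4 := hu k k
      rw [h3, if_pos rfl] at h4
      simp at h4
  have hval : ∀ k, q' < |κ k| → κ k ^ 2 = v n ^ 2 := by
    intro k hk
    obtain ⟨e1, e2, e3, e4⟩ := hsec k hk
    by_contra hne
    have h3 := ct.two ((sec0 hβ).hP n) TN_psd e4 e2 e1 hne m0
    have h4 : (q' ^ 2) ^ m0 ≤ (κ k ^ 2) ^ m0 := pow_le_pow_left₀ (by positivity) e3.le m0
    rw [← pow_mul q'] at h4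
    linarith
  obtain ⟨e1, e2, e3, e4⟩ := hsec j hj
  refine ⟨?_, ?_, ?_⟩
  · have := (sq_eq_sq_iff_abs_eq_abs _ _).1 (hval j hj)
    rw [this, abs_of_pos ct.pos]
  · -- invariance
    have hP0 : (sec0 hβ).P n = PA 1 (rho gx n) (rho gy n) (rho gc n) := rfl
    rw [hP0] at e2
    have hY : cplx (rho gy n) * PA 1 (rho gx n) (rho gy n) (rho gc n) =
        PA 1 (rho gx n) (rho gy n) (rho gc n) := by
      unfold PA
      rw [← Matrix.mul_assoc, ← cplx_mul]
      congr 2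
      have hD := rho_D2 n
      unfold PD
      rw [Matrix.mul_smul, Matrix.mul_add, Matrix.mul_add, Matrix.mul_add, Matrix.mul_one,
        Matrix.mul_smul, Matrix.mul_smul, Matrix.mul_smul, hD.YY, ← hD.XY, hD.XY,
        ← Matrix.mul_assoc, hD.YY, Matrix.one_mul, ← hD.XY]
      congr 1
      ext i j
      simp only [Matrix.add_apply, Matrix.smul_apply, smul_eq_mul]
      ring
    calc cplx (rho gy n) *ᵥ cv (u j) =
        cplx (rho gy n) *ᵥ (PA 1 (rho gx n) (rho gy n) (rho gc n) *ᵥ cv (u j)) := by rw [e2]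
      _ = PA 1 (rho gx n) (rho gy n) (rho gc n) *ᵥ cv (u j) := by rw [Matrix.mulVec_mulVec, hY]
      _ = _ := e2
  · intro k hk
    by_contra hne
    obtain ⟨f1, f2, f3, f4⟩ := hsec k hk
    have horth : star (cv (u j)) ⬝ᵥ cv (u k) = 0 := by
      rw [star_cv, cv_dot, hu j k, if_neg (Ne.symm hne), Complex.ofReal_zero]
    have hn : ∀ i, star (cv (u i)) ⬝ᵥ cv (u i) = 1 := by
      intro i
      rw [star_cv, cv_dot, hu i i, if_pos rfl, Complex.ofReal_one]
    have h3 := trace_ge_two ((sec0 hβ).hP n) TN_psd (hn j) (hn k) horth e2 f2 e1 f1 m0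
    rw [hval k hk] at h3
    have h4 : (q' ^ 2) ^ m0 ≤ (κ j ^ 2) ^ m0 := pow_le_pow_left₀ (by positivity) e3.le m0
    rw [← pow_mul q'] at h4
    rw [← pow_mul (v n)] at h3
    linarith

end Hald
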