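import Crest.Agent.Hald.ChainJoint

/-!
# Row 347: lowest energies of chains; upper bound of the energy density from the strips
-/

set_option autoImplicit false
set_option linter.unusedSectionVars false

namespace Hald

open Matrix Finset Filter Topology Crest.MathPhysics.SpinChain
open scoped ComplexOrder

section

variable {κ : Type*} [Fintype κ] [DecidableEq κ] {H : Matrix κ κ ℂ}

/-- lowest eigenvalue -/
noncomputable def lowE (hH : H.IsHermitian) : ℝ := ⨅ i, hH.eigenvalues i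

theorem lowE_le (hH : H.IsHermitian) (i : κ) : lowE hH ≤ hH.eigenvalues i :=
  ciInf_le (Set.finite_range _).bddBelow i

theorem exists_lowE [Nonempty κ] (hH : H.IsHermitian) : ∃ i, hH.eigenvalues i = lowE hH :=
  exists_eq_ciInf_of_finite

theorem sub_posSemidef (hH : H.IsHermitian) {c : ℝ} (hc : ∀ i, c ≤ hH.eigenvalues i) :
    (H - (c : ℂ) • (1 : Matrix κ κ ℂ)).PosSemidef := by
  obtain ⟨U, h1, h2, hd⟩ := herm_decomp hH
  have e : H - (c : ℂ) • (1 : Matrix κ κ ℂ) =
      Uᴴᴴ * Matrix.diagonal (fun i => ((hH.eigenvalues i - c : ℝ) : ℂ)) * Uᴴ := by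
    conv_lhs => rw [hd]
    rw [Matrix.conjTranspose_conjTranspose]
    have e2 : Matrix.diagonal (fun i => ((hH.eigenvalues i - c : ℝ) : ℂ)) =
        Matrix.diagonal (fun i => (hH.eigenvalues i : ℂ)) - (c : ℂ) • (1 : Matrix κ κ ℂ) := by
      ext i j
      by_cases hij : i = j
      · subst hij; simp
      · simp [hij]
    rw [e2, Matrix.mul_sub, Matrix.sub_mul, Matrix.mul_smul, Matrix.mul_one, Matrix.smul_mul, h1]
  rw [e]
  refine Matrix.PosSemidef.conjTranspose_mul_mul_same (Matrix.PosSemidef.diagonal ?_) Uᴴ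
  intro i
  have : (0 : ℝ) ≤ hH.eigenvalues i - c := by linarith [hc i]
  show (0 : ℂ) ≤ ((hH.eigenvalues i - c : ℝ) : ℂ)
  exact_mod_cast this

theorem star_dot_real (x : κ → ℂ) : star x ⬝ᵥ x = (((∑ i, Complex.normSq (x i)) : ℝ) : ℂ) := by
  simp only [dotProduct, Pi.star_apply]
  push_cast
  refine Finset.sum_congr rfl fun i _ => ?_
  rw [Complex.star_def, ← Complex.normSq_eq_conj_mul_self]

theorem rayleigh_of_posSemidef {a : ℝ} (h : (H - (a : ℂ) • (1 : Matrix κ κ ℂ)).PosSemidef)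
    (x : κ → ℂ) : a * (star x ⬝ᵥ x).re ≤ (star x ⬝ᵥ H *ᵥ x).re := by
  have h1 := h.re_dotProduct_nonneg x
  rw [Matrix.sub_mulVec, dotProduct_sub, Matrix.smul_mulVec, Matrix.one_mulVec, dotProduct_smul,
    smul_eq_mul, star_dot_real] at h1
  rw [star_dot_real]
  simp only [map_sub] at h1
  have h2 : RCLike.re ((a : ℂ) * (((∑ i, Complex.normSq (x i)) : ℝ) : ℂ)) =
      a * (∑ i, Complex.normSq (x i)) := by
    rw [← Complex.ofReal_mul]; rfl
  rw [h2] at h1
  have h3 : (RCLike.re (star x ⬝ᵥ H *ᵥ x) : ℝ) = (star x ⬝ᵥ H *ᵥ x).re := rfl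
  rw [h3] at h1
  rw [Complex.ofReal_re]
  linarith

theorem le_lowE_of_posSemidef [Nonempty κ] (hH : H.IsHermitian) {a : ℝ}
    (h : (H - (a : ℂ) • (1 : Matrix κ κ ℂ)).PosSemidef) : a ≤ lowE hH := by
  obtain ⟨i, hi⟩ := exists_lowE hH
  rw [← hi, hH.eigenvalues_eq i]
  have h1 := rayleigh_of_posSemidef h (hH.eigenvectorBasis i).ofLp
  have h2 : (star (hH.eigenvectorBasis i).ofLp ⬝ᵥ (hH.eigenvectorBasis i).ofLp) = 1 := by
    have h3 := hH.eigenvectorBasis.orthonormal.1 i
    have h4 : inner ℂ (hH.eigenvectorBasis i) (hH.eigenvectorBasis i) = (1 : ℂ) := by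
      rw [inner_self_eq_norm_sq_to_K, h3]; simp
    rw [EuclideanSpace.inner_eq_star_dotProduct, dotProduct_comm] at h4
    exact h4
  rw [h2, Complex.one_re, mul_one] at h1
  exact h1

theorem lowE_le_of_rayleigh (hH : H.IsHermitian) {b : ℝ} {x : κ → ℂ} (hx : x ≠ 0)
    (h : (star x ⬝ᵥ H *ᵥ x).re ≤ b * (star x ⬝ᵥ x).re) : lowE hH ≤ b := by
  have h1 := rayleigh_of_posSemidef (sub_posSemidef hH (lowE_le hH)) x
  obtain ⟨c, hc, hxx⟩ := star_dot_pos hx
  rw [hxx, Complex.ofReal_re] at h h1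
  have h2 : lowE hH * c ≤ b * c := h1.trans h
  exact le_of_mul_le_mul_right h2 hc

/-- traces of exponentials: bounds -/
theorem trace_exp_re (hH : H.IsHermitian) (β : ℝ) :
    (NormedSpace.exp ((-β) • H)).trace.re = ∑ i, Real.exp (-β * hH.eigenvalues i) := by
  rw [trace_exp_eq_sum hH (-β)]
  rfl

theorem trace_exp_le (hH : H.IsHermitian) {β : ℝ} (hβ : 0 ≤ β) :
    (NormedSpace.exp ((-β) • H)).trace.re ≤ Fintype.card κ * Real.exp (-β * lowE hH) := by
  rw [trace_exp_re hH, ← nsmul_eq_mul, ← Finset.card_univ]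
  refine Finset.sum_le_card_nsmul _ _ _ fun i _ => Real.exp_le_exp.mpr ?_
  have := lowE_le hH i
  nlinarith

theorem le_trace_exp [Nonempty κ] (hH : H.IsHermitian) (β : ℝ) :
    Real.exp (-β * lowE hH) ≤ (NormedSpace.exp ((-β) • H)).trace.re := by
  obtain ⟨i, hi⟩ := exists_lowE hH
  rw [trace_exp_re hH, ← hi]
  exact Finset.single_le_sum (f := fun i => Real.exp (-β * hH.eigenvalues i))
    (fun i _ => (Real.exp_pos _).le) (Finset.mem_univ i)

/-- power sum in `β` with its top -/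
theorem trace_exp_top [Nonempty κ] (hH : H.IsHermitian) (s : ℝ) :
    PSTop {β : ℝ | 0 < β} (fun β => β) 1
      (fun β => (NormedSpace.exp ((-β) • H)).trace.re * Real.exp (β * s))
      (Real.exp (-lowE hH + s)) := by
  obtain ⟨i0, hi0⟩ := exists_lowE hH
  set l : κ → ℝ := fun i => Real.exp (-hH.eigenvalues i + s) with hl
  have h := PSTop.finsum (S := {β : ℝ | 0 < β}) (c := fun β => β) Finset.univ l
    (fun i _ => (Real.exp_pos _).le) (fun x hx => hx) (Finset.mem_univ i0) (fun i _ => by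
      simp only [hl]
      apply Real.exp_le_exp.mpr
      have := lowE_le hH i
      rw [hi0]; linarith)
  have e1 : (fun β => (NormedSpace.exp ((-β) • H)).trace.re * Real.exp (β * s)) =
      fun β => ∑ i, l i ^ β := by
    funext β
    rw [trace_exp_re hH, Finset.sum_mul]
    refine Finset.sum_congr rfl fun i _ => ?_
    simp only [hl]
    rw [← Real.exp_add, ← Real.exp_mul]
    congr 1
    ring
  have e2 : l i0 = Real.exp (-lowE hH + s) := by simp only [hl]; rw [hi0]
  rw [e1, ← e2]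
  exact h

end

/-- lowest energy of a chain -/
noncomputable def Ech (K : ℕ) (d : Fin (K + 1) → ℕ) (h0 h1 : ℝ) : ℝ :=
  lowE (Hch_isHermitian K d h0 h1)

theorem Zch_G1 (K : ℕ) (d : Fin (K + 1) → ℕ) (h0 h1 β : ℝ) :
    Zch G1 K d h0 h1 β = (NormedSpace.exp ((-β) • Hch K d h0 h1)).trace := by
  unfold Zch
  have e1 : tens (κ := fun i => Fin (d i)) (fun i => G1 (d i)) = 1 := tens_one
  rw [e1, Matrix.one_mul]

theorem chD_pos {dl dr M : ℕ} (hl : 0 < dl) (hr : 0 < dr) (i : Fin (M + 2)) : 0 < chD dl dr M i := by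
  unfold chD
  split_ifs <;> omega

/-- **energy density from the strips** -/
theorem theE_le_strip {M : ℕ} (hM : Even M) :
    2 * theE ≤ Ech (M + 3) (chD 2 2 (M + 2)) 0 0 - Ech (M + 1) (chD 2 2 M) 0 0 := by
  set E2 := Ech (M + 3) (chD 2 2 (M + 2)) 0 0 with hE2
  set E1 := Ech (M + 1) (chD 2 2 M) 0 0 with hE1
  have hne2 : Nonempty (∀ i, Fin (chD 2 2 (M + 2) i)) :=
    ⟨fun i => ⟨0, chD_pos (by norm_num) (by norm_num) i⟩⟩
  set N : ℝ := (Fintype.card (∀ i, Fin (chD 2 2 M i)) : ℝ) with hN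
  set V1 := theWorld.V 0 1 with hV1
  have hV1p : 1 ≤ V1 := theWorld.one_le_V 1 one_pos
  have key : ∀ β : ℝ, 1 ≤ β → Real.exp (β * (2 * theE - (E2 - E1))) ≤ V1 ^ 2 * N := by
    intro β hβ
    have hβ0 : 0 < β := by linarith
    have h1 := ((strip_out hβ0).2 M hM).2
    have h2 : theWorld.V 0 β ≤ V1 := theWorld.V_anti 1 β one_pos hβ
    have h3 : 0 ≤ theWorld.V 0 β := by linarith [theWorld.one_le_V β hβ0]
    have h4 := aStrip_pos theE β M
    have h5 : aStrip G1 theE β (M + 2) ≤ V1 ^ 2 * aStrip G1 theE β M :=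
      h1.trans (mul_le_mul_of_nonneg_right (pow_le_pow_left₀ h3 h2 2) h4.le)
    have h6 : Real.exp (-β * E2) * Real.exp (β * ((M + 2 : ℕ) : ℝ) * theE) ≤
        aStrip G1 theE β (M + 2) := by
      unfold aStrip
      rw [Zch_G1]
      exact mul_le_mul_of_nonneg_right (le_trace_exp (Hch_isHermitian _ _ _ _) β)
        (Real.exp_pos _).le
    have h7 : aStrip G1 theE β M ≤ N * Real.exp (-β * E1) * Real.exp (β * (M : ℝ) * theE) := by
      unfold aStrip
      rw [Zch_G1]
      exact mul_le_mul_of_nonneg_right (trace_exp_le (Hch_isHermitian _ _ _ _) hβ0.le)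
        (Real.exp_pos _).le
    have h8 : Real.exp (-β * E2) * Real.exp (β * ((M + 2 : ℕ) : ℝ) * theE) ≤
        V1 ^ 2 * (N * Real.exp (-β * E1) * Real.exp (β * (M : ℝ) * theE)) :=
      (h6.trans h5).trans (mul_le_mul_of_nonneg_left h7 (by positivity))
    have h9 : Real.exp (-β * E2) * Real.exp (β * ((M + 2 : ℕ) : ℝ) * theE) =
        Real.exp (β * (2 * theE - (E2 - E1))) *
          (Real.exp (-β * E1) * Real.exp (β * (M : ℝ) * theE)) := by
      rw [← Real.exp_add, ← Real.exp_add, ← Real.exp_add]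
      congr 1
      push_cast
      ring
    rw [h9] at h8
    have h10 : 0 < Real.exp (-β * E1) * Real.exp (β * (M : ℝ) * theE) := by positivity
    refine le_of_mul_le_mul_right (h8.trans (le_of_eq ?_)) h10
    ring
  by_contra hcon
  push Not at hcon
  set D := 2 * theE - (E2 - E1) with hD
  have hDp : 0 < D := by rw [hD]; linarith
  have hNp : 0 ≤ N := by positivity
  set C := V1 ^ 2 * N with hC
  have hCp : 0 ≤ C := by positivity
  have h1 := key (max 1 (C / D)) (le_max_left _ _)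
  have h2 : max 1 (C / D) * D + 1 ≤ Real.exp (max 1 (C / D) * D) := Real.add_one_le_exp _
  have h3 : C / D * D ≤ max 1 (C / D) * D := mul_le_mul_of_nonneg_right (le_max_right _ _) hDp.le
  rw [div_mul_cancel₀ _ hDp.ne'] at h3
  linarith

/-- numerical form -/
theorem theE_le {M : ℕ} (hM : Even M) {a b : ℝ} (ha : a ≤ Ech (M + 1) (chD 2 2 M) 0 0)
    (hb : Ech (M + 3) (chD 2 2 (M + 2)) 0 0 ≤ b) : theE ≤ (b - a) / 2 := by
  have := theE_le_strip hM
  linarith

end Hald
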