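import Mathlib

/-!
# Row 347, module M2 (auxiliary): path sums are matrix products

* `open_path_sum`: `∑_ω f (ω 0) (∏_{i<M} A_i (ω i) (ω (i+1))) g (ω M) = f ⬝ᵥ (A_0 ⋯ A_{M-1}) *ᵥ g`;
* `closed_path_sum`: `∑_ω ∏_i A_i (ω i) (ω (i+1 mod m)) = trace (A_0 ⋯ A_{m-1})`, `m ≥ 1`;
* `sum_prod_pair`: summing out the intermediate variables
  `∑_v ∏_i P_i (u i) (v i) * Q_i (u' i) (v i) = ∏_i (P_i * Q_iᵀ) (u i) (u' i)`.
-/

set_option autoImplicit false
set_option linter.unusedSectionVars false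

namespace Hald

open Matrix Finset

section

variable {Ω R : Type*} [Fintype Ω] [DecidableEq Ω] [CommSemiring R]

/-- Open path sum. -/
theorem open_path_sum {M : ℕ} (A : Fin M → Matrix Ω Ω R) (f g : Ω → R) :
    ∑ ω : Fin (M + 1) → Ω,
        f (ω 0) * (∏ i : Fin M, A i (ω i.castSucc) (ω i.succ)) * g (ω (Fin.last M)) =
      f ⬝ᵥ (List.ofFn A).prod *ᵥ g := by
  induction M generalizing f with
  | zero =>
    simp only [Finset.univ_eq_empty, Finset.prod_empty, mul_one, List.ofFn_zero, List.prod_nil,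
      Matrix.one_mulVec, dotProduct]
    refine Fintype.sum_equiv (Equiv.funUnique (Fin 1) Ω) _ _ fun ω => ?_
    rfl
  | succ M ih =>
    rw [List.ofFn_succ, List.prod_cons, ← Matrix.mulVec_mulVec, Matrix.dotProduct_mulVec]
    rw [← ih (fun i => A i.succ) (f ᵥ* A 0)]
    -- split off the first vertex
    rw [← (Fin.consEquiv (fun _ : Fin (M + 2) => Ω)).sum_comp]
    rw [← Finset.univ_product_univ, Finset.sum_product, Finset.sum_comm]
    refine Finset.sum_congr rfl fun ω _ => ?_
    have h : ∀ a : Ω,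
        f ((Fin.consEquiv (fun _ : Fin (M + 2) => Ω)) (a, ω) 0) *
          (∏ i : Fin (M + 1), A i ((Fin.consEquiv (fun _ : Fin (M + 2) => Ω)) (a, ω) i.castSucc)
            ((Fin.consEquiv (fun _ : Fin (M + 2) => Ω)) (a, ω) i.succ)) *
          g ((Fin.consEquiv (fun _ : Fin (M + 2) => Ω)) (a, ω) (Fin.last (M + 1))) =
        (f a * A 0 a (ω 0)) *
          ((∏ i : Fin M, A i.succ (ω i.castSucc) (ω i.succ)) * g (ω (Fin.last M))) := by
      intro a
      rw [Fin.prod_univ_succ]
      simp only [Fin.consEquiv, Equiv.coe_fn_mk, Fin.cons_zero, Fin.castSucc_zero, Fin.cons_succ,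
        ← Fin.succ_castSucc, ← Fin.succ_last]
      ring
    rw [Finset.sum_congr rfl fun a _ => h a, ← Finset.sum_mul]
    simp only [Matrix.vecMul, dotProduct]
    ring

/-- Closed path sum. -/
theorem closed_path_sum {M : ℕ} (A : Fin (M + 1) → Matrix Ω Ω R) :
    ∑ ω : Fin (M + 1) → Ω, ∏ i, A i (ω i) (ω (finRotate (M + 1) i)) =
      (List.ofFn A).prod.trace := by
  have h1 : ∀ ω : Fin (M + 1) → Ω, ∏ i, A i (ω i) (ω (finRotate (M + 1) i)) =
      (∏ i : Fin M, A i.castSucc (ω i.castSucc) (ω i.succ)) * A (Fin.last M) (ω (Fin.last M)) (ω 0) := by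
    intro ω
    rw [Fin.prod_univ_castSucc]
    congr 1
    · refine Finset.prod_congr rfl fun i _ => ?_
      congr 2
      exact finRotate_of_lt i.isLt
    · rw [finRotate_last]
  simp only [h1]
  -- write the trace as a sum of matrix elements
  have h2 : (List.ofFn A).prod = (List.ofFn fun i : Fin M => A i.castSucc).prod * A (Fin.last M) := by
    rw [List.ofFn_succ', List.concat_eq_append, List.prod_append, List.prod_singleton]
  rw [h2, Matrix.trace_mul_comm]
  have h3 : ∀ (P Q : Matrix Ω Ω R), (P * Q).trace = ∑ a, P a ⬝ᵥ Q *ᵥ (Pi.single a 1) := by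
    intro P Q
    simp only [Matrix.trace, Matrix.diag_apply, Matrix.mul_apply, dotProduct]
    refine Finset.sum_congr rfl fun a _ => Finset.sum_congr rfl fun b _ => ?_
    simp
  -- sum over the starting point
  have h4 : ∀ ω : Fin (M + 1) → Ω,
      (∏ i : Fin M, A i.castSucc (ω i.castSucc) (ω i.succ)) * A (Fin.last M) (ω (Fin.last M)) (ω 0) =
        ∑ a : Ω, (if ω 0 = a then 1 else 0) *
          (∏ i : Fin M, A i.castSucc (ω i.castSucc) (ω i.succ)) *
            A (Fin.last M) (ω (Fin.last M)) a := by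
    intro ω
    simp only [ite_mul, one_mul, zero_mul]
    rw [Finset.sum_ite_eq]
    simp
  rw [Finset.sum_congr rfl fun ω _ => h4 ω, Finset.sum_comm]
  rw [Matrix.trace_mul_comm]
  simp only [Matrix.trace, Matrix.diag_apply]
  refine Finset.sum_congr rfl fun a _ => ?_
  rw [open_path_sum (fun i : Fin M => A i.castSucc) (fun b => if b = a then 1 else 0)
    (fun b => A (Fin.last M) b a)]
  simp only [dotProduct, ite_mul, one_mul, zero_mul]
  rw [Finset.sum_ite_eq' Finset.univ a]
  simp [Matrix.mul_apply, Matrix.mulVec, dotProduct]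

/-- Closed path sum with a positive number of vertices. -/
theorem closed_path_sum' {m : ℕ} (hm : 1 ≤ m) (A : Fin m → Matrix Ω Ω R) :
    ∑ ω : Fin m → Ω, ∏ i, A i (ω i) (ω (finRotate m i)) = (List.ofFn A).prod.trace := by
  obtain ⟨M, rfl⟩ : ∃ M, m = M + 1 := ⟨m - 1, by omega⟩
  exact closed_path_sum A

/-- Summing out intermediate variables. -/
theorem sum_prod_pair {ι Ω' : Type*} [Fintype ι] [DecidableEq ι] [Fintype Ω']
    (P Q : ι → Matrix Ω Ω' R) (u u' : ι → Ω) :
    ∑ v : ι → Ω', ∏ i, (P i (u i) (v i) * Q i (u' i) (v i)) =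
      ∏ i, (P i * (Q i)ᵀ) (u i) (u' i) := by
  simp only [Matrix.mul_apply, Matrix.transpose_apply]
  rw [Finset.prod_univ_sum, Fintype.piFinset_univ]

/-- The ring: closed alternating path sum.  `∑_{u,v} ∏_i P_i(u_i, v_i) Q_i(u_{i+1}, v_i)
= trace ∏_i (P_i Q_iᵀ)`. -/
theorem ring_path_sum {m : ℕ} (hm : 1 ≤ m) (P Q : Fin m → Matrix Ω Ω R) :
    ∑ u : Fin m → Ω, ∑ v : Fin m → Ω,
        ∏ i, (P i (u i) (v i) * Q i (u (finRotate m i)) (v i)) =
      (List.ofFn fun i => P i * (Q i)ᵀ).prod.trace := by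
  rw [← closed_path_sum' hm]
  exact Finset.sum_congr rfl fun u _ => sum_prod_pair P Q u fun i => u (finRotate m i)

end

end Hald
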