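import Crest.Agent.Hald.Label
import Crest.Agent.Hald.Paths

/-!
# Row 347, module M2 → M5: open chains, sequential order of the bonds

Sites `0, …, M+1`, bonds `b = 0, …, M` between `b` and `b+1`.  The site `i` carries the letter
`xl i w` for the bond to its right and the letter `yl i w` for the bond to its left.
`chain_trace`:
`Tr (tens g * (bond_0 ⋯ bond_M)^n) = v₀ ⬝ᵥ (K_1 ⋯ K_M) *ᵥ v₁` with
`v₀ ω = tr (g_0 ∏_t xl_0^{ω t})`, `K_i ω ω' = tr (g_i ∏_t yl_i^{ω t} xl_i^{ω' t})`,
`v₁ ω = tr (g_{M+1} ∏_t yl_{M+1}^{ω t})`.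
-/

set_option autoImplicit false
set_option linter.unusedSectionVars false

namespace Hald

open Matrix Finset

section

variable {R W : Type*} [CommRing R] [Fintype W] [DecidableEq W]

/-- boundary vector of a chain -/
def bdryVec {k : Type*} [Fintype k] [DecidableEq k] (n : ℕ) (g : Matrix k k R)
    (x : W → Matrix k k R) : (Fin n → W) → R :=
  fun ω => (g * (List.ofFn fun t => x (ω t)).prod).trace

/-- transfer matrix of a site: letters `y` of the first bond, `x` of the second bond -/
def transMat {k : Type*} [Fintype k] [DecidableEq k] (n : ℕ) (g : Matrix k k R)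
    (y x : W → Matrix k k R) : Matrix (Fin n → W) (Fin n → W) R :=
  Matrix.of fun ω ω' => (g * (List.ofFn fun t => y (ω t) * x (ω' t)).prod).trace

variable {M : ℕ} {κ : Fin (M + 2) → Type*} [∀ i, Fintype (κ i)] [∀ i, DecidableEq (κ i)]

/-- one bond of the chain -/
noncomputable def chainBond (xl yl : ∀ i, W → Matrix (κ i) (κ i) R) (b : Fin (M + 1)) :
    Matrix (∀ i, κ i) (∀ i, κ i) R :=
  ∑ w, tens (pairFam b.castSucc b.succ (xl b.castSucc w) (yl b.succ w))

theorem chain_pair_left (xl yl : ∀ i, W → Matrix (κ i) (κ i) R) (b : Fin (M + 1)) (w : W)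
    (j : Fin (M + 2)) (hj : j = b.castSucc) :
    pairFam b.castSucc b.succ (xl b.castSucc w) (yl b.succ w) j = xl j w := by
  subst hj; exact pairFam_left _ _

theorem chain_pair_right (xl yl : ∀ i, W → Matrix (κ i) (κ i) R) (b : Fin (M + 1)) (w : W)
    (j : Fin (M + 2)) (hj : j = b.succ) :
    pairFam b.castSucc b.succ (xl b.castSucc w) (yl b.succ w) j = yl j w := by
  subst hj
  exact pairFam_right (Fin.castSucc_lt_succ (i := b)).ne _ _

theorem chain_pair_other (xl yl : ∀ i, W → Matrix (κ i) (κ i) R) (b : Fin (M + 1)) (w : W)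
    (j : Fin (M + 2)) (hj : j ≠ b.castSucc) (hj' : j ≠ b.succ) :
    pairFam b.castSucc b.succ (xl b.castSucc w) (yl b.succ w) j = 1 :=
  pairFam_other hj hj' _ _

theorem chain_site_zero (xl yl : ∀ i, W → Matrix (κ i) (κ i) R) (a : Fin (M + 1) → W) :
    (List.ofFn fun b : Fin (M + 1) =>
      pairFam b.castSucc b.succ (xl b.castSucc (a b)) (yl b.succ (a b)) 0).prod = xl 0 (a 0) := by
  rw [ofFn_prod_eq_single _ 0]
  · exact chain_pair_left xl yl 0 (a 0) 0 rfl
  · intro b hb
    apply chain_pair_other
    · intro h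
      exact hb (by rw [Fin.ext_iff] at h ⊢; simpa using h.symm)
    · exact (Fin.succ_ne_zero b).symm

theorem chain_site_last (xl yl : ∀ i, W → Matrix (κ i) (κ i) R) (a : Fin (M + 1) → W) :
    (List.ofFn fun b : Fin (M + 1) =>
      pairFam b.castSucc b.succ (xl b.castSucc (a b)) (yl b.succ (a b)) (Fin.last (M + 1))).prod =
        yl (Fin.last (M + 1)) (a (Fin.last M)) := by
  rw [ofFn_prod_eq_single _ (Fin.last M)]
  · exact chain_pair_right xl yl (Fin.last M) _ _ rfl
  · intro b hb
    apply chain_pair_other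
    · exact (Fin.castSucc_lt_last b).ne'
    · intro h
      exact hb (by rw [Fin.ext_iff] at h ⊢; simpa using h.symm)

theorem chain_site_mid (xl yl : ∀ i, W → Matrix (κ i) (κ i) R) (a : Fin (M + 1) → W) (i : Fin M) :
    (List.ofFn fun b : Fin (M + 1) =>
      pairFam b.castSucc b.succ (xl b.castSucc (a b)) (yl b.succ (a b)) i.castSucc.succ).prod =
        yl i.castSucc.succ (a i.castSucc) * xl i.castSucc.succ (a i.succ) := by
  rw [ofFn_prod_eq_pair _ i.castSucc i.succ (Fin.castSucc_lt_succ (i := i))]
  · rw [chain_pair_right xl yl i.castSucc _ _ rfl,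
      chain_pair_left xl yl i.succ (a i.succ) i.castSucc.succ (by rw [Fin.succ_castSucc])]
  · intro b hb hb'
    apply chain_pair_other
    · intro h
      exact hb' (by rw [Fin.ext_iff] at h ⊢; simpa using h.symm)
    · intro h
      exact hb (by rw [Fin.ext_iff] at h ⊢; simpa using h.symm)

/-- **Trace of the `n`-th power of the sequential product over an open chain.** -/
theorem chain_trace (n : ℕ) (xl yl : ∀ i, W → Matrix (κ i) (κ i) R)
    (G : ∀ i, Matrix (κ i) (κ i) R) :
    (tens G * ((List.ofFn fun b : Fin (M + 1) => chainBond xl yl b).prod) ^ n).trace =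
      bdryVec n (G 0) (xl 0) ⬝ᵥ
        (List.ofFn fun i : Fin M =>
          transMat n (G i.castSucc.succ) (yl i.castSucc.succ) (xl i.castSucc.succ)).prod *ᵥ
        bdryVec n (G (Fin.last (M + 1))) (yl (Fin.last (M + 1))) := by
  unfold chainBond
  rw [trace_graph_pow n (fun (b : Fin (M + 1)) w =>
    pairFam b.castSucc b.succ (xl b.castSucc w) (yl b.succ w)) G]
  rw [← open_path_sum]
  refine Finset.sum_congr rfl fun ω _ => ?_
  rw [Fin.prod_univ_succ, Fin.prod_univ_castSucc, ← mul_assoc]
  congr 1
  · congr 1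
    · unfold bdryVec
      congr 3
      congr 1
      funext t
      exact chain_site_zero xl yl fun b => ω b t
    · refine Finset.prod_congr rfl fun i _ => ?_
      unfold transMat
      rw [Matrix.of_apply]
      congr 3
      congr 1
      funext t
      exact chain_site_mid xl yl (fun b => ω b t) i
  · unfold bdryVec
    rw [Fin.succ_last]
    congr 3
    congr 1
    funext t
    exact chain_site_last xl yl fun b => ω b t

end

end Hald
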