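import Crest.Agent.Hald.Spectral

/-!
# Row 347, M4 (4c): algebra of the sectors (abstract)

* `D2Act X Y`, `Z3Act C`, `A4Act X Y C`: real orthogonal actions of `D₂`, `Z₃`, `A₄`.
* `PD a b X Y`, `PZ ζ C`: the projections on the characters.
* traces `Tr (P M)` as combinations of the twisted traces.
-/

set_option autoImplicit false
set_option linter.unusedSectionVars false

namespace Hald

open Matrix Finset

variable {κ : Type*} [Fintype κ] [DecidableEq κ]

theorem cplx_one : cplx (1 : Matrix κ κ ℝ) = 1 := by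
  ext i j
  by_cases h : i = j
  · subst h; simp [cplx]
  · simp [cplx, h]

theorem cplx_smul (a : ℝ) (A : Matrix κ κ ℝ) : cplx (a • A) = (a : ℂ) • cplx A := by
  ext i j
  simp [cplx]

theorem cplx_pow (A : Matrix κ κ ℝ) (n : ℕ) : cplx (A ^ n) = cplx A ^ n := by
  induction n with
  | zero => rw [pow_zero, pow_zero, cplx_one]
  | succ n ih => rw [pow_succ, pow_succ, cplx_mul, ih]

theorem cplx_exp (A : Matrix κ κ ℝ) (β : ℝ) :
    cplx (NormedSpace.exp (β • A)) = NormedSpace.exp (β • cplx A) := by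
  have h := exp_map_ofReal (β • A)
  have e : (β • A).map (fun x : ℝ => (x : ℂ)) = β • cplx A := by
    ext i j
    simp [cplx]
  rw [e] at h
  exact h

/-- conjugation invariance of twisted traces -/
theorem trace_conj_inv {R A M : Matrix κ κ ℝ} (h1 : R * Rᵀ = 1) (h2 : Rᵀ * R = 1)
    (hRM : R * M = M * R) : (R * A * Rᵀ * M).trace = (A * M).trace := by
  have h3 : Rᵀ * M = M * Rᵀ := by
    calc Rᵀ * M = Rᵀ * M * (R * Rᵀ) := by rw [h1, Matrix.mul_one]
      _ = Rᵀ * (M * R) * Rᵀ := by simp only [Matrix.mul_assoc]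
      _ = Rᵀ * R * M * Rᵀ := by rw [← hRM]; simp only [Matrix.mul_assoc]
      _ = M * Rᵀ := by rw [h2, Matrix.one_mul]
  calc (R * A * Rᵀ * M).trace = (R * (A * (M * Rᵀ))).trace := by
        rw [← h3]; simp only [Matrix.mul_assoc]
    _ = ((A * (M * Rᵀ)) * R).trace := Matrix.trace_mul_comm _ _
    _ = (A * M).trace := by
        rw [Matrix.mul_assoc A, Matrix.mul_assoc M, h2, Matrix.mul_one]

/-- action of `D₂ = {1, X, Y, XY}` -/
structure D2Act (X Y : Matrix κ κ ℝ) : Prop where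
  XX : X * X = 1
  YY : Y * Y = 1
  XY : X * Y = Y * X
  Xt : Xᵀ = X
  Yt : Yᵀ = Y

/-- action of `Z₃` -/
structure Z3Act (C : Matrix κ κ ℝ) : Prop where
  CCC : C * C * C = 1
  Ct : Cᵀ = C * C

/-- action of `A₄` -/
structure A4Act (X Y C : Matrix κ κ ℝ) : Prop extends D2Act X Y, Z3Act C where
  CX : C * X = Y * C
  CY : C * Y = X * Y * C

/-- projection on a character of `D₂` -/
noncomputable def PD (a b : ℝ) (X Y : Matrix κ κ ℝ) : Matrix κ κ ℝ :=
  (1 / 4 : ℝ) • (1 + a • X + b • Y + (a * b) • (X * Y))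

theorem D2Act.YX' {X Y : Matrix κ κ ℝ} (h : D2Act X Y) : X * (X * Y) = Y := by
  rw [← Matrix.mul_assoc, h.XX, Matrix.one_mul]

section PDlemmas

variable {X Y M : Matrix κ κ ℝ} {a b : ℝ}

theorem PD_eq (a b : ℝ) (X Y : Matrix κ κ ℝ) :
    PD a b X Y = (1 / 4 : ℝ) • ((1 + a • X) * (1 + b • Y)) := by
  unfold PD
  rw [Matrix.add_mul, Matrix.one_mul, Matrix.mul_add, Matrix.mul_one, Matrix.smul_mul,
    Matrix.mul_smul, smul_smul]
  congr 1
  abel

theorem PD_transpose (h : D2Act X Y) : (PD a b X Y)ᵀ = PD a b X Y := by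
  unfold PD
  simp only [Matrix.transpose_smul, Matrix.transpose_add, Matrix.transpose_one,
    Matrix.transpose_mul, h.Xt, h.Yt, h.XY]

theorem one_add_smul_sq {X : Matrix κ κ ℝ} (hX : X * X = 1) (ha : a * a = 1) :
    (1 + a • X) * (1 + a • X) = (2 : ℝ) • (1 + a • X) := by
  rw [Matrix.add_mul, Matrix.one_mul, Matrix.mul_add, Matrix.mul_one, Matrix.smul_mul,
    Matrix.mul_smul, smul_smul, hX, ha, one_smul, two_smul]
  abel

theorem PD_idem (h : D2Act X Y) (ha : a * a = 1) (hb : b * b = 1) :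
    PD a b X Y * PD a b X Y = PD a b X Y := by
  have hc : (1 + b • Y) * (1 + a • X) = (1 + a • X) * (1 + b • Y) := by
    simp only [Matrix.add_mul, Matrix.mul_add, Matrix.one_mul, Matrix.mul_one, Matrix.smul_mul,
      Matrix.mul_smul, h.XY]
    ext i j
    simp only [Matrix.add_apply, Matrix.smul_apply, smul_eq_mul]
    ring
  rw [PD_eq, Matrix.smul_mul, Matrix.mul_smul, smul_smul]
  have : (1 + a • X) * (1 + b • Y) * ((1 + a • X) * (1 + b • Y)) =
      (4 : ℝ) • ((1 + a • X) * (1 + b • Y)) := by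
    calc (1 + a • X) * (1 + b • Y) * ((1 + a • X) * (1 + b • Y))
        = (1 + a • X) * ((1 + b • Y) * (1 + a • X)) * (1 + b • Y) := by
          simp only [Matrix.mul_assoc]
      _ = ((1 + a • X) * (1 + a • X)) * ((1 + b • Y) * (1 + b • Y)) := by
          rw [hc]; simp only [Matrix.mul_assoc]
      _ = _ := by
          rw [one_add_smul_sq h.XX ha, one_add_smul_sq h.YY hb, Matrix.smul_mul, Matrix.mul_smul,
            smul_smul]
          norm_num
  rw [this, smul_smul]
  norm_num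

theorem PD_comm (hXM : X * M = M * X) (hYM : Y * M = M * Y) :
    PD a b X Y * M = M * PD a b X Y := by
  unfold PD
  have h3 : X * Y * M = M * (X * Y) := by
    rw [Matrix.mul_assoc, hYM, ← Matrix.mul_assoc, hXM, Matrix.mul_assoc]
  simp only [Matrix.smul_mul, Matrix.mul_smul, Matrix.add_mul, Matrix.mul_add, Matrix.one_mul,
    Matrix.mul_one, hXM, hYM, h3]

theorem PD_trace : (PD a b X Y * M).trace =
    (M.trace + a * (X * M).trace + b * (Y * M).trace + a * b * (X * Y * M).trace) / 4 := by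
  unfold PD
  simp only [Matrix.smul_mul, Matrix.add_mul, Matrix.one_mul, Matrix.trace_smul, Matrix.trace_add,
    smul_eq_mul]
  ring

theorem PD_hproj (h : D2Act X Y) (ha : a * a = 1) (hb : b * b = 1) :
    HProj (cplx (PD a b X Y)) := by
  refine ⟨?_, ?_⟩
  · rw [cplx_conjTranspose, PD_transpose h]
  · rw [← cplx_mul, PD_idem h ha hb]

end PDlemmas

/-- projection on a character of `Z₃` -/
noncomputable def PZ (ζ : ℂ) (C : Matrix κ κ ℝ) : Matrix κ κ ℂ :=
  (1 / 3 : ℂ) • (1 + ζ • cplx C + (ζ * ζ) • cplx (C * C))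

section PZlemmas

variable {C M : Matrix κ κ ℝ} {ζ : ℂ}

theorem Z3Act.Ct' (h : Z3Act C) : (C * C)ᵀ = C := by
  rw [Matrix.transpose_mul, h.Ct, Matrix.mul_assoc, ← Matrix.mul_assoc C C C, h.CCC, Matrix.mul_one]

theorem Z3Act.orth (h : Z3Act C) : C * Cᵀ = 1 := by
  rw [h.Ct, ← Matrix.mul_assoc, h.CCC]

theorem Z3Act.orth' (h : Z3Act C) : Cᵀ * C = 1 := by
  rw [h.Ct, h.CCC]

theorem PZ_hproj (h : Z3Act C) (h3 : ζ * ζ * ζ = 1) (hstar : star ζ = ζ * ζ) :
    HProj (PZ ζ C) := by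
  have hs2 : star (ζ * ζ) = ζ := by
    rw [star_mul', hstar]
    linear_combination ζ * h3
  refine ⟨?_, ?_⟩
  · unfold PZ
    rw [Matrix.conjTranspose_smul, Matrix.conjTranspose_add, Matrix.conjTranspose_add,
      Matrix.conjTranspose_smul, Matrix.conjTranspose_smul, Matrix.conjTranspose_one,
      cplx_conjTranspose, cplx_conjTranspose, h.Ct, h.Ct', hstar, hs2]
    have e : star (1 / 3 : ℂ) = 1 / 3 := by simp
    rw [e]
    congr 1
    abel
  · unfold PZ
    set A := cplx C with hA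
    have hB : cplx (C * C) = A * A := cplx_mul C C
    have hAAA : A * A * A = 1 := by
      rw [hA, ← cplx_mul, ← cplx_mul, h.CCC, cplx_one]
    have e1 : A * (A * A) = 1 := by rw [← Matrix.mul_assoc, hAAA]
    have e2 : A * A * (A * A) = A := by rw [← Matrix.mul_assoc, hAAA, Matrix.one_mul]
    rw [hB, Matrix.smul_mul, Matrix.mul_smul, smul_smul]
    have key : (1 + ζ • A + (ζ * ζ) • (A * A)) * (1 + ζ • A + (ζ * ζ) • (A * A)) =
        (3 : ℂ) • (1 + ζ • A + (ζ * ζ) • (A * A)) := by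
      simp only [Matrix.add_mul, Matrix.mul_add, Matrix.one_mul, Matrix.mul_one, Matrix.smul_mul,
        Matrix.mul_smul, e1, e2, hAAA]
      ext i j
      simp only [Matrix.add_apply, Matrix.smul_apply, smul_eq_mul]
      linear_combination (2 * (1 : Matrix κ κ ℂ) i j + ζ * A i j) * h3
    rw [key, smul_smul]
    norm_num

theorem PZ_comm (hCM : C * M = M * C) : PZ ζ C * cplx M = cplx M * PZ ζ C := by
  unfold PZ
  have h3 : C * C * M = M * (C * C) := by
    rw [Matrix.mul_assoc, hCM, ← Matrix.mul_assoc, hCM, Matrix.mul_assoc]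
  simp only [Matrix.smul_mul, Matrix.mul_smul, Matrix.add_mul, Matrix.mul_add, Matrix.one_mul,
    Matrix.mul_one, ← cplx_mul, hCM, h3]

/-- transposition: `Tr (C² M) = Tr (C M)` -/
theorem trace_CC (h : Z3Act C) (hCM : C * M = M * C) (hMt : Mᵀ = M) :
    (C * C * M).trace = (C * M).trace := by
  calc (C * C * M).trace = ((C * C * M)ᵀ).trace := (Matrix.trace_transpose _).symm
    _ = (M * C).trace := by rw [Matrix.transpose_mul, h.Ct', hMt]
    _ = (C * M).trace := by rw [hCM]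

theorem PZ_trace (h : Z3Act C) (hCM : C * M = M * C) (hMt : Mᵀ = M) :
    (PZ ζ C * cplx M).trace =
      ((M.trace : ℝ) + (ζ + ζ * ζ) * (((C * M).trace : ℝ) : ℂ)) / 3 := by
  unfold PZ
  simp only [Matrix.smul_mul, Matrix.add_mul, Matrix.one_mul, Matrix.trace_smul, Matrix.trace_add,
    smul_eq_mul, ← cplx_mul, cplx_trace, trace_CC h hCM hMt]
  ring

end PZlemmas

/-- primitive third root of unity -/
noncomputable def om3 : ℂ := ⟨-1 / 2, Real.sqrt 3 / 2⟩

theorem om3_star : star om3 = om3 * om3 := by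
  apply Complex.ext
  · simp only [om3, Complex.star_def, Complex.conj_re, Complex.mul_re]
    have : Real.sqrt 3 * Real.sqrt 3 = 3 := Real.mul_self_sqrt (by norm_num)
    nlinarith
  · simp only [om3, Complex.star_def, Complex.conj_im, Complex.mul_im]
    ring

theorem om3_add : om3 + om3 * om3 = -1 := by
  rw [← om3_star]
  apply Complex.ext
  · simp [om3]
  · simp [om3]

theorem om3_cube : om3 * om3 * om3 = 1 := by
  have h := om3_add
  have h2 : om3 * om3 = -1 - om3 := by linear_combination h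
  rw [h2]
  linear_combination -h

section A4

variable {X Y C M : Matrix κ κ ℝ}

theorem A4Act.orthX (h : D2Act X Y) : X * Xᵀ = 1 := by rw [h.Xt, h.XX]
theorem A4Act.orthY (h : D2Act X Y) : Y * Yᵀ = 1 := by rw [h.Yt, h.YY]

/-- the three `π` rotations have the same twisted trace -/
theorem A4Act.trace_Y (h : A4Act X Y C) (hCM : C * M = M * C) :
    (Y * M).trace = (X * M).trace := by
  have e : Y = C * X * Cᵀ := by
    rw [h.CX, Matrix.mul_assoc, h.toZ3Act.orth, Matrix.mul_one]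
  conv_lhs => rw [e]
  exact trace_conj_inv h.toZ3Act.orth h.toZ3Act.orth' hCM

theorem A4Act.trace_XY (h : A4Act X Y C) (hCM : C * M = M * C) :
    (X * Y * M).trace = (X * M).trace := by
  have e : X * Y = C * Y * Cᵀ := by
    rw [h.CY, Matrix.mul_assoc (X * Y) C, h.toZ3Act.orth, Matrix.mul_one]
  conv_lhs => rw [e]
  rw [trace_conj_inv h.toZ3Act.orth h.toZ3Act.orth' hCM, h.trace_Y hCM]

theorem A4Act.trace_XC (h : A4Act X Y C) (hYM : Y * M = M * Y) :
    (X * C * M).trace = (C * M).trace := by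
  have e : X * C = Y * C * Yᵀ := by
    rw [h.Yt, Matrix.mul_assoc, h.CY, ← Matrix.mul_assoc, ← Matrix.mul_assoc, ← h.XY,
      Matrix.mul_assoc X Y Y, h.YY, Matrix.mul_one]
  rw [e]
  exact trace_conj_inv (A4Act.orthY h.toD2Act) (by rw [h.Yt, h.YY]) hYM

theorem A4Act.trace_XYC (h : A4Act X Y C) (hXM : X * M = M * X) :
    (X * Y * C * M).trace = (C * M).trace := by
  have e : X * Y * C = X * C * Xᵀ := by
    rw [h.Xt, Matrix.mul_assoc X C X, h.CX, Matrix.mul_assoc]
  rw [e]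
  exact trace_conj_inv (A4Act.orthX h.toD2Act) (by rw [h.Xt, h.XX]) hXM

theorem A4Act.trace_YC (h : A4Act X Y C) (hXM : X * M = M * X) (hYM : Y * M = M * Y) :
    (Y * C * M).trace = (C * M).trace := by
  have e1 : Y * C = C * X := h.CX.symm
  rw [e1, Matrix.mul_assoc, hXM, ← Matrix.mul_assoc, Matrix.trace_mul_comm, ← Matrix.mul_assoc]
  exact h.trace_XC hYM

/-- `C` commutes with the trivial `D₂` projection -/
theorem A4Act.CD (h : A4Act X Y C) : C * PD 1 1 X Y = PD 1 1 X Y * C := by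
  unfold PD
  have h1 : C * (X * Y) = X * C := by
    rw [← Matrix.mul_assoc, h.CX, Matrix.mul_assoc, h.CY, ← Matrix.mul_assoc, ← Matrix.mul_assoc,
      ← h.XY, Matrix.mul_assoc X Y Y, h.YY, Matrix.mul_one]
  simp only [Matrix.smul_mul, Matrix.mul_smul, Matrix.add_mul, Matrix.mul_add, Matrix.one_mul,
    one_smul, mul_one, h.CX, h.CY, h1]
  congr 1
  abel

/-- projections of `A₄`: trivial on `D₂`, character `ζ` of `Z₃` -/
noncomputable def PA (ζ : ℂ) (X Y C : Matrix κ κ ℝ) : Matrix κ κ ℂ :=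
  cplx (PD 1 1 X Y) * PZ ζ C

theorem PA_hproj {ζ : ℂ} (h : A4Act X Y C) (h3 : ζ * ζ * ζ = 1) (hstar : star ζ = ζ * ζ) :
    HProj (PA ζ X Y C) := by
  refine (PD_hproj h.toD2Act (by norm_num) (by norm_num)).mul (PZ_hproj h.toZ3Act h3 hstar) ?_
  exact (PZ_comm h.CD).symm

theorem PA_comm {ζ : ℂ} (hXM : X * M = M * X) (hYM : Y * M = M * Y) (hCM : C * M = M * C) :
    PA ζ X Y C * cplx M = cplx M * PA ζ X Y C := by
  unfold PA
  rw [Matrix.mul_assoc, PZ_comm hCM, ← Matrix.mul_assoc, ← cplx_mul, PD_comm hXM hYM, cplx_mul,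
    Matrix.mul_assoc]

theorem PA_trace {ζ : ℂ} (h : A4Act X Y C) (hXM : X * M = M * X) (hYM : Y * M = M * Y)
    (hCM : C * M = M * C) (hMt : Mᵀ = M) :
    (PA ζ X Y C * cplx M).trace =
      ((((M.trace + 3 * (X * M).trace) / 4 : ℝ) : ℂ) +
        (ζ + ζ * ζ) * (((C * M).trace : ℝ) : ℂ)) / 3 := by
  set D := PD 1 1 X Y with hD
  have hDM : D * M = M * D := PD_comm hXM hYM
  have hDt : Dᵀ = D := PD_transpose h.toD2Act
  have t0 : (D * M).trace = (M.trace + 3 * (X * M).trace) / 4 := by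
    rw [hD, PD_trace, h.trace_Y hCM, h.trace_XY hCM]
    ring
  have t1 : (C * (D * M)).trace = (C * M).trace := by
    rw [← Matrix.mul_assoc, hD, h.CD, Matrix.mul_assoc, PD_trace, ← Matrix.mul_assoc,
      ← Matrix.mul_assoc, ← Matrix.mul_assoc, h.trace_XC hYM, h.trace_YC hXM hYM,
      h.trace_XYC hXM]
    ring
  have e : PA ζ X Y C * cplx M = PZ ζ C * cplx (D * M) := by
    unfold PA
    rw [cplx_mul, ← Matrix.mul_assoc, hD, PZ_comm h.CD]
  rw [e, PZ_trace h.toZ3Act, t0, t1]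
  · rw [← Matrix.mul_assoc, hD, h.CD, Matrix.mul_assoc, hCM, Matrix.mul_assoc]
  · rw [Matrix.transpose_mul, hDt, hMt, hDM]

end A4

end Hald
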