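import Crest.Agent.Hald.ChainDefs
import Crest.Agent.Hald.SectorAlg

/-!
# Row 347, M5 (5b): Trotter limit for open chains

`chain_tendsto`: `wv(d 0)(h0) ⬝ᵥ K^M *ᵥ wv(d last)(h1) → Zch`, where `K = Kn g β n` (complexified).
-/

set_option autoImplicit false
set_option linter.unusedSectionVars false

namespace Hald

open Matrix Finset Filter Topology Crest.MathPhysics.SpinChain

section

variable {R W : Type*} [CommRing R] [Fintype W] [DecidableEq W]
variable {M : ℕ} {κ : Fin (M + 2) → Type*} [∀ i, Fintype (κ i)] [∀ i, DecidableEq (κ i)]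

/-- `chain_trace` with extra one-site factors `P` at the two ends. -/
theorem chain_trace_field (n : ℕ) (xl yl : ∀ i, W → Matrix (κ i) (κ i) R)
    (G P : ∀ i, Matrix (κ i) (κ i) R) (hP : ∀ i : Fin M, P i.castSucc.succ = 1) :
    (tens G * ((List.ofFn fun b : Fin (M + 1) => chainBond xl yl b).prod * tens P) ^ n).trace =
      bdryVec n (G 0) (fun w => xl 0 w * P 0) ⬝ᵥ
        (List.ofFn fun i : Fin M =>
          transMat n (G i.castSucc.succ) (yl i.castSucc.succ) (xl i.castSucc.succ)).prod *ᵥ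
        bdryVec n (G (Fin.last (M + 1))) (fun w => yl (Fin.last (M + 1)) w * P (Fin.last (M + 1))) := by
  unfold chainBond
  rw [graph_expand (fun (b : Fin (M + 1)) w =>
    pairFam b.castSucc b.succ (xl b.castSucc w) (yl b.succ w)), Finset.sum_mul]
  rw [Finset.sum_congr rfl fun w _ => tens_mul _ _]
  rw [trace_label_expand n G (fun i (a : Fin (M + 1) → W) => (List.ofFn fun b : Fin (M + 1) =>
    pairFam b.castSucc b.succ (xl b.castSucc (a b)) (yl b.succ (a b)) i).prod * P i)]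
  rw [← open_path_sum]
  refine Finset.sum_congr rfl fun ω _ => ?_
  rw [Fin.prod_univ_succ, Fin.prod_univ_castSucc, ← mul_assoc]
  congr 1
  · congr 1
    · unfold bdryVec
      congr 3
      congr 1
      funext t
      rw [chain_site_zero xl yl fun b => ω b t]
    · refine Finset.prod_congr rfl fun i _ => ?_
      unfold transMat
      rw [Matrix.of_apply]
      congr 3
      congr 1
      funext t
      rw [chain_site_mid xl yl (fun b => ω b t) i, hP, Matrix.mul_one]
  · unfold bdryVec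
    rw [Fin.succ_last]
    congr 3
    congr 1
    funext t
    rw [chain_site_last xl yl fun b => ω b t]

end

section

variable {M : ℕ} (d : Fin (M + 2) → ℕ)

/-- negative bond in complex form -/
noncomputable def nbC (b : Fin (M + 1)) : Matrix (∀ i, Fin (d i)) (∀ i, Fin (d i)) ℂ :=
  ∑ a : Fin 3, site (κ := fun i => Fin (d i)) b.castSucc ((-Complex.I) • Sp (d b.castSucc) a) *
    site (κ := fun i => Fin (d i)) b.succ ((-Complex.I) • Sp (d b.succ) a)

theorem nbC_eq (b : Fin (M + 1)) : nbC d b =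
    -∑ a : Fin 3, site (κ := fun i => Fin (d i)) b.castSucc (Sp (d b.castSucc) a) *
      site (κ := fun i => Fin (d i)) b.succ (Sp (d b.succ) a) := by
  unfold nbC
  rw [← Finset.sum_neg_distrib]
  refine Finset.sum_congr rfl fun a _ => ?_
  rw [site_smul, site_smul, Matrix.smul_mul, Matrix.mul_smul, smul_smul]
  have : -Complex.I * -Complex.I = -1 := by rw [neg_mul_neg, Complex.I_mul_I]
  rw [this, neg_one_smul]

/-- one Trotter factor of a bond -/
theorem nbC_factor (b : Fin (M + 1)) {τ : ℝ} (hτ : 0 ≤ τ) :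
    1 + τ • nbC d b =
      chainBond (κ := fun i => Fin (d i)) (fun i => Xc (d i) τ) (fun i => Xc (d i) τ) b := by
  have h := bond_factor (κ := fun i => Fin (d i)) (Fin.castSucc_lt_succ (i := b)).ne
    ((Real.sqrt τ : ℝ) : ℂ) (fun a => (-Complex.I) • Sp (d b.castSucc) a)
    (fun a => (-Complex.I) • Sp (d b.succ) a)
  have h2 : ((Real.sqrt τ : ℝ) : ℂ) * ((Real.sqrt τ : ℝ) : ℂ) = (τ : ℂ) := by
    rw [← Complex.ofReal_mul, Real.mul_self_sqrt hτ]
  rw [h2] at h
  unfold chainBond Xc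
  rw [← h]
  rfl

/-- the list of Trotter factors of a chain -/
noncomputable def chFactors (h0 h1 : ℝ) :
    List ((ℝ → Matrix (∀ i, Fin (d i)) (∀ i, Fin (d i)) ℂ) ×
      Matrix (∀ i, Fin (d i)) (∀ i, Fin (d i)) ℂ) :=
  (List.ofFn fun b : Fin (M + 1) => (fun τ : ℝ => 1 + τ • nbC d b, nbC d b)) ++
    [(fun τ : ℝ => NormedSpace.exp (τ • ((h0 : ℂ) • site (κ := fun i => Fin (d i)) 0 (Sp (d 0) 2))),
        (h0 : ℂ) • site (κ := fun i => Fin (d i)) 0 (Sp (d 0) 2)),
      (fun τ : ℝ => NormedSpace.exp (τ • ((h1 : ℂ) • site (κ := fun i => Fin (d i))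
          (Fin.last (M + 1)) (Sp (d (Fin.last (M + 1))) 2))),
        (h1 : ℂ) • site (κ := fun i => Fin (d i)) (Fin.last (M + 1)) (Sp (d (Fin.last (M + 1))) 2))]

theorem chFactors_ok (h0 h1 : ℝ) : ∀ p ∈ chFactors d h0 h1, p.1 0 = 1 ∧ HasDerivAt p.1 p.2 0 := by
  intro p hp
  unfold chFactors at hp
  rw [List.mem_append] at hp
  rcases hp with hp | hp
  · rw [List.mem_ofFn] at hp
    obtain ⟨b, rfl⟩ := hp
    exact ⟨by simp, matrix_hasDerivAt_one_add_smul _⟩
  · simp only [List.mem_cons, List.not_mem_nil, or_false] at hp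
    rcases hp with rfl | rfl
    · exact ⟨by simp, matrix_hasDerivAt_exp_smul_zero _⟩
    · exact ⟨by simp, matrix_hasDerivAt_exp_smul_zero _⟩

theorem chFactors_sum (h0 h1 : ℝ) :
    ((chFactors d h0 h1).map fun p => p.2).sum = -Hch (M + 1) d h0 h1 := by
  unfold chFactors Hch
  rw [List.map_append, List.sum_append, List.map_ofFn, List.sum_ofFn]
  simp only [List.map_cons, List.map_nil, List.sum_cons, List.sum_nil, Function.comp_apply, add_zero]
  rw [Finset.sum_congr rfl fun b _ => nbC_eq d b, Finset.sum_neg_distrib]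
  abel

/-- end factors -/
noncomputable def endP (h0 h1 τ : ℝ) : ∀ i : Fin (M + 2), Matrix (Fin (d i)) (Fin (d i)) ℂ :=
  pairFam (κ := fun i => Fin (d i)) 0 (Fin.last (M + 1))
    (NormedSpace.exp (τ • ((h0 : ℂ) • Sp (d 0) 2)))
    (NormedSpace.exp (τ • ((h1 : ℂ) • Sp (d (Fin.last (M + 1))) 2)))

theorem chFactors_prod (h0 h1 : ℝ) {τ : ℝ} (hτ : 0 ≤ τ) :
    ((chFactors d h0 h1).map fun p => p.1 τ).prod =
      (List.ofFn fun b : Fin (M + 1) =>
        chainBond (κ := fun i => Fin (d i)) (fun i => Xc (d i) τ) (fun i => Xc (d i) τ) b).prod *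
      tens (κ := fun i => Fin (d i)) (endP d h0 h1 τ) := by
  unfold chFactors
  rw [List.map_append, List.prod_append, List.map_ofFn]
  congr 1
  · congr 2
    funext b
    exact nbC_factor d b hτ
  · simp only [List.map_cons, List.map_nil, List.prod_cons, List.prod_nil, mul_one]
    rw [← site_smul, ← site_smul, exp_smul_site, exp_smul_site,
      site_mul_site (by simp [Fin.ext_iff])]
    rfl

/-- **(5b)** general Trotter limit of an open chain (sequential order). -/
theorem chain_tendsto' (hd : ∀ i, 0 < d i) (Gt : (d : ℕ) → Matrix (Fin d) (Fin d) ℂ) (h0 h1 : ℝ)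
    {β : ℝ} (hβ : 0 ≤ β) :
    Tendsto (fun n : ℕ => wv Gt (d 0) h0 β n ⬝ᵥ
        (List.ofFn fun i : Fin M => transMat n (Gt (d i.castSucc.succ)) (Xc (d i.castSucc.succ) (β / n))
          (Xc (d i.castSucc.succ) (β / n))).prod *ᵥ
        wv Gt (d (Fin.last (M + 1))) h1 β n) atTop (𝓝 (Zch Gt (M + 1) d h0 h1 β)) := by
  have hne : Nonempty (∀ i, Fin (d i)) := ⟨fun i => ⟨0, hd i⟩⟩
  have h := matrix_tendsto_trace_mul_pow' (tens (κ := fun i => Fin (d i)) (fun i => Gt (d i)))
    (chFactors d h0 h1) (chFactors_ok d h0 h1) β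
  rw [chFactors_sum, smul_neg, ← neg_smul] at h
  refine h.congr fun n => ?_
  have hτ : 0 ≤ β / (n : ℝ) := by positivity
  rw [chFactors_prod d h0 h1 hτ]
  refine (chain_trace_field (κ := fun i => Fin (d i)) n (fun i => Xc (d i) (β / n))
    (fun i => Xc (d i) (β / n)) (fun i => Gt (d i)) (endP d h0 h1 (β / n)) ?_).trans ?_
  · intro i
    unfold endP
    apply pairFam_other
    · exact Fin.succ_ne_zero _
    · intro h
      have := congrArg Fin.val h
      simp at this
      omega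
  · unfold wv endP
    rw [pairFam_left, pairFam_right (by simp [Fin.ext_iff])]

end

/-! ### identification of the bulk kernel with `Kn` -/

theorem cplx_list_prod {κ : Type*} [Fintype κ] [DecidableEq κ] (l : List (Matrix κ κ ℝ)) :
    cplx l.prod = (l.map cplx).prod := by
  induction l with
  | nil => simp [cplx_one]
  | cons a l ih => rw [List.prod_cons, cplx_mul, ih, List.map_cons, List.prod_cons]

theorem trace_cplx {κ : Type*} [Fintype κ] (A : Matrix κ κ ℝ) :
    (cplx A).trace = ((A.trace : ℝ) : ℂ) := by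
  unfold cplx
  simp [Matrix.trace]

theorem Xc_three (τ : ℝ) (w : Fin 4) : Xc 3 τ w = cartU * cplx (Xr τ w) * cartUᴴ := by
  refine Fin.cases ?_ (fun a => ?_) w
  · have h1 : Xc 3 τ 0 = 1 := rfl
    have h2 : Xr τ 0 = 1 := rfl
    rw [h1, h2, cplx_one, Matrix.mul_one, cartU_mul_conj]
  · have h1 : Xc 3 τ a.succ = ((Real.sqrt τ : ℝ) : ℂ) • ((-Complex.I) • spinOp a) := rfl
    have h2 : Xr τ a.succ = Real.sqrt τ • Lr a := rfl
    have h3 : spinOp a = Complex.I • (cartU * cplx (Lr a) * cartUᴴ) := by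
      rw [spinOp_eq, Matrix.mul_smul, Matrix.smul_mul]
      rfl
    have h4 : -Complex.I * Complex.I = 1 := by rw [neg_mul, Complex.I_mul_I, neg_neg]
    have h5 : (-Complex.I) • (Complex.I • (cartU * cplx (Lr a) * cartUᴴ)) =
        cartU * cplx (Lr a) * cartUᴴ := by rw [smul_smul, h4, one_smul]
    rw [h1, h2, cplx_smul, h3, h5, Matrix.mul_smul, Matrix.smul_mul]

theorem kernel_eq {Gt : (d : ℕ) → Matrix (Fin d) (Fin d) ℂ} {g : Matrix (Fin 3) (Fin 3) ℝ}
    (hG : Gt 3 = cartU * cplx g * cartUᴴ) (β : ℝ) (n : ℕ) :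
    transMat n (Gt 3) (Xc 3 (β / n)) (Xc 3 (β / n)) = cplx (Kn g β n) := by
  ext ω ω'
  unfold transMat
  rw [Matrix.of_apply]
  have h1 : (List.ofFn fun t : Fin n => Xc 3 (β / n) (ω t) * Xc 3 (β / n) (ω' t)) =
      List.ofFn fun t : Fin n => cartU * (cplx (Xr (β / n) (ω t) * Xr (β / n) (ω' t))) * cartUᴴ := by
    congr 1
    funext t
    rw [Xc_three, Xc_three, cplx_mul]
    calc cartU * cplx (Xr (β / n) (ω t)) * cartUᴴ * (cartU * cplx (Xr (β / n) (ω' t)) * cartUᴴ) =
        cartU * cplx (Xr (β / n) (ω t)) * (cartUᴴ * cartU) * cplx (Xr (β / n) (ω' t)) * cartUᴴ := by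
          simp only [Matrix.mul_assoc]
      _ = _ := by rw [conj_mul_cartU, Matrix.mul_one]; simp only [Matrix.mul_assoc]
  have h2 : (List.ofFn fun t : Fin n => cplx (Xr (β / n) (ω t) * Xr (β / n) (ω' t))).prod =
      cplx (List.ofFn fun t : Fin n => Xr (β / n) (ω t) * Xr (β / n) (ω' t)).prod := by
    rw [cplx_list_prod, List.map_ofFn]
    rfl
  rw [h1, ofFn_prod_conj conj_mul_cartU cartU_mul_conj, h2, hG]
  rw [show cartU * cplx g * cartUᴴ * (cartU *
      cplx (List.ofFn fun t : Fin n => Xr (β / n) (ω t) * Xr (β / n) (ω' t)).prod * cartUᴴ) =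
      cartU * cplx g * (cartUᴴ * cartU) *
        cplx (List.ofFn fun t : Fin n => Xr (β / n) (ω t) * Xr (β / n) (ω' t)).prod * cartUᴴ by
    simp only [Matrix.mul_assoc]]
  rw [conj_mul_cartU, Matrix.mul_one, Matrix.mul_assoc cartU, Matrix.mul_assoc cartU,
    Matrix.trace_mul_comm, Matrix.mul_assoc, conj_mul_cartU, Matrix.mul_one, ← cplx_mul, trace_cplx]
  rfl

/-- **(5b)** Trotter limit of an open chain with spin-1 bulk, in terms of the ring kernel `Kn g`. -/
theorem chain_tendsto {M : ℕ} (d : Fin (M + 2) → ℕ) (hd : ∀ i, 0 < d i)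
    (hmid : ∀ i : Fin M, d i.castSucc.succ = 3)
    {Gt : (d : ℕ) → Matrix (Fin d) (Fin d) ℂ} {g : Matrix (Fin 3) (Fin 3) ℝ}
    (hG : Gt 3 = cartU * cplx g * cartUᴴ) (h0 h1 : ℝ) {β : ℝ} (hβ : 0 ≤ β) :
    Tendsto (fun n : ℕ => wv Gt (d 0) h0 β n ⬝ᵥ cplx ((Kn g β n) ^ M) *ᵥ
        wv Gt (d (Fin.last (M + 1))) h1 β n) atTop (𝓝 (Zch Gt (M + 1) d h0 h1 β)) := by
  refine (chain_tendsto' d hd Gt h0 h1 hβ).congr fun n => ?_
  have h1 : ∀ k : ℕ, k = 3 → transMat n (Gt k) (Xc k (β / n)) (Xc k (β / n)) = cplx (Kn g β n) := by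
    intro k hk
    subst hk
    exact kernel_eq hG β n
  have h2 : (List.ofFn fun i : Fin M => transMat n (Gt (d i.castSucc.succ))
      (Xc (d i.castSucc.succ) (β / n)) (Xc (d i.castSucc.succ) (β / n))).prod =
      cplx ((Kn g β n) ^ M) := by
    rw [cplx_pow]
    have : (fun i : Fin M => transMat n (Gt (d i.castSucc.succ))
      (Xc (d i.castSucc.succ) (β / n)) (Xc (d i.castSucc.succ) (β / n))) =
        fun _ => cplx (Kn g β n) := by
      funext i
      exact h1 _ (hmid i)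
    rw [this]
    simp
  rw [h2]

/-- chains `chD dl dr M` -/
theorem chain_tendsto_chD {dl dr M : ℕ} (hl : 0 < dl) (hr : 0 < dr)
    {Gt : (d : ℕ) → Matrix (Fin d) (Fin d) ℂ} {g : Matrix (Fin 3) (Fin 3) ℝ}
    (hG : Gt 3 = cartU * cplx g * cartUᴴ) (h0 h1 : ℝ) {β : ℝ} (hβ : 0 ≤ β) :
    Tendsto (fun n : ℕ => wv Gt dl h0 β n ⬝ᵥ cplx ((Kn g β n) ^ M) *ᵥ wv Gt dr h1 β n) atTop
      (𝓝 (Zch Gt (M + 1) (chD dl dr M) h0 h1 β)) := by
  have := chain_tendsto (chD dl dr M) (by
    intro i; unfold chD; split_ifs <;> omega) (chD_mid dl dr M) hG h0 h1 hβ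
  rw [chD_zero, chD_last] at this
  exact this

theorem G1_three : G1 3 = cartU * cplx 1 * cartUᴴ := by
  rw [cplx_one, Matrix.mul_one, cartU_mul_conj]; rfl

theorem Gz_three : Gz 3 = cartU * cplx gz * cartUᴴ := by
  rw [cartU_conjTranspose]
  have h := rh_pow
  have hI := Complex.I_sq
  show (!![-1, 0, 0; 0, 1, 0; 0, 0, -1] : Matrix (Fin 3) (Fin 3) ℂ) = _
  have hg : cplx gz = !![-1, 0, 0; 0, -1, 0; 0, 0, 1] := by
    unfold cplx gz
    ext i j
    fin_cases i <;> fin_cases j <;> simp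
  rw [hg]
  ext i j
  fin_cases i <;> fin_cases j <;>
    simp [cartU, Matrix.mul_apply, Fin.sum_univ_three] <;>
    first
      | ring1
      | linear_combination (1 - Complex.I ^ 2) * h - (1 / 2 : ℂ) * hI
      | linear_combination -(1 - Complex.I ^ 2) * h + (1 / 2 : ℂ) * hI
      | linear_combination (-1 - Complex.I ^ 2) * h - (1 / 2 : ℂ) * hI

end Hald
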