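import Crest.Agent.Hald.World

/-!
# Row 347, M4 (4a): power sums

* `PS.finsum`, `PSTop.finsum`: finite power sums `∑ l_i ^ c x` satisfy `PS`, `PSTop`.
* `PS.two`: multiplicity two.
* `PS.scale`, `PSTop.scale`: `f ↦ f · a^c`.
* `PS.of_tendsto`, `PSTop.of_tendsto`, `PSTop.exists_of_tendsto`: pointwise limits; the tops converge.
* `PSTop.top_mono`, `PSTop.top_unique`: comparison and uniqueness of the tops.
-/

set_option autoImplicit false

namespace Hald

open Filter Topology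

section elementary

variable {ι : Type*}

/-- `∑ a_i^q ≤ (∑ a_i)^q` for `q ≥ 1` -/
theorem sum_rpow_le_rpow_sum (s : Finset ι) (a : ι → ℝ) (ha : ∀ i ∈ s, 0 ≤ a i) {q : ℝ}
    (hq : 1 ≤ q) : ∑ i ∈ s, a i ^ q ≤ (∑ i ∈ s, a i) ^ q := by
  have hA : 0 ≤ ∑ i ∈ s, a i := Finset.sum_nonneg ha
  rcases hA.eq_or_lt with h0 | hpos
  · have hz : ∀ i ∈ s, a i = 0 := (Finset.sum_eq_zero_iff_of_nonneg ha).mp h0.symm
    rw [← h0, Real.zero_rpow (by linarith)]
    apply le_of_eq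
    apply Finset.sum_eq_zero
    intro i hi
    rw [hz i hi, Real.zero_rpow (by linarith)]
  · set A := ∑ i ∈ s, a i with hAdef
    have hterm : ∀ i ∈ s, a i ^ q ≤ a i * A ^ (q - 1) := by
      intro i hi
      rcases (ha i hi).eq_or_lt with h | h
      · rw [← h, Real.zero_rpow (by linarith), zero_mul]
      · have e : a i ^ q = a i * a i ^ (q - 1) := by
          rw [← Real.rpow_one_add' h.le (by linarith)]
          congr 1
          ring
        rw [e]
        apply mul_le_mul_of_nonneg_left _ h.le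
        exact Real.rpow_le_rpow h.le (Finset.single_le_sum ha hi) (by linarith)
    calc ∑ i ∈ s, a i ^ q ≤ ∑ i ∈ s, a i * A ^ (q - 1) := Finset.sum_le_sum hterm
      _ = A * A ^ (q - 1) := by rw [← Finset.sum_mul]
      _ = A ^ q := by
        rw [← Real.rpow_one_add' hpos.le (by linarith)]
        congr 1
        ring

/-- Lyapunov's inequality for weighted power sums -/
theorem lyapunov (s : Finset ι) (w l : ι → ℝ) (hw : ∀ i ∈ s, 0 ≤ w i) (hl : ∀ i ∈ s, 0 ≤ l i)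
    {a b c : ℝ} (ha : 0 < a) (hab : a ≤ b) (hbc : b ≤ c) :
    (∑ i ∈ s, w i * l i ^ b) ^ (c - a) ≤
      (∑ i ∈ s, w i * l i ^ a) ^ (c - b) * (∑ i ∈ s, w i * l i ^ c) ^ (b - a) := by
  rcases hab.eq_or_lt with h1 | h1
  · subst h1
    simp
  rcases hbc.eq_or_lt with h2 | h2
  · subst h2
    simp
  have hca : 0 < c - a := by linarith
  have hcb : 0 < c - b := by linarith
  have hba : 0 < b - a := by linarith
  set θ := (c - b) / (c - a) with hθ
  set η := (b - a) / (c - a) with hη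
  have hθ0 : 0 < θ := div_pos hcb hca
  have hη0 : 0 < η := div_pos hba hca
  have hsum : θ + η = 1 := by
    rw [hθ, hη, ← add_div]
    rw [div_eq_one_iff_eq hca.ne']
    ring
  have hb : b = a * θ + c * η := by
    rw [hθ, hη]
    field_simp
    ring
  have hX : 0 ≤ ∑ i ∈ s, w i * l i ^ a :=
    Finset.sum_nonneg fun i hi => mul_nonneg (hw i hi) (Real.rpow_nonneg (hl i hi) _)
  have hY : 0 ≤ ∑ i ∈ s, w i * l i ^ b :=
    Finset.sum_nonneg fun i hi => mul_nonneg (hw i hi) (Real.rpow_nonneg (hl i hi) _)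
  have hZ : 0 ≤ ∑ i ∈ s, w i * l i ^ c :=
    Finset.sum_nonneg fun i hi => mul_nonneg (hw i hi) (Real.rpow_nonneg (hl i hi) _)
  have hpq : (θ⁻¹).HolderConjugate (η⁻¹) := by
    rw [Real.holderConjugate_iff]
    refine ⟨?_, by rw [inv_inv, inv_inv]; exact hsum⟩
    rw [one_lt_inv₀ hθ0]
    linarith
  have hol := Real.inner_le_Lp_mul_Lq_of_nonneg s (f := fun i => (w i * l i ^ a) ^ θ)
    (g := fun i => (w i * l i ^ c) ^ η) hpq
    (fun i hi => Real.rpow_nonneg (mul_nonneg (hw i hi) (Real.rpow_nonneg (hl i hi) _)) _)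
    (fun i hi => Real.rpow_nonneg (mul_nonneg (hw i hi) (Real.rpow_nonneg (hl i hi) _)) _)
  have e1 : ∑ i ∈ s, (w i * l i ^ a) ^ θ * (w i * l i ^ c) ^ η = ∑ i ∈ s, w i * l i ^ b := by
    refine Finset.sum_congr rfl fun i hi => ?_
    have h3 := hw i hi
    have h4 := hl i hi
    rw [Real.mul_rpow h3 (Real.rpow_nonneg h4 _), Real.mul_rpow h3 (Real.rpow_nonneg h4 _),
      ← Real.rpow_mul h4, ← Real.rpow_mul h4]
    have e2 : w i ^ θ * w i ^ η = w i := by
      rw [← Real.rpow_add_of_nonneg h3 hθ0.le hη0.le, hsum, Real.rpow_one]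
    have e3 : l i ^ (a * θ) * l i ^ (c * η) = l i ^ b := by
      rw [← Real.rpow_add_of_nonneg h4 (by positivity)
        (mul_nonneg (by linarith) hη0.le), ← hb]
    calc w i ^ θ * l i ^ (a * θ) * (w i ^ η * l i ^ (c * η))
        = (w i ^ θ * w i ^ η) * (l i ^ (a * θ) * l i ^ (c * η)) := by ring
      _ = _ := by rw [e2, e3]
  have e4 : ∀ i ∈ s, ((w i * l i ^ a) ^ θ) ^ θ⁻¹ = w i * l i ^ a := by
    intro i hi
    rw [← Real.rpow_mul (mul_nonneg (hw i hi) (Real.rpow_nonneg (hl i hi) _)),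
      mul_inv_cancel₀ hθ0.ne', Real.rpow_one]
  have e5 : ∀ i ∈ s, ((w i * l i ^ c) ^ η) ^ η⁻¹ = w i * l i ^ c := by
    intro i hi
    rw [← Real.rpow_mul (mul_nonneg (hw i hi) (Real.rpow_nonneg (hl i hi) _)),
      mul_inv_cancel₀ hη0.ne', Real.rpow_one]
  rw [e1, Finset.sum_congr rfl e4, Finset.sum_congr rfl e5, one_div, one_div, inv_inv,
    inv_inv] at hol
  have h5 := Real.rpow_le_rpow hY hol hca.le
  rw [Real.mul_rpow (Real.rpow_nonneg hX _) (Real.rpow_nonneg hZ _), ← Real.rpow_mul hX,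
    ← Real.rpow_mul hZ] at h5
  have e6 : θ * (c - a) = c - b := by rw [hθ]; field_simp
  have e7 : η * (c - a) = b - a := by rw [hη]; field_simp
  rwa [e6, e7] at h5

end elementary

section finite

variable {α ι : Type*} {S : Set α} {c : α → ℝ}

theorem PS.finsum (s : Finset ι) (l : ι → ℝ) (hl : ∀ i ∈ s, 0 ≤ l i) (hc : ∀ x ∈ S, 0 < c x) :
    PS S c 1 (fun x => ∑ i ∈ s, l i ^ c x) := by
  refine ⟨fun x _ => Finset.sum_nonneg fun i hi => Real.rpow_nonneg (hl i hi) _, ?_, ?_⟩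
  · intro x hx y _ hxy
    rw [div_one, div_one]
    have h1 := sum_rpow_le_rpow_sum s (fun i => l i ^ c x)
      (fun i hi => Real.rpow_nonneg (hl i hi) _) (q := c y / c x)
      (by rw [one_le_div (hc x hx)]; exact hxy)
    refine le_trans (le_of_eq ?_) h1
    refine Finset.sum_congr rfl fun i hi => ?_
    rw [← Real.rpow_mul (hl i hi), mul_div_cancel₀ _ (hc x hx).ne']
  · intro x hx y _ z _ hxy hyz
    have h := lyapunov s (fun _ => 1) l (fun _ _ => zero_le_one) hl (hc x hx) hxy hyz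
    simpa only [one_mul] using h

theorem PSTop.finsum [DecidableEq ι] (s : Finset ι) (l : ι → ℝ) (hl : ∀ i ∈ s, 0 ≤ l i)
    (hc : ∀ x ∈ S, 0 < c x) {j : ι} (hj : j ∈ s) (hmax : ∀ i ∈ s, l i ≤ l j) :
    PSTop S c 1 (fun x => ∑ i ∈ s, l i ^ c x) (l j) := by
  refine ⟨hl j hj, ?_, ?_⟩
  · have h := PS.finsum (S := S) (c := c) (s.erase j) l
      (fun i hi => hl i (Finset.mem_of_mem_erase hi)) hc
    have e : (fun x => ∑ i ∈ s, l i ^ c x - l j ^ c x) = fun x => ∑ i ∈ s.erase j, l i ^ c x := by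
      funext x
      rw [← Finset.add_sum_erase s (fun i => l i ^ c x) hj]
      ring
    rw [e]
    exact h
  · intro x hx y _ hxy
    rw [Finset.mul_sum]
    refine Finset.sum_le_sum fun i hi => ?_
    have h0 := hl i hi
    have e : l i ^ c y = l i ^ (c y - c x) * l i ^ c x := by
      rw [← Real.rpow_add_of_nonneg h0 (by linarith) (hc x hx).le]
      congr 1
      ring
    rw [e]
    exact mul_le_mul_of_nonneg_right (Real.rpow_le_rpow h0 (hmax i hi) (by linarith))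
      (Real.rpow_nonneg h0 _)

end finite

section closure

variable {α : Type*} {S : Set α} {c : α → ℝ}

theorem PS.congr {μ : ℝ} {f g : α → ℝ} (h : PS S c μ f) (hfg : ∀ x ∈ S, f x = g x) :
    PS S c μ g := by
  refine ⟨fun x hx => hfg x hx ▸ h.nonneg x hx, ?_, ?_⟩
  · intro x hx y hy hxy
    rw [← hfg x hx, ← hfg y hy]
    exact h.pow x hx y hy hxy
  · intro x hx y hy z hz hxy hyz
    rw [← hfg x hx, ← hfg y hy, ← hfg z hz]
    exact h.logc x hx y hy z hz hxy hyz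

theorem PSTop.congr {μ t : ℝ} {f g : α → ℝ} (h : PSTop S c μ f t) (hfg : ∀ x ∈ S, f x = g x) :
    PSTop S c μ g t := by
  refine ⟨h.t_nonneg, h.rem.congr (fun x hx => by rw [hfg x hx]), ?_⟩
  intro x hx y hy hxy
  rw [← hfg x hx, ← hfg y hy]
  exact h.ratio x hx y hy hxy

theorem PS.two {f g : α → ℝ} (h : PS S c 1 g) (hfg : ∀ x ∈ S, f x = 2 * g x) :
    PS S c 2 f := by
  refine ⟨fun x hx => ?_, ?_, ?_⟩
  · rw [hfg x hx]
    have := h.nonneg x hx
    linarith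
  · intro x hx y hy hxy
    have h1 := h.pow x hx y hy hxy
    rw [div_one, div_one] at h1
    rw [hfg x hx, hfg y hy, mul_div_cancel_left₀ _ (two_ne_zero), mul_div_cancel_left₀ _ (two_ne_zero)]
    exact h1
  · intro x hx y hy z hz hxy hyz
    rw [hfg x hx, hfg y hy, hfg z hz]
    have h1 := h.logc x hx y hy z hz hxy hyz
    have hx0 := h.nonneg x hx
    have hy0 := h.nonneg y hy
    have hz0 := h.nonneg z hz
    rw [Real.mul_rpow zero_le_two hy0, Real.mul_rpow zero_le_two hx0, Real.mul_rpow zero_le_two hz0]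
    have e : (2 : ℝ) ^ (c z - c x) = 2 ^ (c z - c y) * 2 ^ (c y - c x) := by
      rw [← Real.rpow_add two_pos]
      congr 1
      ring
    rw [e]
    calc (2 : ℝ) ^ (c z - c y) * 2 ^ (c y - c x) * g y ^ (c z - c x)
        ≤ (2 : ℝ) ^ (c z - c y) * 2 ^ (c y - c x) * (g x ^ (c z - c y) * g z ^ (c y - c x)) :=
          mul_le_mul_of_nonneg_left h1 (by positivity)
      _ = _ := by ring

theorem PS.scale {μ a : ℝ} {f g : α → ℝ} (hμ : 0 < μ) (ha : 0 < a) (h : PS S c μ f)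
    (hc : ∀ x ∈ S, 0 < c x) (hfg : ∀ x ∈ S, g x = f x * a ^ c x) : PS S c μ g := by
  refine ⟨fun x hx => ?_, ?_, ?_⟩
  · rw [hfg x hx]
    exact mul_nonneg (h.nonneg x hx) (Real.rpow_nonneg ha.le _)
  · intro x hx y hy hxy
    rw [hfg x hx, hfg y hy]
    have h1 := h.pow x hx y hy hxy
    have e : (f x * a ^ c x / μ) ^ (c y / c x) = (f x / μ) ^ (c y / c x) * a ^ c y := by
      rw [mul_div_right_comm, Real.mul_rpow (div_nonneg (h.nonneg x hx) hμ.le)
        (Real.rpow_nonneg ha.le _), ← Real.rpow_mul ha.le, mul_div_cancel₀ _ (hc x hx).ne']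
    rw [e, mul_div_right_comm]
    exact mul_le_mul_of_nonneg_right h1 (Real.rpow_nonneg ha.le _)
  · intro x hx y hy z hz hxy hyz
    rw [hfg x hx, hfg y hy, hfg z hz]
    have h1 := h.logc x hx y hy z hz hxy hyz
    have hx0 := h.nonneg x hx
    have hy0 := h.nonneg y hy
    have hz0 := h.nonneg z hz
    rw [Real.mul_rpow hy0 (Real.rpow_nonneg ha.le _), Real.mul_rpow hx0 (Real.rpow_nonneg ha.le _),
      Real.mul_rpow hz0 (Real.rpow_nonneg ha.le _), ← Real.rpow_mul ha.le, ← Real.rpow_mul ha.le,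
      ← Real.rpow_mul ha.le]
    have e : a ^ (c y * (c z - c x)) = a ^ (c x * (c z - c y)) * a ^ (c z * (c y - c x)) := by
      rw [← Real.rpow_add ha]
      congr 1
      ring
    rw [e]
    calc f y ^ (c z - c x) * (a ^ (c x * (c z - c y)) * a ^ (c z * (c y - c x)))
        ≤ (f x ^ (c z - c y) * f z ^ (c y - c x)) *
          (a ^ (c x * (c z - c y)) * a ^ (c z * (c y - c x))) :=
          mul_le_mul_of_nonneg_right h1 (by positivity)
      _ = _ := by ring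

theorem PSTop.scale {μ a t : ℝ} {f g : α → ℝ} (hμ : 0 < μ) (ha : 0 < a) (h : PSTop S c μ f t)
    (hc : ∀ x ∈ S, 0 < c x) (hfg : ∀ x ∈ S, g x = f x * a ^ c x) : PSTop S c μ g (t * a) := by
  refine ⟨mul_nonneg h.t_nonneg ha.le, h.rem.scale hμ ha hc (fun x hx => ?_), ?_⟩
  · rw [hfg x hx, Real.mul_rpow h.t_nonneg ha.le]
    ring
  · intro x hx y hy hxy
    rw [hfg x hx, hfg y hy, Real.mul_rpow h.t_nonneg ha.le]
    have h1 := h.ratio x hx y hy hxy
    have e : a ^ c y = a ^ (c y - c x) * a ^ c x := by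
      rw [← Real.rpow_add ha]
      congr 1
      ring
    rw [e]
    calc f y * (a ^ (c y - c x) * a ^ c x)
        ≤ (t ^ (c y - c x) * f x) * (a ^ (c y - c x) * a ^ c x) :=
          mul_le_mul_of_nonneg_right h1 (by positivity)
      _ = _ := by ring

theorem PS.of_tendsto {ι : Type*} {F : Filter ι} [F.NeBot] {μ : ℝ} {f : ι → α → ℝ} {g : α → ℝ}
    (hc : ∀ x ∈ S, 0 < c x) (h : ∀ᶠ n in F, PS S c μ (f n))
    (hlim : ∀ x ∈ S, Tendsto (fun n => f n x) F (𝓝 (g x))) : PS S c μ g := by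
  refine ⟨fun x hx => ?_, ?_, ?_⟩
  · exact ge_of_tendsto (hlim x hx) (h.mono fun n hn => hn.nonneg x hx)
  · intro x hx y hy hxy
    have h1 : Tendsto (fun n => f n y / μ) F (𝓝 (g y / μ)) := (hlim y hy).div_const μ
    have h2 : Tendsto (fun n => (f n x / μ) ^ (c y / c x)) F (𝓝 ((g x / μ) ^ (c y / c x))) :=
      ((hlim x hx).div_const μ).rpow_const (Or.inr (div_nonneg (hc y hy).le (hc x hx).le))
    exact le_of_tendsto_of_tendsto h1 h2 (h.mono fun n hn => hn.pow x hx y hy hxy)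
  · intro x hx y hy z hz hxy hyz
    have h1 : Tendsto (fun n => f n y ^ (c z - c x)) F (𝓝 (g y ^ (c z - c x))) :=
      (hlim y hy).rpow_const (Or.inr (by linarith))
    have h2 : Tendsto (fun n => f n x ^ (c z - c y)) F (𝓝 (g x ^ (c z - c y))) :=
      (hlim x hx).rpow_const (Or.inr (by linarith))
    have h3 : Tendsto (fun n => f n z ^ (c y - c x)) F (𝓝 (g z ^ (c y - c x))) :=
      (hlim z hz).rpow_const (Or.inr (by linarith))
    exact le_of_tendsto_of_tendsto h1 (h2.mul h3)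
      (h.mono fun n hn => hn.logc x hx y hy z hz hxy hyz)

theorem PSTop.of_tendsto {ι : Type*} {F : Filter ι} [F.NeBot] {μ : ℝ} {f : ι → α → ℝ}
    {g : α → ℝ} {t : ι → ℝ} {t' : ℝ} (hc : ∀ x ∈ S, 0 < c x)
    (h : ∀ᶠ n in F, PSTop S c μ (f n) (t n))
    (hlim : ∀ x ∈ S, Tendsto (fun n => f n x) F (𝓝 (g x))) (ht : Tendsto t F (𝓝 t')) :
    PSTop S c μ g t' := by
  have htx : ∀ s : ℝ, 0 ≤ s → Tendsto (fun n => t n ^ s) F (𝓝 (t' ^ s)) :=
    fun s hs => ht.rpow_const (Or.inr hs)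
  refine ⟨ge_of_tendsto ht (h.mono fun n hn => hn.t_nonneg), ?_, ?_⟩
  · exact PS.of_tendsto (f := fun n x => f n x - t n ^ c x) hc (h.mono fun n hn => hn.rem)
      fun x hx => (hlim x hx).sub (htx _ (hc x hx).le)
  · intro x hx y hy hxy
    exact le_of_tendsto_of_tendsto (hlim y hy) ((htx _ (by linarith)).mul (hlim x hx))
      (h.mono fun n hn => hn.ratio x hx y hy hxy)

theorem PSTop.rpow_le {μ t : ℝ} {f : α → ℝ} (h : PSTop S c μ f t) {x : α} (hx : x ∈ S) :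
    t ^ c x ≤ f x := by
  have := h.rem.nonneg x hx
  linarith

/-- comparison of the tops -/
theorem PSTop.top_mono {μ ν t s C : ℝ} {f g : α → ℝ} (hf : PSTop S c μ f t) (hg : PSTop S c ν g s)
    (_hc : ∀ x ∈ S, 0 < c x) (hS : S.Nonempty) (hub : ∀ A : ℝ, ∃ x ∈ S, A ≤ c x)
    (hfg : ∀ x ∈ S, f x ≤ C * g x) (hC : 0 ≤ C) : t ≤ s := by
  obtain ⟨x₀, hx₀⟩ := hS
  by_contra hcon
  push Not at hcon
  have hs := hg.t_nonneg
  have ht : 0 < t := lt_of_le_of_lt hs hcon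
  set r := s / t with hr
  have hr0 : 0 ≤ r := div_nonneg hs ht.le
  have hr1 : r < 1 := by rw [hr, div_lt_one ht]; exact hcon
  have hg0 : 0 ≤ g x₀ := (Real.rpow_nonneg hs _).trans (hg.rpow_le hx₀)
  have key : ∀ x ∈ S, c x₀ ≤ c x → t ^ c x₀ ≤ C * g x₀ * r ^ (c x - c x₀) := by
    intro x hx hxx
    have h1 : t ^ c x ≤ C * (s ^ (c x - c x₀) * g x₀) :=
      (hf.rpow_le hx).trans ((hfg x hx).trans
        (mul_le_mul_of_nonneg_left (hg.ratio x₀ hx₀ x hx hxx) hC))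
    have e1 : t ^ c x = t ^ c x₀ * t ^ (c x - c x₀) := by
      rw [← Real.rpow_add ht]
      congr 1
      ring
    have e2 : s ^ (c x - c x₀) = r ^ (c x - c x₀) * t ^ (c x - c x₀) := by
      rw [← Real.mul_rpow hr0 ht.le, hr, div_mul_cancel₀ _ ht.ne']
    have hp : 0 < t ^ (c x - c x₀) := Real.rpow_pos_of_pos ht _
    rw [e1, e2] at h1
    have h2 : t ^ c x₀ * t ^ (c x - c x₀) ≤ (C * g x₀ * r ^ (c x - c x₀)) * t ^ (c x - c x₀) := by
      calc _ ≤ _ := h1
        _ = _ := by ring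
    exact le_of_mul_le_mul_right h2 hp
  have hlim : Tendsto (fun y : ℝ => C * g x₀ * r ^ (y - c x₀)) atTop (𝓝 0) := by
    have h1 : Tendsto (fun y : ℝ => r ^ (y - c x₀)) atTop (𝓝 0) :=
      (tendsto_rpow_atTop_of_base_lt_one r (by linarith) hr1).comp
        (tendsto_atTop_add_const_right atTop (-c x₀) tendsto_id)
    simpa using h1.const_mul (C * g x₀)
  have hpos : 0 < t ^ c x₀ := Real.rpow_pos_of_pos ht _
  have hev := hlim.eventually (gt_mem_nhds hpos)
  obtain ⟨A, hA⟩ := eventually_atTop.mp hev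
  obtain ⟨x, hx, hAx⟩ := hub (max A (c x₀))
  have h3 := key x hx ((le_max_right _ _).trans hAx)
  have h4 := hA (c x) ((le_max_left _ _).trans hAx)
  linarith

theorem PSTop.top_unique {μ ν t s : ℝ} {f : α → ℝ} (hf : PSTop S c μ f t) (hg : PSTop S c ν f s)
    (hc : ∀ x ∈ S, 0 < c x) (hS : S.Nonempty) (hub : ∀ A : ℝ, ∃ x ∈ S, A ≤ c x) : t = s :=
  le_antisymm
    (hf.top_mono hg hc hS hub (C := 1) (fun x _ => by rw [one_mul]) zero_le_one)
    (hg.top_mono hf hc hS hub (C := 1) (fun x _ => by rw [one_mul]) zero_le_one)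

/-- limits of power sums with top: the tops converge -/
theorem PSTop.exists_of_tendsto {ι : Type*} {F : Filter ι} [F.NeBot] {μ : ℝ} {f : ι → α → ℝ}
    {g : α → ℝ} {t : ι → ℝ} (hc : ∀ x ∈ S, 0 < c x) (hS : S.Nonempty)
    (hub : ∀ A : ℝ, ∃ x ∈ S, A ≤ c x) (h : ∀ᶠ n in F, PSTop S c μ (f n) (t n))
    (hlim : ∀ x ∈ S, Tendsto (fun n => f n x) F (𝓝 (g x))) :
    ∃ t' : ℝ, PSTop S c μ g t' ∧ Tendsto t F (𝓝 t') := by
  obtain ⟨x₀, hx₀⟩ := hS
  have hc0 := hc x₀ hx₀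
  set B : ℝ := (g x₀ + 1) ^ (1 / c x₀) with hB
  have hbd : ∀ᶠ n in F, t n ∈ Set.Icc 0 B := by
    have h1 : ∀ᶠ n in F, f n x₀ < g x₀ + 1 := (hlim x₀ hx₀).eventually (gt_mem_nhds (by linarith))
    filter_upwards [h, h1] with n hn hn1
    refine ⟨hn.t_nonneg, ?_⟩
    have h2 := hn.rpow_le hx₀
    have h3 : (t n ^ c x₀) ^ (1 / c x₀) ≤ (g x₀ + 1) ^ (1 / c x₀) :=
      Real.rpow_le_rpow (Real.rpow_nonneg hn.t_nonneg _) (by linarith) (by positivity)
    rwa [← Real.rpow_mul hn.t_nonneg, mul_one_div_cancel hc0.ne', Real.rpow_one] at h3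
  have hex : ∀ U : Ultrafilter ι, (U : Filter ι) ≤ F → ∃ s : ℝ, PSTop S c μ g s ∧
      Tendsto t U (𝓝 s) := by
    intro U hU
    have h2 : ((U.map t : Ultrafilter ℝ) : Filter ℝ) ≤ 𝓟 (Set.Icc 0 B) := by
      rw [le_principal_iff]
      exact hU hbd
    obtain ⟨s, -, hs⟩ := isCompact_Icc.ultrafilter_le_nhds (U.map t) h2
    exact ⟨s, PSTop.of_tendsto hc (hU h) (fun x hx => (hlim x hx).mono_left hU) hs, hs⟩
  obtain ⟨s, hs, -⟩ := hex (Ultrafilter.of F) (Ultrafilter.of_le F)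
  refine ⟨s, hs, ?_⟩
  rw [tendsto_iff_ultrafilter]
  intro U hU
  obtain ⟨s', hs', hs''⟩ := hex U hU
  rwa [hs.top_unique hs' hc ⟨x₀, hx₀⟩ hub]

end closure

end Hald
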