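import Crest.Agent.Hald.ChainEdge
import Crest.Agent.Hald.LinkOpen
import Crest.Agent.Hald.PowerSum

/-!
# Row 347, M5 (5f): the open chains with end fields, `EdgeWorld theWorld`
-/

set_option autoImplicit false
set_option linter.unusedSectionVars false

namespace Hald

open Matrix Finset Filter Topology Crest.MathPhysics.SpinChain
open scoped ComplexOrder

/-! ### real and imaginary part of the end vector -/

section

variable {Ω : Type*} [Fintype Ω] [DecidableEq Ω]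

theorem quad_re (A : Matrix Ω Ω ℝ) (x y : Ω → ℂ) (xr xi yr yi : Ω → ℝ)
    (hx : ∀ i, x i = (xr i : ℂ) + (xi i : ℂ) * Complex.I)
    (hy : ∀ i, y i = (yr i : ℂ) + (yi i : ℂ) * Complex.I) :
    (x ⬝ᵥ cplx A *ᵥ y).re = xr ⬝ᵥ (A *ᵥ yr) - xi ⬝ᵥ (A *ᵥ yi) := by
  simp only [dotProduct, Matrix.mulVec, cplx, Matrix.map_apply]
  rw [Complex.re_sum, ← Finset.sum_sub_distrib]
  refine Finset.sum_congr rfl fun i _ => ?_
  rw [Complex.mul_re, Complex.re_sum, Complex.im_sum, hx i]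
  have h1 : ∀ j, (((A i j : ℝ) : ℂ) * y j).re = A i j * yr j := by
    intro j; rw [hy j]; simp
  have h2 : ∀ j, (((A i j : ℝ) : ℂ) * y j).im = A i j * yi j := by
    intro j; rw [hy j]; simp
  rw [Finset.sum_congr rfl fun j _ => h1 j, Finset.sum_congr rfl fun j _ => h2 j]
  simp

end

/-- real part of the end vector with field `h` -/
noncomputable def wr (h β : ℝ) (n : ℕ) : Om n → ℝ := fun ω => (wv G1 3 h β n ω).re
/-- imaginary part of the end vector with field `h` -/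
noncomputable def wi (h β : ℝ) (n : ℕ) : Om n → ℝ := fun ω => (wv G1 3 h β n ω).im

theorem wv_re_im (h β : ℝ) (n : ℕ) (ω : Om n) :
    wv G1 3 h β n ω = (wr h β n ω : ℂ) + (wi h β n ω : ℂ) * Complex.I :=
  (Complex.re_add_im _).symm

theorem wv_neg_re_im (h β : ℝ) (n : ℕ) (ω : Om n) :
    wv G1 3 (-h) β n ω = (wr h β n ω : ℂ) + ((-wi h β n ω : ℝ) : ℂ) * Complex.I := by
  rw [← wv_star_three]
  apply Complex.ext
  · simp [wr]
  · simp [wi]

/-- normalised partition function of the open chain with `N + 2` sites and fields `h0, h1` -/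
noncomputable def aOpen (h0 h1 e β : ℝ) (N : ℕ) : ℝ :=
  (Zch G1 (N + 1) (fun _ => 3) h0 h1 β).re * Real.exp (β * ((N + 2 : ℕ) : ℝ) * e)

theorem open_tendsto (h0 h1 : ℝ) {β : ℝ} (hβ : 0 ≤ β) (e : ℝ) (N : ℕ) :
    Tendsto (fun n : ℕ => Real.exp (2 * (β * e)) *
      (wv G1 3 h0 β n ⬝ᵥ cplx ((KN 1 β e n) ^ N) *ᵥ wv G1 3 h1 β n).re) atTop
      (𝓝 (aOpen h0 h1 e β N)) := by
  have h := (chain_tendsto_norm (dl := 3) (dr := 3) (by norm_num) (by norm_num) G1_three h0 h1 hβ e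
    N).const_mul (Real.exp (2 * (β * e)))
  have e1 : Real.exp (2 * (β * e)) * ((Zch G1 (N + 1) (chD 3 3 N) h0 h1 β).re *
      Real.exp (β * N * e)) = aOpen h0 h1 e β N := by
    unfold aOpen
    rw [chD_three, mul_left_comm, ← Real.exp_add]
    congr 2
    push_cast
    ring
  rw [e1] at h
  exact h

theorem open_tendsto_same (h : ℝ) {β : ℝ} (hβ : 0 ≤ β) (e : ℝ) (N : ℕ) :
    Tendsto (fun n : ℕ => Real.exp (2 * (β * e)) *
      (wr h β n ⬝ᵥ (KN 1 β e n ^ N *ᵥ wr h β n) - wi h β n ⬝ᵥ (KN 1 β e n ^ N *ᵥ wi h β n)))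
      atTop (𝓝 (aOpen h h e β N)) := by
  refine (open_tendsto h h hβ e N).congr fun n => ?_
  rw [quad_re _ _ _ _ _ _ _ (wv_re_im h β n) (wv_re_im h β n)]

theorem open_tendsto_opp (h : ℝ) {β : ℝ} (hβ : 0 ≤ β) (e : ℝ) (N : ℕ) :
    Tendsto (fun n : ℕ => Real.exp (2 * (β * e)) *
      (wr h β n ⬝ᵥ (KN 1 β e n ^ N *ᵥ wr h β n) + wi h β n ⬝ᵥ (KN 1 β e n ^ N *ᵥ wi h β n)))
      atTop (𝓝 (aOpen h (-h) e β N)) := by
  refine (open_tendsto h (-h) hβ e N).congr fun n => ?_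
  rw [quad_re _ _ _ _ _ _ _ (wv_re_im h β n) (wv_neg_re_im h β n)]
  have : (fun ω => -wi h β n ω) = -wi h β n := rfl
  rw [this, Matrix.mulVec_neg, dotProduct_neg, sub_neg_eq_add]

theorem aOpen_pos (h0 h1 e β : ℝ) (N : ℕ) : 0 < aOpen h0 h1 e β N :=
  mul_pos (Zch_G1_pos _ _ (fun _ => by norm_num) _ _ _) (Real.exp_pos _)

/-! ### sharp properties of the end vector -/

theorem wr_shift (h β : ℝ) (n : ℕ) (ω : Om n) : wr h β n (shiftOm ω) = wr h β n ω :=
  congrArg Complex.re (wv_shift 3 h β n ω)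

theorem wi_shift (h β : ℝ) (n : ℕ) (ω : Om n) : wi h β n (shiftOm ω) = wi h β n ω :=
  congrArg Complex.im (wv_shift 3 h β n ω)

/-- `wi` is odd under `ρ(gy)` -/
theorem rho_wi (h β : ℝ) (n : ℕ) : cplx (rho gy n) *ᵥ cv (wi h β n) = -cv (wi h β n) := by
  have h1 := rho_wv_three_gy h β n isRot_gy
  rw [cplx_rho_transpose, gyT] at h1
  have e : wv G1 3 h β n = cv (wr h β n) + Complex.I • cv (wi h β n) := by
    funext ω
    rw [wv_re_im]
    simp [cv, mul_comm]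
  have e' : wv G1 3 (-h) β n = cv (wr h β n) - Complex.I • cv (wi h β n) := by
    funext ω
    rw [wv_neg_re_im]
    simp [cv, mul_comm, sub_eq_add_neg]
  rw [e, e', Matrix.mulVec_add, Matrix.mulVec_smul, cplx_mulVec, cplx_mulVec] at h1
  rw [cplx_mulVec]
  funext ω
  have h2 := congrArg Complex.im (congrFun h1 ω)
  simp only [cv, Pi.add_apply, Pi.sub_apply, Pi.smul_apply, smul_eq_mul, Complex.add_im,
    Complex.sub_im, Complex.ofReal_im, Complex.mul_im, Complex.I_re, Complex.I_im,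
    Complex.ofReal_re, zero_mul, zero_add, one_mul, zero_sub] at h2
  simp only [cv, Pi.neg_apply]
  rw [h2, Complex.ofReal_neg]

/-- a `ρ(gy)`-even vector is orthogonal to `wi` -/
theorem dot_wi_zero {h β : ℝ} {n : ℕ} {u : Om n → ℝ} (hu : cplx (rho gy n) *ᵥ cv u = cv u) :
    u ⬝ᵥ wi h β n = 0 := by
  have h1 : cv u ⬝ᵥ cv (wi h β n) = -(cv u ⬝ᵥ cv (wi h β n)) := by
    conv_lhs => rw [← hu, ← Matrix.vecMul_transpose, ← Matrix.dotProduct_mulVec,
      cplx_rho_transpose, gyT, rho_wi, dotProduct_neg]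
  rw [cv_dot] at h1
  have h2 : u ⬝ᵥ wi h β n = -(u ⬝ᵥ wi h β n) := by exact_mod_cast h1
  linarith

/-! ### the ground state weight -/

/-- the moments: `aOpen` with fields `(h,-h)` for `N` even, `(h,h)` for `N` odd -/
noncomputable def aMix (h e β : ℝ) (N : ℕ) : ℝ :=
  if Even N then aOpen h (-h) e β N else aOpen h h e β N

/-! ### the time direction -/

theorem aOpen_eq (h0 h1 e β : ℝ) (N : ℕ) :
    aOpen h0 h1 e β N = ∑ i, (Real.exp (-(Hch_isHermitian (N + 1) (fun _ => 3) h0 h1).eigenvalues i +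
      ((N + 2 : ℕ) : ℝ) * e)) ^ β := by
  have h1 : (Zch G1 (N + 1) (fun _ => 3) h0 h1 β).re =
      ∑ i, Real.exp (-β * (Hch_isHermitian (N + 1) (fun _ => 3) h0 h1).eigenvalues i) := by
    unfold Zch
    have e1 : tens (κ := fun _ : Fin (N + 1 + 1) => Fin 3) (fun _ => G1 3) = 1 := tens_one
    rw [e1, Matrix.one_mul, trace_exp_eq_sum (Hch_isHermitian (N + 1) (fun _ => 3) h0 h1) (-β)]
    rfl
  unfold aOpen
  rw [h1, Finset.sum_mul]
  refine Finset.sum_congr rfl fun i _ => ?_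
  rw [← Real.exp_add, ← Real.exp_mul]
  congr 1
  ring

theorem aOpen_top (h0 h1 e : ℝ) (N : ℕ) :
    ∃ t, PSTop {β : ℝ | 0 < β} (fun β => β) 1 (fun β => aOpen h0 h1 e β N) t := by
  set l : ((i : Fin (N + 1 + 1)) → Fin 3) → ℝ := fun i =>
    Real.exp (-(Hch_isHermitian (N + 1) (fun _ => 3) h0 h1).eigenvalues i +
      ((N + 2 : ℕ) : ℝ) * e) with hl
  obtain ⟨i0, -, hi0⟩ := Finset.exists_max_image Finset.univ l Finset.univ_nonempty
  refine ⟨l i0, ?_⟩
  have h := PSTop.finsum (S := {β : ℝ | 0 < β}) (c := fun β => β) Finset.univ l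
    (fun i _ => (Real.exp_pos _).le) (fun x hx => hx) (Finset.mem_univ i0) hi0
  have e1 : (fun β => aOpen h0 h1 e β N) = fun β => ∑ i, l i ^ β := by
    funext β
    exact aOpen_eq h0 h1 e β N
  rw [e1]
  exact h

/-- end field -/
noncomputable def hF : ℝ := 3 / 5

theorem aMix_top (N : ℕ) :
    ∃ t, PSTop {β : ℝ | 0 < β} (fun β => β) 1 (fun β => aMix hF theE β N) t := by
  unfold aMix
  split_ifs
  · exact aOpen_top _ _ _ N
  · exact aOpen_top _ _ _ N

end Hald
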