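import Crest.Agent.Hald.ChainVec
import Crest.Agent.Hald.HalfTime

/-!
# Row 347, M5: the time shift as an orthogonal operator, projection on shift invariant vectors

* `exists_finProj`: projection on the fixed space of an orthogonal matrix of finite order;
* `exists_shiftProj`;
* `wv_shift`, `wvz_shift`: shift invariance of the boundary vectors.
-/

set_option autoImplicit false
set_option linter.unusedSectionVars false

namespace Hald

open Matrix Finset

/-! ### projection on the fixed vectors of an orthogonal matrix of finite order -/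

theorem exists_finProj {N : Type*} [Fintype N] [DecidableEq N] (J : Matrix N N ℝ) (p : ℕ)
    (hp : 0 < p) (hJ : J ^ p = 1) (ho : Jᵀ * J = 1) :
    ∃ Q : Matrix N N ℝ, Qᵀ = Q ∧ Q * Q = Q ∧ J * Q = Q ∧ Q * J = Q ∧ Jᵀ * Q = Q ∧
      (∀ A : Matrix N N ℝ, J * A = A * J → Q * A = A * Q) ∧
      (∀ v : N → ℝ, J *ᵥ v = v → Q *ᵥ v = v) := by
  have hpR : (p : ℝ) ≠ 0 := by exact_mod_cast hp.ne'
  set S : Matrix N N ℝ := ∑ k ∈ Finset.range p, J ^ k with hS
  have hJS : J * S = S := by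
    rw [hS, Finset.mul_sum]
    have h1 : ∀ k ∈ Finset.range p, J * J ^ k = J ^ (k + 1) := fun k _ => (pow_succ' J k).symm
    rw [Finset.sum_congr rfl h1]
    have h2 := Finset.sum_range_succ (fun k => J ^ k) p
    have h3 := Finset.sum_range_succ' (fun k => J ^ k) p
    rw [h2, hJ, pow_zero] at h3
    exact (add_right_cancel h3).symm
  have hSJ : S * J = S := by
    rw [hS, Finset.sum_mul]
    have h1 : ∀ k ∈ Finset.range p, J ^ k * J = J ^ (k + 1) := fun k _ => (pow_succ J k).symm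
    rw [Finset.sum_congr rfl h1]
    have h2 := Finset.sum_range_succ (fun k => J ^ k) p
    have h3 := Finset.sum_range_succ' (fun k => J ^ k) p
    rw [h2, hJ, pow_zero] at h3
    exact (add_right_cancel h3).symm
  have hJtS : Jᵀ * S = S := by
    calc Jᵀ * S = Jᵀ * (J * S) := by rw [hJS]
      _ = S := by rw [← Matrix.mul_assoc, ho, Matrix.one_mul]
  have hJtk : ∀ k : ℕ, (Jᵀ) ^ k * S = S := by
    intro k
    induction k with
    | zero => rw [pow_zero, Matrix.one_mul]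
    | succ k ih => rw [pow_succ, Matrix.mul_assoc, hJtS, ih]
  have hStS : Sᵀ * S = (p : ℝ) • S := by
    have h1 : Sᵀ = ∑ k ∈ Finset.range p, (Jᵀ) ^ k := by
      rw [hS, Matrix.transpose_sum]
      exact Finset.sum_congr rfl fun k _ => Matrix.transpose_pow J k
    rw [h1, Finset.sum_mul, Finset.sum_congr rfl fun k _ => hJtk k, Finset.sum_const,
      Finset.card_range, Nat.cast_smul_eq_nsmul]
  set Q : Matrix N N ℝ := (p : ℝ)⁻¹ • S with hQ
  have hQtQ : Qᵀ * Q = Q := by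
    rw [hQ, Matrix.transpose_smul, Matrix.smul_mul, Matrix.mul_smul, hStS, smul_smul, smul_smul]
    congr 1
    field_simp
  have hQt : Qᵀ = Q := by
    conv_lhs => rw [← hQtQ]
    rw [Matrix.transpose_mul, Matrix.transpose_transpose, hQtQ]
  have hQQ : Q * Q = Q := by
    have h := hQtQ
    rwa [hQt] at h
  refine ⟨Q, hQt, hQQ, ?_, ?_, ?_, ?_, ?_⟩
  · rw [hQ, Matrix.mul_smul, hJS]
  · rw [hQ, Matrix.smul_mul, hSJ]
  · rw [hQ, Matrix.mul_smul, hJtS]
  · intro A hA
    have hk : ∀ k : ℕ, J ^ k * A = A * J ^ k := fun k =>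
      ((show Commute J A from hA).pow_left k).eq
    rw [hQ, Matrix.smul_mul, Matrix.mul_smul, hS, Finset.sum_mul, Finset.mul_sum,
      Finset.sum_congr rfl fun k _ => hk k]
  · intro v hv
    have hk : ∀ k : ℕ, J ^ k *ᵥ v = v := by
      intro k
      induction k with
      | zero => rw [pow_zero, Matrix.one_mulVec]
      | succ k ih => rw [pow_succ, ← Matrix.mulVec_mulVec, hv, ih]
    rw [hQ, Matrix.smul_mulVec, hS, Matrix.sum_mulVec]
    rw [Finset.sum_congr rfl fun k _ => hk k, Finset.sum_const, Finset.card_range,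
      ← Nat.cast_smul_eq_nsmul ℝ, smul_smul, inv_mul_cancel₀ hpR, one_smul]

/-! ### the shift -/

/-- the shift as an equivalence -/
def shiftEquiv (n : ℕ) : Om n ≃ Om n where
  toFun := shiftOm
  invFun := fun ω t => ω ((finRotate n).symm t)
  left_inv := fun ω => by
    funext t
    show ω (finRotate n ((finRotate n).symm t)) = ω t
    rw [Equiv.apply_symm_apply]
  right_inv := fun ω => by
    funext t
    show ω ((finRotate n).symm (finRotate n t)) = ω t
    rw [Equiv.symm_apply_apply]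

theorem shiftEquiv_apply {n : ℕ} (ω : Om n) : shiftEquiv n ω = shiftOm ω := rfl

theorem shiftOm_inj {n : ℕ} {ω ν : Om n} (h : shiftOm ω = shiftOm ν) : ω = ν :=
  (shiftEquiv n).injective h

theorem shiftOm_iterate {n : ℕ} (ω : Om (n + 1)) (k : ℕ) (t : Fin (n + 1)) :
    (shiftOm^[k] ω) t = ω ((finRotate (n + 1))^[k] t) := by
  induction k generalizing ω with
  | zero => rfl
  | succ k ih =>
    rw [Function.iterate_succ_apply, ih, Function.iterate_succ_apply']
    rfl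

theorem finRotate_iterate_val {n : ℕ} (k : ℕ) (t : Fin (n + 1)) :
    ((finRotate (n + 1))^[k] t).val = (t.val + k) % (n + 1) := by
  induction k with
  | zero =>
    have h := Nat.mod_eq_of_lt t.isLt
    exact h.symm
  | succ k ih =>
    rw [Function.iterate_succ_apply', finRotate_apply, Fin.val_add, ih]
    have h1 : ((1 : Fin (n + 1)) : ℕ) = 1 % (n + 1) := rfl
    rw [h1, ← Nat.add_mod, Nat.add_assoc]

theorem shiftOm_iterate_self {n : ℕ} (ω : Om (n + 1)) : shiftOm^[n + 1] ω = ω := by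
  funext t
  rw [shiftOm_iterate]
  congr 1
  apply Fin.ext
  rw [finRotate_iterate_val, Nat.add_mod_right, Nat.mod_eq_of_lt t.isLt]

/-- signed shift operator -/
noncomputable def shiftJ (g : Matrix (Fin 3) (Fin 3) ℝ) (n : ℕ) : Matrix (Om (n + 1)) (Om (n + 1)) ℝ :=
  sperm (fun ω => eps g (ω 0)) shiftOm

theorem shiftJ_mul (g : Matrix (Fin 3) (Fin 3) ℝ) (n : ℕ) (A : Matrix (Om (n + 1)) (Om (n + 1)) ℝ)
    (ω ω' : Om (n + 1)) : (shiftJ g n * A) ω ω' = eps g (ω 0) * A (shiftOm ω) ω' :=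
  sperm_mul _ _ _ _ _

theorem mul_shiftJ (g : Matrix (Fin 3) (Fin 3) ℝ) (n : ℕ) (A : Matrix (Om (n + 1)) (Om (n + 1)) ℝ)
    (ω ν : Om (n + 1)) : (A * shiftJ g n) ω (shiftOm ν) = A ω ν * eps g (ν 0) := by
  rw [Matrix.mul_apply, Finset.sum_eq_single ν]
  · simp [shiftJ, sperm]
  · intro μ _ hμ
    have : shiftOm ν ≠ shiftOm μ := fun h => hμ (shiftOm_inj h).symm
    simp [shiftJ, sperm, this]
  · intro h; exact absurd (Finset.mem_univ _) h

theorem shiftOm_surj {n : ℕ} (ω : Om n) : ∃ ν, shiftOm ν = ω :=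
  ⟨(shiftEquiv n).symm ω, (shiftEquiv n).apply_symm_apply ω⟩

theorem shiftJ_orth {g : Matrix (Fin 3) (Fin 3) ℝ} (hg : IsDiagRot g) (n : ℕ) :
    shiftJ g n * (shiftJ g n)ᵀ = 1 := by
  ext ω ω'
  rw [shiftJ_mul, Matrix.transpose_apply, Matrix.one_apply]
  unfold shiftJ sperm
  rw [Matrix.of_apply]
  by_cases h : ω = ω'
  · subst h
    rw [if_pos rfl, if_pos rfl, eps_sq hg]
  · rw [if_neg h, if_neg (fun h' => h (shiftOm_inj h')), mul_zero]

theorem shiftJ_pow_apply (g : Matrix (Fin 3) (Fin 3) ℝ) (n k : ℕ) (ω ω' : Om (n + 1)) :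
    (shiftJ g n ^ k) ω ω' =
      if ω' = shiftOm^[k] ω then ∏ i ∈ Finset.range k, eps g ((shiftOm^[i] ω) 0) else 0 := by
  induction k generalizing ω with
  | zero =>
    rw [pow_zero, Matrix.one_apply, Function.iterate_zero_apply, Finset.prod_range_zero]
    exact if_congr eq_comm rfl rfl
  | succ k ih =>
    rw [pow_succ', shiftJ_mul, ih, Function.iterate_succ_apply, Finset.prod_range_succ']
    split_ifs with h
    · rw [mul_comm]
      rfl
    · rw [mul_zero]

theorem shiftJ_pow (n : ℕ) {g : Matrix (Fin 3) (Fin 3) ℝ} (hg : IsDiagRot g) :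
    shiftJ g n ^ ((n + 1) + (n + 1)) = 1 := by
  ext ω ω'
  rw [shiftJ_pow_apply, Function.iterate_add_apply, shiftOm_iterate_self, shiftOm_iterate_self,
    Matrix.one_apply]
  by_cases h : ω' = ω
  · subst h
    rw [if_pos rfl, if_pos rfl, Finset.prod_range_add]
    have h1 : ∀ i ∈ Finset.range (n + 1), eps g ((shiftOm^[n + 1 + i] ω') 0) =
        eps g ((shiftOm^[i] ω') 0) := by
      intro i _
      have e : shiftOm^[n + 1 + i] ω' = shiftOm^[i] ω' := by
        conv_lhs => rw [Nat.add_comm (n + 1) i]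
        rw [Function.iterate_add_apply, shiftOm_iterate_self]
      rw [e]
    rw [Finset.prod_congr rfl h1, ← Finset.prod_mul_distrib]
    exact Finset.prod_eq_one fun i _ => eps_sq hg _
  · rw [if_neg h, if_neg (fun h' => h h'.symm)]

theorem shiftJ_Kn {g : Matrix (Fin 3) (Fin 3) ℝ} (hg : IsDiagRot g) (β : ℝ) (n : ℕ) :
    shiftJ g n * Kn g β (n + 1) = Kn g β (n + 1) * shiftJ g n := by
  ext ω ω'
  obtain ⟨ν, rfl⟩ := shiftOm_surj ω'
  rw [shiftJ_mul, mul_shiftJ, Kn_shift hg]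
  calc eps g (ω 0) * (eps g (ω 0) * eps g (ν 0) * Kn g β (n + 1) ω ν) =
      (eps g (ω 0) * eps g (ω 0)) * (Kn g β (n + 1) ω ν * eps g (ν 0)) := by ring
    _ = _ := by rw [eps_sq hg, one_mul]

theorem Kn_transpose_eq {g : Matrix (Fin 3) (Fin 3) ℝ} (hg : IsDiagRot g) (β : ℝ) (n : ℕ) :
    (Kn g β (n + 1))ᵀ = Kn g β (n + 1) * (shiftJ g n)ᵀ := by
  ext ω' ω
  rw [Matrix.transpose_apply, Matrix.mul_apply, Finset.sum_eq_single (shiftOm ω)]
  · rw [Matrix.transpose_apply, Kn_transpose_shift hg]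
    simp only [shiftJ, sperm, Matrix.of_apply, if_true]
    calc Kn g β (n + 1) ω ω' = (eps g (ω 0) * eps g (ω 0)) * Kn g β (n + 1) ω ω' := by
          rw [eps_sq hg, one_mul]
      _ = _ := by ring
  · intro μ _ hμ
    simp [shiftJ, sperm, hμ]
  · intro h; exact absurd (Finset.mem_univ _) h

theorem shiftJ_rho {g h : Matrix (Fin 3) (Fin 3) ℝ} (hh : IsDiagRot h) (n : ℕ) :
    shiftJ g n * rho h (n + 1) = rho h (n + 1) * shiftJ g n := by
  ext ω ω'
  obtain ⟨ν, rfl⟩ := shiftOm_surj ω'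
  rw [shiftJ_mul, mul_shiftJ, rho_diag hh, Matrix.diagonal_apply, Matrix.diagonal_apply]
  by_cases h : ω = ν
  · subst h
    rw [if_pos rfl, if_pos rfl, mul_comm]
    congr 1
    exact Equiv.prod_comp (finRotate (n + 1)) (fun t => eps _ (ω t))
  · rw [if_neg h, if_neg (fun h' => h (shiftOm_inj h')), mul_zero, zero_mul]

theorem shiftJ_one_rho (h : Matrix (Fin 3) (Fin 3) ℝ) (n : ℕ) :
    shiftJ 1 n * rho h (n + 1) = rho h (n + 1) * shiftJ 1 n := by
  ext ω ω'
  obtain ⟨ν, rfl⟩ := shiftOm_surj ω'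
  rw [shiftJ_mul, mul_shiftJ, eps_one, eps_one, one_mul, mul_one, rho_apply, rho_apply]
  exact Equiv.prod_comp (finRotate (n + 1)) (fun t => rho4 h (ω t) (ν t))

/-- **Projection on the time-shift invariant vectors.** -/
theorem exists_shiftProj {g : Matrix (Fin 3) (Fin 3) ℝ} (hg : IsDiagRot g) (β : ℝ) (n : ℕ)
    (hn : 0 < n) :
    ∃ Q : Matrix (Om n) (Om n) ℝ, Qᵀ = Q ∧ Q * Q = Q ∧ Q * Kn g β n = Kn g β n * Q ∧
      (Kn g β n)ᵀ * Q = Kn g β n * Q ∧
      (∀ h : Matrix (Fin 3) (Fin 3) ℝ, IsDiagRot h → Q * rho h n = rho h n * Q) ∧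
      (g = 1 → ∀ h : Matrix (Fin 3) (Fin 3) ℝ, Q * rho h n = rho h n * Q) ∧
      ∀ v : Om n → ℝ, (∀ ω : Om n, eps g (ω ⟨0, hn⟩) * v (shiftOm ω) = v ω) → Q *ᵥ v = v := by
  obtain ⟨n, rfl⟩ : ∃ k, n = k + 1 := ⟨n - 1, by omega⟩
  have ho := shiftJ_orth hg n
  have ho' : (shiftJ g n)ᵀ * shiftJ g n = 1 := mul_eq_one_comm.1 ho
  obtain ⟨Q, hQt, hQQ, hJQ, hQJ, hJtQ, hcomm, hfix⟩ :=
    exists_finProj (shiftJ g n) ((n + 1) + (n + 1)) (by omega) (shiftJ_pow n hg) ho'
  refine ⟨Q, hQt, hQQ, hcomm _ (shiftJ_Kn hg β n), ?_, fun h hh => hcomm _ (shiftJ_rho hh n), ?_, ?_⟩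
  · rw [Kn_transpose_eq hg, Matrix.mul_assoc, hJtQ]
  · rintro rfl h
    exact hcomm _ (shiftJ_one_rho h n)
  · intro v hv
    apply hfix
    funext ω
    rw [← hv ω, Matrix.mulVec, dotProduct, Finset.sum_eq_single (shiftOm ω)]
    · simp [shiftJ, sperm]
    · intro μ _ hμ
      simp [shiftJ, sperm, hμ]
    · intro h; exact absurd (Finset.mem_univ _) h

/-! ### boundary vectors -/

theorem bdryVec_shift {k : Type*} [Fintype k] [DecidableEq k] {W : Type*} (n : ℕ)
    (G : Matrix k k ℂ) (x : W → Matrix k k ℂ) (ω : Fin (n + 1) → W) :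
    bdryVec (n + 1) G x (fun t => ω (finRotate (n + 1) t)) =
      (x (ω 0) * G * (List.ofFn fun t : Fin n => x (ω t.succ)).prod).trace := by
  unfold bdryVec
  rw [ofFn_prod_shift (fun t => x (ω t)), ← Matrix.mul_assoc, Matrix.trace_mul_comm,
    Matrix.mul_assoc]

theorem bdryVec_succ {k : Type*} [Fintype k] [DecidableEq k] {W : Type*} (n : ℕ)
    (G : Matrix k k ℂ) (x : W → Matrix k k ℂ) (ω : Fin (n + 1) → W) :
    bdryVec (n + 1) G x ω = (G * x (ω 0) * (List.ofFn fun t : Fin n => x (ω t.succ)).prod).trace := by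
  unfold bdryVec
  rw [List.ofFn_succ, List.prod_cons, Matrix.mul_assoc]

/-- untwisted boundary vectors are shift invariant -/
theorem wv_shift (d : ℕ) (h β : ℝ) (n : ℕ) (ω : Om n) :
    wv G1 d h β n (shiftOm ω) = wv G1 d h β n ω := by
  cases n with
  | zero =>
    congr 1
  | succ n =>
    rw [wv_def, bdryVec_succ (ω := ω)]
    show bdryVec (n + 1) _ _ (fun t => ω (finRotate (n + 1) t)) = _
    rw [bdryVec_shift]
    unfold G1
    rw [Matrix.mul_one, Matrix.one_mul]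

/-- shift of the twisted boundary vector -/
theorem wvz_shift (β : ℝ) (n : ℕ) (ω : Om (n + 1)) :
    wv Gz 2 0 β (n + 1) (shiftOm ω) = ((eps gz (ω 0) : ℝ) : ℂ) * wv Gz 2 0 β (n + 1) ω := by
  rw [wv_def, bdryVec_succ (ω := ω)]
  show bdryVec (n + 1) _ _ (fun t => ω (finRotate (n + 1) t)) = _
  rw [bdryVec_shift]
  set τ := β / ((n + 1 : ℕ) : ℝ) with hτ
  have h1 := impl_two_gz.letters τ (ω 0)
  rw [Finset.sum_eq_single (ω 0) (fun b _ hb => by rw [rho4_offdiag isDiagRot_gz hb]; simp)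
    (fun h => absurd (Finset.mem_univ _) h)] at h1
  have hG : Gz 2 = !![-Complex.I, 0; 0, Complex.I] := rfl
  rw [← hG] at h1
  have h2 : Xc 2 τ (ω 0) * Gz 2 = ((eps gz (ω 0) : ℝ) : ℂ) • (Gz 2 * Xc 2 τ (ω 0)) := by
    have h3 := congrArg (fun M => M * Gz 2) h1
    have h5 : (!![Complex.I, 0; 0, -Complex.I] : Matrix (Fin 2) (Fin 2) ℂ) * Gz 2 = 1 :=
      impl_two_gz.inv1
    rw [Matrix.mul_assoc (Gz 2 * Xc 2 τ (ω 0)), h5, Matrix.mul_one,
      Matrix.smul_mul] at h3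
    have h4 : ((eps gz (ω 0) : ℝ) : ℂ) * ((eps gz (ω 0) : ℝ) : ℂ) = 1 := by
      rw [← Complex.ofReal_mul, eps_sq isDiagRot_gz, Complex.ofReal_one]
    rw [← h3]
    unfold eps at h4 ⊢
    rw [smul_smul, h4, one_smul]
  rw [fE_zero]
  simp only [Matrix.mul_one]
  rw [h2, Matrix.smul_mul, Matrix.trace_smul, smul_eq_mul]

theorem wvz_shift' (β : ℝ) (n : ℕ) (ω : Om (n + 1)) :
    ((eps gz (ω 0) : ℝ) : ℂ) * wv Gz 2 0 β (n + 1) (shiftOm ω) = wv Gz 2 0 β (n + 1) ω := by
  rw [wvz_shift, ← mul_assoc, ← Complex.ofReal_mul, eps_sq isDiagRot_gz, Complex.ofReal_one,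
    one_mul]

end Hald
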