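import Crest.Agent.Hald.ChainWorld

/-!
# Row 347, M5 (5e): the strips (M spins 1 between two spins ½)
-/

set_option autoImplicit false
set_option linter.unusedSectionVars false

namespace Hald

open Matrix Finset Filter Topology
open scoped ComplexOrder

/-- spectral data of the normalised kernel on the shift invariant vectors -/
theorem exists_spec {g : Matrix (Fin 3) (Fin 3) ℝ} (hg : IsDiagRot g) (β e : ℝ) (n : ℕ) :
    ∃ (Q : Matrix (Om (n + 1)) (Om (n + 1)) ℝ) (κ : Om (n + 1) → ℝ)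
      (u : Om (n + 1) → Om (n + 1) → ℝ),
      (∀ j k, u j ⬝ᵥ u k = if j = k then 1 else 0) ∧
      (∀ x : Om (n + 1) → ℝ, (∀ ω, eps g (ω 0) * x (shiftOm ω) = x ω) → Q *ᵥ x = x) ∧
      (∀ x y : Om (n + 1) → ℝ, Q *ᵥ x = x → Q *ᵥ y = y → ∀ M : ℕ,
        x ⬝ᵥ (KN g β e (n + 1) ^ M *ᵥ y) = ∑ j, (u j ⬝ᵥ x) * (u j ⬝ᵥ y) * κ j ^ M) ∧
      (∀ j, κ j ≠ 0 → TN g β e (n + 1) *ᵥ u j = (κ j ^ 2) • u j) := by
  obtain ⟨Q, h1, h2, h3, h4, -, -, h7⟩ := exists_shiftProj hg β (n + 1) (Nat.succ_pos n)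
  have hS : SymK (KN g β e (n + 1)) Q := by
    refine ⟨h1, h2, ?_, ?_⟩
    · unfold KN; rw [Matrix.mul_smul, Matrix.smul_mul, h3]
    · unfold KN; rw [Matrix.transpose_smul, Matrix.smul_mul, Matrix.smul_mul, h4]
  obtain ⟨κ, u, s1, s2, -, -, s5⟩ := hS.spectral
  refine ⟨Q, κ, u, s1, h7, s2, fun j hj => ?_⟩
  rw [← TN_eq]
  exact s5 j hj

/-- normalised Trotter limit of chains -/
theorem chain_tendsto_norm {dl dr : ℕ} (hl : 0 < dl) (hr : 0 < dr)
    {Gt : (d : ℕ) → Matrix (Fin d) (Fin d) ℂ} {g : Matrix (Fin 3) (Fin 3) ℝ}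
    (hG : Gt 3 = cartU * cplx g * cartUᴴ) (h0 h1 : ℝ) {β : ℝ} (hβ : 0 ≤ β) (e : ℝ) (M : ℕ) :
    Tendsto (fun n : ℕ => (wv Gt dl h0 β n ⬝ᵥ cplx ((KN g β e n) ^ M) *ᵥ wv Gt dr h1 β n).re) atTop
      (𝓝 ((Zch Gt (M + 1) (chD dl dr M) h0 h1 β).re * Real.exp (β * M * e))) := by
  have h2 := (Complex.continuous_re.tendsto _).comp
    (chain_tendsto_chD (M := M) hl hr hG h0 h1 hβ)
  have h3 := h2.mul_const (Real.exp (β * M * e))
  refine h3.congr fun n => ?_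
  have h4 : KN g β e n ^ M = Real.exp (β * M * e) • Kn g β n ^ M := by
    unfold KN
    rw [smul_pow, ← Real.exp_nat_mul]
    congr 2
    ring
  rw [h4, cplx_smul, Matrix.smul_mulVec, dotProduct_smul, smul_eq_mul, Function.comp_apply,
    Complex.re_ofReal_mul, mul_comm]

/-- **Strips, general form.** -/
theorem strip_general {g : Matrix (Fin 3) (Fin 3) ℝ} (hg : IsDiagRot g) {β e : ℝ} {b : ℕ → ℝ}
    (S : Sector g β e b) {V : ℝ} (hV : 0 ≤ V) (g1 : ∀ m, 1 ≤ m → V ^ (2 * m) ≤ b m)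
    (g2 : ∀ m, 1 ≤ m → b m ≤ V ^ (2 * (m - 1)) * b 1)
    (x : ∀ n, Om n → ℝ) (hx : ∀ n, S.P n *ᵥ cv (x n) = cv (x n))
    (hxs : ∀ n (ω : Om (n + 1)), eps g (ω 0) * x (n + 1) (shiftOm ω) = x (n + 1) ω)
    {a : ℕ → ℝ}
    (ha : ∀ M, Tendsto (fun n => x n ⬝ᵥ (KN g β e n ^ M *ᵥ x n)) atTop (𝓝 (a M))) :
    (∀ l : ℝ, 0 < l → (∃ m : ℕ, 1 ≤ m ∧ b m - V ^ (2 * m) < l ^ (2 * m)) →
      ∀ P : Polynomial ℝ, (∀ x : ℝ, |x| ≤ l → 0 ≤ P.eval x) → 0 ≤ P.eval V → 0 ≤ P.eval (-V) →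
        0 ≤ ∑ M ∈ range (P.natDegree + 1), P.coeff M * a M) ∧
    (∀ M, Even M → 0 ≤ a M ∧ a (M + 2) ≤ V ^ 2 * a M) := by
  choose Q κ u hu hQ hsp hT using fun n => exists_spec hg β e n
  -- moments
  have hmom : ∀ n M, x (n + 1) ⬝ᵥ (KN g β e (n + 1) ^ M *ᵥ x (n + 1)) =
      ∑ j, (u n j ⬝ᵥ x (n + 1)) ^ 2 * κ n j ^ M := by
    intro n M
    rw [hsp n (x (n + 1)) (x (n + 1)) (hQ n _ (hxs n)) (hQ n _ (hxs n)) M]
    exact Finset.sum_congr rfl fun j _ => by ring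
  have he : ∀ M, Tendsto (fun n => ∑ j, (u n j ⬝ᵥ x (n + 1)) ^ 2 * κ n j ^ M) atTop (𝓝 (a M)) := by
    intro M
    have h1 := (ha M).comp (tendsto_add_atTop_nat 1)
    refine h1.congr fun n => ?_
    exact hmom n M
  -- eigenvectors in the sector
  have hvec : ∀ n j, (u n j ⬝ᵥ x (n + 1)) ^ 2 ≠ 0 → κ n j ≠ 0 →
      ∃ y : Om (n + 1) → ℂ, y ≠ 0 ∧ S.P (n + 1) *ᵥ y = y ∧
        cplx (TN g β e (n + 1)) *ᵥ y = ((κ n j ^ 2 : ℝ) : ℂ) • y := by
    intro n j h1 h2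
    refine sector_vec (S.hP _) (S.hPT _) (hx _) ?_ (fun h0 => h1 (by rw [h0]; simp))
    rw [cplx_mulVec, hT n j h2, cv_smul]
  -- upper bound
  have hub : ∀ q, V < q → ∀ᶠ n in atTop, ∀ j, (u n j ⬝ᵥ x (n + 1)) ^ 2 ≠ 0 → |κ n j| ≤ q := by
    intro q hq
    have hq0 : 0 < q := lt_of_le_of_lt hV hq
    obtain ⟨m, hm, hbm⟩ : ∃ m, 1 ≤ m ∧ b m < q ^ (2 * m) := by
      have hb1 : 0 ≤ b 1 := le_trans (by positivity) (g1 1 le_rfl)
      rcases hV.eq_or_lt with hV0 | hVpos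
      · refine ⟨2, by norm_num, ?_⟩
        have := g2 2 (by norm_num)
        rw [← hV0] at this
        norm_num at this
        have h5 : 0 < q ^ (2 * 2) := by positivity
        linarith
      · have hr : 1 < (q / V) ^ 2 := by
          apply one_lt_pow₀ _ (by norm_num)
          rwa [one_lt_div hVpos]
        obtain ⟨k, hk⟩ := pow_unbounded_of_one_lt (b 1 / V ^ 2) hr
        refine ⟨k + 1, by omega, ?_⟩
        have h5 := g2 (k + 1) (by omega)
        rw [Nat.add_sub_cancel] at h5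
        have hk1 : (q / V) ^ (2 * k) ≤ (q / V) ^ (2 * (k + 1)) :=
          pow_le_pow_right₀ ((one_lt_div hVpos).2 hq).le (by omega)
        rw [← pow_mul] at hk
        have h6 : b 1 / V ^ 2 < q ^ (2 * (k + 1)) / V ^ (2 * (k + 1)) := by
          rw [← div_pow]; linarith
        rw [div_lt_div_iff₀ (by positivity) (by positivity)] at h6
        have h7 : V ^ (2 * k) * b 1 < q ^ (2 * (k + 1)) := by
          have h8 : b 1 * V ^ (2 * (k + 1)) = (V ^ (2 * k) * b 1) * V ^ 2 := by ring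
          rw [h8] at h6
          exact lt_of_mul_lt_mul_right h6 (by positivity)
        linarith
    filter_upwards [(tendsto_add_atTop_nat 1).eventually (S.bound hm hq0 hbm)] with n hn j hj
    by_cases hκ : κ n j = 0
    · rw [hκ, abs_zero]; exact hq0.le
    · obtain ⟨y, hy, hPy, hTy⟩ := hvec n j hj hκ
      exact abs_le_of_sq_le_sq (hn _ y hy hPy hTy) hq0.le
  refine ⟨?_, ?_⟩
  · rintro l hl ⟨m, hm, hbm⟩ P hP hPV hPV'
    rcases hV.eq_or_lt with hV0 | hVpos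
    · refine strip_limit κ (fun n j => (u n j ⬝ᵥ x (n + 1)) ^ 2) (fun n j => sq_nonneg _)
        (v := fun _ => l) hl tendsto_const_nhds he (l := l) ?_ P hP (hP l (by rw [abs_of_pos hl]))
        (hP (-l) (by rw [abs_neg, abs_of_pos hl]))
      filter_upwards [hub l (by rw [← hV0]; exact hl)] with n hn j hj
      exact Or.inl (hn j hj)
    · obtain ⟨v, hv, htop⟩ := sector_top (Ω := fun n => Om n) S.P (fun n => cplx (TN g β e n)) S.hP
        S.hPT (fun n => TN_psd) S.hlim hVpos g1 g2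
      refine strip_limit κ (fun n j => (u n j ⬝ᵥ x (n + 1)) ^ 2) (fun n j => sq_nonneg _)
        (v := fun n => v (n + 1)) hVpos (hv.comp (tendsto_add_atTop_nat 1)) he (l := l) ?_ P hP
        hPV hPV'
      have h1 : ∀ᶠ n in atTop, (S.P n * cplx (TN g β e n) ^ m).trace.re - v n ^ (2 * m) <
          l ^ (2 * m) :=
        ((S.hlim m hm).sub (hv.pow (2 * m))).eventually (gt_mem_nhds hbm)
      filter_upwards [(tendsto_add_atTop_nat 1).eventually h1,
        (tendsto_add_atTop_nat 1).eventually htop] with n hn htn j hj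
      by_cases hκ : κ n j = 0
      · left; rw [hκ, abs_zero]; exact hl.le
      · obtain ⟨y, hy, hPy, hTy⟩ := hvec n j hj hκ
        by_cases heq : κ n j ^ 2 = v (n + 1) ^ 2
        · right
          have := (sq_eq_sq_iff_abs_eq_abs _ _).1 heq
          rw [this, abs_of_pos htn.pos]
        · left
          have h2 := htn.two (S.hP _) TN_psd hy hPy hTy heq m
          have h3 : (κ n j ^ 2) ^ m < l ^ (2 * m) := by linarith
          rw [← pow_mul, ← (even_two_mul m).pow_abs] at h3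
          by_contra hcon
          push Not at hcon
          have := pow_le_pow_left₀ hl.le hcon.le (2 * m)
          linarith
  · intro M hM
    have hnn : ∀ n, 0 ≤ ∑ j, (u n j ⬝ᵥ x (n + 1)) ^ 2 * κ n j ^ M := fun n =>
      Finset.sum_nonneg fun j _ => mul_nonneg (sq_nonneg _) (hM.pow_nonneg _)
    have h0 : 0 ≤ a M := ge_of_tendsto' (he M) hnn
    refine ⟨h0, ?_⟩
    have h1 : ∀ q, V < q → a (M + 2) ≤ q ^ 2 * a M := by
      intro q hq
      refine le_of_tendsto_of_tendsto (he (M + 2)) ((he M).const_mul (q ^ 2)) ?_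
      filter_upwards [hub q hq] with n hn
      rw [Finset.mul_sum]
      refine Finset.sum_le_sum fun j _ => ?_
      by_cases hj : (u n j ⬝ᵥ x (n + 1)) ^ 2 = 0
      · rw [hj]; simp
      · have h2 : κ n j ^ 2 ≤ q ^ 2 := by
          rw [← sq_abs (κ n j)]
          exact pow_le_pow_left₀ (abs_nonneg _) (hn j hj) 2
        have h3 : 0 ≤ (u n j ⬝ᵥ x (n + 1)) ^ 2 * κ n j ^ M :=
          mul_nonneg (sq_nonneg _) (hM.pow_nonneg _)
        calc (u n j ⬝ᵥ x (n + 1)) ^ 2 * κ n j ^ (M + 2) =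
            ((u n j ⬝ᵥ x (n + 1)) ^ 2 * κ n j ^ M) * κ n j ^ 2 := by ring
          _ ≤ ((u n j ⬝ᵥ x (n + 1)) ^ 2 * κ n j ^ M) * q ^ 2 := mul_le_mul_of_nonneg_left h2 h3
          _ = _ := by ring
    have h2 : Tendsto (fun q : ℝ => q ^ 2 * a M) (𝓝[>] V) (𝓝 (V ^ 2 * a M)) := by
      apply Tendsto.mono_left _ nhdsWithin_le_nhds
      exact ((continuous_id.pow 2).mul continuous_const).tendsto V
    refine ge_of_tendsto h2 ?_
    filter_upwards [self_mem_nhdsWithin] with q hq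
    exact h1 q hq

end Hald
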