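import Crest.Agent.Hald.StripOut

/-!
# Row 347: bounds of the tops `V 0 β`, `V 1 β` from polynomial certificates on the strips

`strip_upper`: `P ≥ 0` on `[-l, l]` and for `|x| ≥ c`, `∑ p_M a_M < 0`, rest `< l^(2m)` for some `m`
  ⇒ `V 0 β ≤ c`.
`strip_lower`: `P ≥ 0` on `[-c, c]`, `∑ p_M a_M < 0` ⇒ `c ≤ V 0 β`.
`strip_upper_z`, `strip_lower_z`: the same for the twisted strips and `V 1 β`.
-/

set_option autoImplicit false
set_option linter.unusedSectionVars false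

namespace Hald

open Finset Filter Topology Polynomial

/-- polynomial with coefficients `p 0, …, p (n-1)` -/
noncomputable def polN (n : ℕ) (p : ℕ → ℝ) : ℝ[X] := ∑ i ∈ range n, Polynomial.monomial i (p i)

theorem polN_eval (n : ℕ) (p : ℕ → ℝ) (x : ℝ) : (polN n p).eval x = ∑ i ∈ range n, p i * x ^ i := by
  unfold polN
  rw [Polynomial.eval_finsetSum]
  exact sum_congr rfl fun i _ => Polynomial.eval_monomial

theorem polN_coeff (n : ℕ) (p : ℕ → ℝ) (i : ℕ) : (polN n p).coeff i = if i < n then p i else 0 := by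
  unfold polN
  rw [Polynomial.finsetSum_coeff]
  simp only [Polynomial.coeff_monomial]
  rw [Finset.sum_ite_eq']
  simp

theorem polN_sum (n : ℕ) (p a : ℕ → ℝ) :
    ∑ M ∈ range ((polN n p).natDegree + 1), (polN n p).coeff M * a M = ∑ M ∈ range n, p M * a M := by
  have h1 : ∀ N, (polN n p).natDegree + 1 ≤ N → n ≤ N →
      ∑ M ∈ range ((polN n p).natDegree + 1), (polN n p).coeff M * a M =
        ∑ M ∈ range N, (polN n p).coeff M * a M := by
    intro N hN _
    refine Finset.sum_subset (Finset.range_mono hN) fun i _ hi => ?_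
    rw [Polynomial.coeff_eq_zero_of_natDegree_lt, zero_mul]
    simp only [Finset.mem_range, not_lt] at hi
    omega
  have h2 : ∀ N, n ≤ N → ∑ M ∈ range n, p M * a M = ∑ M ∈ range N, (polN n p).coeff M * a M := by
    intro N hN
    rw [← Finset.sum_subset (Finset.range_mono hN) (f := fun M => (polN n p).coeff M * a M)]
    · refine sum_congr rfl fun i hi => ?_
      rw [polN_coeff, if_pos (Finset.mem_range.1 hi)]
    · intro i _ hi
      rw [polN_coeff, if_neg (by simpa using hi), zero_mul]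
  rw [h1 (max ((polN n p).natDegree + 1) n) (le_max_left _ _) (le_max_right _ _),
    h2 (max ((polN n p).natDegree + 1) n) (le_max_right _ _)]

/-- the remainder is eventually small -/
theorem PSTop.rest_small {f : ℕ → ℝ} {t l : ℝ}
    (h : PSTop {m : ℕ | 1 ≤ m} (fun m => 2 * (m : ℝ)) 1 f t) (hl : t < l) :
    ∃ m : ℕ, 1 ≤ m ∧ f m - t ^ (2 * m) < l ^ (2 * m) := by
  have ht : 0 ≤ t := h.t_nonneg
  have hl0 : 0 < l := lt_of_le_of_lt ht hl
  have hr : Tendsto (fun m : ℕ => ((t / l) ^ 2) ^ m * f 1) atTop (𝓝 (0 * f 1)) := by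
    refine Tendsto.mul_const _ (tendsto_pow_atTop_nhds_zero_of_lt_one (by positivity) ?_)
    have : t / l < 1 := (div_lt_one hl0).2 hl
    have h0 : 0 ≤ t / l := by positivity
    nlinarith
  rw [zero_mul] at hr
  obtain ⟨m, hm⟩ := (hr.eventually (gt_mem_nhds (show (0 : ℝ) < l ^ 2 by positivity))).exists
  refine ⟨m + 1, by omega, ?_⟩
  have h1 := h.nat_ratio (m := m + 1) (by omega)
  rw [Nat.add_sub_cancel] at h1
  have h2 : t ^ (2 * m) * f 1 = (((t / l) ^ 2) ^ m * f 1) * l ^ (2 * m) := by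
    rw [← pow_mul, div_pow]
    field_simp
  have h3 : (((t / l) ^ 2) ^ m * f 1) * l ^ (2 * m) < l ^ 2 * l ^ (2 * m) :=
    mul_lt_mul_of_pos_right hm (by positivity)
  have h4 : (0 : ℝ) ≤ t ^ (2 * (m + 1)) := by positivity
  have h5 : l ^ 2 * l ^ (2 * m) = l ^ (2 * (m + 1)) := by ring
  linarith

section

variable {β : ℝ} (hβ : 0 < β)
include hβ

theorem strip_upper {l c : ℝ} (hl : 0 < l)
    (hm : ∃ m : ℕ, 1 ≤ m ∧
        secA 0 (fun t => theWorld.Z t β m) - theWorld.V 0 β ^ (2 * m) < l ^ (2 * m))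
    (n : ℕ) (p : ℕ → ℝ) (hP1 : ∀ x : ℝ, |x| ≤ l → 0 ≤ ∑ i ∈ range n, p i * x ^ i)
    (hP2 : ∀ x : ℝ, c ≤ |x| → 0 ≤ ∑ i ∈ range n, p i * x ^ i)
    (hneg : ∑ i ∈ range n, p i * aStrip G1 theE β i < 0) : theWorld.V 0 β ≤ c := by
  by_contra hcon
  push Not at hcon
  have hV : 0 ≤ theWorld.V 0 β := (theWorld.hAtop0 β hβ).t_nonneg
  have h := (strip_out hβ).1 l hl hm (polN n p) (fun x hx => by rw [polN_eval]; exact hP1 x hx)
    (by rw [polN_eval]; exact hP2 _ (by rw [abs_of_nonneg hV]; exact hcon.le))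
    (by rw [polN_eval]; exact hP2 _ (by rw [abs_neg, abs_of_nonneg hV]; exact hcon.le))
  rw [polN_sum] at h
  linarith

theorem strip_lower {c : ℝ} (hc : 0 < c) (n : ℕ) (p : ℕ → ℝ)
    (hP : ∀ x : ℝ, |x| ≤ c → 0 ≤ ∑ i ∈ range n, p i * x ^ i)
    (hneg : ∑ i ∈ range n, p i * aStrip G1 theE β i < 0) : c ≤ theWorld.V 0 β := by
  by_contra hcon
  push Not at hcon
  have hV : 0 ≤ theWorld.V 0 β := (theWorld.hAtop0 β hβ).t_nonneg
  have h := (strip_out hβ).1 c hc ((theWorld.hAtop0 β hβ).rest_small hcon) (polN n p)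
    (fun x hx => by rw [polN_eval]; exact hP x hx)
    (by rw [polN_eval]; exact hP _ (by rw [abs_of_nonneg hV]; exact hcon.le))
    (by rw [polN_eval]; exact hP _ (by rw [abs_neg, abs_of_nonneg hV]; exact hcon.le))
  rw [polN_sum] at h
  linarith

theorem strip_upper_z {l c : ℝ} (hl : 0 < l)
    (hm : ∃ m : ℕ, 1 ≤ m ∧
        secA 4 (fun t => theWorld.Z t β m) - theWorld.V 1 β ^ (2 * m) < l ^ (2 * m))
    (n : ℕ) (p : ℕ → ℝ) (hP1 : ∀ x : ℝ, |x| ≤ l → 0 ≤ ∑ i ∈ range n, p i * x ^ i)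
    (hP2 : ∀ x : ℝ, c ≤ |x| → 0 ≤ ∑ i ∈ range n, p i * x ^ i)
    (hneg : ∑ i ∈ range n, p i * aStrip Gz theE β i < 0) : theWorld.V 1 β ≤ c := by
  by_contra hcon
  push Not at hcon
  have hV : 0 ≤ theWorld.V 1 β := (theWorld.hAtop1 β hβ).t_nonneg
  have h := (strip_out_z hβ).1 l hl hm (polN n p) (fun x hx => by rw [polN_eval]; exact hP1 x hx)
    (by rw [polN_eval]; exact hP2 _ (by rw [abs_of_nonneg hV]; exact hcon.le))
    (by rw [polN_eval]; exact hP2 _ (by rw [abs_neg, abs_of_nonneg hV]; exact hcon.le))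
  rw [polN_sum] at h
  linarith

theorem strip_lower_z {c : ℝ} (hc : 0 < c) (n : ℕ) (p : ℕ → ℝ)
    (hP : ∀ x : ℝ, |x| ≤ c → 0 ≤ ∑ i ∈ range n, p i * x ^ i)
    (hneg : ∑ i ∈ range n, p i * aStrip Gz theE β i < 0) : c ≤ theWorld.V 1 β := by
  by_contra hcon
  push Not at hcon
  have hV : 0 ≤ theWorld.V 1 β := (theWorld.hAtop1 β hβ).t_nonneg
  have h := (strip_out_z hβ).1 c hc ((theWorld.hAtop1 β hβ).rest_small hcon) (polN n p)
    (fun x hx => by rw [polN_eval]; exact hP x hx)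
    (by rw [polN_eval]; exact hP _ (by rw [abs_of_nonneg hV]; exact hcon.le))
    (by rw [polN_eval]; exact hP _ (by rw [abs_neg, abs_of_nonneg hV]; exact hcon.le))
  rw [polN_sum] at h
  linarith

end

end Hald
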