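import Crest.Agent.Hald.ChainJoint
import Crest.Agent.Hald.StripPoly

/-!
# Row 347: the same facts with `theE` replaced by any real `e'`

`sc β e' = exp (β (e' - theE))`, `hatZ e' t β m = Zp … β m * exp (β 2m e')`,
`hatV e' k β = V k β * sc β e'`, `aStrip Gt e' β M` etc.
`HatJoint e' β α ω`: the facts of `Joint` (with `ω` multiplied by `sc β e'`),
`hat_strip_upper/lower(_z)`: polynomial bounds of `hatV`.
-/

set_option autoImplicit false
set_option linter.unusedSectionVars false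

namespace Hald

open Finset Filter Topology Polynomial

/-- scaling factor -/
noncomputable def sc (β e' : ℝ) : ℝ := Real.exp (β * (e' - theE))

theorem sc_pos (β e' : ℝ) : 0 < sc β e' := Real.exp_pos _

theorem one_le_sc {β e' : ℝ} (hβ : 0 ≤ β) (he : theE ≤ e') : 1 ≤ sc β e' :=
  Real.one_le_exp (mul_nonneg hβ (by linarith))

/-- partition functions of the ring normalised with `e'` -/
noncomputable def hatZ (e' : ℝ) (t : Fin 8) (β : ℝ) (m : ℕ) : ℝ :=
  Zp (tw t).1 (tw t).2 β m * Real.exp (β * (2 * m) * e')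

theorem exp_sc (β e' : ℝ) (k : ℕ) (x : ℝ) :
    x * Real.exp (β * k * e') = x * Real.exp (β * k * theE) * sc β e' ^ k := by
  unfold sc
  rw [← Real.exp_nat_mul, mul_assoc x, ← Real.exp_add]
  congr 2
  ring

theorem hatZ_eq (e' : ℝ) (t : Fin 8) (β : ℝ) (m : ℕ) :
    hatZ e' t β m = theWorld.Z t β m * sc β e' ^ (2 * m) := by
  unfold hatZ
  rw [theWorld_Z]
  have := exp_sc β e' (2 * m) (Zp (tw t).1 (tw t).2 β m)
  push_cast at this
  exact this

/-- tops normalised with `e'` -/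
noncomputable def hatV (e' : ℝ) (k : Fin 2) (β : ℝ) : ℝ := theWorld.V k β * sc β e'

theorem secA_hat (k : Fin 8) (e' β : ℝ) (m : ℕ) :
    secA k (fun t => hatZ e' t β m) = secA k (fun t => theWorld.Z t β m) * sc β e' ^ (2 * m) := by
  simp only [hatZ_eq]
  fin_cases k <;> simp [secA] <;> ring

theorem secB_hat (k : Fin 8) (e' β : ℝ) (m : ℕ) :
    secB k (fun t => hatZ e' t β m) = secB k (fun t => theWorld.Z t β m) * sc β e' ^ (2 * m) := by
  simp only [hatZ_eq]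
  fin_cases k <;> simp [secB] <;> ring

/-- smallness of the rest of the trivial sector -/
def HS (e' β q : ℝ) : Prop :=
  ∃ m : ℕ, 1 ≤ m ∧ secA 0 (fun t => hatZ e' t β m) - hatV e' 0 β ^ (2 * m) ≤ q ^ (2 * m)

/-- smallness of the other sectors too -/
def HQ (e' β q : ℝ) : Prop :=
  (∃ m : ℕ, 1 ≤ m ∧ secA 0 (fun t => hatZ e' t β m) - hatV e' 0 β ^ (2 * m) ≤ q ^ (2 * m)) ∧
  (∃ m : ℕ, 1 ≤ m ∧ secA 1 (fun t => hatZ e' t β m) ≤ q ^ (2 * m)) ∧
  (∃ m : ℕ, 1 ≤ m ∧ secA 2 (fun t => hatZ e' t β m) ≤ q ^ (2 * m))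

section

variable {e' β q : ℝ}

theorem le_div_sc {m : ℕ} {x : ℝ} (h : x * sc β e' ^ (2 * m) ≤ q ^ (2 * m)) :
    x ≤ (q / sc β e') ^ (2 * m) := by
  rw [div_pow, le_div_iff₀ (pow_pos (sc_pos _ _) _)]
  exact h

theorem HS.sHyp (h : HS e' β q) : SHyp β (q / sc β e') := by
  obtain ⟨m, hm, h⟩ := h
  refine ⟨m, hm, le_div_sc ?_⟩
  rw [secA_hat, hatV, mul_pow] at h
  rw [sub_mul]
  exact h

theorem HQ.qHyp (h : HQ e' β q) : QHyp β (q / sc β e') := by
  obtain ⟨h0, ⟨m1, hm1, h1⟩, ⟨m2, hm2, h2⟩⟩ := h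
  refine ⟨HS.sHyp h0, ⟨m1, hm1, le_div_sc ?_⟩, ⟨m2, hm2, le_div_sc ?_⟩⟩
  · rw [secA_hat] at h1
    exact h1
  · rw [secA_hat] at h2
    exact h2

end

/-! ### chains -/

theorem aStrip_hat (Gt : (d : ℕ) → Matrix (Fin d) (Fin d) ℂ) (e' β : ℝ) (M : ℕ) :
    aStrip Gt e' β M = aStrip Gt theE β M * sc β e' ^ M := exp_sc β e' M _

theorem aMixed_hat (h e' β : ℝ) (M : ℕ) :
    aMixed h e' β M = aMixed h theE β M * sc β e' ^ (M + 1) := exp_sc β e' (M + 1) _

theorem aOpen_hat (h0 h1 e' β : ℝ) (N : ℕ) :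
    aOpen h0 h1 e' β N = aOpen h0 h1 theE β N * sc β e' ^ (N + 2) := exp_sc β e' (N + 2) _

theorem bOpen_hat (h e' β : ℝ) (N : ℕ) :
    bOpen h e' β N = bOpen h theE β N * sc β e' ^ (N + 2) := by
  unfold bOpen
  rw [aOpen_hat, aOpen_hat h (-h) e']
  ring

theorem cOpen_hat (h e' β : ℝ) (N : ℕ) :
    cOpen h e' β N = cOpen h theE β N * sc β e' ^ (N + 2) := by
  unfold cOpen
  rw [aOpen_hat h (-h) e', aOpen_hat h h e']
  ring

/-- scaling of the moments -/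
theorem mom_scale (a a' : ℕ → ℝ) (s : ℝ) (r : ℕ) (ha : ∀ M, a' M = a M * s ^ (M + r)) (f : ℝ[X]) :
    mom a' f = s ^ r * mom a (f.comp (C s * X)) := by
  induction f using Polynomial.induction_on' with
  | add p q hp hq => rw [map_add, Polynomial.add_comp, map_add, hp, hq]; ring
  | monomial k c =>
    have e : (Polynomial.monomial k c).comp (C s * X) = Polynomial.monomial k (c * s ^ k) := by
      rw [Polynomial.monomial_comp, mul_pow, ← Polynomial.C_pow, ← mul_assoc, ← Polynomial.C_mul,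
        Polynomial.C_mul_X_pow_eq_monomial]
    rw [e, mom_monomial, mom_monomial, ha]
    ring

theorem comp_nonneg {f : ℝ[X]} {q s : ℝ} (hs : 0 < s) (hf : ∀ x : ℝ, |x| ≤ q → 0 ≤ f.eval x) :
    ∀ x : ℝ, |x| ≤ q / s → 0 ≤ (f.comp (C s * X)).eval x := by
  intro x hx
  rw [Polynomial.eval_comp]
  apply hf
  rw [Polynomial.eval_mul, Polynomial.eval_C, Polynomial.eval_X, abs_mul, abs_of_pos hs]
  rw [le_div_iff₀ hs] at hx
  linarith

theorem comp_eval_hat (f : ℝ[X]) (e' β : ℝ) :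
    (f.comp (C (sc β e') * X)).eval (theWorld.V 0 β) = f.eval (hatV e' 0 β) := by
  rw [Polynomial.eval_comp, Polynomial.eval_mul, Polynomial.eval_C, Polynomial.eval_X, mul_comm,
    hatV]

/-! ### joint facts -/

/-- the facts of OUTPUT 2 at inverse temperature `β`, end field `hF = 3/5`, normalised with `e'` -/
structure HatJoint (e' β α ω : ℝ) : Prop where
  α_nonneg : 0 ≤ α
  ω_nonneg : 0 ≤ ω
  strip : ∀ q, 0 < q → (HS e' β q ∨ hatV e' 0 β ≤ q) → ∀ f : Polynomial ℝ,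
    (∀ x : ℝ, |x| ≤ q → 0 ≤ f.eval x) →
    α ^ 2 * f.eval (hatV e' 0 β) ≤ mom (aStrip G1 e' β) f
  open_ : ∀ q, 0 < q → (HQ e' β q ∨ hatV e' 0 β ≤ q) → ∀ f : Polynomial ℝ,
    (∀ x : ℝ, |x| ≤ q → 0 ≤ f.eval x) →
    ω ^ 2 * f.eval (hatV e' 0 β) ≤ mom (bOpen hF e' β) f
  joint : ∀ q, 0 < q → (HQ e' β q ∨ hatV e' 0 β ≤ q) →
    (∃ q₀, 0 < q₀ ∧ q₀ < hatV e' 0 β ∧ HQ e' β q₀) → ∀ p₁ p₂ f : Polynomial ℝ,
    (∀ x : ℝ, |x| ≤ q → 0 ≤ f.eval x) →
    (α * p₁.eval (hatV e' 0 β) + ω * p₂.eval (hatV e' 0 β)) ^ 2 *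
        f.eval (hatV e' 0 β) ≤
      mom (aStrip G1 e' β) (p₁ * p₁ * f) + 2 * mom (aMixed hF e' β) (p₁ * p₂ * f) +
        mom (bOpen hF e' β) (p₂ * p₂ * f)
  joint0 : ∀ p₁ p₂ f : Polynomial ℝ, (∀ x : ℝ, |x| ≤ hatV e' 0 β → 0 ≤ f.eval x) →
    0 ≤ mom (aStrip G1 e' β) (p₁ * p₁ * f) + 2 * mom (aMixed hF e' β) (p₁ * p₂ * f) +
        mom (bOpen hF e' β) (p₂ * p₂ * f)
  odd : ∀ q, 0 < q → (HQ e' β q ∨ hatV e' 0 β ≤ q) → ∀ f : Polynomial ℝ,
    (∀ x : ℝ, |x| ≤ q → 0 ≤ f.eval x) → 0 ≤ mom (cOpen hF e' β) f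

section

variable {e' β : ℝ}

theorem cond_strip {q : ℝ} (h : HS e' β q ∨ hatV e' 0 β ≤ q) :
    SHyp β (q / sc β e') ∨ theWorld.V 0 β ≤ q / sc β e' := by
  rcases h with h | h
  · exact Or.inl h.sHyp
  · right
    rw [le_div_iff₀ (sc_pos _ _)]
    exact h

theorem cond_open {q : ℝ} (h : HQ e' β q ∨ hatV e' 0 β ≤ q) :
    QHyp β (q / sc β e') ∨ theWorld.V 0 β ≤ q / sc β e' := by
  rcases h with h | h
  · exact Or.inl h.qHyp
  · right
    rw [le_div_iff₀ (sc_pos _ _)]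
    exact h

theorem Joint.hat {α ω : ℝ} (J : Joint β α ω) (e' : ℝ) : HatJoint e' β α (ω * sc β e') := by
  have hs := sc_pos β e'
  have m1 : ∀ f, mom (aStrip G1 e' β) f = mom (aStrip G1 theE β) (f.comp (C (sc β e') * X)) := by
    intro f
    rw [mom_scale (aStrip G1 theE β) _ (sc β e') 0 (fun M => by rw [aStrip_hat, add_zero]) f,
      pow_zero, one_mul]
  have m2 : ∀ f, mom (aMixed hF e' β) f =
      sc β e' * mom (aMixed hF theE β) (f.comp (C (sc β e') * X)) := by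
    intro f
    rw [mom_scale (aMixed hF theE β) _ (sc β e') 1 (fun M => by rw [aMixed_hat]) f, pow_one]
  have m3 : ∀ f, mom (bOpen hF e' β) f =
      sc β e' ^ 2 * mom (bOpen hF theE β) (f.comp (C (sc β e') * X)) := by
    intro f
    rw [mom_scale (bOpen hF theE β) _ (sc β e') 2 (fun M => by rw [bOpen_hat]) f]
  have m4 : ∀ f, mom (cOpen hF e' β) f =
      sc β e' ^ 2 * mom (cOpen hF theE β) (f.comp (C (sc β e') * X)) := by
    intro f
    rw [mom_scale (cOpen hF theE β) _ (sc β e') 2 (fun M => by rw [cOpen_hat]) f]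
  have key : ∀ p₁ p₂ f : ℝ[X], mom (aStrip G1 e' β) (p₁ * p₁ * f) +
      2 * mom (aMixed hF e' β) (p₁ * p₂ * f) + mom (bOpen hF e' β) (p₂ * p₂ * f) =
      mom (aStrip G1 theE β) (p₁.comp (C (sc β e') * X) * p₁.comp (C (sc β e') * X) *
        f.comp (C (sc β e') * X)) +
      2 * mom (aMixed hF theE β) (p₁.comp (C (sc β e') * X) *
        (sc β e' • p₂.comp (C (sc β e') * X)) * f.comp (C (sc β e') * X)) +
      mom (bOpen hF theE β) ((sc β e' • p₂.comp (C (sc β e') * X)) *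
        (sc β e' • p₂.comp (C (sc β e') * X)) * f.comp (C (sc β e') * X)) := by
    intro p₁ p₂ f
    rw [m1, m2, m3, Polynomial.mul_comp, Polynomial.mul_comp, Polynomial.mul_comp,
      Polynomial.mul_comp, Polynomial.mul_comp, Polynomial.mul_comp]
    have e1 : ∀ a b c : ℝ[X], a * (sc β e' • b) * c = sc β e' • (a * b * c) := by
      intro a b c
      rw [mul_smul_comm, smul_mul_assoc]
    have e2 : ∀ b c : ℝ[X], (sc β e' • b) * (sc β e' • b) * c = sc β e' ^ 2 • (b * b * c) := by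
      intro b c
      rw [smul_mul_smul_comm, smul_mul_assoc, pow_two]
    rw [e1, e2, map_smul, map_smul, smul_eq_mul, smul_eq_mul]
  refine ⟨J.α_nonneg, mul_nonneg J.ω_nonneg hs.le, ?_, ?_, ?_, ?_, ?_⟩
  · intro q hq hQ f hf
    have h := J.strip (q / sc β e') (div_pos hq hs) (cond_strip hQ) (f.comp (C (sc β e') * X))
      (comp_nonneg hs hf)
    rwa [comp_eval_hat, ← m1] at h
  · intro q hq hQ f hf
    have h := J.open_ (q / sc β e') (div_pos hq hs) (cond_open hQ) (f.comp (C (sc β e') * X))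
      (comp_nonneg hs hf)
    rw [comp_eval_hat] at h
    rw [m3]
    have h2 := mul_le_mul_of_nonneg_left h (sq_nonneg (sc β e'))
    linarith [h2, show (ω * sc β e') ^ 2 * f.eval (hatV e' 0 β) =
      sc β e' ^ 2 * (ω ^ 2 * f.eval (hatV e' 0 β)) by ring]
  · intro q hq hQ hex p₁ p₂ f hf
    obtain ⟨q₀, hq₀, hqV, hQ₀⟩ := hex
    have h := J.joint (q / sc β e') (div_pos hq hs) (cond_open hQ)
      ⟨q₀ / sc β e', div_pos hq₀ hs, by rw [div_lt_iff₀ hs]; exact hqV, hQ₀.qHyp⟩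
      (p₁.comp (C (sc β e') * X)) (sc β e' • p₂.comp (C (sc β e') * X))
      (f.comp (C (sc β e') * X)) (comp_nonneg hs hf)
    rw [← key, Polynomial.eval_smul, comp_eval_hat, comp_eval_hat, comp_eval_hat, smul_eq_mul] at h
    have e : ω * sc β e' * p₂.eval (hatV e' 0 β) = ω * (sc β e' * p₂.eval (hatV e' 0 β)) := by ring
    rw [e]
    exact h
  · intro p₁ p₂ f hf
    have h := J.joint0 (p₁.comp (C (sc β e') * X)) (sc β e' • p₂.comp (C (sc β e') * X))
      (f.comp (C (sc β e') * X)) (fun x hx => by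
        refine comp_nonneg hs hf x ?_
        rw [le_div_iff₀ hs]
        exact mul_le_mul_of_nonneg_right hx hs.le)
    rw [← key] at h
    exact h
  · intro q hq hQ f hf
    have h := J.odd (q / sc β e') (div_pos hq hs) (cond_open hQ) (f.comp (C (sc β e') * X))
      (comp_nonneg hs hf)
    rw [m4]
    exact mul_nonneg (sq_nonneg _) h

/-- `ω` normalised with `e'` -/
noncomputable def hatOmega (e' β : ℝ) : ℝ := theOmega β * sc β e'

theorem theHatJoint (e' : ℝ) (hβ : 0 < β) : HatJoint e' β (theAlpha β) (hatOmega e' β) :=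
  (theJoint hβ).hat e'

/-- the constants of normalisation drop out of the doubling ratio -/
theorem om2_ratio {e' c : ℝ} (h : hatOmega e' β ^ 4 ≤ c * hatOmega e' (2 * β) ^ 2) :
    theEdge.om2 β ^ 2 ≤ c * theEdge.om2 (2 * β) := by
  rw [theEdge_om2, theEdge_om2]
  unfold hatOmega at h
  have e1 : sc β e' ^ 4 = sc (2 * β) e' ^ 2 := by
    unfold sc
    rw [← Real.exp_nat_mul, ← Real.exp_nat_mul]
    congr 1
    push_cast
    ring
  rw [mul_pow, mul_pow, e1, ← mul_assoc] at h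
  have h2 := le_of_mul_le_mul_right h (pow_pos (sc_pos (2 * β) e') 2)
  calc (theOmega β ^ 2) ^ 2 = theOmega β ^ 4 := by ring
    _ ≤ _ := h2

/-- comparison of the open chain with the overlap -/
theorem ao_om2 {e' c : ℝ} {M : ℕ} (h : aMix hF e' β M ≤ c * hatOmega e' β ^ 2 * sc β e' ^ M) :
    theEdge.ao β (M + 2) ≤ c * theEdge.om2 β := by
  rw [theEdge_om2, theEdge_ao, Nat.add_sub_cancel]
  have e1 : aMix hF e' β M = aMix hF theE β M * sc β e' ^ (M + 2) := by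
    unfold aMix
    split_ifs <;> rw [aOpen_hat]
  rw [e1] at h
  unfold hatOmega at h
  have h2 : aMix hF theE β M * sc β e' ^ (M + 2) ≤ (c * theOmega β ^ 2) * sc β e' ^ (M + 2) := by
    refine h.trans (le_of_eq ?_)
    rw [mul_pow, pow_add]
    ring
  exact le_of_mul_le_mul_right h2 (pow_pos (sc_pos β e') _)

end

/-! ### polynomials given by coefficients -/

theorem mom_polN (a : ℕ → ℝ) (n : ℕ) (p : ℕ → ℝ) : mom a (polN n p) = ∑ i ∈ range n, p i * a i := by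
  unfold polN
  rw [map_sum]
  exact sum_congr rfl fun i _ => mom_monomial _ _ _

theorem mom_of_eval (a : ℕ → ℝ) (f : ℝ[X]) (n : ℕ) (p : ℕ → ℝ)
    (h : ∀ x : ℝ, f.eval x = ∑ i ∈ range n, p i * x ^ i) : mom a f = ∑ i ∈ range n, p i * a i := by
  rw [← mom_polN]
  congr 1
  apply Polynomial.funext
  intro x
  rw [h, polN_eval]

/-! ### polynomial bounds of the tops -/

section

variable {e' β : ℝ} (hβ : 0 < β)
include hβ

theorem hatV_nonneg (k : Fin 2) : 0 ≤ hatV e' k β := by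
  refine mul_nonneg ?_ (sc_pos _ _).le
  fin_cases k
  · exact (theWorld.hAtop0 β hβ).t_nonneg
  · exact (theWorld.hAtop1 β hβ).t_nonneg

theorem one_le_hatV (he : theE ≤ e') : 1 ≤ hatV e' 0 β := by
  have h1 := theWorld.one_le_V β hβ
  have h2 := one_le_sc hβ.le he
  unfold hatV
  nlinarith

theorem V_le_hatV (he : theE ≤ e') (k : Fin 2) : theWorld.V k β ≤ hatV e' k β := by
  have h2 := one_le_sc hβ.le he
  have h1 : 0 ≤ theWorld.V k β := by
    fin_cases k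
    · exact (theWorld.hAtop0 β hβ).t_nonneg
    · exact (theWorld.hAtop1 β hβ).t_nonneg
  unfold hatV
  nlinarith

theorem scale_sum (Gt : (d : ℕ) → Matrix (Fin d) (Fin d) ℂ) (n : ℕ) (p : ℕ → ℝ) :
    ∑ i ∈ range n, (p i * sc β e' ^ i) * aStrip Gt theE β i =
      ∑ i ∈ range n, p i * aStrip Gt e' β i :=
  sum_congr rfl fun i _ => by rw [aStrip_hat Gt e']; ring

theorem scale_poly (n : ℕ) (p : ℕ → ℝ) (x : ℝ) :
    ∑ i ∈ range n, (p i * sc β e' ^ i) * x ^ i = ∑ i ∈ range n, p i * (x * sc β e') ^ i :=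
  sum_congr rfl fun i _ => by rw [mul_pow]; ring

theorem hat_rest {l : ℝ} {k : Fin 8} {j : Fin 2}
    (hm : ∃ m : ℕ, 1 ≤ m ∧
        secA k (fun t => hatZ e' t β m) - hatV e' j β ^ (2 * m) < l ^ (2 * m)) :
    ∃ m : ℕ, 1 ≤ m ∧ secA k (fun t => theWorld.Z t β m) - theWorld.V j β ^ (2 * m) <
      (l / sc β e') ^ (2 * m) := by
  obtain ⟨m, hm, h⟩ := hm
  refine ⟨m, hm, ?_⟩
  rw [div_pow, lt_div_iff₀ (pow_pos (sc_pos _ _) _), sub_mul, ← mul_pow, ← secA_hat]
  exact h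

/-- upper bound of `hatV e' 0 β` -/
theorem hat_strip_upper {l c : ℝ} (hl : 0 < l)
    (hm : ∃ m : ℕ, 1 ≤ m ∧
        secA 0 (fun t => hatZ e' t β m) - hatV e' 0 β ^ (2 * m) < l ^ (2 * m))
    (n : ℕ) (p : ℕ → ℝ) (hP1 : ∀ x : ℝ, |x| ≤ l → 0 ≤ ∑ i ∈ range n, p i * x ^ i)
    (hP2 : ∀ x : ℝ, c ≤ |x| → 0 ≤ ∑ i ∈ range n, p i * x ^ i)
    (hneg : ∑ i ∈ range n, p i * aStrip G1 e' β i < 0) : hatV e' 0 β ≤ c := by
  have hs := sc_pos β e'
  have h := strip_upper hβ (l := l / sc β e') (c := c / sc β e') (div_pos hl hs) (hat_rest hβ hm) n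
    (fun i => p i * sc β e' ^ i)
    (fun x hx => by
      rw [scale_poly hβ]
      refine hP1 _ ?_
      rw [abs_mul, abs_of_pos hs]
      rwa [le_div_iff₀ hs] at hx)
    (fun x hx => by
      rw [scale_poly hβ]
      refine hP2 _ ?_
      rw [abs_mul, abs_of_pos hs]
      rwa [div_le_iff₀ hs] at hx)
    (by rw [scale_sum hβ]; exact hneg)
  rw [le_div_iff₀ hs] at h
  exact h

/-- lower bound of `hatV e' 0 β` -/
theorem hat_strip_lower {c : ℝ} (hc : 0 < c) (n : ℕ) (p : ℕ → ℝ)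
    (hP : ∀ x : ℝ, |x| ≤ c → 0 ≤ ∑ i ∈ range n, p i * x ^ i)
    (hneg : ∑ i ∈ range n, p i * aStrip G1 e' β i < 0) : c ≤ hatV e' 0 β := by
  have hs := sc_pos β e'
  have h := strip_lower hβ (c := c / sc β e') (div_pos hc hs) n (fun i => p i * sc β e' ^ i)
    (fun x hx => by
      rw [scale_poly hβ]
      refine hP _ ?_
      rw [abs_mul, abs_of_pos hs]
      rwa [le_div_iff₀ hs] at hx)
    (by rw [scale_sum hβ]; exact hneg)
  rw [div_le_iff₀ hs] at h
  exact h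

/-- upper bound of `hatV e' 1 β` -/
theorem hat_strip_upper_z {l c : ℝ} (hl : 0 < l)
    (hm : ∃ m : ℕ, 1 ≤ m ∧
        secA 4 (fun t => hatZ e' t β m) - hatV e' 1 β ^ (2 * m) < l ^ (2 * m))
    (n : ℕ) (p : ℕ → ℝ) (hP1 : ∀ x : ℝ, |x| ≤ l → 0 ≤ ∑ i ∈ range n, p i * x ^ i)
    (hP2 : ∀ x : ℝ, c ≤ |x| → 0 ≤ ∑ i ∈ range n, p i * x ^ i)
    (hneg : ∑ i ∈ range n, p i * aStrip Gz e' β i < 0) : hatV e' 1 β ≤ c := by
  have hs := sc_pos β e'
  have h := strip_upper_z hβ (l := l / sc β e') (c := c / sc β e') (div_pos hl hs)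
    (hat_rest hβ hm) n (fun i => p i * sc β e' ^ i)
    (fun x hx => by
      rw [scale_poly hβ]
      refine hP1 _ ?_
      rw [abs_mul, abs_of_pos hs]
      rwa [le_div_iff₀ hs] at hx)
    (fun x hx => by
      rw [scale_poly hβ]
      refine hP2 _ ?_
      rw [abs_mul, abs_of_pos hs]
      rwa [div_le_iff₀ hs] at hx)
    (by rw [scale_sum hβ]; exact hneg)
  rw [le_div_iff₀ hs] at h
  exact h

/-- lower bound of `hatV e' 1 β` -/
theorem hat_strip_lower_z {c : ℝ} (hc : 0 < c) (n : ℕ) (p : ℕ → ℝ)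
    (hP : ∀ x : ℝ, |x| ≤ c → 0 ≤ ∑ i ∈ range n, p i * x ^ i)
    (hneg : ∑ i ∈ range n, p i * aStrip Gz e' β i < 0) : c ≤ hatV e' 1 β := by
  have hs := sc_pos β e'
  have h := strip_lower_z hβ (c := c / sc β e') (div_pos hc hs) n (fun i => p i * sc β e' ^ i)
    (fun x hx => by
      rw [scale_poly hβ]
      refine hP _ ?_
      rw [abs_mul, abs_of_pos hs]
      rwa [le_div_iff₀ hs] at hx)
    (by rw [scale_sum hβ]; exact hneg)
  rw [div_le_iff₀ hs] at h
  exact h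

/-- consecutive even strips -/
theorem hat_strip_ratio {M : ℕ} (hM : Even M) :
    aStrip G1 e' β (M + 2) ≤ hatV e' 0 β ^ 2 * aStrip G1 e' β M := by
  have h := ((strip_out hβ).2 M hM).2
  rw [aStrip_hat, aStrip_hat G1 e' β M]
  have h2 := mul_le_mul_of_nonneg_right h (pow_pos (sc_pos β e') (M + 2)).le
  refine h2.trans (le_of_eq ?_)
  unfold hatV
  ring

theorem hat_strip_ratio_z {M : ℕ} (hM : Even M) :
    aStrip Gz e' β (M + 2) ≤ hatV e' 1 β ^ 2 * aStrip Gz e' β M := by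
  have h := ((strip_out_z hβ).2 M hM).2
  rw [aStrip_hat, aStrip_hat Gz e' β M]
  have h2 := mul_le_mul_of_nonneg_right h (pow_pos (sc_pos β e') (M + 2)).le
  refine h2.trans (le_of_eq ?_)
  unfold hatV
  ring

end

end Hald
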