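import Crest.Agent.Hald.ChainEnergy
import Crest.Agent.Hald.HatWorld

/-!
# Row 347: the chains in the time direction

`aStrip_topE`, `aMixed_topE`, `aOpen_topE`: power sums in `β` with the explicit top
`exp (-E₀ + n e')`;  consequences `*_ge`, `*_le` (ratio rule), `*_logc` (log-convexity).
-/

set_option autoImplicit false
set_option linter.unusedSectionVars false

namespace Hald

open Matrix Finset Filter Topology

/-- chain normalised with `e'`, `k` factors -/
noncomputable def aChain (K : ℕ) (d : Fin (K + 1) → ℕ) (h0 h1 : ℝ) (k : ℕ) (e' β : ℝ) : ℝ :=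
  (Zch G1 K d h0 h1 β).re * Real.exp (β * k * e')

theorem aStrip_chain (e' β : ℝ) (M : ℕ) :
    aStrip G1 e' β M = aChain (M + 1) (chD 2 2 M) 0 0 M e' β := rfl

theorem aMixed_chain (h e' β : ℝ) (M : ℕ) :
    aMixed h e' β M = aChain (M + 1) (chD 2 3 M) 0 h (M + 1) e' β := rfl

theorem aOpen_chain (h0 h1 e' β : ℝ) (N : ℕ) :
    aOpen h0 h1 e' β N = aChain (N + 1) (fun _ => 3) h0 h1 (N + 2) e' β := rfl

section

variable {K : ℕ} {d : Fin (K + 1) → ℕ} (hd : ∀ i, 0 < d i) (h0 h1 : ℝ) (k : ℕ) (e' : ℝ)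
include hd

theorem aChain_top : PSTop {β : ℝ | 0 < β} (fun β => β) 1 (fun β => aChain K d h0 h1 k e' β)
    (Real.exp (-Ech K d h0 h1 + k * e')) := by
  have : Nonempty (∀ i, Fin (d i)) := ⟨fun i => ⟨0, hd i⟩⟩
  have h := trace_exp_top (Hch_isHermitian K d h0 h1) (k * e')
  have e : (fun β => aChain K d h0 h1 k e' β) = fun β =>
      (NormedSpace.exp ((-β) • Hch K d h0 h1)).trace.re * Real.exp (β * (k * e')) := by
    funext β
    unfold aChain
    rw [Zch_G1, mul_assoc β]
  rw [e]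
  exact h

theorem aChain_ge {β : ℝ} (hβ : 0 < β) :
    Real.exp (β * (-Ech K d h0 h1 + k * e')) ≤ aChain K d h0 h1 k e' β := by
  have h := (aChain_top hd h0 h1 k e').rem.nonneg β hβ
  rw [← Real.exp_mul] at h
  have e : (-Ech K d h0 h1 + k * e') * β = β * (-Ech K d h0 h1 + k * e') := mul_comm _ _
  rw [e] at h
  linarith

theorem aChain_le {β β' : ℝ} (hβ : 0 < β) (h : β ≤ β') : aChain K d h0 h1 k e' β' ≤
    Real.exp ((β' - β) * (-Ech K d h0 h1 + k * e')) * aChain K d h0 h1 k e' β := by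
  have h2 := (aChain_top hd h0 h1 k e').ratio β hβ β' (hβ.trans_le h) h
  rw [← Real.exp_mul] at h2
  have e : (-Ech K d h0 h1 + k * e') * (β' - β) = (β' - β) * (-Ech K d h0 h1 + k * e') :=
    mul_comm _ _
  rw [e] at h2
  exact h2

theorem aChain_pos {β : ℝ} (hβ : 0 < β) : 0 < aChain K d h0 h1 k e' β :=
  lt_of_lt_of_le (Real.exp_pos _) (aChain_ge hd h0 h1 k e' hβ)

/-- log-convexity with natural exponents -/
theorem aChain_logc {a b c : ℝ} (ha : 0 < a) (hab : a ≤ b) (hbc : b ≤ c) {p q : ℕ}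
    (hpq : (q : ℝ) * (b - a) = p * (c - b)) :
    aChain K d h0 h1 k e' b ^ (p + q) ≤ aChain K d h0 h1 k e' a ^ q * aChain K d h0 h1 k e' c ^ p := by
  -- weights: b = (q a + p c)/(p+q)
  have hb : 0 < b := ha.trans_le hab
  have hc : 0 < c := hb.trans_le hbc
  have : Nonempty (∀ i, Fin (d i)) := ⟨fun i => ⟨0, hd i⟩⟩
  rcases Nat.eq_zero_or_pos (p + q) with h0' | hpos
  · have hp : p = 0 := by omega
    have hq : q = 0 := by omega
    subst hp; subst hq
    simp
  set N : ℝ := ((p + q : ℕ) : ℝ) with hN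
  have hN0 : 0 < N := by rw [hN]; exact_mod_cast hpos
  -- Hölder through the spectral sum
  have hsum : ∀ β : ℝ, aChain K d h0 h1 k e' β =
      ∑ i, (Real.exp (-(Hch_isHermitian K d h0 h1).eigenvalues i + k * e')) ^ β := by
    intro β
    unfold aChain
    rw [Zch_G1, trace_exp_re (Hch_isHermitian K d h0 h1), Finset.sum_mul]
    refine Finset.sum_congr rfl fun i _ => ?_
    rw [← Real.exp_add, ← Real.exp_mul]
    congr 1
    ring
  set l : (∀ i, Fin (d i)) → ℝ := fun i =>
    Real.exp (-(Hch_isHermitian K d h0 h1).eigenvalues i + k * e') with hl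
  have hl0 : ∀ i, 0 < l i := fun i => Real.exp_pos _
  have hX : 0 < aChain K d h0 h1 k e' a := aChain_pos hd h0 h1 k e' ha
  have hY : 0 < aChain K d h0 h1 k e' c := aChain_pos hd h0 h1 k e' hc
  have hbw : b = (q / N) * a + (p / N) * c := by
    have : (p : ℝ) + q = N := by rw [hN]; push_cast; ring
    field_simp
    nlinarith
  have hw : (q : ℝ) / N + p / N = 1 := by
    have : (p : ℝ) + q = N := by rw [hN]; push_cast; ring
    field_simp
    linarith
  have hH : aChain K d h0 h1 k e' b ≤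
      aChain K d h0 h1 k e' a ^ ((q : ℝ) / N) * aChain K d h0 h1 k e' c ^ ((p : ℝ) / N) := by
    -- termwise AM-GM after normalisation
    have hq0 : 0 ≤ (q : ℝ) / N := by positivity
    have hp0 : 0 ≤ (p : ℝ) / N := by positivity
    set X := aChain K d h0 h1 k e' a with hXd
    set Y := aChain K d h0 h1 k e' c with hYd
    have hterm : ∀ i, l i ^ b / (X ^ ((q : ℝ) / N) * Y ^ ((p : ℝ) / N)) ≤
        (q / N) * (l i ^ a / X) + (p / N) * (l i ^ c / Y) := by
      intro i
      have g := Real.geom_mean_le_arith_mean2_weighted hq0 hp0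
        (show 0 ≤ l i ^ a / X from div_nonneg (Real.rpow_nonneg (hl0 i).le _) hX.le)
        (show 0 ≤ l i ^ c / Y from div_nonneg (Real.rpow_nonneg (hl0 i).le _) hY.le) hw
      refine le_trans (le_of_eq ?_) g
      rw [Real.div_rpow (Real.rpow_nonneg (hl0 i).le _) hX.le,
        Real.div_rpow (Real.rpow_nonneg (hl0 i).le _) hY.le, ← Real.rpow_mul (hl0 i).le,
        ← Real.rpow_mul (hl0 i).le, div_mul_div_comm, ← Real.rpow_add (hl0 i)]
      congr 2
      rw [hbw]; ring
    have hs := Finset.sum_le_sum fun i (_ : i ∈ Finset.univ) => hterm i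
    rw [Finset.sum_add_distrib, ← Finset.mul_sum, ← Finset.mul_sum, ← Finset.sum_div,
      ← Finset.sum_div, ← Finset.sum_div] at hs
    have e1 : ∑ i, l i ^ a = X := (hsum a).symm
    have e2 : ∑ i, l i ^ c = Y := (hsum c).symm
    have e3 : ∑ i, l i ^ b = aChain K d h0 h1 k e' b := (hsum b).symm
    rw [e1, e2, e3, div_self hX.ne', div_self hY.ne', mul_one, mul_one, hw,
      div_le_one (by positivity)] at hs
    exact hs
  have h2 := pow_le_pow_left₀ (aChain_pos hd h0 h1 k e' hb).le hH (p + q)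
  refine h2.trans (le_of_eq ?_)
  rw [mul_pow, ← Real.rpow_natCast (aChain K d h0 h1 k e' a ^ ((q : ℝ) / N)),
    ← Real.rpow_natCast (aChain K d h0 h1 k e' c ^ ((p : ℝ) / N)), ← Real.rpow_mul hX.le,
    ← Real.rpow_mul hY.le, ← hN, div_mul_cancel₀ _ hN0.ne', div_mul_cancel₀ _ hN0.ne',
    Real.rpow_natCast, Real.rpow_natCast]

end

end Hald
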