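import Crest.Agent.Hald.ChainLimit

/-!
# Row 347, M5 (5c): reality and rotation covariance of the boundary vectors

* `bdryVec_conj`, `bdryVec_star`, `rho_bdry`: general lemmas;
* `wv_star_two`, `wvz_star_two`: `wv G1 2 0`, `wv Gz 2 0` are real;
* `wv_star_three`: `conj (wv G1 3 h) = wv G1 3 (-h)`;
* `rho_wv_two`: `ρ(h)ᵀ (wv G1 2 0) = wv G1 2 0` for `h ∈ {gx, gy, gz, gc}`; `rho_wvz_*` for the twisted one;
* `rho_wv_three_gy`, `..._gz`: action on the end-field vectors.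
-/

set_option autoImplicit false
set_option linter.unusedSectionVars false

namespace Hald

open Matrix Finset Filter Topology Crest.MathPhysics.SpinChain

section General

variable {k : Type*} [Fintype k] [DecidableEq k]

theorem bdryVec_conj {W : Type*} [Fintype W] [DecidableEq W] (n : ℕ) {u u' : Matrix k k ℂ}
    (h1 : u' * u = 1) (h2 : u * u' = 1) (G : Matrix k k ℂ) (x : W → Matrix k k ℂ) :
    bdryVec n (u * G * u') (fun w => u * x w * u') = bdryVec n G x := by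
  funext ω
  unfold bdryVec
  rw [ofFn_prod_conj h1 h2]
  rw [show u * G * u' * (u * (List.ofFn fun t => x (ω t)).prod * u') =
    u * (G * (u' * u) * (List.ofFn fun t => x (ω t)).prod) * u' by simp only [Matrix.mul_assoc]]
  rw [h1, Matrix.mul_one, Matrix.trace_mul_comm, ← Matrix.mul_assoc, h1, Matrix.one_mul]

/-- entrywise complex conjugation -/
noncomputable def cj (A : Matrix k k ℂ) : Matrix k k ℂ := (starRingEnd ℂ).mapMatrix A

theorem cj_mul (A B : Matrix k k ℂ) : cj (A * B) = cj A * cj B := map_mul _ A B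
theorem cj_one : cj (1 : Matrix k k ℂ) = 1 := map_one _
theorem cj_smul (c : ℂ) (A : Matrix k k ℂ) : cj (c • A) = (starRingEnd ℂ) c • cj A := by
  ext i j; simp [cj]

theorem cj_list_prod (l : List (Matrix k k ℂ)) : cj l.prod = (l.map cj).prod := by
  induction l with
  | nil => simp [cj_one]
  | cons a l ih => rw [List.prod_cons, cj_mul, ih, List.map_cons, List.prod_cons]

theorem trace_cj (A : Matrix k k ℂ) : (cj A).trace = (starRingEnd ℂ) A.trace := by
  simp [cj, Matrix.trace]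

theorem continuous_cj : Continuous (cj : Matrix k k ℂ → Matrix k k ℂ) :=
  continuous_matrix fun i j => Complex.continuous_conj.comp (continuous_id.matrix_elem i j)

theorem cj_exp (A : Matrix k k ℂ) : cj (NormedSpace.exp A) = NormedSpace.exp (cj A) := by
  have := open scoped Norms.Operator in
    NormedSpace.map_exp ((starRingEnd ℂ).mapMatrix : Matrix k k ℂ →+* Matrix k k ℂ)
      (continuous_cj (k := k)) A
  exact this

theorem bdryVec_star {W : Type*} [Fintype W] [DecidableEq W] (n : ℕ) (G : Matrix k k ℂ)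
    (x : W → Matrix k k ℂ) (ω : Fin n → W) :
    (starRingEnd ℂ) (bdryVec n G x ω) = bdryVec n (cj G) (fun w => cj (x w)) ω := by
  unfold bdryVec
  rw [← trace_cj, cj_mul, cj_list_prod, List.map_ofFn]
  rfl

/-- action of `ρ(h)ᵀ` on a boundary vector -/
theorem rho_bdry (n : ℕ) (h : Matrix (Fin 3) (Fin 3) ℝ) (G : Matrix k k ℂ)
    (x : Fin 4 → Matrix k k ℂ) :
    (cplx (rho h n))ᵀ *ᵥ bdryVec n G x =
      bdryVec n G (fun a => ∑ b, ((rho4 h b a : ℝ) : ℂ) • x b) := by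
  funext ω
  unfold bdryVec
  have h2 : (List.ofFn fun t : Fin n => ∑ b, ((rho4 h b (ω t) : ℝ) : ℂ) • x b).prod =
      ∑ w : Fin n → Fin 4, (∏ t, ((rho4 h (w t) (ω t) : ℝ) : ℂ)) • (List.ofFn fun t => x (w t)).prod :=
    word_expand (fun (t : Fin n) b => ((rho4 h b (ω t) : ℝ) : ℂ)) (fun _ b => x b)
  rw [h2, Finset.mul_sum, Matrix.trace_sum]
  simp only [Matrix.mulVec, dotProduct, Matrix.transpose_apply]
  refine Finset.sum_congr rfl fun w _ => ?_
  rw [Matrix.mul_smul, Matrix.trace_smul, smul_eq_mul]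
  congr 1
  unfold cplx
  rw [Matrix.map_apply, rho_apply]
  push_cast
  rfl

end General

/-! ### letters -/

/-- `u` implements the rotation `h` on the spin operators of dimension `d` -/
structure Impl (h : Matrix (Fin 3) (Fin 3) ℝ) (d : ℕ) (u u' : Matrix (Fin d) (Fin d) ℂ) : Prop where
  inv1 : u' * u = 1
  inv2 : u * u' = 1
  conj : ∀ a, u * Sp d a * u' = ∑ b, ((h b a : ℝ) : ℂ) • Sp d b

theorem Impl.letters {h : Matrix (Fin 3) (Fin 3) ℝ} {d : ℕ} {u u' : Matrix (Fin d) (Fin d) ℂ}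
    (H : Impl h d u u') (τ : ℝ) (a : Fin 4) :
    ∑ b, ((rho4 h b a : ℝ) : ℂ) • Xc d τ b = u * Xc d τ a * u' := by
  rw [Fin.sum_univ_succ]
  refine Fin.cases ?_ (fun a' => ?_) a
  · have h0 : Xc d τ 0 = 1 := rfl
    simp [rho4, h0, H.inv2]
  · have hs : ∀ b : Fin 3, Xc d τ b.succ = ((Real.sqrt τ : ℝ) : ℂ) • ((-Complex.I) • Sp d b) :=
      fun b => rfl
    simp only [rho4, Matrix.of_apply, Fin.cases_zero, Fin.cases_succ, hs]
    rw [Matrix.mul_smul, Matrix.smul_mul, Matrix.mul_smul, Matrix.smul_mul, H.conj]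
    simp only [Complex.ofReal_zero, zero_smul, zero_add, Finset.smul_sum]
    refine Finset.sum_congr rfl fun b _ => ?_
    rw [smul_comm (((h b a' : ℝ) : ℂ)), smul_comm (((h b a' : ℝ) : ℂ))]

/-- covariance of the boundary vector with general twist and field factor -/
theorem Impl.bdry {h : Matrix (Fin 3) (Fin 3) ℝ} {d : ℕ} {u u' : Matrix (Fin d) (Fin d) ℂ}
    (H : Impl h d u u') (τ : ℝ) (n : ℕ) (G E : Matrix (Fin d) (Fin d) ℂ) :
    (cplx (rho h n))ᵀ *ᵥ bdryVec n G (fun w => Xc d τ w * E) =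
      bdryVec n (u' * G * u) (fun w => Xc d τ w * (u' * E * u)) := by
  rw [rho_bdry]
  have h1 : (fun a => ∑ b, ((rho4 h b a : ℝ) : ℂ) • (Xc d τ b * E)) =
      fun a => u * (Xc d τ a * (u' * E * u)) * u' := by
    funext a
    have h2 := H.letters τ a
    calc ∑ b, ((rho4 h b a : ℝ) : ℂ) • (Xc d τ b * E) =
        (∑ b, ((rho4 h b a : ℝ) : ℂ) • Xc d τ b) * E := by
          rw [Finset.sum_mul]
          exact Finset.sum_congr rfl fun b _ => (Matrix.smul_mul _ _ _).symm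
      _ = u * Xc d τ a * u' * E := by rw [h2]
      _ = u * Xc d τ a * u' * E * (u * u') := by rw [H.inv2, Matrix.mul_one]
      _ = _ := by simp only [Matrix.mul_assoc]
  rw [h1]
  have h3 : G = u * (u' * G * u) * u' := by
    calc G = (u * u') * G * (u * u') := by rw [H.inv2, Matrix.one_mul, Matrix.mul_one]
      _ = _ := by simp only [Matrix.mul_assoc]
  conv_lhs => rw [h3]
  exact bdryVec_conj n H.inv1 H.inv2 (u' * G * u) (fun a => Xc d τ a * (u' * E * u))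

/-- spin 1: `u = cartU h cartUᴴ` -/
theorem impl_three {h : Matrix (Fin 3) (Fin 3) ℝ} (hh : IsRot h) :
    Impl h 3 (cartU * cplx h * cartUᴴ) (cartU * cplx hᵀ * cartUᴴ) := by
  have key : ∀ A B : Matrix (Fin 3) (Fin 3) ℝ, (cartU * cplx A * cartUᴴ) * (cartU * cplx B * cartUᴴ) =
      cartU * cplx (A * B) * cartUᴴ := by
    intro A B
    rw [cplx_mul]
    calc cartU * cplx A * cartUᴴ * (cartU * cplx B * cartUᴴ) =
        cartU * cplx A * (cartUᴴ * cartU) * cplx B * cartUᴴ := by simp only [Matrix.mul_assoc]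
      _ = _ := by rw [conj_mul_cartU, Matrix.mul_one]; simp only [Matrix.mul_assoc]
  have hS : ∀ a, Sp 3 a = Complex.I • (cartU * cplx (Lr a) * cartUᴴ) := by
    intro a
    show spinOp a = _
    rw [spinOp_eq, Matrix.mul_smul, Matrix.smul_mul]
    rfl
  refine ⟨?_, ?_, ?_⟩
  · rw [key, hh.orth', cplx_one, Matrix.mul_one, cartU_mul_conj]
  · rw [key, hh.orth, cplx_one, Matrix.mul_one, cartU_mul_conj]
  · intro a
    rw [hS a, Matrix.mul_smul, Matrix.smul_mul, key, key, rot_conj_Lr hh, cplx_sum, Finset.mul_sum,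
      Finset.sum_mul, Finset.smul_sum]
    refine Finset.sum_congr rfl fun b _ => ?_
    rw [hS b, cplx_smul, Matrix.mul_smul, Matrix.smul_mul, smul_comm]

macro "mat2" : tactic => `(tactic| (ext i j; fin_cases i <;> fin_cases j <;>
  simp [Matrix.mul_apply, Fin.sum_univ_two]))

macro "imp2" : tactic => `(tactic| (ext i j <;> fin_cases i <;> fin_cases j <;>
    simp [sHalf, gx, gy, gz, gc, Fin.sum_univ_three, Matrix.mul_apply, Fin.sum_univ_two] <;>
    ring_nf <;> (try simp [Complex.I_sq]) <;> (try ring_nf)))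

/-- spin ½: rotation by π about x -/
theorem impl_two_gx : Impl gx 2 !![0, -Complex.I; -Complex.I, 0] !![0, Complex.I; Complex.I, 0] := by
  refine ⟨by mat2, by mat2, ?_⟩
  intro a
  show _ * sHalf a * _ = ∑ b, _ • sHalf b
  fin_cases a <;> imp2

theorem impl_two_gy : Impl gy 2 !![0, -1; 1, 0] !![0, 1; -1, 0] := by
  refine ⟨by mat2, by mat2, ?_⟩
  intro a
  show _ * sHalf a * _ = ∑ b, _ • sHalf b
  fin_cases a <;> imp2

theorem impl_two_gz : Impl gz 2 !![-Complex.I, 0; 0, Complex.I] !![Complex.I, 0; 0, -Complex.I] := by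
  refine ⟨by mat2, by mat2, ?_⟩
  intro a
  show _ * sHalf a * _ = ∑ b, _ • sHalf b
  fin_cases a <;> imp2

/-- spin ½: rotation by 2π/3 about (1,1,1) -/
theorem impl_two_gc : Impl gc 2
    !![(1 - Complex.I) / 2, (-1 - Complex.I) / 2; (1 - Complex.I) / 2, (1 + Complex.I) / 2]
    !![(1 + Complex.I) / 2, (1 + Complex.I) / 2; (-1 + Complex.I) / 2, (1 - Complex.I) / 2] := by
  refine ⟨?_, ?_, ?_⟩
  · ext i j
    fin_cases i <;> fin_cases j <;>
      simp [Matrix.mul_apply, Fin.sum_univ_two] <;> ring_nf <;> simp [Complex.I_sq] <;> ring_nf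
  · ext i j
    fin_cases i <;> fin_cases j <;>
      simp [Matrix.mul_apply, Fin.sum_univ_two] <;> ring_nf <;> simp [Complex.I_sq] <;> ring_nf
  · intro a
    show _ * sHalf a * _ = ∑ b, _ • sHalf b
    fin_cases a <;> imp2

/-! ### reality -/

/-- `ε` of spin ½ -/
def ep2 : Matrix (Fin 2) (Fin 2) ℂ := !![0, 1; -1, 0]
def ep2' : Matrix (Fin 2) (Fin 2) ℂ := !![0, -1; 1, 0]

theorem ep2_inv1 : ep2' * ep2 = 1 := by unfold ep2 ep2'; mat2
theorem ep2_inv2 : ep2 * ep2' = 1 := by unfold ep2 ep2'; mat2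

theorem cj_sHalf (a : Fin 3) : cj (sHalf a) = -(ep2 * sHalf a * ep2') := by
  have h2 : (starRingEnd ℂ) 2 = 2 := map_ofNat _ 2
  fin_cases a <;> ext i j <;> fin_cases i <;> fin_cases j <;>
    simp [sHalf, ep2, ep2', cj, h2] <;> ring_nf

theorem cj_Gz2 : cj (Gz 2) = ep2 * Gz 2 * ep2' := by
  show cj !![-Complex.I, 0; 0, Complex.I] = ep2 * !![-Complex.I, 0; 0, Complex.I] * ep2'
  ext i j
  fin_cases i <;> fin_cases j <;>
    simp [ep2, ep2', cj, Matrix.mul_apply, Fin.sum_univ_two]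

/-- conjugation of letters for a dimension with `cj S_a = -ε S_a ε'` -/
theorem cj_Xc {d : ℕ} {e e' : Matrix (Fin d) (Fin d) ℂ} (h2 : e * e' = 1)
    (hS : ∀ a, cj (Sp d a) = -(e * Sp d a * e')) (τ : ℝ) (w : Fin 4) :
    cj (Xc d τ w) = e * Xc d τ w * e' := by
  refine Fin.cases ?_ (fun a => ?_) w
  · have h0 : Xc d τ 0 = 1 := rfl
    rw [h0, cj_one, Matrix.mul_one, h2]
  · have hs : Xc d τ a.succ = ((Real.sqrt τ : ℝ) : ℂ) • ((-Complex.I) • Sp d a) := rfl
    rw [hs, cj_smul, cj_smul, hS, Complex.conj_ofReal, map_neg, Complex.conj_I, neg_neg,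
      Matrix.mul_smul, Matrix.smul_mul, Matrix.mul_smul, Matrix.smul_mul, smul_neg, neg_smul]

/-- field factor of a boundary vector -/
noncomputable def fE (d : ℕ) (h t : ℝ) : Matrix (Fin d) (Fin d) ℂ :=
  NormedSpace.exp (t • ((h : ℂ) • Sp d 2))

theorem wv_def (Gt : (d : ℕ) → Matrix (Fin d) (Fin d) ℂ) (d : ℕ) (h β : ℝ) (n : ℕ) :
    wv Gt d h β n = bdryVec n (Gt d) (fun w => Xc d (β / n) w * fE d h (β / n)) := rfl

theorem fE_zero (d : ℕ) (t : ℝ) : fE d 0 t = 1 := by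
  unfold fE; simp

theorem wv_star_two {Gt : (d : ℕ) → Matrix (Fin d) (Fin d) ℂ}
    (hG : cj (Gt 2) = ep2 * Gt 2 * ep2') (β : ℝ) (n : ℕ) (ω : Om n) :
    (starRingEnd ℂ) (wv Gt 2 0 β n ω) = wv Gt 2 0 β n ω := by
  rw [wv_def, bdryVec_star, hG]
  have h1 : (fun w : Fin 4 => cj (Xc 2 (β / n) w * fE 2 0 (β / n))) =
      fun w => ep2 * (Xc 2 (β / n) w * fE 2 0 (β / n)) * ep2' := by
    funext w
    rw [fE_zero, Matrix.mul_one]
    exact cj_Xc ep2_inv2 cj_sHalf _ w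
  rw [h1]
  exact congrFun (bdryVec_conj n ep2_inv1 ep2_inv2 (Gt 2) _) ω

theorem cj_G1_two : cj (G1 2) = ep2 * G1 2 * ep2' := by
  unfold G1; rw [cj_one, Matrix.mul_one, ep2_inv2]

/-- `ε` of spin 1 -/
noncomputable def ep3 : Matrix (Fin 3) (Fin 3) ℂ := cj cartU * cartUᴴ
noncomputable def ep3' : Matrix (Fin 3) (Fin 3) ℂ := cartU * cj cartUᴴ

theorem ep3_inv1 : ep3' * ep3 = 1 := by
  unfold ep3 ep3'
  rw [show cartU * cj cartUᴴ * (cj cartU * cartUᴴ) = cartU * (cj cartUᴴ * cj cartU) * cartUᴴ by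
    simp only [Matrix.mul_assoc]]
  rw [← cj_mul, conj_mul_cartU, cj_one, Matrix.mul_one, cartU_mul_conj]

theorem ep3_inv2 : ep3 * ep3' = 1 := by
  exact mul_eq_one_comm.1 ep3_inv1

theorem cj_cplx {κ : Type*} [Fintype κ] [DecidableEq κ] (A : Matrix κ κ ℝ) : cj (cplx A) = cplx A := by
  ext i j; simp [cj, cplx]

theorem Sp3_eq (a : Fin 3) : Sp 3 a = Complex.I • (cartU * cplx (Lr a) * cartUᴴ) := by
  show spinOp a = _
  rw [spinOp_eq, Matrix.mul_smul, Matrix.smul_mul]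
  rfl

theorem cj_Sp3 (a : Fin 3) : cj (Sp 3 a) = -(ep3 * Sp 3 a * ep3') := by
  rw [Sp3_eq, cj_smul, Complex.conj_I, cj_mul, cj_mul, cj_cplx, Matrix.mul_smul, Matrix.smul_mul,
    neg_smul]
  congr 2
  unfold ep3 ep3'
  rw [show cj cartU * cartUᴴ * (cartU * cplx (Lr a) * cartUᴴ) * (cartU * cj cartUᴴ) =
    cj cartU * (cartUᴴ * cartU) * cplx (Lr a) * (cartUᴴ * cartU) * cj cartUᴴ by
      simp only [Matrix.mul_assoc]]
  rw [conj_mul_cartU, Matrix.mul_one, Matrix.mul_one]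

theorem cj_spinZ : cj (Sp 3 2) = Sp 3 2 := by
  show cj spinZ = spinZ
  unfold spinZ
  ext i j
  by_cases h : i = j
  · subst h; simp [cj]
  · simp [cj, h]

/-- if `u' S_z u = -S_z` then `u' E_h u = E_{-h}` -/
theorem fE_flip {d : ℕ} {u u' : Matrix (Fin d) (Fin d) ℂ} (h1 : u' * u = 1)
    (hS : u' * Sp d 2 * u = -Sp d 2) (h t : ℝ) : u' * fE d h t * u = fE d (-h) t := by
  unfold fE
  rw [← exp_conj_of_mul_eq_one h1]
  congr 1
  rw [Matrix.mul_smul, Matrix.smul_mul, Matrix.mul_smul, Matrix.smul_mul, hS]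
  push_cast
  rw [smul_neg, neg_smul]

/-- if `u' S_z u = S_z` then `u' E_h u = E_h` -/
theorem fE_same {d : ℕ} {u u' : Matrix (Fin d) (Fin d) ℂ} (h1 : u' * u = 1)
    (hS : u' * Sp d 2 * u = Sp d 2) (h t : ℝ) : u' * fE d h t * u = fE d h t := by
  unfold fE
  rw [← exp_conj_of_mul_eq_one h1]
  congr 1
  rw [Matrix.mul_smul, Matrix.smul_mul, Matrix.mul_smul, Matrix.smul_mul, hS]

theorem cj_fE3 (h t : ℝ) : cj (fE 3 h t) = fE 3 h t := by
  unfold fE
  rw [cj_exp]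
  congr 1
  have : cj (t • ((h : ℂ) • Sp 3 2)) = t • ((h : ℂ) • cj (Sp 3 2)) := by
    ext i j
    simp [cj]
  rw [this, cj_spinZ]

/-- complex conjugation reverses the end field -/
theorem wv_star_three (h β : ℝ) (n : ℕ) (ω : Om n) :
    (starRingEnd ℂ) (wv G1 3 h β n ω) = wv G1 3 (-h) β n ω := by
  rw [wv_def, wv_def, bdryVec_star]
  have hflip : ep3' * fE 3 h (β / n) * ep3 = fE 3 (-h) (β / n) := by
    refine fE_flip ep3_inv1 ?_ h _
    have h1 := cj_Sp3 2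
    rw [cj_spinZ] at h1
    calc ep3' * Sp 3 2 * ep3 = ep3' * (-(ep3 * Sp 3 2 * ep3')) * ep3 := by rw [← h1]
      _ = -((ep3' * ep3) * Sp 3 2 * (ep3' * ep3)) := by
          rw [Matrix.mul_neg, Matrix.neg_mul]; simp only [Matrix.mul_assoc]
      _ = -Sp 3 2 := by rw [ep3_inv1, Matrix.one_mul, Matrix.mul_one]
  have h1 : (fun w : Fin 4 => cj (Xc 3 (β / n) w * fE 3 h (β / n))) =
      fun w => ep3 * (Xc 3 (β / n) w * fE 3 (-h) (β / n)) * ep3' := by
    funext w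
    rw [cj_mul, cj_fE3, cj_Xc ep3_inv2 cj_Sp3, ← hflip]
    calc ep3 * Xc 3 (β / n) w * ep3' * fE 3 h (β / n) =
        ep3 * Xc 3 (β / n) w * ep3' * fE 3 h (β / n) * (ep3 * ep3') := by
          rw [ep3_inv2, Matrix.mul_one]
      _ = _ := by simp only [Matrix.mul_assoc]
  have h2 : cj (G1 3) = ep3 * G1 3 * ep3' := by
    unfold G1; rw [cj_one, Matrix.mul_one, ep3_inv2]
  rw [h1, h2]
  exact congrFun (bdryVec_conj n ep3_inv1 ep3_inv2 (G1 3) _) ω

/-! ### rotation covariance -/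

theorem bdryVec_neg {k W : Type*} [Fintype k] [DecidableEq k] [Fintype W] [DecidableEq W] (n : ℕ)
    (G : Matrix k k ℂ) (x : W → Matrix k k ℂ) : bdryVec n (-G) x = -bdryVec n G x := by
  funext ω
  simp [bdryVec]

theorem rho_wv_two {h : Matrix (Fin 3) (Fin 3) ℝ} {u u' : Matrix (Fin 2) (Fin 2) ℂ}
    (H : Impl h 2 u u') (β : ℝ) (n : ℕ) :
    (cplx (rho h n))ᵀ *ᵥ wv G1 2 0 β n = wv G1 2 0 β n := by
  rw [wv_def, H.bdry]
  have h1 : u' * G1 2 * u = G1 2 := by unfold G1; rw [Matrix.mul_one, H.inv1]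
  have h2 : u' * fE 2 0 (β / n) * u = fE 2 0 (β / n) := by
    rw [fE_zero, Matrix.mul_one, H.inv1]
  rw [h1, h2]

theorem rho_wvz_gz (β : ℝ) (n : ℕ) :
    (cplx (rho gz n))ᵀ *ᵥ wv Gz 2 0 β n = wv Gz 2 0 β n := by
  rw [wv_def, impl_two_gz.bdry]
  have h1 : !![Complex.I, 0; 0, -Complex.I] * Gz 2 * !![-Complex.I, 0; 0, Complex.I] = Gz 2 := by
    show _ * (!![-Complex.I, 0; 0, Complex.I] : Matrix (Fin 2) (Fin 2) ℂ) * _ = _
    ext i j
    fin_cases i <;> fin_cases j <;> simp [Gz, Matrix.mul_apply, Fin.sum_univ_two]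
  rw [h1, fE_zero, Matrix.mul_one, impl_two_gz.inv1]

theorem rho_wvz_gx (β : ℝ) (n : ℕ) :
    (cplx (rho gx n))ᵀ *ᵥ wv Gz 2 0 β n = -wv Gz 2 0 β n := by
  rw [wv_def, impl_two_gx.bdry, ← bdryVec_neg]
  have h1 : !![0, Complex.I; Complex.I, 0] * Gz 2 * !![0, -Complex.I; -Complex.I, 0] = -Gz 2 := by
    ext i j
    fin_cases i <;> fin_cases j <;> simp [Gz, Matrix.mul_apply, Fin.sum_univ_two]
  rw [h1, fE_zero, Matrix.mul_one, impl_two_gx.inv1]

theorem rho_wvz_gy (β : ℝ) (n : ℕ) :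
    (cplx (rho gy n))ᵀ *ᵥ wv Gz 2 0 β n = -wv Gz 2 0 β n := by
  rw [wv_def, impl_two_gy.bdry, ← bdryVec_neg]
  have h1 : !![0, 1; -1, 0] * Gz 2 * !![0, -1; 1, 0] = -Gz 2 := by
    ext i j
    fin_cases i <;> fin_cases j <;> simp [Gz, Matrix.mul_apply, Fin.sum_univ_two]
  rw [h1, fE_zero, Matrix.mul_one, impl_two_gy.inv1]

theorem rot_Sz {h : Matrix (Fin 3) (Fin 3) ℝ} (hh : IsRot h) {c : ℝ}
    (hc : ∀ b, h 2 b = if b = 2 then c else 0) :
    (cartU * cplx hᵀ * cartUᴴ) * Sp 3 2 * (cartU * cplx h * cartUᴴ) = (c : ℂ) • Sp 3 2 := by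
  have hT : IsRot hᵀ := ⟨by rw [Matrix.transpose_transpose]; exact hh.orth',
    by rw [Matrix.transpose_transpose]; exact hh.orth, by rw [Matrix.det_transpose]; exact hh.det⟩
  have := (impl_three hT).conj 2
  rw [Matrix.transpose_transpose] at this
  rw [this, Fin.sum_univ_three]
  simp [Matrix.transpose_apply, hc]

theorem rho_wv_three_gz (h β : ℝ) (n : ℕ) (hz : IsRot gz) :
    (cplx (rho gz n))ᵀ *ᵥ wv G1 3 h β n = wv G1 3 h β n := by
  rw [wv_def, (impl_three hz).bdry]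
  have h1 : (cartU * cplx gzᵀ * cartUᴴ) * G1 3 * (cartU * cplx gz * cartUᴴ) = G1 3 := by
    unfold G1; rw [Matrix.mul_one, (impl_three hz).inv1]
  have h2 : (cartU * cplx gzᵀ * cartUᴴ) * Sp 3 2 * (cartU * cplx gz * cartUᴴ) = Sp 3 2 := by
    have := rot_Sz hz (c := 1) (by intro b; fin_cases b <;> simp [gz])
    simpa using this
  rw [h1, fE_same (impl_three hz).inv1 h2]

theorem rho_wv_three_flip {r : Matrix (Fin 3) (Fin 3) ℝ} (hr : IsRot r)
    (hc : ∀ b, r 2 b = if b = 2 then (-1 : ℝ) else 0) (h β : ℝ) (n : ℕ) :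
    (cplx (rho r n))ᵀ *ᵥ wv G1 3 h β n = wv G1 3 (-h) β n := by
  rw [wv_def, wv_def, (impl_three hr).bdry]
  have h1 : (cartU * cplx rᵀ * cartUᴴ) * G1 3 * (cartU * cplx r * cartUᴴ) = G1 3 := by
    unfold G1; rw [Matrix.mul_one, (impl_three hr).inv1]
  have h2 : (cartU * cplx rᵀ * cartUᴴ) * Sp 3 2 * (cartU * cplx r * cartUᴴ) = -Sp 3 2 := by
    have := rot_Sz hr hc
    simpa using this
  rw [h1, fE_flip (impl_three hr).inv1 h2]

theorem rho_wv_three_gy (h β : ℝ) (n : ℕ) (hy : IsRot gy) :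
    (cplx (rho gy n))ᵀ *ᵥ wv G1 3 h β n = wv G1 3 (-h) β n :=
  rho_wv_three_flip hy (by intro b; fin_cases b <;> simp [gy]) h β n

theorem rho_wv_three_gx (h β : ℝ) (n : ℕ) (hx : IsRot gx) :
    (cplx (rho gx n))ᵀ *ᵥ wv G1 3 h β n = wv G1 3 (-h) β n :=
  rho_wv_three_flip hx (by intro b; fin_cases b <;> simp [gx]) h β n

end Hald
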