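import Mathlib

/-!
# Row 347, M5 (5e): limit of the strip moments (pure analysis)
-/

set_option autoImplicit false

namespace Hald

open Filter Topology Finset

/-- PROOF. `S n := ∑_M P_M ∑_j r_j κ_j^M = ∑_j r_j P(κ_j)` (finite sums, exchange), and
`S n → ∑_M P_M e M`.  Eventually every `j` with `r_j ≠ 0` has `|κ_j| ≤ l` (then `r_j P(κ_j) ≥ 0`) or
`|κ_j| = v n` (then `κ_j = ± v n`); so
`S n ≥ - (∑_{j : |κ_j| = v n} r_j) * max 0 (max (-P(v n)) (-P(-v n)))`.  The sum of these `r_j` is bounded: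
`v n ^ 2 * ∑_{|κ_j| = v n} r_j ≤ ∑_j r_j κ_j^2 → e 2` and `v n ^ 2 → V^2 > 0`.  The `max` tends to
`max 0 (max (-P(V)) (-P(-V))) = 0` by continuity.  Hence the limit is `≥ 0`. -/
theorem strip_limit {J : ℕ → Type*} [∀ n, Fintype (J n)] (κ r : ∀ n, J n → ℝ)
    (hr : ∀ n j, 0 ≤ r n j) {v : ℕ → ℝ} {V : ℝ} (hV : 0 < V) (hv : Tendsto v atTop (𝓝 V))
    {e : ℕ → ℝ} (he : ∀ M, Tendsto (fun n => ∑ j, r n j * κ n j ^ M) atTop (𝓝 (e M))) {l : ℝ}
    (hiso : ∀ᶠ n in atTop, ∀ j, r n j ≠ 0 → |κ n j| ≤ l ∨ |κ n j| = v n)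
    (P : Polynomial ℝ) (hP : ∀ x : ℝ, |x| ≤ l → 0 ≤ P.eval x) (hPV : 0 ≤ P.eval V)
    (hPV' : 0 ≤ P.eval (-V)) :
    0 ≤ ∑ M ∈ range (P.natDegree + 1), P.coeff M * e M := by
  have hS : Tendsto (fun n => ∑ M ∈ range (P.natDegree + 1),
      P.coeff M * ∑ j, r n j * κ n j ^ M) atTop
      (𝓝 (∑ M ∈ range (P.natDegree + 1), P.coeff M * e M)) :=
    tendsto_finset_sum _ fun M _ => (he M).const_mul (P.coeff M)
  have hSe : ∀ n, ∑ M ∈ range (P.natDegree + 1), P.coeff M * ∑ j, r n j * κ n j ^ M =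
      ∑ j, r n j * P.eval (κ n j) := by
    intro n
    simp_rw [Finset.mul_sum]
    rw [Finset.sum_comm]
    refine Finset.sum_congr rfl fun j _ => ?_
    rw [Polynomial.eval_eq_sum_range, Finset.mul_sum]
    refine Finset.sum_congr rfl fun M _ => ?_
    ring
  set g : ℕ → ℝ := fun n => max 0 (max (-(P.eval (v n))) (-(P.eval (-(v n))))) with hg
  have hg0 : Tendsto g atTop (𝓝 0) := by
    have h1 : Tendsto (fun n => P.eval (v n)) atTop (𝓝 (P.eval V)) :=
      (P.continuous.tendsto V).comp hv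
    have h2 : Tendsto (fun n => P.eval (-(v n))) atTop (𝓝 (P.eval (-V))) :=
      (P.continuous.tendsto (-V)).comp hv.neg
    have h3 : Tendsto g atTop (𝓝 (max 0 (max (-(P.eval V)) (-(P.eval (-V)))))) :=
      tendsto_const_nhds.max (h1.neg.max h2.neg)
    have h4 : max 0 (max (-(P.eval V)) (-(P.eval (-V)))) = 0 := by
      apply max_eq_left
      exact max_le (by linarith) (by linarith)
    rwa [h4] at h3
  have hlow : Tendsto (fun n => -((∑ j, r n j * κ n j ^ 2) / (v n) ^ 2 * g n)) atTop (𝓝 0) := by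
    have h1 : Tendsto (fun n => (∑ j, r n j * κ n j ^ 2) / (v n) ^ 2) atTop
        (𝓝 (e 2 / V ^ 2)) := (he 2).div (hv.pow 2) (by positivity)
    have h2 := (h1.mul hg0).neg
    simpa using h2
  refine le_of_tendsto_of_tendsto hlow hS ?_
  have hvpos : ∀ᶠ n in atTop, 0 < v n := hv.eventually (lt_mem_nhds hV)
  filter_upwards [hiso, hvpos] with n hn hvn
  rw [hSe n, Finset.sum_div, Finset.sum_mul, ← Finset.sum_neg_distrib]
  refine Finset.sum_le_sum fun j _ => ?_
  have hgn : 0 ≤ g n := le_max_left _ _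
  have hgn1 : -(P.eval (v n)) ≤ g n := le_trans (le_max_left _ _) (le_max_right _ _)
  have hgn2 : -(P.eval (-(v n))) ≤ g n := le_trans (le_max_right _ _) (le_max_right _ _)
  have hrj := hr n j
  by_cases h0 : r n j = 0
  · rw [h0]; simp
  · rcases hn j h0 with h | h
    · have h1 : 0 ≤ r n j * P.eval (κ n j) := mul_nonneg hrj (hP _ h)
      have h2 : 0 ≤ r n j * κ n j ^ 2 / v n ^ 2 * g n := by positivity
      linarith
    · have h1 : κ n j ^ 2 = v n ^ 2 := by rw [← sq_abs, h]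
      have h2 : r n j * κ n j ^ 2 / v n ^ 2 = r n j := by
        rw [h1, mul_div_assoc, div_self (by positivity), mul_one]
      rw [h2]
      have h3 : -(P.eval (κ n j)) ≤ g n := by
        rcases abs_eq (le_of_lt hvn) |>.1 h with h' | h'
        · rw [h']; exact hgn1
        · rw [h']; exact hgn2
      have := mul_le_mul_of_nonneg_left h3 hrj
      linarith

end Hald
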