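import Crest.Agent.Hald.SectorPS
import Crest.Agent.Hald.HalfTime

/-!
# Row 347, M4 (4c): the A-sectors at finite `n` and in the limit
-/

set_option autoImplicit false
set_option linter.unusedSectionVars false

namespace Hald

open Matrix Finset Filter Topology
open scoped ComplexOrder

/-- `T_g = K_g K_gᵀ` -/
noncomputable def TA (g : Matrix (Fin 3) (Fin 3) ℝ) (β : ℝ) (n : ℕ) : Matrix (Om n) (Om n) ℝ :=
  Kn g β n * (Kn g β n)ᵀ

variable {g h : Matrix (Fin 3) (Fin 3) ℝ} {β : ℝ} {n : ℕ}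

theorem TA_transpose : (TA g β n)ᵀ = TA g β n := by
  unfold TA
  rw [Matrix.transpose_mul, Matrix.transpose_transpose]

theorem TA_psd : (cplx (TA g β n)).PosSemidef := by
  unfold TA
  rw [cplx_mul, ← cplx_conjTranspose]
  exact Matrix.posSemidef_self_mul_conjTranspose _

theorem TA_comm (hh : IsRot h) (hc : g * h = h * g) :
    rho h n * TA g β n = TA g β n * rho h n := by
  have h1 := Kn_rho_comm hh hc β n
  have h2 : rho h n * (Kn g β n)ᵀ = (Kn g β n)ᵀ * rho h n := by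
    have h3 := Kn_rho_comm hh.transpose (comm_transpose hh hc) β n
    have h4 := congrArg Matrix.transpose h3
    rw [Matrix.transpose_mul, Matrix.transpose_mul, rho_transpose, Matrix.transpose_transpose] at h4
    exact h4
  unfold TA
  rw [← Matrix.mul_assoc, ← h1, Matrix.mul_assoc, h2, Matrix.mul_assoc]

theorem Zn_eq (m : ℕ) : Zn g h β n m = (rho h n * TA g β n ^ m).trace := rfl

theorem rho_D2 (n : ℕ) : D2Act (rho gx n) (rho gy n) := by
  refine ⟨?_, ?_, ?_, ?_, ?_⟩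
  · rw [← rho_mul, gx_gx, rho_one]
  · rw [← rho_mul, gy_gy, rho_one]
  · rw [← rho_mul, ← rho_mul, gx_gy, gy_gx]
  · rw [← rho_transpose, gxT]
  · rw [← rho_transpose, gyT]

theorem rho_Z3 (n : ℕ) : Z3Act (rho gc n) := by
  refine ⟨?_, ?_⟩
  · rw [← rho_mul, ← rho_mul, gc_gc_gc, rho_one]
  · rw [← rho_transpose, gcT, rho_mul]

theorem rho_A4 (n : ℕ) : A4Act (rho gx n) (rho gy n) (rho gc n) := by
  refine { toD2Act := rho_D2 n, toZ3Act := rho_Z3 n, CX := ?_, CY := ?_ }
  · rw [← rho_mul, ← rho_mul, gc_gx]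
  · rw [← rho_mul, ← rho_mul, ← rho_mul, gc_gy, gx_gy]

theorem Zn_one (m : ℕ) : Zn g 1 β n m = (TA g β n ^ m).trace := by
  rw [Zn_eq, rho_one, Matrix.one_mul]

/-- all the sectors at `g = 1` -/
theorem secA_zero_trace (m : ℕ) :
    (PA 1 (rho gx n) (rho gy n) (rho gc n) * cplx (TA 1 β n ^ m)).trace =
      ((secA 0 (fun t => Zn (tw t).1 (tw t).2 β n m) : ℝ) : ℂ) := by
  rw [PA_trace (rho_A4 n) (comm_pow (TA_comm isRot_gx (by simp)) m)
    (comm_pow (TA_comm isRot_gy (by simp)) m) (comm_pow (TA_comm isRot_gc (by simp)) m)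
    (transpose_pow_eq TA_transpose m), ← Zn_one, ← Zn_eq, ← Zn_eq]
  simp only [secA, tw, Matrix.cons_val_zero, Matrix.cons_val_one, Matrix.cons_val]
  push_cast
  ring

theorem secA_one_trace (m : ℕ) :
    (PA om3 (rho gx n) (rho gy n) (rho gc n) * cplx (TA 1 β n ^ m)).trace =
      ((secA 1 (fun t => Zn (tw t).1 (tw t).2 β n m) : ℝ) : ℂ) := by
  rw [PA_trace (rho_A4 n) (comm_pow (TA_comm isRot_gx (by simp)) m)
    (comm_pow (TA_comm isRot_gy (by simp)) m) (comm_pow (TA_comm isRot_gc (by simp)) m)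
    (transpose_pow_eq TA_transpose m), ← Zn_one, ← Zn_eq, ← Zn_eq, om3_add]
  simp only [secA, tw, Matrix.cons_val_zero, Matrix.cons_val_one, Matrix.cons_val]
  push_cast
  ring

theorem secA_two_trace (m : ℕ) :
    (cplx (PD 1 (-1) (rho gx n) (rho gy n)) * cplx (TA 1 β n ^ m)).trace =
      ((secA 2 (fun t => Zn (tw t).1 (tw t).2 β n m) : ℝ) : ℂ) := by
  rw [← cplx_mul, cplx_trace, PD_trace, ← rho_mul, gx_gy, ← Zn_one, ← Zn_eq, ← Zn_eq, ← Zn_eq,
    Zn_one_gy, Zn_one_gz]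
  simp only [secA, tw, Matrix.cons_val_zero, Matrix.cons_val_one, Matrix.cons_val]
  push_cast
  ring

/-- sectors at `g = gx` -/
theorem secA_gx_trace (a b : ℝ) (m : ℕ) :
    (PD a b (rho gx n) (rho gy n) * TA gx β n ^ m).trace =
      (Zn gx 1 β n m + a * Zn gx gx β n m + (b + a * b) * Zn gx gy β n m) / 4 := by
  rw [PD_trace, ← rho_mul, gx_gy, ← Zn_one, ← Zn_eq, ← Zn_eq, ← Zn_eq, Zn_gx_gz]
  ring

theorem gx_comm_gy : gx * gy = gy * gx := by rw [gx_gy, gy_gx]

theorem TAx_comm_x : rho gx n * TA gx β n = TA gx β n * rho gx n := TA_comm isRot_gx rfl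
theorem TAx_comm_y : rho gy n * TA gx β n = TA gx β n * rho gy n := TA_comm isRot_gy gx_comm_gy

theorem secA_gc_trace (ζ : ℂ) (m : ℕ) :
    (PZ ζ (rho gc n) * cplx (TA gc β n ^ m)).trace =
      (((Zn gc 1 β n m : ℝ) : ℂ) + (ζ + ζ * ζ) * ((Zn gc gc β n m : ℝ) : ℂ)) / 3 := by
  rw [PZ_trace (rho_Z3 n) (comm_pow (TA_comm isRot_gc rfl) m) (transpose_pow_eq TA_transpose m),
    ← Zn_one, ← Zn_eq]

/-- **A-sectors at finite `n`** -/
theorem secA_ps_finite (β : ℝ) (n : ℕ) (k : Fin 8) (hk : k ≠ 5) :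
    PS SA cA 1 (fun m => secA k (fun t => Zn (tw t).1 (tw t).2 β n m)) := by
  fin_cases k
  · exact ps_pow (PA_hproj (rho_A4 n) (by norm_num) (by simp)) TA_psd
      (PA_comm (TA_comm isRot_gx (by simp)) (TA_comm isRot_gy (by simp)) (TA_comm isRot_gc (by simp)))
      (fun m _ => secA_zero_trace m)
  · exact ps_pow (PA_hproj (rho_A4 n) om3_cube om3_star) TA_psd
      (PA_comm (TA_comm isRot_gx (by simp)) (TA_comm isRot_gy (by simp)) (TA_comm isRot_gc (by simp)))
      (fun m _ => secA_one_trace m)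
  · refine ps_pow (PD_hproj (rho_D2 n) (by norm_num) (by norm_num)) TA_psd ?_
      (fun m _ => secA_two_trace m)
    rw [← cplx_mul, ← cplx_mul, PD_comm (TA_comm isRot_gx (by simp)) (TA_comm isRot_gy (by simp))]
  · refine ps_pow (P := cplx (PD 1 1 (rho gx n) (rho gy n))) (T := TA gx β n)
      (PD_hproj (rho_D2 n) (by norm_num) (by norm_num)) TA_psd ?_ (fun m _ => ?_)
    · rw [← cplx_mul, ← cplx_mul, PD_comm TAx_comm_x TAx_comm_y]
    · rw [← cplx_mul, cplx_trace, secA_gx_trace]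
      simp only [secA, tw, Matrix.cons_val_zero, Matrix.cons_val_one, Matrix.cons_val]
      norm_num
  · refine ps_pow (P := cplx (PD 1 (-1) (rho gx n) (rho gy n))) (T := TA gx β n)
      (PD_hproj (rho_D2 n) (by norm_num) (by norm_num)) TA_psd ?_ (fun m _ => ?_)
    · rw [← cplx_mul, ← cplx_mul, PD_comm TAx_comm_x TAx_comm_y]
    · rw [← cplx_mul, cplx_trace, secA_gx_trace]
      simp only [secA, tw, Matrix.cons_val_zero, Matrix.cons_val_one, Matrix.cons_val]
      push_cast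
      ring
  · exact absurd rfl hk
  · refine ps_pow (P := PZ 1 (rho gc n)) (T := TA gc β n)
      (PZ_hproj (rho_Z3 n) (by norm_num) (by simp)) TA_psd (PZ_comm (TA_comm isRot_gc rfl))
      (fun m _ => ?_)
    rw [secA_gc_trace]
    simp only [secA, tw, Matrix.cons_val_zero, Matrix.cons_val_one, Matrix.cons_val]
    push_cast
    ring
  · refine ps_pow (P := PZ om3 (rho gc n)) (T := TA gc β n)
      (PZ_hproj (rho_Z3 n) om3_cube om3_star) TA_psd (PZ_comm (TA_comm isRot_gc rfl))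
      (fun m _ => ?_)
    rw [secA_gc_trace, om3_add]
    simp only [secA, tw, Matrix.cons_val_zero, Matrix.cons_val_one, Matrix.cons_val]
    push_cast
    ring

/-- the doubled sector -/
theorem secA_ps_five (β : ℝ) (k : ℕ) :
    PS SA cA 2 (fun m => secA 5 (fun t => Zn (tw t).1 (tw t).2 β (k + k) m)) := by
  obtain ⟨J, hJ1, hJ2, hJJ, hJK, hJρ⟩ := half_time_shift isDiagRot_gx β k
  have hD := rho_D2 (k + k)
  have hJx : J * rho gx (k + k) = rho gx (k + k) * J := hJρ gx isDiagRot_gx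
  have hJy : J * rho gy (k + k) = rho gy (k + k) * J := hJρ gy isDiagRot_gy
  have hJKt : J * (Kn gx β (k + k))ᵀ = (Kn gx β (k + k))ᵀ * J := by
    have h1 : Jᵀ * Kn gx β (k + k) = Kn gx β (k + k) * Jᵀ := by
      calc Jᵀ * Kn gx β (k + k) = Jᵀ * Kn gx β (k + k) * (J * Jᵀ) := by rw [hJ1, Matrix.mul_one]
        _ = Jᵀ * (Kn gx β (k + k) * J) * Jᵀ := by simp only [Matrix.mul_assoc]
        _ = Jᵀ * J * Kn gx β (k + k) * Jᵀ := by rw [← hJK]; simp only [Matrix.mul_assoc]
        _ = _ := by rw [hJ2, Matrix.one_mul]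
    have h2 := congrArg Matrix.transpose h1
    rw [Matrix.transpose_mul, Matrix.transpose_mul, Matrix.transpose_transpose] at h2
    exact h2.symm
  have hJT : J * TA gx β (k + k) = TA gx β (k + k) * J := by
    unfold TA
    rw [← Matrix.mul_assoc, hJK, Matrix.mul_assoc, hJKt, Matrix.mul_assoc]
  refine ps_pow_two (P := PD (-1) 1 (rho gx (k + k)) (rho gy (k + k))) (J := J)
    (T := TA gx β (k + k)) (PD_transpose hD) (PD_idem hD (by norm_num) (by norm_num)) hJ2
    ?_ (PD_double hD hJJ) TA_psd TA_transpose (PD_comm TAx_comm_x TAx_comm_y) hJT (fun m _ => ?_)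
  · exact (PD_comm hJx.symm hJy.symm).symm
  · rw [secA_gx_trace]
    simp only [secA, tw, Matrix.cons_val_zero, Matrix.cons_val_one, Matrix.cons_val]
    ring

/-- **A-sectors at finite even `n`** -/
theorem secA_ps_even (β : ℝ) (j : ℕ) (k : Fin 8) :
    PS SA cA (muA k) (fun m => secA k (fun t => Zn (tw t).1 (tw t).2 β (j + j) m)) := by
  by_cases hk : k = 5
  · subst hk
    have : muA 5 = 2 := by simp [muA]
    rw [this]
    exact secA_ps_five β j
  · have : muA k = 1 := by simp [muA, hk]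
    rw [this]
    exact secA_ps_finite β (j + j) k hk

/-- tops at finite `n` -/
theorem secA_top_zero (β : ℝ) (n : ℕ) :
    ∃ t, PSTop SA cA 1 (fun m => secA 0 (fun t => Zn (tw t).1 (tw t).2 β n m)) t :=
  pstop_pow (PA_hproj (rho_A4 n) (by norm_num) (by simp)) TA_psd
    (PA_comm (TA_comm isRot_gx (by simp)) (TA_comm isRot_gy (by simp)) (TA_comm isRot_gc (by simp)))
    (fun m _ => secA_zero_trace m)

theorem secA_top_four (β : ℝ) (n : ℕ) :
    ∃ t, PSTop SA cA 1 (fun m => secA 4 (fun t => Zn (tw t).1 (tw t).2 β n m)) t := by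
  refine pstop_pow (P := cplx (PD 1 (-1) (rho gx n) (rho gy n))) (T := TA gx β n)
    (PD_hproj (rho_D2 n) (by norm_num) (by norm_num)) TA_psd ?_ (fun m _ => ?_)
  · rw [← cplx_mul, ← cplx_mul, PD_comm TAx_comm_x TAx_comm_y]
  · rw [← cplx_mul, cplx_trace, secA_gx_trace]
    simp only [secA, tw, Matrix.cons_val_zero, Matrix.cons_val_one, Matrix.cons_val]
    push_cast
    ring

theorem Zn_top (β : ℝ) (n : ℕ) : ∃ t, PSTop SA cA 1 (fun m => Zn 1 1 β n m) t := by
  refine pstop_pow (P := 1) (T := TA 1 β n) HProj.one TA_psd (by simp) (fun m _ => ?_)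
  rw [Matrix.one_mul, cplx_trace, Zn_one]

theorem Zn_g_one_ps (g : Matrix (Fin 3) (Fin 3) ℝ) (β : ℝ) (n : ℕ) :
    PS SA cA 1 (fun m => Zn g 1 β n m) := by
  refine ps_pow (P := 1) (T := TA g β n) HProj.one TA_psd (by simp) (fun m _ => ?_)
  rw [Matrix.one_mul, cplx_trace, Zn_one]

end Hald
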