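import Crest.Agent.Hald.ExpFacts

/-!
# Row 347, M1 (1c): spectral gap from traces

* `gap_of_unitary_diag`: `H = U diag(E) Uᴴ`, `E i0 + c < E j` for `j ≠ i0` ⇒ `HasSimpleGroundStateWithGap H c`;
* `gap_of_sum_exp`: the same from `∑_j exp (-β E_j) < exp (-β E_{i0}) (1 + exp (-β c))`;
* `gap_of_top_diag`, `gap_of_top_hermitian`: the form consumed by `World`/`EdgeWorld`: `f β = exp (β s) ∑_j exp (-β E_j)`,
  `t ^ β ≤ f β` for all `β > 0`, and `f β < t ^ β (1 + exp (-β c))` for one `β`.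
-/

set_option autoImplicit false

namespace Hald

open Matrix Finset Crest.MathPhysics.SpinChain

section

variable {κ : Type*} [Fintype κ] [DecidableEq κ]

theorem gap_of_unitary_diag (H U : Matrix κ κ ℂ) (hU : U * Uᴴ = 1) (hU' : Uᴴ * U = 1)
    (E : κ → ℝ) (hH : H = U * Matrix.diagonal (fun i => (E i : ℂ)) * Uᴴ) (i0 : κ) (c : ℝ)
    (hc : ∀ j, j ≠ i0 → E i0 + c < E j) : HasSimpleGroundStateWithGap H c := by
  refine ⟨E i0, U *ᵥ Pi.single i0 1, ?_, ?_, ?_⟩
  · intro h
    have h1 : Uᴴ *ᵥ (U *ᵥ Pi.single i0 1) = (Pi.single i0 1 : κ → ℂ) := by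
      rw [Matrix.mulVec_mulVec, hU', Matrix.one_mulVec]
    rw [h, Matrix.mulVec_zero] at h1
    have h2 := congrFun h1 i0
    simp at h2
  · rw [hH, Matrix.mulVec_mulVec, Matrix.mul_assoc, Matrix.mul_assoc, hU', Matrix.mul_one,
      ← Matrix.mulVec_mulVec, Matrix.diagonal_mulVec_single, mul_one]
    rw [show (Pi.single i0 (E i0 : ℂ) : κ → ℂ) = (E i0 : ℂ) • Pi.single i0 1 by
      ext j; by_cases hj : j = i0
      · subst hj; simp
      · simp [hj]]
    rw [Matrix.mulVec_smul]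
  · intro ψ hψ horth
    set φ : κ → ℂ := Uᴴ *ᵥ ψ with hφ
    have hψφ : ψ = U *ᵥ φ := by rw [hφ, Matrix.mulVec_mulVec, hU, Matrix.one_mulVec]
    have hφ0 : φ ≠ 0 := by
      intro h; apply hψ; rw [hψφ, h, Matrix.mulVec_zero]
    have hstar : star ψ = star φ ᵥ* Uᴴ := by rw [hψφ, Matrix.star_mulVec]
    have hnorm : star ψ ⬝ᵥ ψ = star φ ⬝ᵥ φ := by
      rw [hstar]
      nth_rewrite 1 [hψφ]
      rw [Matrix.dotProduct_mulVec, Matrix.vecMul_vecMul, hU', Matrix.vecMul_one]
    have hform : star ψ ⬝ᵥ H.mulVec ψ =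
        star φ ⬝ᵥ (Matrix.diagonal (fun i => (E i : ℂ))) *ᵥ φ := by
      rw [hstar, hH]
      nth_rewrite 1 [hψφ]
      rw [Matrix.mulVec_mulVec, Matrix.mul_assoc, Matrix.mul_assoc, hU', Matrix.mul_one,
        ← Matrix.mulVec_mulVec, Matrix.dotProduct_mulVec, Matrix.vecMul_vecMul, hU',
        Matrix.vecMul_one]
    have hφi : φ i0 = 0 := by
      have h1 : star (U *ᵥ (Pi.single i0 1 : κ → ℂ)) = Pi.single i0 1 ᵥ* Uᴴ := by
        rw [Matrix.star_mulVec]
        congr 1
        ext j; by_cases hj : j = i0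
        · subst hj; simp
        · simp [hj]
      rw [h1, ← Matrix.dotProduct_mulVec, ← hφ, single_one_dotProduct] at horth
      exact horth
    rw [hnorm, hform]
    have e1 : (star φ ⬝ᵥ φ).re = ∑ j, Complex.normSq (φ j) := by
      simp only [dotProduct, Pi.star_apply, Complex.re_sum]
      refine Finset.sum_congr rfl fun j _ => ?_
      rw [Complex.star_def, ← Complex.normSq_eq_conj_mul_self, Complex.ofReal_re]
    have e2 : (star φ ⬝ᵥ (Matrix.diagonal (fun i => (E i : ℂ))) *ᵥ φ).re =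
        ∑ j, E j * Complex.normSq (φ j) := by
      simp only [dotProduct, Pi.star_apply, Complex.re_sum, Matrix.mulVec_diagonal]
      refine Finset.sum_congr rfl fun j _ => ?_
      rw [Complex.star_def, mul_left_comm, ← Complex.normSq_eq_conj_mul_self, Complex.re_ofReal_mul,
        Complex.ofReal_re]
    rw [e1, e2, Finset.mul_sum]
    obtain ⟨j0, hj0⟩ := Function.ne_iff.1 hφ0
    refine Finset.sum_lt_sum (fun j _ => ?_) ⟨j0, Finset.mem_univ _, ?_⟩
    · by_cases hj : j = i0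
      · subst hj; simp [hφi]
      · exact mul_le_mul_of_nonneg_right (hc j hj).le (Complex.normSq_nonneg _)
    · have hj : j0 ≠ i0 := by
        intro h; rw [h] at hj0; exact hj0 hφi
      exact mul_lt_mul_of_pos_right (hc j0 hj) (Complex.normSq_pos.2 hj0)

theorem gap_of_sum_exp (H U : Matrix κ κ ℂ) (hU : U * Uᴴ = 1) (hU' : Uᴴ * U = 1)
    (E : κ → ℝ) (hH : H = U * Matrix.diagonal (fun i => (E i : ℂ)) * Uᴴ) (i0 : κ) {β c : ℝ}
    (hβ : 0 < β) (h : ∑ j, Real.exp (-(β * E j)) <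
      Real.exp (-(β * E i0)) * (1 + Real.exp (-(β * c)))) :
    HasSimpleGroundStateWithGap H c := by
  refine gap_of_unitary_diag H U hU hU' E hH i0 c fun j hj => ?_
  have h1 : Real.exp (-(β * E i0)) + Real.exp (-(β * E j)) ≤ ∑ j, Real.exp (-(β * E j)) := by
    rw [← Finset.sum_pair (Ne.symm hj) (f := fun j => Real.exp (-(β * E j)))]
    exact Finset.sum_le_sum_of_subset_of_nonneg (Finset.subset_univ _)
      fun _ _ _ => (Real.exp_pos _).le
  have h2 : Real.exp (-(β * E j)) < Real.exp (-(β * E i0)) * Real.exp (-(β * c)) := by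
    have : Real.exp (-(β * E i0)) * (1 + Real.exp (-(β * c))) =
      Real.exp (-(β * E i0)) + Real.exp (-(β * E i0)) * Real.exp (-(β * c)) := by ring
    linarith
  rw [← Real.exp_add, Real.exp_lt_exp] at h2
  have h3 : β * (E i0 + c) < β * E j := by linarith
  exact lt_of_mul_lt_mul_left h3 hβ.le

/-- If `t ^ β ≤ N exp (β a)` for all `β > 0` then `t ≤ exp a`. -/
theorem le_exp_of_rpow_le {t a N : ℝ}
    (h : ∀ β : ℝ, 0 < β → t ^ β ≤ N * Real.exp (β * a)) : t ≤ Real.exp a := by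
  by_contra hlt
  push Not at hlt
  have ht0 : 0 < t := (Real.exp_pos a).trans hlt
  have ha : a < Real.log t := (Real.lt_log_iff_exp_lt ht0).2 hlt
  have hd : 0 < Real.log t - a := by linarith
  -- `exp (β (log t - a)) ≤ N` for all `β > 0`
  have h1 : ∀ β : ℝ, 0 < β → Real.exp (β * (Real.log t - a)) ≤ N := by
    intro β hβ
    have h2 := h β hβ
    rw [Real.rpow_def_of_pos ht0] at h2
    have h3 : Real.exp (β * (Real.log t - a)) = Real.exp (Real.log t * β) * Real.exp (-(β * a)) := by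
      rw [← Real.exp_add]; congr 1; ring
    rw [h3]
    calc Real.exp (Real.log t * β) * Real.exp (-(β * a)) ≤
        (N * Real.exp (β * a)) * Real.exp (-(β * a)) :=
          mul_le_mul_of_nonneg_right h2 (Real.exp_pos _).le
      _ = N := by rw [mul_assoc, ← Real.exp_add]; simp
  have hN : 0 < N := (Real.exp_pos _).trans_le (h1 1 one_pos)
  have h4 := h1 (N / (Real.log t - a)) (by positivity)
  have h5 : N / (Real.log t - a) * (Real.log t - a) = N := by field_simp
  rw [h5] at h4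
  have h6 := Real.add_one_le_exp N
  linarith

/-- The form consumed by the abstract world. -/
theorem gap_of_top_diag [Nonempty κ] (H U : Matrix κ κ ℂ) (hU : U * Uᴴ = 1) (hU' : Uᴴ * U = 1)
    (E : κ → ℝ) (hH : H = U * Matrix.diagonal (fun i => (E i : ℂ)) * Uᴴ)
    (f : ℝ → ℝ) (s t : ℝ) (ht : 0 ≤ t)
    (hf : ∀ β : ℝ, 0 < β → f β = (∑ j, Real.exp (-(β * E j))) * Real.exp (β * s))
    (htf : ∀ β : ℝ, 0 < β → t ^ β ≤ f β) {β c : ℝ} (hβ : 0 < β)
    (h : f β < t ^ β * (1 + Real.exp (-(β * c)))) :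
    HasSimpleGroundStateWithGap H c := by
  obtain ⟨i0, hi0⟩ := Finite.exists_min E
  have h1 : t ≤ Real.exp (s - E i0) := by
    apply le_exp_of_rpow_le (N := Fintype.card κ)
    intro b hb
    refine (htf b hb).trans ?_
    rw [hf b hb]
    have h2 : ∑ j, Real.exp (-(b * E j)) ≤ Fintype.card κ * Real.exp (-(b * E i0)) := by
      have : ∑ j : κ, Real.exp (-(b * E j)) ≤ ∑ _j : κ, Real.exp (-(b * E i0)) := by
        refine Finset.sum_le_sum fun j _ => Real.exp_le_exp.2 ?_
        have := mul_le_mul_of_nonneg_left (hi0 j) hb.le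
        linarith
      refine this.trans (le_of_eq ?_)
      rw [Finset.sum_const, Finset.card_univ, nsmul_eq_mul]
    calc (∑ j, Real.exp (-(b * E j))) * Real.exp (b * s) ≤
        Fintype.card κ * Real.exp (-(b * E i0)) * Real.exp (b * s) :=
          mul_le_mul_of_nonneg_right h2 (Real.exp_pos _).le
      _ = Fintype.card κ * Real.exp (b * (s - E i0)) := by
          rw [mul_assoc, ← Real.exp_add]; congr 2; ring
  refine gap_of_sum_exp H U hU hU' E hH i0 hβ ?_
  have h3 : t ^ β ≤ Real.exp (-(β * E i0)) * Real.exp (β * s) := by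
    calc t ^ β ≤ (Real.exp (s - E i0)) ^ β := Real.rpow_le_rpow ht h1 hβ.le
      _ = Real.exp (-(β * E i0)) * Real.exp (β * s) := by
          rw [← Real.exp_mul, ← Real.exp_add]; congr 1; ring
  rw [hf β hβ] at h
  have h4 : (∑ j, Real.exp (-(β * E j))) * Real.exp (β * s) <
      (Real.exp (-(β * E i0)) * (1 + Real.exp (-(β * c)))) * Real.exp (β * s) := by
    refine h.trans_le ?_
    calc t ^ β * (1 + Real.exp (-(β * c))) ≤
        (Real.exp (-(β * E i0)) * Real.exp (β * s)) * (1 + Real.exp (-(β * c))) :=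
          mul_le_mul_of_nonneg_right h3 (by positivity)
      _ = _ := by ring
  exact lt_of_mul_lt_mul_right h4 (Real.exp_pos _).le

/-- Version for a Hermitian matrix, with the trace of the exponential. -/
theorem gap_of_top_hermitian [Nonempty κ] {H : Matrix κ κ ℂ} (hH : H.IsHermitian)
    (f : ℝ → ℝ) (s t : ℝ) (ht : 0 ≤ t)
    (hf : ∀ β : ℝ, 0 < β → f β = (NormedSpace.exp ((-β) • H)).trace.re * Real.exp (β * s))
    (htf : ∀ β : ℝ, 0 < β → t ^ β ≤ f β) {β c : ℝ} (hβ : 0 < β)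
    (h : f β < t ^ β * (1 + Real.exp (-(β * c)))) :
    HasSimpleGroundStateWithGap H c := by
  have hU : (hH.eigenvectorUnitary : Matrix κ κ ℂ) * (hH.eigenvectorUnitary : Matrix κ κ ℂ)ᴴ = 1 :=
    Unitary.mul_star_self_of_mem hH.eigenvectorUnitary.2
  have hU' : (hH.eigenvectorUnitary : Matrix κ κ ℂ)ᴴ * (hH.eigenvectorUnitary : Matrix κ κ ℂ) = 1 :=
    Unitary.star_mul_self_of_mem hH.eigenvectorUnitary.2
  have hs : H = (hH.eigenvectorUnitary : Matrix κ κ ℂ) *
      Matrix.diagonal (fun i => (hH.eigenvalues i : ℂ)) *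
        (hH.eigenvectorUnitary : Matrix κ κ ℂ)ᴴ := by
    have := hH.spectral_theorem
    simpa [Unitary.conjStarAlgAut_apply, Function.comp_def, Matrix.star_eq_conjTranspose] using this
  refine gap_of_top_diag H _ hU hU' hH.eigenvalues hs f s t ht ?_ htf hβ h
  intro b hb
  rw [hf b hb, trace_exp_eq_sum hH (-b)]
  congr 1
  refine (Complex.ofReal_re (∑ i, Real.exp (-b * hH.eigenvalues i))).trans ?_
  exact Finset.sum_congr rfl fun j _ => by rw [neg_mul]

end

end Hald
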