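import Crest.Agent.Hald.Letters
import Crest.Agent.Hald.Paths
import Crest.Agent.Hald.Trotter

/-!
# Row 347, module M3 (3a): the Trotterised ring partition function converges

`Zn_tendsto`: `Tendsto (fun n => Zn g h β n m) atTop (𝓝 (Zp g h β m))` for commuting rotations.
-/

set_option autoImplicit false
set_option linter.unusedSectionVars false

namespace Hald

open Matrix Finset Filter Topology

/-- seam twist seen by the bond `(i,1)-(nxt i,0)` -/
noncomputable def seamTw (h : Matrix (Fin 3) (Fin 3) ℝ) {m : ℕ} (i : Fin m) :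
    Matrix (Fin 3) (Fin 3) ℝ := if i.val + 1 = m then h else 1

/-- the list of bonds of the twisted ring: even bonds first, then odd bonds -/
noncomputable def ringBonds (h : Matrix (Fin 3) (Fin 3) ℝ) (m : ℕ) :
    List (Matrix (RSite m → Fin 3) (RSite m → Fin 3) ℝ) :=
  (List.ofFn fun i : Fin m => nbond 1 (i, 0) (i, 1)) ++
    List.ofFn fun i : Fin m => nbond (seamTw h i) (i, 1) (nxt i, 0)

theorem ringBonds_sum (h : Matrix (Fin 3) (Fin 3) ℝ) (m : ℕ) :
    (ringBonds h m).sum = negH h m := by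
  unfold ringBonds negH seamTw
  rw [List.sum_append, List.sum_ofFn, List.sum_ofFn]

/-- letters of the first layer -/
noncomputable def xE (τ : ℝ) {m : ℕ} (_ : RSite m) : Fin 4 → Matrix (Fin 3) (Fin 3) ℝ := Xr τ

/-- letters of the second layer (seam twist at the site `(0,0)`) -/
noncomputable def yO (h : Matrix (Fin 3) (Fin 3) ℝ) (τ : ℝ) {m : ℕ} (p : RSite m) :
    Fin 4 → Matrix (Fin 3) (Fin 3) ℝ :=
  if p.2 = 0 ∧ p.1.val = 0 then Xh h τ else Xr τ

theorem Xr_eq_letters (τ : ℝ) : Xr τ = letters (Real.sqrt τ) Lr := rfl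

theorem Xh_eq_letters {h : Matrix (Fin 3) (Fin 3) ℝ} (hh : IsRot h) (τ : ℝ) :
    Xh h τ = letters (Real.sqrt τ) (fun a => h * Lr a * hᵀ) := by
  funext a
  refine Fin.cases ?_ (fun a' => ?_) a
  · simp [Xh, Xr, letters, hh.orth]
  · simp [Xh, Xr, letters]

theorem nbond_factor {ι : Type*} [Fintype ι] [DecidableEq ι] {h : Matrix (Fin 3) (Fin 3) ℝ}
    (hh : IsRot h) {τ : ℝ} (hτ : 0 ≤ τ) {j k : ι} (hjk : j ≠ k) :
    1 + τ • nbond h j k =
      ∑ w, tens (κ := fun _ : ι => Fin 3)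
        (pairFam (κ := fun _ : ι => Fin 3) j k (Xr τ w) (Xh h τ w)) := by
  rw [Xr_eq_letters, Xh_eq_letters hh]
  have := bond_factor (κ := fun _ : ι => Fin 3) hjk (Real.sqrt τ) Lr (fun a => h * Lr a * hᵀ)
  rw [Real.mul_self_sqrt hτ] at this
  exact this

theorem isRot_one : IsRot 1 := ⟨by simp, by simp, by simp⟩

theorem Xh_one (τ : ℝ) : Xh 1 τ = Xr τ := by
  funext a; simp [Xh]

theorem seamTw_rot {h : Matrix (Fin 3) (Fin 3) ℝ} (hh : IsRot h) {m : ℕ} (i : Fin m) :
    IsRot (seamTw h i) := by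
  unfold seamTw; split_ifs
  · exact hh
  · exact isRot_one

theorem nxt_val_eq_zero {m : ℕ} (i : Fin m) : (nxt i).val = 0 ↔ i.val + 1 = m := by
  obtain ⟨M, rfl⟩ : ∃ M, m = M + 1 := ⟨m - 1, by have := i.isLt; omega⟩
  unfold nxt
  by_cases h : i = Fin.last M
  · subst h; simp
  · have hlt : i.val < M := by
      have h1 := i.isLt
      have h2 : i.val ≠ M := fun h' => h (Fin.ext h')
      omega
    rw [show i = ⟨i.val, by omega⟩ from rfl, finRotate_of_lt hlt]
    simp; omega

theorem even_factor {m : ℕ} {τ : ℝ} (hτ : 0 ≤ τ) (i : Fin m) :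
    1 + τ • nbond (1 : Matrix (Fin 3) (Fin 3) ℝ) ((i, 0) : RSite m) (i, 1) =
      bondOp (κ := fun _ : RSite m => Fin 3) (xE τ) (i, 0) (i, 1) := by
  rw [nbond_factor isRot_one hτ (by simp)]
  unfold bondOp xE
  rw [Xh_one]

theorem odd_factor {h : Matrix (Fin 3) (Fin 3) ℝ} (hh : IsRot h) {m : ℕ} {τ : ℝ} (hτ : 0 ≤ τ)
    (i : Fin m) :
    1 + τ • nbond (seamTw h i) ((i, 1) : RSite m) (nxt i, 0) =
      bondOp (κ := fun _ : RSite m => Fin 3) (yO h τ) (i, 1) (nxt i, 0) := by
  rw [nbond_factor (seamTw_rot hh i) hτ (by simp)]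
  unfold bondOp
  have h1 : yO h τ ((i, 1) : RSite m) = Xr τ := by simp [yO]
  have h2 : yO h τ ((nxt i, 0) : RSite m) = Xh (seamTw h i) τ := by
    unfold yO seamTw
    by_cases hi : i.val + 1 = m
    · rw [if_pos ⟨rfl, (nxt_val_eq_zero i).2 hi⟩, if_pos hi]
    · rw [if_neg (fun hc => hi ((nxt_val_eq_zero i).1 hc.2)), if_neg hi, Xh_one]
  rw [h1, h2]

/-- the odd-layer kernel at the site `(nxt i, 0)` -/
noncomputable def Qn (g h : Matrix (Fin 3) (Fin 3) ℝ) (β : ℝ) (n : ℕ) {m : ℕ} (i : Fin m) :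
    Matrix (Om n) (Om n) ℝ :=
  Kn g β n * rho (seamTw h i) n

theorem site_kernel_one (g h : Matrix (Fin 3) (Fin 3) ℝ) (β : ℝ) (n : ℕ) {m : ℕ} (i : Fin m)
    (u v : Om n) :
    (g * wordMat (κ := fun _ : RSite m => Fin 3) (xE (β / n)) (yO h (β / n)) (i, 1)
      (some u) (some v)).trace = Kn g β n u v := by
  rw [wordMat_some_some]
  unfold xE yO Kn
  simp

theorem site_kernel_zero {h : Matrix (Fin 3) (Fin 3) ℝ} (hh : IsRot h)
    (g : Matrix (Fin 3) (Fin 3) ℝ) (β : ℝ) (n : ℕ) {m : ℕ} (i : Fin m)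
    (u v : Om n) :
    (g * wordMat (κ := fun _ : RSite m => Fin 3) (xE (β / n)) (yO h (β / n)) (nxt i, 0)
      (some u) (some v)).trace = Qn g h β n i u v := by
  rw [wordMat_some_some]
  unfold Qn
  rw [Kn_mul_rho (seamTw_rot hh i)]
  have h2 : yO h (β / n) ((nxt i, 0) : RSite m) = Xh (seamTw h i) (β / n) := by
    unfold yO seamTw
    by_cases hi : i.val + 1 = m
    · rw [if_pos ⟨rfl, (nxt_val_eq_zero i).2 hi⟩, if_pos hi]
    · rw [if_neg (fun hc => hi ((nxt_val_eq_zero i).1 hc.2)), if_neg hi, Xh_one]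
  rw [h2]
  rfl

theorem oddMatch {m : ℕ} (p : RSite m) (b : Fin m) :
    some (if p.2 = 1 then p.1 else (finRotate m).symm p.1) = some b ↔
      (p = (b, 1) ∨ p = (nxt b, 0)) := by
  obtain ⟨i, s⟩ := p
  have e : (finRotate m).symm i = b ↔ i = nxt b := Equiv.symm_apply_eq _
  by_cases hs : s = 1
  · subst hs
    simp
  · have hs0 : s = 0 := by omega
    subst hs0
    rw [if_neg (by simp), Option.some.injEq, e]
    constructor
    · intro h; right; rw [h]
    · rintro (h | h)
      · have := congrArg Prod.snd h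
        simp at this
      · exact congrArg Prod.fst h

theorem site_prod_eq {h : Matrix (Fin 3) (Fin 3) ℝ} (hh : IsRot h)
    (g : Matrix (Fin 3) (Fin 3) ℝ) (β : ℝ) (n : ℕ) {m : ℕ} (u v : Fin m → Om n) :
    ∏ p : RSite m, (g * wordMat (κ := fun _ : RSite m => Fin 3) (xE (β / n)) (yO h (β / n)) p
        ((some p.1).map u)
        ((some (if p.2 = 1 then p.1 else (finRotate m).symm p.1)).map v)).trace =
      ∏ i, (Kn g β n (u i) (v i) * Qn g h β n i (u (finRotate m i)) (v i)) := by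
  let F : Fin m → Fin 2 → ℝ := fun i s =>
    (g * wordMat (κ := fun _ : RSite m => Fin 3) (xE (β / n)) (yO h (β / n)) (i, s)
      (some (u i)) (some (v (if s = 1 then i else (finRotate m).symm i)))).trace
  have h1 : ∏ p : RSite m, (g * wordMat (κ := fun _ : RSite m => Fin 3) (xE (β / n))
      (yO h (β / n)) p ((some p.1).map u)
        ((some (if p.2 = 1 then p.1 else (finRotate m).symm p.1)).map v)).trace =
      ∏ i, ∏ s, F i s := Fintype.prod_prod_type _
  have h2 : ∏ i, ∏ s, F i s = (∏ i, F i 0) * ∏ i, F i 1 := by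
    rw [← Finset.prod_mul_distrib]
    exact Finset.prod_congr rfl fun i _ => Fin.prod_univ_two _
  have h3 : ∏ i, F i 0 = ∏ i, F (finRotate m i) 0 := (Equiv.prod_comp (finRotate m) fun i => F i 0).symm
  have h4 : ∀ i, F i 1 = Kn g β n (u i) (v i) := fun i => site_kernel_one g h β n i (u i) (v i)
  have h5 : ∀ i, F (finRotate m i) 0 = Qn g h β n i (u (finRotate m i)) (v i) := by
    intro i
    have h6 : (if (0 : Fin 2) = 1 then finRotate m i else (finRotate m).symm (finRotate m i)) = i := by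
      rw [if_neg (by decide), Equiv.symm_apply_apply]
    have h7 : F (finRotate m i) 0 = (g * wordMat (κ := fun _ : RSite m => Fin 3) (xE (β / n))
        (yO h (β / n)) (finRotate m i, 0) (some (u (finRotate m i)))
        (some (v (if (0 : Fin 2) = 1 then finRotate m i else
          (finRotate m).symm (finRotate m i))))).trace := rfl
    rw [h7, h6]
    exact site_kernel_zero hh g β n i (u (finRotate m i)) (v i)
  rw [h1, h2, h3, mul_comm, ← Finset.prod_mul_distrib]
  exact Finset.prod_congr rfl fun i _ => by rw [h4, h5]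

theorem bonds_prod_eq {h : Matrix (Fin 3) (Fin 3) ℝ} (hh : IsRot h) {τ : ℝ} (hτ : 0 ≤ τ) (m : ℕ) :
    ((ringBonds h m).map fun H => 1 + τ • H).prod =
      (List.ofFn fun i : Fin m =>
        bondOp (κ := fun _ : RSite m => Fin 3) (xE τ) (i, 0) (i, 1)).prod *
      (List.ofFn fun i : Fin m =>
        bondOp (κ := fun _ : RSite m => Fin 3) (yO h τ) (i, 1) (nxt i, 0)).prod := by
  unfold ringBonds
  rw [List.map_append, List.prod_append, List.map_ofFn, List.map_ofFn]
  congr 2
  · congr 1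
    funext i
    exact even_factor hτ i
  · congr 1
    funext i
    exact odd_factor hh hτ i

/-- The trace of the `n`-th Trotter power as a sum over pairs of words. -/
theorem trotter_trace_eq {h : Matrix (Fin 3) (Fin 3) ℝ} (hh : IsRot h)
    (g : Matrix (Fin 3) (Fin 3) ℝ) {β : ℝ} (hβ : 0 ≤ β) (n : ℕ) {m : ℕ} (hm : 1 ≤ m) :
    (tens (κ := fun _ : RSite m => Fin 3) (fun _ => g) *
      (((ringBonds h m).map fun H => 1 + (β / n) • H).prod) ^ n).trace =
      (List.ofFn fun i : Fin m => Kn g β n * (Qn g h β n i)ᵀ).prod.trace := by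
  have hτ : 0 ≤ β / (n : ℝ) := by positivity
  rw [bonds_prod_eq hh hτ, ← ring_path_sum hm]
  refine (trace_two_bond_layers n (κ := fun _ : RSite m => Fin 3) (xE (β / n)) (yO h (β / n))
    (fun i => (i, 0)) (fun i => (i, 1)) (fun p => some p.1) (by intro b; simp)
    (by
      rintro ⟨i, s⟩ b
      simp only [Option.some.injEq, Prod.mk.injEq]
      fin_cases s <;> simp)
    (fun i => (i, 1)) (fun i => (nxt i, 0))
    (fun p => some (if p.2 = 1 then p.1 else (finRotate m).symm p.1)) (by intro b; simp)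
    (fun p b => oddMatch p b)
    (fun _ => g)).trans ?_
  exact Finset.sum_congr rfl fun u _ => Finset.sum_congr rfl fun v _ => site_prod_eq hh g β n u v

/-- The word sum equals `Zn`. -/
theorem ring_trace_eq_Zn {g h : Matrix (Fin 3) (Fin 3) ℝ} (hh : IsRot h) (hc : g * h = h * g)
    (β : ℝ) (n : ℕ) {m : ℕ} (hm : 1 ≤ m) :
    (List.ofFn fun i : Fin m => Kn g β n * (Qn g h β n i)ᵀ).prod.trace = Zn g h β n m := by
  obtain ⟨M, rfl⟩ : ∃ M, m = M + 1 := ⟨m - 1, by omega⟩
  set K := Kn g β n with hK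
  set r := rho h n with hr
  have h0 : ∀ i : Fin M, K * (Qn g h β n i.castSucc)ᵀ = K * Kᵀ := by
    intro i
    unfold Qn seamTw
    rw [if_neg (by simp; have := i.isLt; omega), rho_one, Matrix.mul_one]
  have hl : K * (Qn g h β n (Fin.last M))ᵀ = rᵀ * (K * Kᵀ) := by
    unfold Qn seamTw
    rw [if_pos (by simp), Matrix.transpose_mul, ← hr, ← hK, ← Matrix.mul_assoc]
    have key : K * rᵀ = rᵀ * K := by
      have h1 : K * r = r * K := Kn_rho_comm hh hc β n
      calc K * rᵀ = (rᵀ * r) * (K * rᵀ) := by rw [hr, rho_orth' hh, Matrix.one_mul]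
        _ = rᵀ * (r * K) * rᵀ := by simp only [Matrix.mul_assoc]
        _ = rᵀ * (K * r) * rᵀ := by rw [h1]
        _ = rᵀ * K * (r * rᵀ) := by simp only [Matrix.mul_assoc]
        _ = rᵀ * K := by rw [hr, rho_orth hh, Matrix.mul_one]
    rw [key, Matrix.mul_assoc]
  rw [List.ofFn_succ', List.concat_eq_append, List.prod_append, List.prod_singleton, hl]
  have h2 : (List.ofFn fun i : Fin M => K * (Qn g h β n i.castSucc)ᵀ).prod = (K * Kᵀ) ^ M := by
    simp only [h0]
    simp
  rw [h2, Matrix.trace_mul_comm]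
  unfold Zn
  rw [← hK, ← hr]
  have h3 : (rᵀ * (K * Kᵀ) * (K * Kᵀ) ^ M) = rᵀ * (K * Kᵀ) ^ (M + 1) := by
    rw [Matrix.mul_assoc, ← pow_succ']
  rw [h3, ← Matrix.trace_transpose, Matrix.transpose_mul, Matrix.transpose_transpose,
    Matrix.transpose_pow, Matrix.transpose_mul, Matrix.transpose_transpose, Matrix.trace_mul_comm]

/-- **(3a)** the Trotterised twisted ring partition function converges to `Zp`. -/
theorem Zn_tendsto {g h : Matrix (Fin 3) (Fin 3) ℝ} (hh : IsRot h) (hc : g * h = h * g)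
    {β : ℝ} (hβ : 0 ≤ β) {m : ℕ} (hm : 1 ≤ m) :
    Tendsto (fun n : ℕ => Zn g h β n m) atTop (𝓝 (Zp g h β m)) := by
  have h1 := matrix_tendsto_trace_mul_pow
    (tens (κ := fun _ : RSite m => Fin 3) (fun _ => g)) (ringBonds h m) β
  rw [ringBonds_sum] at h1
  refine h1.congr fun n => ?_
  rw [trotter_trace_eq hh g hβ n hm, ring_trace_eq_Zn hh hc β n hm]

end Hald
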