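import Crest.Agent.Hald.LinkBasis
import Crest.Agent.Hald.LinkGap
import Crest.Agent.Hald.RingTransfer
import Crest.Agent.Hald.World

/-!
# Row 347, M1 (1b), (1d): the prelude ring and the gap from the abstract world
-/

set_option autoImplicit false
set_option linter.unusedSectionVars false

namespace Hald

open Matrix Finset Crest.MathPhysics.SpinChain

section Bond

variable {ι : Type*} [Fintype ι] [DecidableEq ι]

theorem onSite_eq_site (A : Matrix (Fin 3) (Fin 3) ℂ) (j : ι) :
    onSite A j = site (κ := fun _ : ι => Fin 3) j A := by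
  ext σ τ
  rw [site_apply]
  rfl

/-- complexification of a real matrix -/
noncomputable def cplx {κ : Type*} (A : Matrix κ κ ℝ) : Matrix κ κ ℂ := A.map (fun x : ℝ => (x : ℂ))

theorem cplx_mul {κ : Type*} [Fintype κ] (A B : Matrix κ κ ℝ) :
    cplx (A * B) = cplx A * cplx B := by
  unfold cplx
  ext i j
  simp [Matrix.mul_apply]

theorem cplx_add {κ : Type*} (A B : Matrix κ κ ℝ) : cplx (A + B) = cplx A + cplx B := by
  unfold cplx; ext i j; simp

theorem cplx_sum {κ α : Type*} (s : Finset α) (A : α → Matrix κ κ ℝ) :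
    cplx (∑ a ∈ s, A a) = ∑ a ∈ s, cplx (A a) := by
  classical
  induction s using Finset.induction_on with
  | empty => ext i j; simp [cplx]
  | insert a s ha ih => rw [Finset.sum_insert ha, Finset.sum_insert ha, cplx_add, ih]

theorem cplx_site (j : ι) (A : Matrix (Fin 3) (Fin 3) ℝ) :
    cplx (site (κ := fun _ : ι => Fin 3) j A) = site (κ := fun _ : ι => Fin 3) j (cplx A) :=
  site_map (κ := fun _ : ι => Fin 3) Complex.ofRealHom j A

/-- global basis change -/
noncomputable def UU (ι : Type*) [Fintype ι] [DecidableEq ι] :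
    Matrix (ι → Fin 3) (ι → Fin 3) ℂ := tens (κ := fun _ : ι => Fin 3) fun _ => cartU

theorem UU_mul_conj : UU ι * (UU ι)ᴴ = 1 := by
  unfold UU
  rw [tens_conjTranspose]
  exact tens_mul_eq_one fun _ => cartU_mul_conj

theorem conj_mul_UU : (UU ι)ᴴ * UU ι = 1 := by
  unfold UU
  rw [tens_conjTranspose]
  exact tens_mul_eq_one fun _ => conj_mul_cartU

theorem onSite_spinOp (a : Fin 3) (j : ι) :
    onSite (spinOp a) j =
      UU ι * (Complex.I • cplx (site (κ := fun _ : ι => Fin 3) j (Lr a))) * (UU ι)ᴴ := by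
  rw [onSite_eq_site, cplx_site, ← site_smul]
  unfold UU
  rw [tens_conjTranspose, tens_conj_site _ _ (fun _ => cartU_mul_conj)]
  congr 1
  exact spinOp_eq a

theorem bond_eq_nbond (j k : ι) :
    bond j k = - (UU ι * cplx (nbond 1 j k) * (UU ι)ᴴ) := by
  unfold bond nbond
  rw [cplx_sum, Finset.mul_sum, Finset.sum_mul, ← Finset.sum_neg_distrib]
  refine Finset.sum_congr rfl fun a _ => ?_
  rw [onSite_spinOp, onSite_spinOp, cplx_mul]
  have h1 : (1 : Matrix (Fin 3) (Fin 3) ℝ) * Lr a * 1ᵀ = Lr a := by simp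
  rw [h1]
  set A := cplx (site (κ := fun _ : ι => Fin 3) j (Lr a))
  set B := cplx (site (κ := fun _ : ι => Fin 3) k (Lr a))
  calc UU ι * (Complex.I • A) * (UU ι)ᴴ * (UU ι * (Complex.I • B) * (UU ι)ᴴ) =
      UU ι * (Complex.I • A) * ((UU ι)ᴴ * UU ι) * (Complex.I • B) * (UU ι)ᴴ := by
        simp only [Matrix.mul_assoc]
    _ = UU ι * ((Complex.I • A) * (Complex.I • B)) * (UU ι)ᴴ := by
        rw [conj_mul_UU, Matrix.mul_one]; simp only [Matrix.mul_assoc]
    _ = -(UU ι * (A * B) * (UU ι)ᴴ) := by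
        have h3 : (Complex.I • A) * (Complex.I • B) = -(A * B) := by
          rw [Matrix.smul_mul, Matrix.mul_smul, smul_smul, Complex.I_mul_I, neg_one_smul]
        rw [h3, Matrix.mul_neg, Matrix.neg_mul]

end Bond

section Ring

/-- relabelling the sites: `(i,s) ↦ 2i+s` -/
def eS (m : ℕ) : RSite m ≃ Fin (m * 2) := finProdFinEquiv

theorem finRotate_eS_zero {m : ℕ} (i : Fin m) :
    finRotate (m * 2) (eS m (i, 0)) = eS m (i, 1) := by
  have hi := i.isLt
  obtain ⟨N, hN⟩ : ∃ N, m * 2 = N + 1 := ⟨m * 2 - 1, by omega⟩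
  apply Fin.ext
  have h1 : (eS m (i, 0)).val = 2 * i.val := by simp [eS, finProdFinEquiv]
  have h2 : (eS m (i, 1)).val = 2 * i.val + 1 := by simp [eS, finProdFinEquiv]; omega
  have key : ∀ (K : ℕ) (hK : K = N + 1) (j : Fin K), j.val < N →
      (finRotate K j).val = j.val + 1 := by
    intro K hK j hj
    subst hK
    rw [show j = ⟨j.val, by omega⟩ from rfl, finRotate_of_lt hj]
  rw [key _ hN _ (by omega), h1, h2]

theorem finRotate_eS_one {m : ℕ} (i : Fin m) :
    finRotate (m * 2) (eS m (i, 1)) = eS m (nxt i, 0) := by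
  have hi := i.isLt
  obtain ⟨N, hN⟩ : ∃ N, m * 2 = N + 1 := ⟨m * 2 - 1, by omega⟩
  obtain ⟨M, hM⟩ : ∃ M, m = M + 1 := ⟨m - 1, by omega⟩
  apply Fin.ext
  have h1 : (eS m (i, 1)).val = 2 * i.val + 1 := by simp [eS, finProdFinEquiv]; omega
  have h2 : (eS m (nxt i, 0)).val = 2 * (nxt i).val := by simp [eS, finProdFinEquiv]
  have key : ∀ (K L : ℕ) (hK : K = L + 1) (j : Fin K), j.val < L →
      (finRotate K j).val = j.val + 1 := by
    intro K L hK j hj
    subst hK
    rw [show j = ⟨j.val, by omega⟩ from rfl, finRotate_of_lt hj]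
  have key2 : ∀ (K L : ℕ) (hK : K = L + 1) (j : Fin K), j.val = L →
      (finRotate K j).val = 0 := by
    intro K L hK j hj
    subst hK
    rw [show j = Fin.last L from Fin.ext hj, finRotate_last]
    rfl
  rw [h2]
  unfold nxt
  by_cases h : i.val + 1 = m
  · rw [key2 _ N hN _ (by omega), key2 _ M hM _ (by omega)]
  · rw [key _ N hN _ (by omega), key _ M hM _ (by omega), h1]
    omega

theorem cplx_reindex {κ κ' : Type*} (e : κ ≃ κ') (A : Matrix κ κ ℝ) :
    cplx (Matrix.reindex e e A) = Matrix.reindex e e (cplx A) := rfl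

/-- relabelling of configurations -/
def eC (m : ℕ) : (RSite m → Fin 3) ≃ (Fin (m * 2) → Fin 3) :=
  (eS m).arrowCongr (Equiv.refl (Fin 3))

theorem reindex_mul' {κ κ' R : Type*} [Fintype κ] [Fintype κ'] [DecidableEq κ] [DecidableEq κ']
    [CommRing R] (e : κ ≃ κ') (A B : Matrix κ κ R) :
    Matrix.reindex e e (A * B) = Matrix.reindex e e A * Matrix.reindex e e B :=
  map_mul (Matrix.reindexRingEquiv R e) A B

theorem reindex_sum' {κ κ' R α : Type*} [Fintype κ] [Fintype κ'] [DecidableEq κ] [DecidableEq κ']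
    [CommRing R] (e : κ ≃ κ') (s : Finset α) (A : α → Matrix κ κ R) :
    Matrix.reindex e e (∑ a ∈ s, A a) = ∑ a ∈ s, Matrix.reindex e e (A a) :=
  map_sum (Matrix.reindexRingEquiv R e) A s

theorem nbond_reindex {m : ℕ} (h : Matrix (Fin 3) (Fin 3) ℝ) (j k : RSite m) :
    Matrix.reindex (eC m) (eC m) (nbond h j k) = nbond h (eS m j) (eS m k) := by
  unfold nbond
  rw [reindex_sum']
  refine Finset.sum_congr rfl fun a _ => ?_
  rw [reindex_mul']
  unfold eC
  rw [site_reindex, site_reindex]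

/-- **(1b)** the prelude ring of `2m` sites in the Cartesian basis. -/
theorem heisenbergRing_eq (m : ℕ) :
    heisenbergRing (m * 2) =
      - (UU (Fin (m * 2)) * cplx (Matrix.reindex (eC m) (eC m) (negH 1 m)) * (UU (Fin (m * 2)))ᴴ) := by
  have h1 : heisenbergRing (m * 2) = ∑ p : RSite m, bond (eS m p) (finRotate (m * 2) (eS m p)) := by
    unfold heisenbergRing
    exact ((eS m).sum_comp fun j => bond j (finRotate (m * 2) j)).symm
  have h2 : Matrix.reindex (eC m) (eC m) (negH 1 m) =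
      ∑ p : RSite m, nbond 1 (eS m p) (finRotate (m * 2) (eS m p)) := by
    unfold negH
    have hadd : ∀ A B : Matrix (RSite m → Fin 3) (RSite m → Fin 3) ℝ,
        Matrix.reindex (eC m) (eC m) (A + B) =
          Matrix.reindex (eC m) (eC m) A + Matrix.reindex (eC m) (eC m) B := fun _ _ => rfl
    rw [hadd, reindex_sum', reindex_sum', Fintype.sum_prod_type]
    simp only [Fin.sum_univ_two, Finset.sum_add_distrib]
    congr 1
    · refine Finset.sum_congr rfl fun i _ => ?_
      rw [nbond_reindex, finRotate_eS_zero]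
    · refine Finset.sum_congr rfl fun i _ => ?_
      rw [ite_self, nbond_reindex, finRotate_eS_one]
  rw [h1, h2, cplx_sum, Finset.mul_sum, Finset.sum_mul, ← Finset.sum_neg_distrib]
  exact Finset.sum_congr rfl fun p _ => bond_eq_nbond _ _

/-! ### symmetry of `negH` -/

theorem Lr_transpose (a : Fin 3) : (Lr a)ᵀ = -Lr a := by
  fin_cases a <;> ext i j <;> fin_cases i <;> fin_cases j <;> simp [Lr]

theorem site_neg {ι : Type*} [Fintype ι] [DecidableEq ι] (j : ι) (A : Matrix (Fin 3) (Fin 3) ℝ) :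
    site (κ := fun _ : ι => Fin 3) j (-A) = -site (κ := fun _ : ι => Fin 3) j A := by
  have := site_smul (κ := fun _ : ι => Fin 3) j (-1 : ℝ) A
  rw [neg_one_smul, neg_one_smul] at this
  exact this

theorem nbond_transpose {ι : Type*} [Fintype ι] [DecidableEq ι] (h : Matrix (Fin 3) (Fin 3) ℝ)
    {j k : ι} (hjk : j ≠ k) : (nbond h j k)ᵀ = nbond h j k := by
  unfold nbond
  rw [Matrix.transpose_sum]
  refine Finset.sum_congr rfl fun a _ => ?_
  rw [Matrix.transpose_mul, site_transpose, site_transpose, Matrix.transpose_mul,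
    Matrix.transpose_mul, Matrix.transpose_transpose, Lr_transpose, Matrix.neg_mul,
    Matrix.mul_neg, ← Matrix.mul_assoc, site_neg, site_neg, neg_mul_neg]
  exact site_comm (κ := fun _ : ι => Fin 3) hjk.symm _ _

theorem negH_transpose (h : Matrix (Fin 3) (Fin 3) ℝ) (m : ℕ) : (negH h m)ᵀ = negH h m := by
  unfold negH
  rw [Matrix.transpose_add, Matrix.transpose_sum, Matrix.transpose_sum]
  congr 1
  · exact Finset.sum_congr rfl fun i _ => nbond_transpose _ (by simp)
  · exact Finset.sum_congr rfl fun i _ => nbond_transpose _ (by simp)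

theorem cplx_conjTranspose {κ : Type*} (A : Matrix κ κ ℝ) : (cplx A)ᴴ = cplx Aᵀ := by
  ext i j
  simp [cplx, Matrix.conjTranspose_apply]

theorem heisenbergRing_isHermitian (m : ℕ) : (heisenbergRing (m * 2)).IsHermitian := by
  unfold Matrix.IsHermitian
  rw [heisenbergRing_eq, Matrix.conjTranspose_neg, Matrix.conjTranspose_mul,
    Matrix.conjTranspose_mul, Matrix.conjTranspose_conjTranspose, cplx_conjTranspose,
    ← Matrix.mul_assoc]
  congr 3
  have : (Matrix.reindex (eC m) (eC m) (negH 1 m))ᵀ =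
      Matrix.reindex (eC m) (eC m) (negH 1 m)ᵀ := rfl
  rw [this, negH_transpose]

/-- The partition function of the prelude ring is `Zp 1 1`. -/
theorem trace_exp_heisenbergRing (m : ℕ) (β : ℝ) :
    (NormedSpace.exp ((-β) • heisenbergRing (m * 2))).trace = ((Zp 1 1 β m : ℝ) : ℂ) := by
  have h1 : (-β) • heisenbergRing (m * 2) =
      β • (UU (Fin (m * 2)) * cplx (Matrix.reindex (eC m) (eC m) (negH 1 m)) *
        (UU (Fin (m * 2)))ᴴ) := by
    rw [heisenbergRing_eq, neg_smul, smul_neg, neg_neg]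
  rw [h1, exp_conj_smul_of_mul_eq_one UU_mul_conj, Matrix.trace_mul_cycle, conj_mul_UU,
    Matrix.one_mul]
  have h2 : β • cplx (Matrix.reindex (eC m) (eC m) (negH 1 m)) =
      (Matrix.reindex (eC m) (eC m) (β • negH 1 m)).map (fun x : ℝ => (x : ℂ)) := by
    ext i j
    simp [cplx]
  rw [h2, ← exp_map_ofReal, exp_reindex]
  unfold Zp
  have h3 : tens (κ := fun _ : RSite m => Fin 3) (fun _ => (1 : Matrix (Fin 3) (Fin 3) ℝ)) = 1 :=
    tens_one
  rw [h3, Matrix.one_mul, ← trace_reindex (eC m)]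
  simp [Matrix.trace]

/-- **(1d)** gap of the ring from the abstract world. -/
theorem ring_gap (w : World) (e : ℝ) {m : ℕ} (hm : 1 ≤ m)
    (hw : ∀ β : ℝ, 0 < β → w.Z 0 β m = Zp 1 1 β m * Real.exp (β * (2 * m) * e)) {β c : ℝ}
    (hβ : 0 < β) (h : w.Z 0 β m < (w.W 0 m) ^ β * (1 + Real.exp (-(β * c)))) :
    HasSimpleGroundStateWithGap (heisenbergRing (m * 2)) c := by
  have hB := w.hZtopB m hm
  refine gap_of_top_hermitian (heisenbergRing_isHermitian m) (fun β => w.Z 0 β m) (2 * m * e)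
    (w.W 0 m) hB.t_nonneg ?_ ?_ hβ h
  · intro b hb
    rw [trace_exp_heisenbergRing, Complex.ofReal_re, hw b hb]
    congr 2
    ring
  · intro b hb
    have : 0 ≤ w.Z 0 b m - (w.W 0 m) ^ b := hB.rem.nonneg b hb
    linarith

end Ring

end Hald
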