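import Crest.Agent.Hald.HalfTime
import Crest.Agent.Hald.LinkRing

/-!
# Row 347, M3 (3d): half space shift
-/

set_option autoImplicit false
set_option linter.unusedSectionVars false

namespace Hald

open Matrix Finset

theorem nbond_reindex' {ι ι' : Type*} [Fintype ι] [Fintype ι'] [DecidableEq ι] [DecidableEq ι']
    (e : ι ≃ ι') (h : Matrix (Fin 3) (Fin 3) ℝ) (j k : ι) :
    Matrix.reindex (e.arrowCongr (Equiv.refl (Fin 3))) (e.arrowCongr (Equiv.refl (Fin 3)))
      (nbond h j k) = nbond h (e j) (e k) := by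
  unfold nbond
  rw [reindex_sum']
  refine Finset.sum_congr rfl fun a _ => ?_
  rw [reindex_mul', site_reindex, site_reindex]

/-- half translation of the cells -/
def hflip (k : ℕ) : Fin (k + k) ≃ Fin (k + k) := finAddFlip

theorem hflip_val {k : ℕ} (i : Fin (k + k)) :
    (hflip k i).val = if i.val < k then i.val + k else i.val - k := by
  unfold hflip
  refine Fin.addCases (fun i => ?_) (fun i => ?_) i
  · rw [finAddFlip_apply_castAdd]
    simp [add_comm]
  · rw [finAddFlip_apply_natAdd]
    simp

theorem hflip_invol {k : ℕ} (i : Fin (k + k)) : hflip k (hflip k i) = i := by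
  apply Fin.ext
  rw [hflip_val, hflip_val]
  have := i.isLt
  split_ifs <;> omega

theorem nxt_val {m : ℕ} (i : Fin m) : (nxt i).val = if i.val + 1 = m then 0 else i.val + 1 := by
  obtain ⟨n, rfl⟩ : ∃ n, m = n + 1 := ⟨m - 1, by have := i.isLt; omega⟩
  unfold nxt
  rw [coe_finRotate]
  by_cases h : i = Fin.last n
  · subst h; simp
  · have h' : ¬ (i.val + 1 = n + 1) := fun h' => h (Fin.ext (by simpa using h'))
    rw [if_neg h, if_neg h']

theorem hflip_nxt {k : ℕ} (i : Fin (k + k)) : hflip k (nxt i) = nxt (hflip k i) := by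
  apply Fin.ext
  rw [hflip_val, nxt_val, nxt_val, hflip_val]
  have := i.isLt
  split_ifs <;> omega

/-- site relabelling -/
def hsite (k : ℕ) : RSite (k + k) ≃ RSite (k + k) := Equiv.prodCongr (hflip k) (Equiv.refl _)

theorem hsite_mk {k : ℕ} (i : Fin (k + k)) (s : Fin 2) : hsite k (i, s) = (hflip k i, s) := rfl

theorem hsite_invol {k : ℕ} (p : RSite (k + k)) : hsite k (hsite k p) = p := by
  obtain ⟨i, s⟩ := p
  simp [hsite, hflip_invol]

theorem hsite_symm {k : ℕ} : (hsite k).symm = hsite k := by
  ext1 p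
  rw [Equiv.symm_apply_eq, hsite_invol]

/-- configuration relabelling -/
def hconf (k : ℕ) (σ : RSite (k + k) → Fin 3) : RSite (k + k) → Fin 3 := fun p => σ (hsite k p)

theorem hconf_invol {k : ℕ} : Function.Involutive (hconf k) := by
  intro σ
  funext p
  simp [hconf, hsite_invol]

theorem reindex_hsite {k : ℕ} (A : Matrix (RSite (k + k) → Fin 3) (RSite (k + k) → Fin 3) ℝ) :
    Matrix.reindex ((hsite k).arrowCongr (Equiv.refl (Fin 3)))
      ((hsite k).arrowCongr (Equiv.refl (Fin 3))) A =
      Matrix.of fun σ τ => A (hconf k σ) (hconf k τ) := by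
  ext σ τ
  simp only [Matrix.reindex_apply, Matrix.submatrix_apply, Matrix.of_apply]
  rfl

/-- rotation pattern -/
noncomputable def hU (k : ℕ) (p : RSite (k + k)) : Matrix (Fin 3) (Fin 3) ℝ :=
  if p.1.val < k then gx else 1

theorem hU_rot {k : ℕ} (p : RSite (k + k)) : IsRot (hU k p) := by
  unfold hU
  split_ifs
  · exact isRot_gx
  · exact isRot_one

theorem hU_transpose {k : ℕ} (p : RSite (k + k)) : (hU k p)ᵀ = hU k p := by
  unfold hU
  split_ifs
  · exact gxT
  · exact Matrix.transpose_one

/-- the permutation part -/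
noncomputable def hP (k : ℕ) : Matrix (RSite (k + k) → Fin 3) (RSite (k + k) → Fin 3) ℝ :=
  sperm (fun _ => 1) (hconf k)

theorem hP_sq (k : ℕ) : hP k * hP k = 1 := by
  unfold hP
  rw [sperm_sperm hconf_invol]
  simp

theorem hP_transpose (k : ℕ) : (hP k)ᵀ = hP k := by
  unfold hP
  rw [sperm_transpose hconf_invol]

theorem hP_conj {k : ℕ} (A : Matrix (RSite (k + k) → Fin 3) (RSite (k + k) → Fin 3) ℝ) :
    hP k * A * hP k = Matrix.reindex ((hsite k).arrowCongr (Equiv.refl (Fin 3)))
      ((hsite k).arrowCongr (Equiv.refl (Fin 3))) A := by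
  rw [reindex_hsite]
  ext σ τ
  unfold hP
  rw [mul_sperm hconf_invol, sperm_mul]
  simp

theorem negH_reindex {k : ℕ} :
    Matrix.reindex ((hsite k).arrowCongr (Equiv.refl (Fin 3)))
      ((hsite k).arrowCongr (Equiv.refl (Fin 3))) (negH gx (k + k)) =
      (∑ i : Fin (k + k), nbond 1 (i, 0) (i, 1)) +
        ∑ i : Fin (k + k), nbond (if i.val + 1 = k then gx else 1) (i, 1) (nxt i, 0) := by
  unfold negH
  have hadd : ∀ A B : Matrix (RSite (k + k) → Fin 3) (RSite (k + k) → Fin 3) ℝ,
      Matrix.reindex ((hsite k).arrowCongr (Equiv.refl (Fin 3)))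
        ((hsite k).arrowCongr (Equiv.refl (Fin 3))) (A + B) =
        Matrix.reindex ((hsite k).arrowCongr (Equiv.refl (Fin 3)))
        ((hsite k).arrowCongr (Equiv.refl (Fin 3))) A + Matrix.reindex ((hsite k).arrowCongr (Equiv.refl (Fin 3)))
        ((hsite k).arrowCongr (Equiv.refl (Fin 3))) B := fun _ _ => rfl
  rw [hadd, reindex_sum', reindex_sum']
  simp only [nbond_reindex']
  have e1 : ∑ i : Fin (k + k), nbond 1 (hsite k (i, 0)) (hsite k (i, 1)) =
      ∑ i : Fin (k + k), nbond (ι := RSite (k + k)) 1 (i, 0) (i, 1) := by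
    rw [← (hflip k).sum_comp]
    refine Finset.sum_congr rfl fun i _ => ?_
    rw [hsite_mk, hsite_mk, hflip_invol]
  have e2 : ∑ i : Fin (k + k), nbond (if i.val + 1 = k + k then gx else 1) (hsite k (i, 1))
      (hsite k (nxt i, 0)) =
      ∑ i : Fin (k + k), nbond (ι := RSite (k + k)) (if i.val + 1 = k then gx else 1) (i, 1)
        (nxt i, 0) := by
    rw [← (hflip k).sum_comp]
    refine Finset.sum_congr rfl fun i _ => ?_
    rw [hsite_mk, hsite_mk, hflip_nxt, hflip_invol]
    have h2 : ((hflip k i).val + 1 = k + k) ↔ (i.val + 1 = k) := by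
      rw [hflip_val]
      have := i.isLt
      split_ifs <;> omega
    by_cases h : i.val + 1 = k
    · rw [if_pos h, if_pos (h2.mpr h)]
    · rw [if_neg h, if_neg (fun h' => h (h2.mp h'))]
  rw [e1, e2]

theorem hU_conj {k : ℕ} (hk : 1 ≤ k) :
    tens (κ := fun _ : RSite (k + k) => Fin 3) (hU k) *
      ((∑ i : Fin (k + k), nbond 1 (i, 0) (i, 1)) +
        ∑ i : Fin (k + k), nbond (if i.val + 1 = k then gx else 1) (i, 1) (nxt i, 0)) *
      tens (κ := fun _ : RSite (k + k) => Fin 3) (fun p => (hU k p)ᵀ) = negH gx (k + k) := by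
  unfold negH
  rw [Matrix.mul_add, Matrix.add_mul, Finset.mul_sum, Finset.sum_mul, Finset.mul_sum,
    Finset.sum_mul]
  congr 1
  · refine Finset.sum_congr rfl fun i _ => ?_
    rw [nbond_conj (hU k) hU_rot]
    congr 1
    have : hU k (i, 1) = hU k (i, 0) := rfl
    rw [this, Matrix.mul_one, (hU_rot (i, 0)).orth]
  · refine Finset.sum_congr rfl fun i _ => ?_
    rw [nbond_conj (hU k) hU_rot]
    congr 1
    have hi := i.isLt
    have hn := nxt_val i
    unfold hU
    simp only
    rw [hn]
    by_cases h1 : i.val + 1 = k + k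
    · have h2 : ¬ (i.val + 1 = k) := by omega
      have h3 : ¬ (i.val < k) := by omega
      have h4 : 0 < k := by omega
      rw [if_pos h1, if_neg h2, if_neg h3, if_pos h1, if_pos h4]
      simp
    · rw [if_neg h1, if_neg h1]
      by_cases h2 : i.val + 1 = k
      · have h3 : i.val < k := by omega
        have h4 : ¬ (i.val + 1 < k) := by omega
        rw [if_pos h2, if_pos h3, if_neg h4, Matrix.one_mul, gxT, gx_gx]
      · rw [if_neg h2]
        by_cases h3 : i.val < k
        · have h4 : i.val + 1 < k := by omega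
          rw [if_pos h3, if_pos h4, Matrix.mul_one, gxT, gx_gx]
        · have h4 : ¬ (i.val + 1 < k) := by omega
          rw [if_neg h3, if_neg h4]
          simp

theorem hU_comm {k : ℕ} {g : Matrix (Fin 3) (Fin 3) ℝ} (hg : gx * g = g * gx) (p : RSite (k + k)) :
    hU k p * g = g * hU k p := by
  unfold hU
  split_ifs
  · exact hg
  · simp

/-- **(3d)** half space shift -/
theorem half_space_shift {k : ℕ} (hk : 1 ≤ k) :
    ∃ J : Matrix (RSite (k + k) → Fin 3) (RSite (k + k) → Fin 3) ℝ,
      J * Jᵀ = 1 ∧ Jᵀ * J = 1 ∧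
      J * J = tens (κ := fun _ : RSite (k + k) => Fin 3) (fun _ => gx) ∧
      J * negH gx (k + k) = negH gx (k + k) * J ∧
      ∀ g : Matrix (Fin 3) (Fin 3) ℝ, gx * g = g * gx →
        J * tens (κ := fun _ : RSite (k + k) => Fin 3) (fun _ => g) =
          tens (κ := fun _ : RSite (k + k) => Fin 3) (fun _ => g) * J := by
  set D := tens (κ := fun _ : RSite (k + k) => Fin 3) (hU k) with hD
  set D' := tens (κ := fun _ : RSite (k + k) => Fin 3) (fun p => (hU k p)ᵀ) with hD'
  have hDD' : D * D' = 1 := tens_mul_eq_one fun p => (hU_rot p).orth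
  have hD'D : D' * D = 1 := tens_mul_eq_one fun p => (hU_rot p).orth'
  have hDt : Dᵀ = D' := tens_transpose _
  set P := hP k with hPdef
  have hPP : P * P = 1 := hP_sq k
  have hPt : Pᵀ = P := hP_transpose k
  have hJt : (D * P)ᵀ = P * D' := by rw [Matrix.transpose_mul, hDt, hPt]
  have h1 : D * P * (D * P)ᵀ = 1 := by
    rw [hJt]
    calc D * P * (P * D') = D * (P * P) * D' := by simp only [Matrix.mul_assoc]
      _ = 1 := by rw [hPP, Matrix.mul_one, hDD']
  have h2 : (D * P)ᵀ * (D * P) = 1 := by
    rw [hJt]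
    calc P * D' * (D * P) = P * (D' * D) * P := by simp only [Matrix.mul_assoc]
      _ = 1 := by rw [hD'D, Matrix.mul_one, hPP]
  refine ⟨D * P, h1, h2, ?_, ?_, ?_⟩
  · calc D * P * (D * P) = D * (P * D * P) := by simp only [Matrix.mul_assoc]
      _ = _ := by
        rw [hP_conj, hD, tens_reindex, tens_mul]
        congr 1
        funext p
        rw [hsite_symm]
        unfold hU
        have h3 : (hsite k p).1 = hflip k p.1 := rfl
        rw [h3, hflip_val]
        have := p.1.isLt
        by_cases h4 : p.1.val < k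
        · rw [if_pos h4, if_pos h4, if_neg (by omega), Matrix.mul_one]
        · rw [if_neg h4, if_neg h4, if_pos (by omega), Matrix.one_mul]
  · have h3 : D * P * negH gx (k + k) * (D * P)ᵀ = negH gx (k + k) := by
      rw [hJt]
      calc D * P * negH gx (k + k) * (P * D') = D * (P * negH gx (k + k) * P) * D' := by
            simp only [Matrix.mul_assoc]
        _ = negH gx (k + k) := by rw [hP_conj, negH_reindex, hU_conj hk]
    calc D * P * negH gx (k + k) = D * P * negH gx (k + k) * ((D * P)ᵀ * (D * P)) := by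
          rw [h2, Matrix.mul_one]
      _ = D * P * negH gx (k + k) * (D * P)ᵀ * (D * P) := by simp only [Matrix.mul_assoc]
      _ = _ := by rw [h3]
  · intro g hg
    set G := tens (κ := fun _ : RSite (k + k) => Fin 3) (fun _ => g) with hG
    have h3 : P * G * P = G := by rw [hP_conj, hG, tens_reindex]
    have h4 : P * G = G * P := by
      calc P * G = P * G * (P * P) := by rw [hPP, Matrix.mul_one]
        _ = P * G * P * P := by simp only [Matrix.mul_assoc]
        _ = G * P := by rw [h3]
    have h5 : D * G = G * D := by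
      rw [hD, hG, tens_mul, tens_mul]
      congr 1
      funext p
      exact hU_comm hg p
    rw [Matrix.mul_assoc, h4, ← Matrix.mul_assoc, h5, Matrix.mul_assoc]

end Hald
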