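import Crest.Agent.Hald.SectorPS
import Crest.Agent.Hald.HalfSpace

/-!
# Row 347, M4 (4c): the B-sectors at finite `m`
-/

set_option autoImplicit false
set_option linter.unusedSectionVars false

namespace Hald

open Matrix Finset
open scoped ComplexOrder

/-- global rotation of the ring -/
noncomputable def tg (g : Matrix (Fin 3) (Fin 3) ℝ) (m : ℕ) :
    Matrix (RSite m → Fin 3) (RSite m → Fin 3) ℝ := tens (κ := fun _ : RSite m => Fin 3) (fun _ => g)

variable {g h : Matrix (Fin 3) (Fin 3) ℝ} {β : ℝ} {m : ℕ}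

theorem tg_mul (g h : Matrix (Fin 3) (Fin 3) ℝ) (m : ℕ) : tg (g * h) m = tg g m * tg h m :=
  (tens_mul _ _).symm

theorem tg_one (m : ℕ) : tg 1 m = 1 := tens_one

theorem tg_transpose (g : Matrix (Fin 3) (Fin 3) ℝ) (m : ℕ) : (tg g m)ᵀ = tg gᵀ m :=
  tens_transpose _

theorem tg_comm (hg : IsRot g) (hc : g * h = h * g) :
    tg g m * negH h m = negH h m * tg g m := by
  have h1 := negH_conj hg h m
  have h2 : g * h * gᵀ = h := by rw [hc, Matrix.mul_assoc, hg.orth, Matrix.mul_one]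
  rw [h2] at h1
  have h3 : tg gᵀ m * tg g m = 1 := by rw [← tg_mul, hg.orth', tg_one]
  calc tg g m * negH h m = tg g m * negH h m * (tg gᵀ m * tg g m) := by rw [h3, Matrix.mul_one]
    _ = tg g m * negH h m * tg gᵀ m * tg g m := by simp only [Matrix.mul_assoc]
    _ = _ := by
      have h4 : tg g m * negH h m * tg gᵀ m = negH h m := h1
      rw [h4]

theorem Zp_eq : Zp g h β m = (tg g m * NormedSpace.exp (β • negH h m)).trace := rfl

theorem Zp_one : Zp 1 h β m = (NormedSpace.exp (β • negH h m)).trace := by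
  rw [Zp_eq, tg_one, Matrix.one_mul]

theorem tg_D2 (m : ℕ) : D2Act (tg gx m) (tg gy m) := by
  refine ⟨?_, ?_, ?_, ?_, ?_⟩
  · rw [← tg_mul, gx_gx, tg_one]
  · rw [← tg_mul, gy_gy, tg_one]
  · rw [← tg_mul, ← tg_mul, gx_gy, gy_gx]
  · rw [tg_transpose, gxT]
  · rw [tg_transpose, gyT]

theorem tg_Z3 (m : ℕ) : Z3Act (tg gc m) := by
  refine ⟨?_, ?_⟩
  · rw [← tg_mul, ← tg_mul, gc_gc_gc, tg_one]
  · rw [tg_transpose, gcT, tg_mul]

theorem tg_A4 (m : ℕ) : A4Act (tg gx m) (tg gy m) (tg gc m) := by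
  refine { toD2Act := tg_D2 m, toZ3Act := tg_Z3 m, CX := ?_, CY := ?_ }
  · rw [← tg_mul, ← tg_mul, gc_gx]
  · rw [← tg_mul, ← tg_mul, ← tg_mul, gc_gy, gx_gy]

theorem secB_PA_trace (ζ : ℂ) (β : ℝ) :
    (PA ζ (tg gx m) (tg gy m) (tg gc m) * cplx (NormedSpace.exp (β • negH 1 m))).trace =
      ((((Zp 1 1 β m + 3 * Zp gx 1 β m) / 4 : ℝ) : ℂ) +
        (ζ + ζ * ζ) * ((Zp gc 1 β m : ℝ) : ℂ)) / 3 := by
  rw [PA_trace (tg_A4 m) (exp_smul_commute (tg_comm isRot_gx (by simp)) β)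
    (exp_smul_commute (tg_comm isRot_gy (by simp)) β)
    (exp_smul_commute (tg_comm isRot_gc (by simp)) β)
    (exp_transpose_eq (negH_transpose 1 m) β), ← Zp_one, ← Zp_eq, ← Zp_eq]

theorem secB_two_trace (β : ℝ) :
    (cplx (PD 1 (-1) (tg gx m) (tg gy m)) * cplx (NormedSpace.exp (β • negH 1 m))).trace =
      (((Zp 1 1 β m - Zp gx 1 β m) / 4 : ℝ) : ℂ) := by
  rw [← cplx_mul, cplx_trace, PD_trace, ← tg_mul, gx_gy, ← Zp_one, ← Zp_eq, ← Zp_eq, ← Zp_eq,
    Zp_gy_one, Zp_gz_one]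
  push_cast
  ring

theorem secB_gx_trace (a b : ℝ) (β : ℝ) :
    (PD a b (tg gx m) (tg gy m) * NormedSpace.exp (β • negH gx m)).trace =
      (Zp 1 gx β m + a * Zp gx gx β m + (b + a * b) * Zp gx gy β m) / 4 := by
  rw [PD_trace, ← tg_mul, gx_gy, ← Zp_one, ← Zp_eq, ← Zp_eq, ← Zp_eq, Zp_gy_gx, Zp_gz_gx]
  ring

theorem tgx_comm_x : tg gx m * negH gx m = negH gx m * tg gx m := tg_comm isRot_gx rfl
theorem tgx_comm_y : tg gy m * negH gx m = negH gx m * tg gy m :=
  tg_comm isRot_gy (by rw [gx_gy, gy_gx])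

theorem secB_gc_trace (ζ : ℂ) (β : ℝ) :
    (PZ ζ (tg gc m) * cplx (NormedSpace.exp (β • negH gc m))).trace =
      (((Zp 1 gc β m : ℝ) : ℂ) + (ζ + ζ * ζ) * ((Zp gc gc β m : ℝ) : ℂ)) / 3 := by
  rw [PZ_trace (tg_Z3 m) (exp_smul_commute (tg_comm isRot_gc rfl) β)
    (exp_transpose_eq (negH_transpose gc m) β), ← Zp_one, ← Zp_eq]

/-- **B-sectors** without doubling -/
theorem secB_ps_one (m : ℕ) (k : Fin 8) :
    PS SB cB 1 (fun β => secB k (fun t => Zp (tw t).1 (tw t).2 β m)) := by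
  fin_cases k
  · refine ps_exp (P := PA 1 (tg gx m) (tg gy m) (tg gc m)) (N := negH 1 m)
      (PA_hproj (tg_A4 m) (by norm_num) (by simp)) (negH_transpose 1 m)
      (PA_comm (tg_comm isRot_gx (by simp)) (tg_comm isRot_gy (by simp))
        (tg_comm isRot_gc (by simp))) (fun β _ => ?_)
    rw [secB_PA_trace]
    simp only [secB, tw, Matrix.cons_val_zero, Matrix.cons_val_one, Matrix.cons_val]
    push_cast
    ring
  · refine ps_exp (P := PA om3 (tg gx m) (tg gy m) (tg gc m)) (N := negH 1 m)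
      (PA_hproj (tg_A4 m) om3_cube om3_star) (negH_transpose 1 m)
      (PA_comm (tg_comm isRot_gx (by simp)) (tg_comm isRot_gy (by simp))
        (tg_comm isRot_gc (by simp))) (fun β _ => ?_)
    rw [secB_PA_trace, om3_add]
    simp only [secB, tw, Matrix.cons_val_zero, Matrix.cons_val_one, Matrix.cons_val]
    push_cast
    ring
  · refine ps_exp (P := cplx (PD 1 (-1) (tg gx m) (tg gy m))) (N := negH 1 m)
      (PD_hproj (tg_D2 m) (by norm_num) (by norm_num)) (negH_transpose 1 m) ?_ (fun β _ => ?_)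
    · rw [← cplx_mul, ← cplx_mul, PD_comm (tg_comm isRot_gx (by simp)) (tg_comm isRot_gy (by simp))]
    · rw [secB_two_trace]
      rfl
  · refine ps_exp (P := cplx (PD 1 1 (tg gx m) (tg gy m))) (N := negH gx m)
      (PD_hproj (tg_D2 m) (by norm_num) (by norm_num)) (negH_transpose gx m) ?_ (fun β _ => ?_)
    · rw [← cplx_mul, ← cplx_mul, PD_comm tgx_comm_x tgx_comm_y]
    · rw [← cplx_mul, cplx_trace, secB_gx_trace]
      simp only [secB, tw, Matrix.cons_val_one, Matrix.cons_val]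
      norm_num
  · refine ps_exp (P := cplx (PD 1 (-1) (tg gx m) (tg gy m))) (N := negH gx m)
      (PD_hproj (tg_D2 m) (by norm_num) (by norm_num)) (negH_transpose gx m) ?_ (fun β _ => ?_)
    · rw [← cplx_mul, ← cplx_mul, PD_comm tgx_comm_x tgx_comm_y]
    · rw [← cplx_mul, cplx_trace, secB_gx_trace]
      simp only [secB, tw, Matrix.cons_val_one, Matrix.cons_val]
      push_cast
      ring
  · refine ps_exp (P := cplx (PD (-1) 1 (tg gx m) (tg gy m))) (N := negH gx m)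
      (PD_hproj (tg_D2 m) (by norm_num) (by norm_num)) (negH_transpose gx m) ?_ (fun β _ => ?_)
    · rw [← cplx_mul, ← cplx_mul, PD_comm tgx_comm_x tgx_comm_y]
    · rw [← cplx_mul, cplx_trace, secB_gx_trace]
      simp only [secB, tw, Matrix.cons_val_one, Matrix.cons_val]
      push_cast
      ring
  · refine ps_exp (P := PZ 1 (tg gc m)) (N := negH gc m)
      (PZ_hproj (tg_Z3 m) (by norm_num) (by simp)) (negH_transpose gc m)
      (PZ_comm (tg_comm isRot_gc rfl)) (fun β _ => ?_)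
    rw [secB_gc_trace]
    simp only [secB, tw, Matrix.cons_val]
    push_cast
    ring
  · refine ps_exp (P := PZ om3 (tg gc m)) (N := negH gc m)
      (PZ_hproj (tg_Z3 m) om3_cube om3_star) (negH_transpose gc m)
      (PZ_comm (tg_comm isRot_gc rfl)) (fun β _ => ?_)
    rw [secB_gc_trace, om3_add]
    simp only [secB, tw, Matrix.cons_val]
    push_cast
    ring

/-- the doubled sector -/
theorem secB_ps_five {k : ℕ} (hk : 1 ≤ k) :
    PS SB cB 2 (fun β => secB 5 (fun t => Zp (tw t).1 (tw t).2 β (k + k))) := by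
  obtain ⟨J, hJ1, hJ2, hJJ, hJN, hJg⟩ := half_space_shift hk
  have hD := tg_D2 (k + k)
  have hJx : J * tg gx (k + k) = tg gx (k + k) * J := hJg gx rfl
  have hJy : J * tg gy (k + k) = tg gy (k + k) * J := hJg gy (by rw [gx_gy, gy_gx])
  refine ps_exp_two (P := PD (-1) 1 (tg gx (k + k)) (tg gy (k + k))) (J := J)
    (N := negH gx (k + k)) (PD_transpose hD) (PD_idem hD (by norm_num) (by norm_num)) hJ2
    ?_ (PD_double hD hJJ) (negH_transpose gx _) (PD_comm tgx_comm_x tgx_comm_y) hJN (fun β _ => ?_)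
  · exact (PD_comm hJx.symm hJy.symm).symm
  · rw [secB_gx_trace]
    simp only [secB, tw, Matrix.cons_val_one, Matrix.cons_val]
    ring

/-- **B-sectors** -/
theorem secB_ps {m : ℕ} (hm : 1 ≤ m) (k : Fin 8) :
    PS SB cB (muB k m) (fun β => secB k (fun t => Zp (tw t).1 (tw t).2 β m)) := by
  by_cases hk : k = 5 ∧ Even m
  · obtain ⟨rfl, r, rfl⟩ := hk
    have : muB 5 (r + r) = 2 := by
      unfold muB
      rw [if_pos ⟨rfl, r, rfl⟩]
    rw [this]
    exact secB_ps_five (by omega)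
  · have : muB k m = 1 := by
      unfold muB
      rw [if_neg hk]
    rw [this]
    exact secB_ps_one m k

/-- tops -/
theorem secB_top_zero (m : ℕ) :
    ∃ t, PSTop SB cB 1 (fun β => secB 0 (fun t => Zp (tw t).1 (tw t).2 β m)) t := by
  refine pstop_exp (P := PA 1 (tg gx m) (tg gy m) (tg gc m)) (N := negH 1 m)
    (PA_hproj (tg_A4 m) (by norm_num) (by simp)) (negH_transpose 1 m)
    (PA_comm (tg_comm isRot_gx (by simp)) (tg_comm isRot_gy (by simp))
      (tg_comm isRot_gc (by simp))) (fun β _ => ?_)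
  rw [secB_PA_trace]
  simp only [secB, tw, Matrix.cons_val_zero, Matrix.cons_val_one, Matrix.cons_val]
  push_cast
  ring

theorem secB_top_four (m : ℕ) :
    ∃ t, PSTop SB cB 1 (fun β => secB 4 (fun t => Zp (tw t).1 (tw t).2 β m)) t := by
  refine pstop_exp (P := cplx (PD 1 (-1) (tg gx m) (tg gy m))) (N := negH gx m)
    (PD_hproj (tg_D2 m) (by norm_num) (by norm_num)) (negH_transpose gx m) ?_ (fun β _ => ?_)
  · rw [← cplx_mul, ← cplx_mul, PD_comm tgx_comm_x tgx_comm_y]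
  · rw [← cplx_mul, cplx_trace, secB_gx_trace]
    simp only [secB, tw, Matrix.cons_val_one, Matrix.cons_val]
    push_cast
    ring

theorem Zp_top (m : ℕ) : ∃ t, PSTop SB cB 1 (fun β => Zp 1 1 β m) t := by
  refine pstop_exp (P := 1) (N := negH 1 m) HProj.one (negH_transpose 1 m) (by simp)
    (fun β _ => ?_)
  rw [Matrix.one_mul, cplx_trace, Zp_one]

theorem Zp_one_h_ps (h : Matrix (Fin 3) (Fin 3) ℝ) (m : ℕ) :
    PS SB cB 1 (fun β => Zp 1 h β m) := by
  refine ps_exp (P := 1) (N := negH h m) HProj.one (negH_transpose h m) (by simp)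
    (fun β _ => ?_)
  rw [Matrix.one_mul, cplx_trace, Zp_one]

end Hald
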