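import Crest.Agent.Hald.WorldAbs
import Crest.Agent.Hald.SectorA
import Crest.Agent.Hald.SectorB

/-!
# Row 347, M4 (4d), (4f): existence of the `World`
-/

set_option autoImplicit false
set_option linter.unusedSectionVars false

namespace Hald

open Matrix Finset Filter Topology

theorem tw_rot (t : Fin 8) : IsRot (tw t).2 := by
  fin_cases t
  · exact isRot_one
  · exact isRot_gx
  · exact isRot_gc
  · exact isRot_one
  · exact isRot_one
  · exact isRot_gx
  · exact isRot_gy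
  · exact isRot_gc

theorem tw_comm (t : Fin 8) : (tw t).1 * (tw t).2 = (tw t).2 * (tw t).1 := by
  fin_cases t
  · show (1 : Matrix (Fin 3) (Fin 3) ℝ) * 1 = 1 * 1; rfl
  · show (1 : Matrix (Fin 3) (Fin 3) ℝ) * gx = gx * 1; simp
  · show (1 : Matrix (Fin 3) (Fin 3) ℝ) * gc = gc * 1; simp
  · show gx * 1 = 1 * gx; simp
  · show gc * 1 = 1 * gc; simp
  · show gx * gx = gx * gx; rfl
  · show gx * gy = gy * gx; rw [gx_gy, gy_gx]
  · show gc * gc = gc * gc; rfl

theorem tendsto_even : Tendsto (fun j : ℕ => j + j) atTop atTop :=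
  tendsto_atTop_mono (fun j => Nat.le_add_left j j) tendsto_id

theorem Zn_even_tendsto {β : ℝ} (hβ : 0 < β) {m : ℕ} (hm : 1 ≤ m) (t : Fin 8) :
    Tendsto (fun j : ℕ => Zn (tw t).1 (tw t).2 β (j + j) m) atTop
      (𝓝 (Zp (tw t).1 (tw t).2 β m)) :=
  (Zn_tendsto (tw_rot t) (tw_comm t) hβ.le hm).comp tendsto_even

theorem secA_tendsto {ι : Type*} {F : Filter ι} {z : ι → Fin 8 → ℝ} {w : Fin 8 → ℝ}
    (h : ∀ t, Tendsto (fun j => z j t) F (𝓝 (w t))) (k : Fin 8) :
    Tendsto (fun j => secA k (z j)) F (𝓝 (secA k w)) := by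
  have hc : Continuous (secA k) := by
    fin_cases k
    · show Continuous fun z : Fin 8 → ℝ => (z 0 + 3 * z 1 + 8 * z 2) / 12
      fun_prop
    · show Continuous fun z : Fin 8 → ℝ => (z 0 + 3 * z 1 - 4 * z 2) / 12
      fun_prop
    · show Continuous fun z : Fin 8 → ℝ => (z 0 - z 1) / 4
      fun_prop
    · show Continuous fun z : Fin 8 → ℝ => (z 3 + z 5 + 2 * z 6) / 4
      fun_prop
    · show Continuous fun z : Fin 8 → ℝ => (z 3 + z 5 - 2 * z 6) / 4
      fun_prop
    · show Continuous fun z : Fin 8 → ℝ => (z 3 - z 5) / 4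
      fun_prop
    · show Continuous fun z : Fin 8 → ℝ => (z 4 + 2 * z 7) / 3
      fun_prop
    · show Continuous fun z : Fin 8 → ℝ => (z 4 - z 7) / 3
      fun_prop
  exact (hc.tendsto w).comp (tendsto_pi_nhds.mpr h)

theorem secA_even_tendsto {β : ℝ} (hβ : 0 < β) (k : Fin 8) :
    ∀ m ∈ SA, Tendsto (fun j : ℕ => secA k (fun t => Zn (tw t).1 (tw t).2 β (j + j) m)) atTop
      (𝓝 (secA k (fun t => Zp (tw t).1 (tw t).2 β m))) :=
  fun _ hm => secA_tendsto (fun t => Zn_even_tendsto hβ hm t) k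

/-- (4d): A-sectors of the limit -/
theorem secA_ps {β : ℝ} (hβ : 0 < β) (k : Fin 8) :
    PS SA cA (muA k) (fun m => secA k (fun t => Zp (tw t).1 (tw t).2 β m)) :=
  PS.of_tendsto cA_pos (Eventually.of_forall fun j => secA_ps_even β j k)
    (secA_even_tendsto hβ k)

theorem secA_top_limit {β : ℝ} (hβ : 0 < β) (k : Fin 8)
    (h : ∀ n, ∃ t, PSTop SA cA 1 (fun m => secA k (fun t => Zn (tw t).1 (tw t).2 β n m)) t) :
    ∃ t, PSTop SA cA 1 (fun m => secA k (fun t => Zp (tw t).1 (tw t).2 β m)) t := by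
  choose t ht using h
  obtain ⟨t', ht', -⟩ := PSTop.exists_of_tendsto (t := fun j : ℕ => t (j + j)) cA_pos SA_nonempty
    cA_unbounded (Eventually.of_forall fun j => ht (j + j)) (secA_even_tendsto hβ k)
  exact ⟨t', ht'⟩

theorem Zp_topA {β : ℝ} (hβ : 0 < β) : ∃ t, PSTop SA cA 1 (fun m => Zp 1 1 β m) t := by
  choose t ht using fun n => Zn_top β n
  obtain ⟨t', ht', -⟩ := PSTop.exists_of_tendsto (t := fun j : ℕ => t (j + j)) cA_pos SA_nonempty
    cA_unbounded (Eventually.of_forall fun j => ht (j + j))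
    (fun m hm => Zn_even_tendsto hβ hm 0)
  exact ⟨t', ht'⟩

theorem Zp_g_one_nonneg {g : Matrix (Fin 3) (Fin 3) ℝ} {β : ℝ} (hβ : 0 < β) {m : ℕ} (hm : 1 ≤ m) :
    0 ≤ Zp g 1 β m := by
  have h := Zn_tendsto (g := g) (h := 1) isRot_one (by simp) hβ.le hm
  exact ge_of_tendsto' h fun n => (Zn_g_one_ps g β n).nonneg m hm

/-! ### the trace of the Hamiltonian vanishes -/

theorem trace_Lr (a : Fin 3) : (Lr a).trace = 0 := by
  fin_cases a <;> simp [Lr, Matrix.trace, Fin.sum_univ_three]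

theorem trace_nbond {ι : Type*} [Fintype ι] [DecidableEq ι] (h : Matrix (Fin 3) (Fin 3) ℝ)
    {j k : ι} (hjk : j ≠ k) : (nbond h j k).trace = 0 := by
  unfold nbond
  rw [Matrix.trace_sum]
  refine Finset.sum_eq_zero fun a _ => ?_
  rw [site_mul_site hjk, trace_tens]
  refine Finset.prod_eq_zero (Finset.mem_univ j) ?_
  rw [pairFam_left, trace_Lr]

theorem trace_negH (h : Matrix (Fin 3) (Fin 3) ℝ) (m : ℕ) : (negH h m).trace = 0 := by
  unfold negH
  rw [Matrix.trace_add, Matrix.trace_sum, Matrix.trace_sum]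
  rw [Finset.sum_eq_zero fun i _ => trace_nbond _ (by simp),
    Finset.sum_eq_zero fun i _ => trace_nbond _ (by simp), add_zero]

theorem one_le_Zp {β : ℝ} {m : ℕ} : 1 ≤ Zp 1 1 β m := by
  have hH : (cplx (negH 1 m)).IsHermitian := by
    unfold Matrix.IsHermitian
    rw [cplx_conjTranspose, negH_transpose]
  have h1 := trace_exp_eq_sum hH β
  rw [← cplx_exp, cplx_trace, ← Zp_one] at h1
  have h2 : Zp 1 1 β m = ∑ i, Real.exp (β * hH.eigenvalues i) := Complex.ofReal_injective h1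
  have h3 : ∑ i, hH.eigenvalues i = 0 := by
    have h4 := hH.trace_eq_sum_eigenvalues
    rw [cplx_trace, trace_negH] at h4
    apply Complex.ofReal_injective
    rw [Complex.ofReal_sum]
    exact h4.symm
  rw [h2]
  calc (1 : ℝ) ≤ Fintype.card (RSite m → Fin 3) := by
        exact_mod_cast Fintype.card_pos
    _ = ∑ i : RSite m → Fin 3, (β * hH.eigenvalues i + 1) := by
        rw [Finset.sum_add_distrib, ← Finset.mul_sum, h3]
        simp
    _ ≤ _ := Finset.sum_le_sum fun i _ => Real.add_one_le_exp _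

/-- the raw data -/
noncomputable def preWorld : PreWorld where
  z := fun t β m => Zp (tw t).1 (tw t).2 β m
  hA := fun _ hβ k => secA_ps hβ k
  topA0 := fun β hβ => secA_top_limit hβ 0 (fun n => secA_top_zero β n)
  topA4 := fun β hβ => secA_top_limit hβ 4 (fun n => secA_top_four β n)
  topAZ := fun _ hβ => Zp_topA hβ
  hB := fun _ hm k => secB_ps hm k
  topB0 := fun m _ => secB_top_zero m
  topB4 := fun m _ => secB_top_four m
  topBZ := fun m _ => Zp_top m
  hBZ := fun m _ => Zp_one_h_ps 1 m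
  pos1 := fun β hβ m _ => (Zp_one_h_ps gx m).nonneg β hβ
  pos2 := fun β hβ m _ => (Zp_one_h_ps gc m).nonneg β hβ
  pos3 := fun _ hβ _ hm => Zp_g_one_nonneg hβ hm
  pos4 := fun _ hβ _ hm => Zp_g_one_nonneg hβ hm
  one_le := fun _ _ _ _ => one_le_Zp

/-- **the World of the spin-1 Heisenberg ring** -/
noncomputable def theWorld : World := preWorld.world

/-- the ground state energy density -/
noncomputable def theE : ℝ := preWorld.e

theorem theWorld_Z (t : Fin 8) (β : ℝ) (m : ℕ) :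
    theWorld.Z t β m = Zp (tw t).1 (tw t).2 β m * Real.exp (β * (2 * m) * theE) := rfl

/-- **(4f)** -/
theorem exists_world : ∃ (w : World) (e : ℝ), ∀ t β m,
    w.Z t β m = Zp (tw t).1 (tw t).2 β m * Real.exp (β * (2 * m) * e) :=
  ⟨theWorld, theE, theWorld_Z⟩

/-- the tops of the world are the limits of the tops at finite `n` (even `n`) -/
theorem theWorld_V_unique {β : ℝ} (hβ : 0 < β) {t : ℕ → ℝ}
    (ht : ∀ᶠ j in atTop, PSTop SA cA 1 (fun m => Zn 1 1 β (j + j) m) (t j)) :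
    Tendsto (fun j => t j * Real.exp (β * theE)) atTop (𝓝 (theWorld.V 0 β)) := by
  obtain ⟨t', ht', hlim⟩ := PSTop.exists_of_tendsto cA_pos SA_nonempty
    cA_unbounded ht (fun m hm => Zn_even_tendsto hβ hm 0)
  have h1 := preWorld.tA_spec hβ
  have h2 : t' = preWorld.tA β := ht'.top_unique h1 cA_pos SA_nonempty cA_unbounded
  rw [h2] at hlim
  exact hlim.mul_const _

theorem theWorld_V_unique0 {β : ℝ} (hβ : 0 < β) {t : ℕ → ℝ}
    (ht : ∀ᶠ j in atTop, PSTop SA cA 1
      (fun m => secA 0 (fun t => Zn (tw t).1 (tw t).2 β (j + j) m)) (t j)) :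
    Tendsto (fun j => t j * Real.exp (β * theE)) atTop (𝓝 (theWorld.V 0 β)) := by
  obtain ⟨t', ht', hlim⟩ := PSTop.exists_of_tendsto cA_pos SA_nonempty
    cA_unbounded ht (secA_even_tendsto hβ 0)
  have h1 := preWorld.tA0_spec hβ
  have h2 : t' = preWorld.tA β := ht'.top_unique h1 cA_pos SA_nonempty cA_unbounded
  rw [h2] at hlim
  exact hlim.mul_const _

theorem theWorld_Vx_unique {β : ℝ} (hβ : 0 < β) {t : ℕ → ℝ}
    (ht : ∀ᶠ j in atTop, PSTop SA cA 1
      (fun m => secA 4 (fun t => Zn (tw t).1 (tw t).2 β (j + j) m)) (t j)) :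
    Tendsto (fun j => t j * Real.exp (β * theE)) atTop (𝓝 (theWorld.V 1 β)) := by
  obtain ⟨t', ht', hlim⟩ := PSTop.exists_of_tendsto cA_pos SA_nonempty
    cA_unbounded ht (secA_even_tendsto hβ 4)
  have h1 := preWorld.tA4_spec hβ
  have h2 : t' = preWorld.tA4 β := ht'.top_unique h1 cA_pos SA_nonempty cA_unbounded
  rw [h2] at hlim
  exact hlim.mul_const _

end Hald
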