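import Crest.Agent.Hald.SectorTop
import Crest.Agent.Hald.StripLimit
import Crest.Agent.Hald.ChainShift
import Crest.Agent.Hald.WorldExists

/-!
# Row 347, M5: normalised transfer matrices, their sectors, spectral data on shift invariant vectors
-/

set_option autoImplicit false
set_option linter.unusedSectionVars false

namespace Hald

open Matrix Finset Filter Topology
open scoped ComplexOrder

/-! ### real vectors as complex vectors -/

section cv

variable {Ω : Type*} [Fintype Ω] [DecidableEq Ω]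

def cv (x : Ω → ℝ) : Ω → ℂ := fun i => (x i : ℂ)

theorem cv_dot (x y : Ω → ℝ) : cv x ⬝ᵥ cv y = ((x ⬝ᵥ y : ℝ) : ℂ) := by
  simp [cv, dotProduct]

theorem star_cv (x : Ω → ℝ) : star (cv x) = cv x := by
  funext i
  exact Complex.conj_ofReal _

theorem cplx_mulVec (A : Matrix Ω Ω ℝ) (x : Ω → ℝ) : cplx A *ᵥ cv x = cv (A *ᵥ x) := by
  funext i
  simp [cv, cplx, Matrix.mulVec, dotProduct]

theorem cv_smul (c : ℝ) (x : Ω → ℝ) : cv (c • x) = (c : ℂ) • cv x := by
  funext i
  simp [cv]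

theorem cv_inj {x y : Ω → ℝ} (h : cv x = cv y) : x = y := by
  funext i
  have := congrFun h i
  simpa [cv] using this

theorem cv_zero : cv (0 : Ω → ℝ) = 0 := by
  funext i
  simp [cv]

theorem cv_ne_zero {x : Ω → ℝ} (h : x ≠ 0) : cv x ≠ 0 := by
  intro h0
  rw [← cv_zero] at h0
  exact h (cv_inj h0)

/-- an eigenvector of `T` that is not orthogonal to a vector of the sector has a nonzero component in
the sector -/
theorem sector_vec {P T : Matrix Ω Ω ℂ} (hP : HProj P) (hPT : P * T = T * P) {x u : Ω → ℝ}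
    (hx : P *ᵥ cv x = cv x) {μ : ℝ} (hu : T *ᵥ cv u = (μ : ℂ) • cv u) (hne : u ⬝ᵥ x ≠ 0) :
    ∃ y : Ω → ℂ, y ≠ 0 ∧ P *ᵥ y = y ∧ T *ᵥ y = (μ : ℂ) • y := by
  refine ⟨P *ᵥ cv u, ?_, ?_, ?_⟩
  · intro h0
    apply hne
    have h1 : star (P *ᵥ cv u) ⬝ᵥ cv x = 0 := by rw [h0]; simp
    rw [Matrix.star_mulVec, hP.herm, ← Matrix.dotProduct_mulVec, hx, star_cv, cv_dot] at h1
    exact_mod_cast h1
  · rw [Matrix.mulVec_mulVec, hP.idem]
  · rw [Matrix.mulVec_mulVec, ← hPT, ← Matrix.mulVec_mulVec, hu, Matrix.mulVec_smul]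

end cv

/-! ### normalised transfer matrices -/

/-- normalised kernel -/
noncomputable def KN (g : Matrix (Fin 3) (Fin 3) ℝ) (β e : ℝ) (n : ℕ) : Matrix (Om n) (Om n) ℝ :=
  Real.exp (β * e) • Kn g β n

/-- normalised `K Kᵀ` -/
noncomputable def TN (g : Matrix (Fin 3) (Fin 3) ℝ) (β e : ℝ) (n : ℕ) : Matrix (Om n) (Om n) ℝ :=
  Real.exp (2 * (β * e)) • TA g β n

section TN

variable {g h : Matrix (Fin 3) (Fin 3) ℝ} {β e : ℝ} {n : ℕ}

theorem TN_eq : KN g β e n * (KN g β e n)ᵀ = TN g β e n := by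
  unfold KN TN TA
  rw [Matrix.transpose_smul, Matrix.smul_mul, Matrix.mul_smul, smul_smul, ← Real.exp_add, two_mul]

theorem TN_psd : (cplx (TN g β e n)).PosSemidef := by
  rw [← TN_eq, cplx_mul, ← cplx_conjTranspose]
  exact Matrix.posSemidef_self_mul_conjTranspose _

theorem TN_pow (m : ℕ) : TN g β e n ^ m = Real.exp (β * (2 * m) * e) • TA g β n ^ m := by
  unfold TN
  rw [smul_pow, ← Real.exp_nat_mul]
  congr 2
  ring

theorem TN_trace {P : Matrix (Om n) (Om n) ℂ} {m : ℕ} {z : ℝ}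
    (h : (P * cplx (TA g β n ^ m)).trace = (z : ℂ)) :
    (P * cplx (TN g β e n) ^ m).trace.re = z * Real.exp (β * (2 * m) * e) := by
  rw [← cplx_pow, TN_pow, cplx_smul, Matrix.mul_smul, Matrix.trace_smul, h, smul_eq_mul,
    ← Complex.ofReal_mul, Complex.ofReal_re, mul_comm]

theorem TN_comm_of {P : Matrix (Om n) (Om n) ℂ} (h : P * cplx (TA g β n) = cplx (TA g β n) * P) :
    P * cplx (TN g β e n) = cplx (TN g β e n) * P := by
  unfold TN
  rw [cplx_smul, Matrix.mul_smul, Matrix.smul_mul, h]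

end TN

/-- a sector of the transfer matrices -/
structure Sector (g : Matrix (Fin 3) (Fin 3) ℝ) (β e : ℝ) (b : ℕ → ℝ) where
  P : ∀ n, Matrix (Om n) (Om n) ℂ
  hP : ∀ n, HProj (P n)
  hPT : ∀ n, P n * cplx (TN g β e n) = cplx (TN g β e n) * P n
  hlim : ∀ m, 1 ≤ m → Tendsto (fun n => (P n * cplx (TN g β e n) ^ m).trace.re) atTop (𝓝 (b m))

/-- eigenvalues in a sector are bounded by the limit trace -/
theorem Sector.bound {g : Matrix (Fin 3) (Fin 3) ℝ} {β e : ℝ} {b : ℕ → ℝ} (S : Sector g β e b)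
    {m : ℕ} (hm : 1 ≤ m) {q : ℝ} (hq : 0 < q) (h : b m < q ^ (2 * m)) :
    ∀ᶠ n in atTop, ∀ (μ : ℝ) (y : Om n → ℂ), y ≠ 0 → S.P n *ᵥ y = y →
      cplx (TN g β e n) *ᵥ y = (μ : ℂ) • y → μ ≤ q ^ 2 := by
  filter_upwards [(S.hlim m hm).eventually (gt_mem_nhds h)] with n hn μ y hy hPy hTy
  by_contra hcon
  push Not at hcon
  have h1 := trace_ge_one' (S.hP n) TN_psd hy hPy hTy m
  have h2 : (q ^ 2) ^ m ≤ μ ^ m := pow_le_pow_left₀ (by positivity) hcon.le m
  rw [← pow_mul] at h2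
  linarith

/-! ### the sectors of the world -/

theorem world_secA (k : Fin 8) {β : ℝ} (hβ : 0 < β) {m : ℕ} (hm : 1 ≤ m) :
    Tendsto (fun n => secA k (fun t => Zn (tw t).1 (tw t).2 β n m) *
      Real.exp (β * (2 * m) * theE)) atTop (𝓝 (secA k (fun t => theWorld.Z t β m))) := by
  have h1 : ∀ t, Tendsto (fun n => Zn (tw t).1 (tw t).2 β n m) atTop
      (𝓝 (Zp (tw t).1 (tw t).2 β m)) := fun t => Zn_tendsto (tw_rot t) (tw_comm t) hβ.le hm
  have h2 := (secA_tendsto h1 k).mul_const (Real.exp (β * (2 * m) * theE))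
  rw [← secA_smul] at h2
  exact h2

/-- the trivial sector -/
noncomputable def sec0 {β : ℝ} (hβ : 0 < β) :
    Sector 1 β theE (fun m => secA 0 (fun t => theWorld.Z t β m)) where
  P := fun n => PA 1 (rho gx n) (rho gy n) (rho gc n)
  hP := fun n => PA_hproj (rho_A4 n) (by norm_num) (by simp)
  hPT := fun n => TN_comm_of (PA_comm (TA_comm isRot_gx (by simp)) (TA_comm isRot_gy (by simp))
    (TA_comm isRot_gc (by simp)))
  hlim := fun m hm => (world_secA 0 hβ hm).congr fun n => (TN_trace (secA_zero_trace m)).symm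

/-- the sector `ω` -/
noncomputable def sec1 {β : ℝ} (hβ : 0 < β) :
    Sector 1 β theE (fun m => secA 1 (fun t => theWorld.Z t β m)) where
  P := fun n => PA om3 (rho gx n) (rho gy n) (rho gc n)
  hP := fun n => PA_hproj (rho_A4 n) om3_cube om3_star
  hPT := fun n => TN_comm_of (PA_comm (TA_comm isRot_gx (by simp)) (TA_comm isRot_gy (by simp))
    (TA_comm isRot_gc (by simp)))
  hlim := fun m hm => (world_secA 1 hβ hm).congr fun n => (TN_trace (secA_one_trace m)).symm

/-- one third of the triplet sector -/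
noncomputable def sec2 {β : ℝ} (hβ : 0 < β) :
    Sector 1 β theE (fun m => secA 2 (fun t => theWorld.Z t β m)) where
  P := fun n => cplx (PD 1 (-1) (rho gx n) (rho gy n))
  hP := fun n => PD_hproj (rho_D2 n) (by norm_num) (by norm_num)
  hPT := fun n => TN_comm_of (by
    rw [← cplx_mul, ← cplx_mul, PD_comm (TA_comm isRot_gx (by simp)) (TA_comm isRot_gy (by simp))])
  hlim := fun m hm => (world_secA 2 hβ hm).congr fun n => (TN_trace (secA_two_trace m)).symm

/-- everything -/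
noncomputable def secZ {β : ℝ} (hβ : 0 < β) :
    Sector 1 β theE (fun m => theWorld.Z 0 β m) where
  P := fun _ => 1
  hP := fun _ => HProj.one
  hPT := fun n => by rw [Matrix.one_mul, Matrix.mul_one]
  hlim := fun m hm => by
    have h1 : Tendsto (fun n => Zn 1 1 β n m) atTop (𝓝 (Zp 1 1 β m)) :=
      Zn_tendsto isRot_one (by simp) hβ.le hm
    have h2 := h1.mul_const (Real.exp (β * (2 * m) * theE))
    refine h2.congr fun n => ?_
    refine (TN_trace (P := 1) ?_).symm
    rw [Matrix.one_mul, cplx_trace, Zn_one]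

end Hald
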