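import Crest.Agent.Hald.CsPS

/-!
# Row 347, M6: packed digits (base `2^200`) and the soundness of the linear steps.
-/

set_option autoImplicit false

namespace Hald.Cert

/-- number with the `n` digits `d 0, …, d (n-1)` in base `2^200` -/
def pk : ℕ → (ℕ → ℕ) → ℕ
  | 0, _ => 0
  | n + 1, d => d 0 + 2 ^ 200 * pk n (fun i => d (i + 1))

theorem pk_add (n : ℕ) : ∀ a b : ℕ → ℕ, pk n (fun i => a i + b i) = pk n a + pk n b := by
  induction n with
  | zero => intro a b; simp [pk]
  | succ n ih => intro a b; simp only [pk]; rw [ih]; ring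

theorem pk_mul (n c : ℕ) : ∀ a : ℕ → ℕ, pk n (fun i => c * a i) = c * pk n a := by
  induction n with
  | zero => intro a; simp [pk]
  | succ n ih => intro a; simp only [pk]; rw [ih]; ring

theorem pk_congr (n : ℕ) : ∀ a b : ℕ → ℕ, (∀ i, i < n → a i = b i) → pk n a = pk n b := by
  induction n with
  | zero => intro a b _; simp [pk]
  | succ n ih =>
    intro a b h
    simp only [pk]
    rw [h 0 (by omega), ih _ (fun i => b (i + 1)) (fun i hi => h (i + 1) (by omega))]

theorem pk_zero (n : ℕ) : pk n (fun _ => 0) = 0 := by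
  induction n with
  | zero => rfl
  | succ n ih => simp [pk, ih]

theorem pk_single (n : ℕ) : ∀ j v : ℕ, j < n → pk n (fun i => if i = j then v else 0) = v * 2 ^ (200 * j) := by
  induction n with
  | zero => intro j v h; omega
  | succ n ih =>
    intro j v h
    simp only [pk]
    cases j with
    | zero =>
      simp only [if_pos]
      have : pk n (fun i => if i + 1 = 0 then v else 0) = 0 := by
        refine (pk_congr n _ (fun _ => 0) (fun i _ => ?_)).trans (pk_zero n)
        show (if i + 1 = 0 then v else 0) = 0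
        rw [if_neg (Nat.succ_ne_zero i)]
      rw [this]; simp
    | succ j =>
      have : pk n (fun i => if i + 1 = j + 1 then v else 0) = v * 2 ^ (200 * j) := by
        rw [← ih j v (by omega)]
        refine pk_congr n _ _ (fun i _ => ?_)
        show (if i + 1 = j + 1 then v else 0) = (if i = j then v else 0)
        by_cases hij : i = j
        · subst hij; rw [if_pos rfl, if_pos rfl]
        · rw [if_neg (fun h' => hij (Nat.succ.inj h')), if_neg hij]
      rw [this]
      rw [if_neg (Nat.zero_ne_add_one j)]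
      rw [show 200 * (j + 1) = 200 + 200 * j by ring, pow_add]
      ring

theorem digLe_pk (n : ℕ) : ∀ a b : ℕ → ℕ, (∀ i, i < n → a i < 2 ^ 200) → (∀ i, i < n → b i < 2 ^ 200) →
    digLe n (pk n a) (pk n b) = true → ∀ i, i < n → a i ≤ b i := by
  induction n with
  | zero => intro a b _ _ _ i hi; omega
  | succ n ih =>
    intro a b ha hb h i hi
    simp only [digLe, pk, Bool.and_eq_true, Nat.ble_eq] at h
    obtain ⟨h1, h2⟩ := h
    have e : (1606938044258990275541962092341162602522202993782792835301376 : ℕ) = 2 ^ 200 := by norm_num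
    rw [e] at h1
    have ma : ∀ c d : ℕ, c < 2 ^ 200 → (c + 2 ^ 200 * d) % 2 ^ 200 = c := by
      intro c d hc
      rw [Nat.add_mul_mod_self_left, Nat.mod_eq_of_lt hc]
    have sa : ∀ c d : ℕ, c < 2 ^ 200 → Nat.shiftRight (c + 2 ^ 200 * d) 200 = d := by
      intro c d hc
      have : Nat.shiftRight (c + 2 ^ 200 * d) 200 = (c + 2 ^ 200 * d) / 2 ^ 200 :=
        Nat.shiftRight_eq_div_pow _ _
      rw [this, Nat.add_mul_div_left _ _ (by positivity), Nat.div_eq_of_lt hc, Nat.zero_add]
    rw [ma _ _ (ha 0 (by omega)), ma _ _ (hb 0 (by omega))] at h1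
    rw [sa _ _ (ha 0 (by omega)), sa _ _ (hb 0 (by omega))] at h2
    cases i with
    | zero => exact h1
    | succ i =>
      exact ih (fun i => a (i + 1)) (fun i => b (i + 1)) (fun i hi => ha (i + 1) (by omega))
        (fun i hi => hb (i + 1) (by omega)) h2 i (by omega)

/-- value of a digit vector at the point `y` -/
noncomputable def ev (y : ℕ → ℝ) (d : ℕ → ℕ) : ℝ := ∑ i ∈ Finset.range 13, (d i : ℝ) * y i

theorem ev_add (y : ℕ → ℝ) (a b : ℕ → ℕ) : ev y (fun i => a i + b i) = ev y a + ev y b := by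
  simp only [ev]
  rw [← Finset.sum_add_distrib]
  exact Finset.sum_congr rfl (fun i _ => by push_cast; ring)

theorem ev_mul (y : ℕ → ℝ) (c : ℕ) (a : ℕ → ℕ) : ev y (fun i => c * a i) = c * ev y a := by
  simp only [ev]
  rw [Finset.mul_sum]
  exact Finset.sum_congr rfl (fun i _ => by push_cast; ring)

theorem ev_single (y : ℕ → ℝ) (j v : ℕ) (hj : j < 13) :
    ev y (fun i => if i = j then v else 0) = v * y j := by
  simp only [ev]
  rw [Finset.sum_eq_single j]
  · simp
  · intro b _ hb; simp [hb]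
  · intro h; exact absurd (Finset.mem_range.2 hj) h

theorem ev_mono (y : ℕ → ℝ) (hy : ∀ i, i < 13 → 0 ≤ y i) (a b : ℕ → ℕ) (h : ∀ i, i < 13 → a i ≤ b i) :
    ev y a ≤ ev y b := by
  simp only [ev]
  refine Finset.sum_le_sum (fun i hi => ?_)
  have hi' := Finset.mem_range.1 hi
  exact mul_le_mul_of_nonneg_right (by exact_mod_cast h i hi') (hy i hi')

/-- `a` and `b` are packed numbers with digits `< 2^94` and `ev b ≤ ev a` -/
def Row (y : ℕ → ℝ) (l r : ℕ) : Prop :=
  ∃ A B : ℕ → ℕ, l = pk 13 A ∧ r = pk 13 B ∧ (∀ i, i < 13 → A i < 2 ^ 94) ∧ (∀ i, i < 13 → B i < 2 ^ 94) ∧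
    ev y B ≤ ev y A

theorem land96 (x : ℕ) : Nat.land x 79228162514264337593543950335 < 2 ^ 96 := by
  have e : (79228162514264337593543950335 : ℕ) = 2 ^ 96 - 1 := by norm_num
  rw [e]
  have : Nat.land x (2 ^ 96 - 1) = x % 2 ^ 96 := Nat.and_two_pow_sub_one_eq_mod _ _
  rw [this]
  exact Nat.mod_lt _ (by positivity)

/-- the arithmetic of one step, without literals -/
theorem digStep (z L a q P R S : ℕ) (hz : z ≤ P) (hL : L ≤ R) (hPR : P * R ≤ S) (T : ℕ)
    (ha : a + (q + 1) * S < T) : z * L + a + q * S < T := by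
  have h1 : z * L ≤ P * R := Nat.mul_le_mul hz hL
  have h2 : (q + 1) * S = q * S + S := by ring
  omega

theorem linGo_sound (T : Tree) (n p : ℕ) (y : ℕ → ℝ) (hy : ∀ i, i < 13 → 0 ≤ y i)
    (hR : ∀ j, j < n → T.get j % 1048576 = p → Row y (LL (T.get j)) (RR (T.get j))) :
    ∀ (q x : ℕ) (A B : ℕ → ℕ), (∀ i, i < 13 → A i + q * 2 ^ 190 < 2 ^ 200) →
      (∀ i, i < 13 → B i + q * 2 ^ 190 < 2 ^ 200) → linGo T n p q x (pk 13 A) (pk 13 B) = true →
      ev y A ≤ ev y B := by
  intro q
  induction q with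
  | zero =>
    intro x A B hA hB h
    rw [linGo] at h
    refine ev_mono y hy A B (digLe_pk 13 A B (fun i hi => ?_) (fun i hi => ?_) h)
    · have := hA i hi
      rwa [Nat.zero_mul, Nat.add_zero] at this
    · have := hB i hi
      rwa [Nat.zero_mul, Nat.add_zero] at this
  | succ q ih =>
    intro x A B hA hB h
    rw [linGo] at h
    rw [Bool.and_eq_true, Bool.and_eq_true] at h
    obtain ⟨h1, h2, h3⟩ := h
    have hz' := land96 (Nat.shiftRight x 16)
    revert h1 h2 h3 hz'
    generalize Nat.land (Nat.shiftRight x 16) 79228162514264337593543950335 = z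
    generalize Nat.land x 65535 = j
    generalize Nat.shiftRight x 112 = x'
    intro h1 h2 h3 hz'
    have h1' : j < n := Nat.le_of_ble_eq_true h1
    have h2' : T.get j % 1048576 = p := Nat.eq_of_beq_eq_true h2
    obtain ⟨L, R, eL, eR, bL, bR, hLR⟩ := hR j h1' h2'
    have hPR : (2 : ℕ) ^ 96 * 2 ^ 94 ≤ 2 ^ 190 := by norm_num
    rw [eL, eR, ← pk_mul, ← pk_mul, ← pk_add, ← pk_add] at h3
    have h4 := ih x' (fun i => z * L i + A i) (fun i => z * R i + B i)
      (fun i hi => digStep z (L i) (A i) q (2 ^ 96) (2 ^ 94) (2 ^ 190) hz'.le (bL i hi).le hPR _ (hA i hi))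
      (fun i hi => digStep z (R i) (B i) q (2 ^ 96) (2 ^ 94) (2 ^ 190) hz'.le (bR i hi).le hPR _ (hB i hi))
      h3
    have e1 : ev y (fun i => z * L i + A i) = z * ev y L + ev y A := by
      rw [ev_add y (fun i => z * L i) A, ev_mul]
    have e2 : ev y (fun i => z * R i + B i) = z * ev y R + ev y B := by
      rw [ev_add y (fun i => z * R i) B, ev_mul]
    rw [e1, e2] at h4
    have : (z : ℝ) * ev y R ≤ z * ev y L := mul_le_mul_of_nonneg_left hLR (Nat.cast_nonneg z)
    linarith

end Hald.Cert
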