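import Crest.Agent.Hald.CsPS

/-!
# Row 347, M6: soundness of one rule of the certificate checker.  Chunk R347-M6-P.

Tools: `wf_iff`, `wf_beta`, `wf_m`, `wf_even`, `wf_two_m`, `D_pos`, `mu_eq`, `mu_pos`, `rpow_div_le`,
`le_rpow_div` (`CertSem.lean`), `X_PS_space`, `X_PS_time`, `X_nonneg`, `V_nonneg`, `W_nonneg` (`CsPS.lean`),
and the fields of `World`.  Unfold the Boolean check with
`simp only [okP, Bool.and_eq_true, Bool.or_eq_true, Nat.ble_eq, Nat.beq_eq] at h0`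
(for `bif` use `Bool.cond_eq_ite`, for `isTop` unfold it).  `Good w f` unfolds to
`GoodAt (fun k => X w k (fb f / 2) (fL f / 2)) (fty f) (fk f) (fv f / D)`; rewrite `fty f` to its value
and `simp only [GoodAt]`.
-/

set_option autoImplicit false

namespace Hald.Cert

private theorem CsP_two_m {L : ℕ} (h : L % 4 = 0) : 2 * ((L / 2 : ℕ) : ℝ) = (L : ℝ) := by
  have : 2 * (L / 2) = L := by omega
  exact_mod_cast this

private theorem CsP_ratio {Lf Lh aa bb : ℕ} (hLh : 1 ≤ Lh) (hbb : 1 ≤ bb)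
    (h : aa * Lh = bb * Lf) : (Lf : ℝ) / (Lh : ℝ) = (aa : ℝ) / (bb : ℝ) := by
  have h1 : (Lh : ℝ) ≠ 0 := by positivity
  have h2 : (bb : ℝ) ≠ 0 := by positivity
  have h3 : (aa : ℝ) * Lh = bb * Lf := by exact_mod_cast h
  field_simp
  linarith

private theorem CsP_le {Lf Lh aa bb : ℕ} (hbb : 1 ≤ bb) (hab : bb ≤ aa)
    (h : aa * Lh = bb * Lf) : Lh ≤ Lf := by
  have h1 : bb * Lh ≤ bb * Lf := by
    rw [← h]; exact Nat.mul_le_mul_right _ hab
  exact Nat.le_of_mul_le_mul_left h1 hbb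

/-- exact powers -/
private theorem CsP_exact {V a b r : ℝ} (hV : 0 ≤ V) (h : b = a * r) :
    V ^ b = (V ^ a) ^ r := by
  rw [h, Real.rpow_mul hV]

private theorem CsP_X_space (w : World) (k b Lf Lh aa bb : ℕ) (hb : 1 ≤ b) (hLf : 1 ≤ Lf)
    (hLf4 : Lf % 4 = 0) (hLh : 1 ≤ Lh) (hLh4 : Lh % 4 = 0) (hbb : 1 ≤ bb)
    (htop : isTop k = true ∨ bb ≤ aa) (hk : k ≤ 11) (h : aa * Lh = bb * Lf) :
    X w k ((b : ℝ) / 2) (Lf / 2) ≤
      (mu k : ℕ) * (X w k ((b : ℝ) / 2) (Lh / 2) / (mu k : ℕ)) ^ ((aa : ℝ) / (bb : ℝ)) := by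
  have hβ : (0 : ℝ) < (b : ℝ) / 2 := by
    have : (1 : ℝ) ≤ (b : ℝ) := by exact_mod_cast hb
    linarith
  have hr := CsP_ratio (Lf := Lf) hLh hbb h
  have eF := CsP_two_m hLf4
  have eH := CsP_two_m hLh4
  have hLh0 : (Lh : ℝ) ≠ 0 := by positivity
  have hmF : 1 ≤ Lf / 2 := by omega
  have hmH : 1 ≤ Lh / 2 := by omega
  have hcases : k ≤ 9 ∨ k = 10 ∨ k = 11 := by omega
  have hexp : 2 * ((Lf / 2 : ℕ) : ℝ) = 2 * ((Lh / 2 : ℕ) : ℝ) * ((aa : ℝ) / (bb : ℝ)) := by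
    rw [eF, eH, ← hr]
    field_simp
  rcases hcases with hk9 | hk10 | hk11
  · have hab : bb ≤ aa := by
      rcases htop with ht | ht
      · exfalso
        have : isTop k = false := by
          interval_cases k <;> rfl
        rw [this] at ht
        exact absurd ht (by decide)
      · exact ht
    have hle := CsP_le hbb hab h
    have hps := (X_PS_space w ((b : ℝ) / 2) hβ k hk9).pow (Lh / 2) (by exact hmH) (Lf / 2)
      (by exact hmF) (by
        show 2 * ((Lh / 2 : ℕ) : ℝ) ≤ 2 * ((Lf / 2 : ℕ) : ℝ)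
        rw [eF, eH]; exact_mod_cast hle)
    have hratio : 2 * ((Lf / 2 : ℕ) : ℝ) / (2 * ((Lh / 2 : ℕ) : ℝ)) = (aa : ℝ) / (bb : ℝ) := by
      rw [eF, eH, hr]
    rw [hratio] at hps
    have hmu := mu_pos k
    rwa [div_le_iff₀ hmu, mul_comm] at hps
  · subst hk10
    have e1 : ((mu 10 : ℕ) : ℝ) = 1 := by simp [mu_eq]
    rw [e1, one_mul, div_one]
    exact (CsP_exact (V_nonneg w _ hβ 0) hexp).le
  · subst hk11
    have e1 : ((mu 11 : ℕ) : ℝ) = 1 := by simp [mu_eq]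
    rw [e1, one_mul, div_one]
    exact (CsP_exact (V_nonneg w _ hβ 1) hexp).le

private theorem CsP_X_time (w : World) (k bf bh L aa bb : ℕ) (hbf : 1 ≤ bf) (hbh : 1 ≤ bh)
    (hL : 1 ≤ L) (hL4 : L % 4 = 0) (hbb : 1 ≤ bb)
    (htop : isTop k = true ∨ bb ≤ aa) (hk : 12 ≤ k) (hk' : k ≤ 23) (h : aa * bh = bb * bf) :
    X w k ((bf : ℝ) / 2) (L / 2) ≤
      (mu k : ℕ) * (X w k ((bh : ℝ) / 2) (L / 2) / (mu k : ℕ)) ^ ((aa : ℝ) / (bb : ℝ)) := by
  have hβf : (0 : ℝ) < (bf : ℝ) / 2 := by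
    have : (1 : ℝ) ≤ (bf : ℝ) := by exact_mod_cast hbf
    linarith
  have hβh : (0 : ℝ) < (bh : ℝ) / 2 := by
    have : (1 : ℝ) ≤ (bh : ℝ) := by exact_mod_cast hbh
    linarith
  have hr := CsP_ratio (Lf := bf) hbh hbb h
  have hbh0 : (bh : ℝ) ≠ 0 := by positivity
  have hm : 1 ≤ L / 2 := by omega
  have he : Even (L / 2) := ⟨L / 4, by omega⟩
  have hcases : k ≤ 21 ∨ k = 22 ∨ k = 23 := by omega
  have hexp : (bf : ℝ) / 2 = (bh : ℝ) / 2 * ((aa : ℝ) / (bb : ℝ)) := by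
    rw [← hr]
    field_simp
  rcases hcases with hk9 | hk10 | hk11
  · have hab : bb ≤ aa := by
      rcases htop with ht | ht
      · exfalso
        have : isTop k = false := by
          interval_cases k <;> rfl
        rw [this] at ht
        exact absurd ht (by decide)
      · exact ht
    have hle := CsP_le hbb hab h
    have hps := (X_PS_time w (L / 2) hm he k hk hk9).pow ((bh : ℝ) / 2) hβh ((bf : ℝ) / 2) hβf (by
        have : (bh : ℝ) ≤ (bf : ℝ) := by exact_mod_cast hle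
        show (bh : ℝ) / 2 ≤ (bf : ℝ) / 2
        linarith)
    have hratio : (bf : ℝ) / 2 / ((bh : ℝ) / 2) = (aa : ℝ) / (bb : ℝ) := by
      rw [← hr]; field_simp
    rw [hratio] at hps
    have hmu := mu_pos k
    rwa [div_le_iff₀ hmu, mul_comm] at hps
  · subst hk10
    have e1 : ((mu 22 : ℕ) : ℝ) = 1 := by simp [mu_eq]
    rw [e1, one_mul, div_one]
    exact (CsP_exact (W_nonneg w _ hm 0) hexp).le
  · subst hk11
    have e1 : ((mu 23 : ℕ) : ℝ) = 1 := by simp [mu_eq]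
    rw [e1, one_mul, div_one]
    exact (CsP_exact (W_nonneg w _ hm 1) hexp).le

private theorem CsP_final {Xf Xh df dh μ Dr vf vh r : ℝ} (hXh : 0 ≤ Xh) (hμ : 0 < μ) (hD : 0 < Dr)
    (hr : 0 ≤ r) (hvh : 0 ≤ vh) (hdh : 0 ≤ dh) (hdf : 0 ≤ df)
    (hA : Xf ≤ μ * (Xh / μ) ^ r) (hle : Xh ≤ vh / Dr * dh) (hd : df = dh ^ r)
    (hv : (vh / (μ * Dr)) ^ r ≤ vf / (μ * Dr)) : Xf ≤ vf / Dr * df := by
  have h1 : Xh / μ ≤ vh / (μ * Dr) * dh := by
    have : vh / (μ * Dr) * dh = (vh / Dr * dh) / μ := by field_simp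
    rw [this]
    exact div_le_div_of_nonneg_right hle hμ.le
  have h2 : (Xh / μ) ^ r ≤ (vh / (μ * Dr)) ^ r * df := by
    rw [hd, ← Real.mul_rpow (by positivity) hdh]
    exact Real.rpow_le_rpow (by positivity) h1 hr
  have h3 : (Xh / μ) ^ r ≤ vf / (μ * Dr) * df :=
    h2.trans (mul_le_mul_of_nonneg_right hv hdf)
  have h4 : μ * (vf / (μ * Dr) * df) = vf / Dr * df := by field_simp
  calc Xf ≤ μ * (Xh / μ) ^ r := hA
    _ ≤ μ * (vf / (μ * Dr) * df) := mul_le_mul_of_nonneg_left h3 hμ.le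
    _ = vf / Dr * df := h4

private theorem CsP_check {vf vh M aa bb : ℕ} (hM : 1 ≤ M) (hbb : 1 ≤ bb)
    (h : vh ^ aa * M ^ bb ≤ vf ^ bb * M ^ aa) :
    ((vh : ℝ) / (M : ℝ)) ^ ((aa : ℝ) / (bb : ℝ)) ≤ (vf : ℝ) / (M : ℝ) := by
  have hM' : (0 : ℝ) < (M : ℝ) := by exact_mod_cast hM
  apply rpow_div_le (by positivity) (by positivity) hbb
  rw [div_pow, div_pow, div_le_div_iff₀ (by positivity) (by positivity)]
  exact_mod_cast h

/-- Upper power rule.  Types 0 and 2.  Put `μ = mu k` (real, `mu_pos`), `r = aa/bb`.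
Space (`k ≤ 11`): `fb f = fb h`, `aa * L_h = bb * L_f`, so `r = L_f / L_h`.
* `k ≤ 9`: `(X_PS_space w β hβ k hk).pow m_h _ m_f _ (L_h ≤ L_f)`:  `X_f / μ ≤ (X_h / μ)^(L_f/L_h)`
  (`c m = 2 * m`, use `wf_two_m`; `L_h ≤ L_f` because `bb ≤ aa`; for `k ≤ 9` `isTop k = false`).
* `k = 10, 11`: `X_f = V^(L_f) = (V^(L_h))^(L_f/L_h) = X_h^r` exactly (`Real.rpow_mul`), `μ = 1`.
Time (`12 ≤ k ≤ 23`): `L_f = L_h`, `r = fb f / fb h`; the same with `X_PS_time` (`wf_even` gives `Even m`),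
tops `k = 22, 23`: `W^(b_f/2) = (W^(b_h/2))^r`.
So in all cases (A): `X_f ≤ μ * (X_h / μ)^r`.
Type 0: `X_h ≤ v_h / D`, so `X_f ≤ μ (v_h/(D μ))^r`, and the check `v_h^aa (μ D)^bb ≤ v_f^bb (μ D)^aa`
says `(v_h/(μ D))^aa ≤ (v_f/(μ D))^bb`, hence by `rpow_div_le` `(v_h/(μ D))^(aa/bb) ≤ v_f/(μ D)`.
Type 2: with `den = V^L` (`k ≤ 11`, `dn k = 10`) or `W^β` (`12 ≤ k ≤ 23`, `dn k = 22`):
`den_f = den_h^r` exactly, `X_h ≤ (v_h/D) den_h`, so `X_f ≤ μ (v_h/(μ D))^r den_h^r ≤ (v_f/D) den_f`.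
Suggested: first prove (A) as a lemma `X_pow` (for all `k ≤ 23`) and `den_pow`. -/
theorem okP_sound (w : World) (f h aa bb : ℕ) (hf : wf f = true) (hh : wf h = true)
    (h0 : okP f h aa bb = true) (h1 : Good w h) : Good w f := by
  unfold okP at h0
  simp only [Bool.and_eq_true] at h0
  obtain ⟨⟨⟨⟨⟨⟨⟨haa, hbb⟩, hty⟩, hk⟩, hty2⟩, htop⟩, hrat⟩, hchk⟩ := h0
  replace haa := Nat.le_of_ble_eq_true haa
  replace hbb := Nat.le_of_ble_eq_true hbb
  replace hty := Nat.eq_of_beq_eq_true hty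
  replace hk := Nat.eq_of_beq_eq_true hk
  replace hchk := Nat.le_of_ble_eq_true hchk
  have htop' : isTop (fk f) = true ∨ bb ≤ aa := by
    rcases Bool.or_eq_true_iff.1 htop with h | h
    · exact Or.inl h
    · exact Or.inr (Nat.le_of_ble_eq_true h)
  have hty2' : fty f = 0 ∨ fty f = 2 := by
    rcases Bool.or_eq_true_iff.1 hty2 with h | h
    · exact Or.inl (Nat.eq_of_beq_eq_true h)
    · exact Or.inr (Nat.eq_of_beq_eq_true h)
  obtain ⟨wf1, wf2, wf3, -⟩ := (wf_iff f).1 hf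
  obtain ⟨wh1, wh2, wh3, -⟩ := (wf_iff h).1 hh
  have hβf := wf_beta hf
  have hβh := wf_beta hh
  have hmf := wf_m hf
  have hmh := wf_m hh
  have hμ := mu_pos (fk f)
  have hDpos := D_pos
  -- the ratio
  have hrat' : (fk f ≤ 11 ∧ fb f = fb h ∧ aa * fL h = bb * fL f) ∨
      (12 ≤ fk f ∧ fk f ≤ 23 ∧ fL f = fL h ∧ aa * fb h = bb * fb f) := by
    unfold okRatio at hrat
    by_cases h11 : fk f ≤ 11
    · left
      rw [Nat.ble_eq_true_of_le h11] at hrat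
      simp only [cond_true, Bool.and_eq_true] at hrat
      exact ⟨h11, Nat.eq_of_beq_eq_true hrat.1, Nat.eq_of_beq_eq_true hrat.2⟩
    · right
      have hfalse : Nat.ble (fk f) 11 = false := by
        rw [Bool.eq_false_iff]
        intro hb
        exact h11 (Nat.le_of_ble_eq_true hb)
      rw [hfalse] at hrat
      simp only [cond_false, Bool.and_eq_true] at hrat
      exact ⟨by omega, Nat.le_of_ble_eq_true hrat.1.1, Nat.eq_of_beq_eq_true hrat.1.2,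
        Nat.eq_of_beq_eq_true hrat.2⟩
  have hr0 : (0 : ℝ) ≤ (aa : ℝ) / (bb : ℝ) := by positivity
  have hk24 : fk f ≤ 24 := by rcases hrat' with h | h <;> omega
  -- (A)
  have hA : X w (fk f) ((fb f : ℝ) / 2) (fL f / 2) ≤
      (mu (fk f) : ℕ) * (X w (fk f) ((fb h : ℝ) / 2) (fL h / 2) / (mu (fk f) : ℕ)) ^
        ((aa : ℝ) / (bb : ℝ)) := by
    rcases hrat' with ⟨hk11, hb, hL⟩ | ⟨hk12, hk23, hL, hb⟩
    · rw [hb]
      exact CsP_X_space w (fk f) (fb h) (fL f) (fL h) aa bb wh1 wf2 wf3 wh2 wh3 hbb htop' hk11 hL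
    · rw [hL]
      exact CsP_X_time w (fk f) (fb f) (fb h) (fL h) aa bb wf1 wh1 wh2 wh3 hbb htop' hk12 hk23 hb
  -- the denominators
  have hden : X w (dn (fk f)) ((fb f : ℝ) / 2) (fL f / 2) =
      (X w (dn (fk f)) ((fb h : ℝ) / 2) (fL h / 2)) ^ ((aa : ℝ) / (bb : ℝ)) := by
    rcases hrat' with ⟨hk11, hb, hL⟩ | ⟨hk12, hk23, hL, hb⟩
    · have e : dn (fk f) = 10 := by
        unfold dn; rw [if_neg (by omega)]
      rw [e, hb]
      have hr := CsP_ratio (Lf := fL f) wh2 hbb hL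
      refine CsP_exact (V_nonneg w _ hβh 0) ?_
      rw [CsP_two_m wf3, CsP_two_m wh3, ← hr]
      have : (fL h : ℝ) ≠ 0 := by positivity
      field_simp
    · have e : dn (fk f) = 22 := by
        unfold dn; rw [if_pos ⟨hk12, hk23⟩]
      rw [e, hL]
      have hr := CsP_ratio (Lf := fb f) wh1 hbb hb
      refine CsP_exact (W_nonneg w _ hmh 0) ?_
      rw [← hr]
      have : (fb h : ℝ) ≠ 0 := by positivity
      field_simp
  -- the check
  have hD1 : 1 ≤ D := by norm_num [D]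
  have hM : 1 ≤ mu (fk f) * D := by
    have : 1 ≤ mu (fk f) := by
      have := mu_pos (fk f)
      exact_mod_cast this
    exact Nat.mul_pos this hD1
  have hv := CsP_check hM hbb hchk
  have hMc : ((mu (fk f) * D : ℕ) : ℝ) = ((mu (fk f) : ℕ) : ℝ) * (D : ℝ) := Nat.cast_mul _ _
  rw [hMc] at hv
  have hXh0 : 0 ≤ X w (fk f) ((fb h : ℝ) / 2) (fL h / 2) := X_nonneg w _ hβh _ hmh _ hk24
  unfold Good at h1 ⊢
  rw [← hk, ← hty] at h1
  rcases hty2' with ht | ht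
  · rw [ht] at h1 ⊢
    simp only [GoodAt] at h1 ⊢
    have := CsP_final (df := 1) (dh := 1) (vf := (fv f : ℝ)) (vh := (fv h : ℝ)) hXh0 hμ hDpos hr0
      (by positivity) zero_le_one zero_le_one hA (by rw [mul_one]; exact h1)
      (by rw [Real.one_rpow]) hv
    rwa [mul_one] at this
  · rw [ht] at h1 ⊢
    simp only [GoodAt] at h1 ⊢
    have hdn : dn (fk f) ≤ 24 := by unfold dn; split_ifs <;> omega
    exact CsP_final hXh0 hμ hDpos hr0 (by positivity) (X_nonneg w _ hβh _ hmh _ hdn)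
      (X_nonneg w _ hβf _ hmf _ hdn) hA h1 hden hv

end Hald.Cert
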