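import Crest.Agent.Hald.CertSem

/-!
# Row 347, M6: the functionals are power sums; nonnegativity; linear relations.
-/

set_option autoImplicit false

namespace Hald.Cert

theorem X_PS_space (w : World) (β : ℝ) (hβ : 0 < β) (k : ℕ) (hk : k ≤ 9) :
    PS {m : ℕ | 1 ≤ m} (fun m => 2 * (m : ℝ)) ((mu k : ℕ) : ℝ) (fun m => X w k β m) := by
  interval_cases k
  · simpa [X, mu_eq, muA] using w.hA β hβ 0
  · simpa [X, mu_eq, muA] using w.hA β hβ 1
  · simpa [X, mu_eq, muA] using w.hA β hβ 2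
  · simpa [X, mu_eq, muA] using w.hA β hβ 3
  · simpa [X, mu_eq, muA] using w.hA β hβ 4
  · simpa [X, mu_eq, muA] using w.hA β hβ 5
  · simpa [X, mu_eq, muA] using w.hA β hβ 6
  · simpa [X, mu_eq, muA] using w.hA β hβ 7
  · simpa [X, mu_eq] using (w.hAtop0 β hβ).rem
  · simpa [X, mu_eq] using (w.hAtop1 β hβ).rem

theorem X_PS_time (w : World) (m : ℕ) (hm : 1 ≤ m) (he : Even m) (k : ℕ) (hk : 12 ≤ k) (hk' : k ≤ 21) :
    PS {β : ℝ | 0 < β} (fun β => β) ((mu k : ℕ) : ℝ) (fun β => X w k β m) := by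
  interval_cases k
  · simpa [X, mu_eq, muB] using w.hB m hm 0
  · simpa [X, mu_eq, muB] using w.hB m hm 1
  · simpa [X, mu_eq, muB] using w.hB m hm 2
  · simpa [X, mu_eq, muB] using w.hB m hm 3
  · simpa [X, mu_eq, muB] using w.hB m hm 4
  · simpa [X, mu_eq, muB, he] using w.hB m hm 5
  · simpa [X, mu_eq, muB] using w.hB m hm 6
  · simpa [X, mu_eq, muB] using w.hB m hm 7
  · simpa [X, mu_eq] using (w.hBtop0 m hm).rem
  · simpa [X, mu_eq] using (w.hBtop1 m hm).rem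

theorem V_nonneg (w : World) (β : ℝ) (hβ : 0 < β) (i : Fin 2) : 0 ≤ w.V i β := by
  fin_cases i
  · exact (w.hAtop0 β hβ).t_nonneg
  · exact (w.hAtop1 β hβ).t_nonneg

theorem W_nonneg (w : World) (m : ℕ) (hm : 1 ≤ m) (i : Fin 2) : 0 ≤ w.W i m := by
  fin_cases i
  · exact (w.hBtop0 m hm).t_nonneg
  · exact (w.hBtop1 m hm).t_nonneg

/-- all functionals are nonnegative -/
theorem X_nonneg (w : World) (β : ℝ) (hβ : 0 < β) (m : ℕ) (hm : 1 ≤ m) (k : ℕ) (hk : k ≤ 24) :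
    0 ≤ X w k β m := by
  interval_cases k
  · exact (w.hA β hβ 0).nonneg m hm
  · exact (w.hA β hβ 1).nonneg m hm
  · exact (w.hA β hβ 2).nonneg m hm
  · exact (w.hA β hβ 3).nonneg m hm
  · exact (w.hA β hβ 4).nonneg m hm
  · exact (w.hA β hβ 5).nonneg m hm
  · exact (w.hA β hβ 6).nonneg m hm
  · exact (w.hA β hβ 7).nonneg m hm
  · exact (w.hAtop0 β hβ).rem.nonneg m hm
  · exact (w.hAtop1 β hβ).rem.nonneg m hm
  · exact Real.rpow_nonneg (V_nonneg w β hβ 0) _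
  · exact Real.rpow_nonneg (V_nonneg w β hβ 1) _
  · exact (w.hB m hm 0).nonneg β hβ
  · exact (w.hB m hm 1).nonneg β hβ
  · exact (w.hB m hm 2).nonneg β hβ
  · exact (w.hB m hm 3).nonneg β hβ
  · exact (w.hB m hm 4).nonneg β hβ
  · exact (w.hB m hm 5).nonneg β hβ
  · exact (w.hB m hm 6).nonneg β hβ
  · exact (w.hB m hm 7).nonneg β hβ
  · exact (w.hBtop0 m hm).rem.nonneg β hβ
  · exact (w.hBtop1 m hm).rem.nonneg β hβ
  · exact Real.rpow_nonneg (W_nonneg w m hm 0) _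
  · exact Real.rpow_nonneg (W_nonneg w m hm 1) _
  · have h1 := (w.hZtopA β hβ).rem.nonneg m hm
    have h2 : 0 ≤ w.V 0 β ^ (2 * (m : ℝ)) := Real.rpow_nonneg (V_nonneg w β hβ 0) _
    simp only [X]
    linarith

/-- the 12 variables are nonnegative (`PS.nonneg`, tops `t_nonneg`) -/
theorem Xv_nonneg (w : World) (β : ℝ) (hβ : 0 < β) (m : ℕ) (hm : 1 ≤ m) (t : Fin 12) :
    0 ≤ Xv w β m t := by
  refine X_nonneg w β hβ m hm _ ?_
  fin_cases t <;> simp [vid]

/-- each functional as a linear combination of the variables (unfold `secA`, `secB`; `ring`) -/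
theorem X_eq (w : World) (β : ℝ) (m : ℕ) (k : ℕ) (hk : k ≤ 24) :
    12 * X w k β m = ∑ t, (Q12 k t : ℝ) * Xv w β m t := by
  simp only [Fin.sum_univ_succ, Fin.sum_univ_zero]
  interval_cases k <;> simp [Q12, Xv, vid, X, secA, secB, Fin.succ] <;> ring

end Hald.Cert
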