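import Mathlib

/-!
# Row 347, M7 (7b): abstract Collatz–Wielandt / weighted Gershgorin bounds

`H = W + D`, `W ≥ 0` entrywise real, `D` real diagonal.
-/

set_option autoImplicit false
set_option linter.unusedSectionVars false

namespace Hald.Cw

open Matrix Finset

variable {κ : Type*} [Fintype κ] [DecidableEq κ]

/-- weighted Gershgorin: if `U > 0` and `W U - D U ≤ λ U` then all eigenvalues of `H` are `≥ -λ`. -/
theorem eig_ge {H : Matrix κ κ ℂ} (hH : H.IsHermitian) (W : Matrix κ κ ℝ) (D : κ → ℝ)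
    (hHW : H = W.map (fun x : ℝ => (x : ℂ)) + Matrix.diagonal (fun σ => ((D σ : ℝ) : ℂ)))
    (hW : ∀ σ τ, 0 ≤ W σ τ) (U : κ → ℝ) (hU : ∀ σ, 0 < U σ) (lam : ℝ)
    (h : ∀ σ, (W *ᵥ U) σ - D σ * U σ ≤ lam * U σ) (j : κ) : -lam ≤ hH.eigenvalues j := by
  classical
  set E := hH.eigenvalues j with hE
  set ψ : κ → ℂ := fun i => hH.eigenvectorBasis j i with hψ
  have hne : ψ ≠ 0 := by
    intro h0
    have h1 : ‖hH.eigenvectorBasis j‖ = 1 := hH.eigenvectorBasis.orthonormal.1 j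
    have h2 : hH.eigenvectorBasis j = 0 := by
      ext i
      have := congrFun h0 i
      simpa [hψ] using this
    rw [h2, norm_zero] at h1
    exact zero_ne_one h1
  have heig : H *ᵥ ψ = (E : ℂ) • ψ := by
    exact hH.mulVec_eigenvectorBasis j
  haveI : Nonempty κ := ⟨j⟩
  obtain ⟨i, -, hi⟩ := Finset.exists_max_image Finset.univ (fun σ => ‖ψ σ‖ / U σ)
    ⟨j, Finset.mem_univ j⟩
  have hpos : 0 < ‖ψ i‖ / U i := by
    obtain ⟨k, hk⟩ := Function.ne_iff.1 hne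
    have h1 : 0 < ‖ψ k‖ / U k := div_pos (norm_pos_iff.mpr (by simpa using hk)) (hU k)
    exact lt_of_lt_of_le h1 (hi k (Finset.mem_univ k))
  set c := ‖ψ i‖ / U i with hc
  have hle : ∀ τ, ‖ψ τ‖ ≤ c * U τ := by
    intro τ
    have h1 := hi τ (Finset.mem_univ τ)
    rw [div_le_iff₀ (hU τ)] at h1
    exact h1
  have hi' : ‖ψ i‖ = c * U i := by
    rw [hc, div_mul_cancel₀ _ (hU i).ne']
  have hrow : ∑ τ, (W i τ : ℂ) * ψ τ = ((E - D i : ℝ) : ℂ) * ψ i := by
    have h1 := congrFun heig i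
    rw [hHW, Matrix.add_mulVec, Pi.add_apply, Matrix.mulVec_diagonal] at h1
    have h2 : ((W.map (fun x : ℝ => (x : ℂ))) *ᵥ ψ) i = ∑ τ, (W i τ : ℂ) * ψ τ := rfl
    rw [h2, Pi.smul_apply, smul_eq_mul] at h1
    push_cast
    rw [sub_mul, ← h1]
    ring
  have hnorm : |E - D i| * ‖ψ i‖ ≤ ∑ τ, W i τ * ‖ψ τ‖ := by
    have h1 : ‖((E - D i : ℝ) : ℂ) * ψ i‖ = |E - D i| * ‖ψ i‖ := by
      rw [norm_mul, Complex.norm_real, Real.norm_eq_abs]
    rw [← h1, ← hrow]
    refine le_trans (norm_sum_le _ _) (le_of_eq ?_)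
    refine Finset.sum_congr rfl fun τ _ => ?_
    rw [norm_mul, Complex.norm_real, Real.norm_eq_abs, abs_of_nonneg (hW i τ)]
  have h2 : ∑ τ, W i τ * ‖ψ τ‖ ≤ c * (W *ᵥ U) i := by
    rw [Matrix.mulVec, dotProduct, Finset.mul_sum]
    refine Finset.sum_le_sum fun τ _ => ?_
    have := mul_le_mul_of_nonneg_left (hle τ) (hW i τ)
    linarith
  have h3 : c * (W *ᵥ U) i ≤ (lam + D i) * ‖ψ i‖ := by
    have h4 : (W *ᵥ U) i ≤ (lam + D i) * U i := by have := h i; linarith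
    rw [hi']
    have := mul_le_mul_of_nonneg_left h4 hpos.le
    linarith
  have h5 : |E - D i| ≤ lam + D i := by
    have hψi : 0 < ‖ψ i‖ := by rw [hi']; exact mul_pos hpos (hU i)
    exact le_of_mul_le_mul_right (hnorm.trans (h2.trans h3)) hψi
  have h6 := neg_le_abs (E - D i)
  linarith

/-- quadratic form through the eigenbasis -/
theorem quad_lower {H : Matrix κ κ ℂ} (hH : H.IsHermitian) {m : ℝ}
    (hm : ∀ j, m < hH.eigenvalues j) (ψ : κ → ℂ) (hψ : ψ ≠ 0) :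
    m * (star ψ ⬝ᵥ ψ).re < (star ψ ⬝ᵥ H *ᵥ ψ).re := by
  classical
  set U : Matrix κ κ ℂ := (hH.eigenvectorUnitary : Matrix κ κ ℂ) with hUdef
  have hU : U * Uᴴ = 1 := Matrix.mem_unitaryGroup_iff.mp hH.eigenvectorUnitary.2
  have hU' : Uᴴ * U = 1 := Matrix.mem_unitaryGroup_iff'.mp hH.eigenvectorUnitary.2
  set E := hH.eigenvalues with hE
  have hspec : H = U * Matrix.diagonal (fun i => (E i : ℂ)) * Uᴴ := by
    have := hH.spectral_theorem
    rw [Unitary.conjStarAlgAut_apply] at this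
    exact this
  set φ : κ → ℂ := Uᴴ *ᵥ ψ with hφ
  have hψφ : ψ = U *ᵥ φ := by rw [hφ, Matrix.mulVec_mulVec, hU, Matrix.one_mulVec]
  have hφ0 : φ ≠ 0 := by
    intro h; apply hψ; rw [hψφ, h, Matrix.mulVec_zero]
  have hstar : star ψ = star φ ᵥ* Uᴴ := by rw [hψφ, Matrix.star_mulVec]
  have hnorm : star ψ ⬝ᵥ ψ = star φ ⬝ᵥ φ := by
    rw [hstar]
    nth_rewrite 1 [hψφ]
    rw [Matrix.dotProduct_mulVec, Matrix.vecMul_vecMul, hU', Matrix.vecMul_one]
  have hform : star ψ ⬝ᵥ H.mulVec ψ =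
      star φ ⬝ᵥ (Matrix.diagonal (fun i => (E i : ℂ))) *ᵥ φ := by
    rw [hstar, hspec]
    nth_rewrite 1 [hψφ]
    rw [Matrix.mulVec_mulVec, Matrix.mul_assoc, Matrix.mul_assoc, hU', Matrix.mul_one,
      ← Matrix.mulVec_mulVec, Matrix.dotProduct_mulVec, Matrix.vecMul_vecMul, hU',
      Matrix.vecMul_one]
  rw [hnorm, hform]
  have e1 : (star φ ⬝ᵥ φ).re = ∑ j, Complex.normSq (φ j) := by
    simp only [dotProduct, Pi.star_apply, Complex.re_sum]
    refine Finset.sum_congr rfl fun j _ => ?_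
    rw [Complex.star_def, ← Complex.normSq_eq_conj_mul_self, Complex.ofReal_re]
  have e2 : (star φ ⬝ᵥ (Matrix.diagonal (fun i => (E i : ℂ))) *ᵥ φ).re =
      ∑ j, E j * Complex.normSq (φ j) := by
    simp only [dotProduct, Pi.star_apply, Complex.re_sum, Matrix.mulVec_diagonal]
    refine Finset.sum_congr rfl fun j _ => ?_
    rw [Complex.star_def, mul_left_comm, ← Complex.normSq_eq_conj_mul_self, Complex.re_ofReal_mul,
      Complex.ofReal_re]
  rw [e1, e2, Finset.mul_sum]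
  obtain ⟨j0, hj0⟩ := Function.ne_iff.1 hφ0
  refine Finset.sum_lt_sum (fun j _ => ?_) ⟨j0, Finset.mem_univ _, ?_⟩
  · exact mul_le_mul_of_nonneg_right (hm j).le (Complex.normSq_nonneg _)
  · exact mul_lt_mul_of_pos_right (hm j0) (Complex.normSq_pos.mpr (by simpa using hj0))

/-- lower Collatz–Wielandt bound with the Marshall sign `s` -/
theorem exists_eig_le {H : Matrix κ κ ℂ} (hH : H.IsHermitian) (W : Matrix κ κ ℝ) (D : κ → ℝ)
    (hHW : H = W.map (fun x : ℝ => (x : ℂ)) + Matrix.diagonal (fun σ => ((D σ : ℝ) : ℂ)))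
    (s : κ → ℝ) (hs : ∀ σ, s σ * s σ = 1) (hsW : ∀ σ τ, W σ τ ≠ 0 → s σ * s τ = -1)
    (U : κ → ℝ) (hU : ∀ σ, 0 ≤ U σ) (σ₀ : κ) (h0 : U σ₀ ≠ 0) (lam : ℝ)
    (h : ∀ σ, lam * U σ ≤ (W *ᵥ U) σ - D σ * U σ) : ∃ j, hH.eigenvalues j ≤ -lam := by
  by_contra hcon
  push Not at hcon
  set ψ : κ → ℂ := fun σ => ((s σ * U σ : ℝ) : ℂ) with hψ
  have hψ0 : ψ ≠ 0 := by
    intro h1
    have h2 := congrFun h1 σ₀
    simp only [hψ, Pi.zero_apply, Complex.ofReal_eq_zero, mul_eq_zero] at h2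
    rcases h2 with h2 | h2
    · have := hs σ₀; rw [h2] at this; simp at this
    · exact h0 h2
  have key := quad_lower hH hcon ψ hψ0
  have hstar : star ψ = ψ := by
    ext σ; simp [hψ]
  have e1 : (star ψ ⬝ᵥ ψ).re = ∑ σ, U σ * U σ := by
    rw [hstar]
    simp only [dotProduct, Complex.re_sum, hψ]
    refine Finset.sum_congr rfl fun σ _ => ?_
    rw [← Complex.ofReal_mul, Complex.ofReal_re]
    have := hs σ
    calc s σ * U σ * (s σ * U σ) = (s σ * s σ) * (U σ * U σ) := by ring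
      _ = U σ * U σ := by rw [this, one_mul]
  have e2 : (star ψ ⬝ᵥ H *ᵥ ψ).re = ∑ σ, U σ * (D σ * U σ - (W *ᵥ U) σ) := by
    rw [hstar]
    simp only [dotProduct, Complex.re_sum]
    refine Finset.sum_congr rfl fun σ _ => ?_
    have h1 : (H *ᵥ ψ) σ = ((s σ * (D σ * U σ - (W *ᵥ U) σ) : ℝ) : ℂ) := by
      rw [hHW, Matrix.add_mulVec, Pi.add_apply, Matrix.mulVec_diagonal]
      have h2 : ((W.map (fun x : ℝ => (x : ℂ))) *ᵥ ψ) σ = ((∑ τ, W σ τ * (s τ * U τ) : ℝ) : ℂ) := by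
        simp only [Matrix.mulVec, dotProduct, Matrix.map_apply, hψ]
        push_cast
        rfl
      rw [h2]
      simp only [hψ]
      rw [← Complex.ofReal_mul, ← Complex.ofReal_add]
      congr 1
      have h3 : ∑ τ, W σ τ * (s τ * U τ) = -(s σ * (W *ᵥ U) σ) := by
        rw [Matrix.mulVec, dotProduct, Finset.mul_sum, ← Finset.sum_neg_distrib]
        refine Finset.sum_congr rfl fun τ _ => ?_
        by_cases hw : W σ τ = 0
        · simp [hw]
        · have h4 := hsW σ τ hw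
          have h5 := hs σ
          have h6 : s τ = - s σ := by
            have : s σ * (s σ * s τ) = s σ * (-1) := by rw [h4]
            rw [← mul_assoc, h5, one_mul] at this
            linarith
          rw [h6]; ring
      rw [h3]; ring
    rw [h1]
    simp only [hψ]
    rw [← Complex.ofReal_mul, Complex.ofReal_re]
    calc s σ * U σ * (s σ * (D σ * U σ - (W *ᵥ U) σ))
        = (s σ * s σ) * (U σ * (D σ * U σ - (W *ᵥ U) σ)) := by ring
      _ = U σ * (D σ * U σ - (W *ᵥ U) σ) := by rw [hs σ, one_mul]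
  rw [e1, e2, Finset.mul_sum] at key
  refine absurd key (not_lt.mpr (Finset.sum_le_sum fun σ _ => ?_))
  have := mul_le_mul_of_nonneg_left (h σ) (hU σ)
  linarith

end Hald.Cw
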