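import Crest.Agent.Hald.PackOp

/-!
# Row 347, M7 (7b): concatenation of data chunks and forced evaluation of the check
-/

set_option autoImplicit false

namespace Hald.Cw

/-- `∑ c_i 2^{s i}` -/
def catL (s : ℕ) (l : List ℕ) : ℕ :=
  List.rec (motive := fun _ => ℕ) 0 (fun c _ ih => Nat.add c (Nat.shiftLeft ih s)) l

end Hald.Cw
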