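import Crest.Agent.Hald.CwMain
import Crest.Agent.Hald.CwCat
import Crest.Agent.Hald.ChainEnergy

/-!
# Row 347, M7 (7b): energy bounds of the chains `Hch` from the packed check
-/

set_option autoImplicit false
set_option linter.unusedSectionVars false

namespace Hald.Cw

open Matrix Finset Hald Crest.MathPhysics.SpinChain

/-- bonds of the open chain -/
def chB (K : ℕ) : List (Fin (K + 1) × Fin (K + 1)) := List.ofFn fun b : Fin K => (b.castSucc, b.succ)

theorem Hch_eq_Hgen (K : ℕ) (d : Fin (K + 1) → ℕ) (h0 h1 : ℝ) (f : List (Fin (K + 1) × ℝ))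
    (hf : (f.map fun q => (q.2 : ℂ) • site (κ := fun i => Fin (d i)) q.1 (Sp (d q.1) 2)).sum =
      (h0 : ℂ) • site (κ := fun i => Fin (d i)) 0 (Sp (d 0) 2) +
      (h1 : ℂ) • site (κ := fun i => Fin (d i)) (Fin.last K) (Sp (d (Fin.last K)) 2)) :
    Hch K d h0 h1 = Hgen d (chB K) f := by
  unfold Hch Hgen
  rw [hf]
  congr 1
  rw [chB, List.map_ofFn, List.sum_ofFn]
  rfl

/-- data of one check: scale `2p`, `Sc`, bits `b`, field width `w` -/
structure Run where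
  p : ℕ
  Sc : ℕ
  w : ℕ
  b : ℕ

/-- the kernel check with forced vector -/
noncomputable def runChk (r : Run) (ds : List ℕ) (bs : List (ℕ × ℕ)) (fs : List (ℕ × Bool × ℕ))
    (v Lam : ℕ) (dir : Bool) : Bool :=
  force v fun v => Nat.ble 2 r.w && (Nat.ble r.b (r.w - 1) && (Nat.ble 1 r.Sc && (Nat.ble 1 r.p &&
    (Nat.ble 1 v && chk r.w r.b (fullS ds) (posT r.p ds bs fs) (negT r.p ds bs fs) v r.Sc Lam dir))))

theorem runChk_iff {r : Run} {ds : List ℕ} {bs : List (ℕ × ℕ)} {fs : List (ℕ × Bool × ℕ)}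
    {v Lam : ℕ} {dir : Bool} (h : runChk r ds bs fs v Lam dir = true) :
    2 ≤ r.w ∧ r.b ≤ r.w - 1 ∧ 0 < r.Sc ∧ 0 < r.p ∧ v ≠ 0 ∧
      chk r.w r.b (fullS ds) (posT r.p ds bs fs) (negT r.p ds bs fs) v r.Sc Lam dir = true := by
  rw [runChk, force_eq] at h
  simp only [Bool.and_eq_true, Nat.ble_eq] at h
  obtain ⟨h1, h2, h3, h4, h5, h6⟩ := h
  exact ⟨h1, h2, h3, h4, by omega, h6⟩

section

variable {K : ℕ} {d : Fin (K + 1) → ℕ}

theorem chB_mem {b : Fin (K + 1) × Fin (K + 1)} (hb : b ∈ chB K) :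
    ∃ i : Fin K, b = (i.castSucc, i.succ) := by
  rw [chB, List.mem_ofFn] at hb
  obtain ⟨i, hi⟩ := hb
  exact ⟨i, hi.symm⟩

/-- lower bound of the lowest energy -/
theorem chain_ge (hd : ∀ i, d i = 2 ∨ d i = 3)
    (h22 : ∀ b : Fin K, ¬ (d b.castSucc = 2 ∧ d b.succ = 2)) {h0 h1 : ℝ} {r : Run}
    {flds : List (Fin (K + 1) × Bool × ℕ)} (hf3 : ∀ t ∈ flds, d t.1 = 3)
    (hf : ((rf r.p flds).map fun q => (q.2 : ℂ) • site (κ := fun i => Fin (d i)) q.1 (Sp (d q.1) 2)).sum =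
      (h0 : ℂ) • site (κ := fun i => Fin (d i)) 0 (Sp (d 0) 2) +
      (h1 : ℂ) • site (κ := fun i => Fin (d i)) (Fin.last K) (Sp (d (Fin.last K)) 2))
    {ds : List ℕ} {bs : List (ℕ × ℕ)} {fs : List (ℕ × Bool × ℕ)}
    (eds : List.ofFn d = ds) (ebs : nb (chB K) = bs) (efs : nf flds = fs) {v Lam : ℕ}
    (h : runChk r ds bs fs v Lam true = true) :
    -((Lam : ℝ) / (2 * r.p * r.Sc)) ≤ Ech K d h0 h1 := by
  subst eds; subst ebs; subst efs
  obtain ⟨hw, hb, hSc, hp, -, hc⟩ := runChk_iff h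
  have hbd : ∀ b ∈ chB K, b.1 < b.2 ∧ ¬ (d b.1 = 2 ∧ d b.2 = 2) := by
    intro b hb
    obtain ⟨i, rfl⟩ := chB_mem hb
    exact ⟨Fin.castSucc_lt_succ, h22 i⟩
  have e := Hch_eq_Hgen K d h0 h1 _ hf
  have key := fun hH => sys_upper hd hp (chB K) hbd flds hf3 hw hb hSc hc hH
  rw [← e] at key
  haveI : Nonempty (∀ i, Fin (d i)) :=
    ⟨fun i => ⟨0, by rcases hd i with h | h <;> omega⟩⟩
  obtain ⟨j, hj⟩ := exists_lowE (Hch_isHermitian K d h0 h1)
  rw [Ech, ← hj]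
  exact key _ j

/-- upper bound of the lowest energy -/
theorem chain_le (hd : ∀ i, d i = 2 ∨ d i = 3)
    (h22 : ∀ b : Fin K, ¬ (d b.castSucc = 2 ∧ d b.succ = 2)) {h0 h1 : ℝ} {r : Run}
    {flds : List (Fin (K + 1) × Bool × ℕ)} (hf3 : ∀ t ∈ flds, d t.1 = 3)
    (hf : ((rf r.p flds).map fun q => (q.2 : ℂ) • site (κ := fun i => Fin (d i)) q.1 (Sp (d q.1) 2)).sum =
      (h0 : ℂ) • site (κ := fun i => Fin (d i)) 0 (Sp (d 0) 2) +
      (h1 : ℂ) • site (κ := fun i => Fin (d i)) (Fin.last K) (Sp (d (Fin.last K)) 2))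
    {ds : List ℕ} {bs : List (ℕ × ℕ)} {fs : List (ℕ × Bool × ℕ)}
    (eds : List.ofFn d = ds) (ebs : nb (chB K) = bs) (efs : nf flds = fs) {v Lam : ℕ}
    (h : runChk r ds bs fs v Lam false = true) :
    Ech K d h0 h1 ≤ -((Lam : ℝ) / (2 * r.p * r.Sc)) := by
  subst eds; subst ebs; subst efs
  obtain ⟨hw, hb, hSc, hp, hv, hc⟩ := runChk_iff h
  have hbd : ∀ b ∈ chB K, b.1 < b.2 ∧ ¬ (d b.1 = 2 ∧ d b.2 = 2) := by
    intro b hb
    obtain ⟨i, rfl⟩ := chB_mem hb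
    exact ⟨Fin.castSucc_lt_succ, h22 i⟩
  have hpar : ∀ b ∈ chB K, (b.1.val + b.2.val) % 2 = 1 := by
    intro b hb
    obtain ⟨i, rfl⟩ := chB_mem hb
    show (i.val + (i.val + 1)) % 2 = 1
    omega
  have e := Hch_eq_Hgen K d h0 h1 _ hf
  have key := fun hH => sys_lower hd hp (chB K) hbd hpar flds hf3 hw hb hSc hv hc hH
  rw [← e] at key
  obtain ⟨j, hj⟩ := key (Hch_isHermitian K d h0 h1)
  exact (lowE_le _ j).trans hj

end

/-! ### concrete families -/

theorem chD_or {dl dr M : ℕ} (hl : dl = 2 ∨ dl = 3) (hr : dr = 2 ∨ dr = 3) (i : Fin (M + 2)) :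
    chD dl dr M i = 2 ∨ chD dl dr M i = 3 := by
  unfold chD
  split_ifs
  · exact hl
  · exact hr
  · exact Or.inr rfl

theorem chD_h22 {dl dr M : ℕ} (hM : 1 ≤ M ∨ dl = 3 ∨ dr = 3) (b : Fin (M + 1)) :
    ¬ (chD dl dr M b.castSucc = 2 ∧ chD dl dr M b.succ = 2) := by
  rintro ⟨h1, h2⟩
  unfold chD at h1 h2
  rw [if_neg (Fin.succ_ne_zero b)] at h2
  have e1 : b.castSucc = 0 := by
    by_contra hne
    rw [if_neg hne, if_neg] at h1
    · omega
    · intro e
      have := congrArg Fin.val e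
      simp at this
      have := b.isLt
      omega
  rw [if_pos e1] at h1
  have e2 : b.succ = Fin.last (M + 1) := by
    by_contra hne
    rw [if_neg hne] at h2
    omega
  rw [if_pos e2] at h2
  have v1 : b.val = 0 := by
    have := congrArg Fin.val e1
    simpa using this
  have v2 : b.val + 1 = M + 1 := by
    have := congrArg Fin.val e2
    simpa using this
  omega

/-- strips: `½ – M spins 1 – ½`, no field -/
theorem strip_ge {M : ℕ} (hM : 1 ≤ M) {r : Run} {ds : List ℕ} {bs : List (ℕ × ℕ)}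
    (eds : List.ofFn (chD 2 2 M) = ds) (ebs : nb (chB (M + 1)) = bs) {v Lam : ℕ}
    (h : runChk r ds bs [] v Lam true = true) :
    -((Lam : ℝ) / (2 * r.p * r.Sc)) ≤ Ech (M + 1) (chD 2 2 M) 0 0 :=
  chain_ge (flds := []) (chD_or (Or.inl rfl) (Or.inl rfl)) (chD_h22 (Or.inl hM)) (by simp)
    (by simp [rf]) eds ebs rfl h

theorem strip_le {M : ℕ} (hM : 1 ≤ M) {r : Run} {ds : List ℕ} {bs : List (ℕ × ℕ)}
    (eds : List.ofFn (chD 2 2 M) = ds) (ebs : nb (chB (M + 1)) = bs) {v Lam : ℕ}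
    (h : runChk r ds bs [] v Lam false = true) :
    Ech (M + 1) (chD 2 2 M) 0 0 ≤ -((Lam : ℝ) / (2 * r.p * r.Sc)) :=
  chain_le (flds := []) (chD_or (Or.inl rfl) (Or.inl rfl)) (chD_h22 (Or.inl hM)) (by simp)
    (by simp [rf]) eds ebs rfl h

/-! ### chains with end fields `hF = 3/5` (scale `2p = 10`) -/

theorem six_tenths (r : Run) (hr : r.p = 5) : (1 : ℝ) * ((6 : ℕ) : ℝ) / (2 * (r.p : ℝ)) = hF := by
  rw [hr]; unfold hF; norm_num

/-- mixed chains: `½ – M+1 spins 1`, field `hF` on the last spin -/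
theorem mixed_ge {M : ℕ} {r : Run} (hr : r.p = 5) {ds : List ℕ} {bs : List (ℕ × ℕ)}
    (eds : List.ofFn (chD 2 3 M) = ds) (ebs : nb (chB (M + 1)) = bs) {v Lam : ℕ}
    (h : runChk r ds bs [(M + 1, true, 6)] v Lam true = true) :
    -((Lam : ℝ) / (2 * r.p * r.Sc)) ≤ Ech (M + 1) (chD 2 3 M) 0 hF :=
  chain_ge (flds := [(Fin.last (M + 1), true, 6)]) (chD_or (Or.inl rfl) (Or.inr rfl))
    (chD_h22 (Or.inr (Or.inr rfl)))
    (by intro t ht; rw [List.mem_singleton] at ht; rw [ht]; exact chD_last 2 3 M)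
    (by
      have e := six_tenths r hr
      simp only [rf, List.map_cons, List.map_nil, List.sum_cons, List.sum_nil, if_true, e,
        Complex.ofReal_zero, zero_smul, zero_add, add_zero]) eds ebs rfl h

theorem mixed_le {M : ℕ} {r : Run} (hr : r.p = 5) {ds : List ℕ} {bs : List (ℕ × ℕ)}
    (eds : List.ofFn (chD 2 3 M) = ds) (ebs : nb (chB (M + 1)) = bs) {v Lam : ℕ}
    (h : runChk r ds bs [(M + 1, true, 6)] v Lam false = true) :
    Ech (M + 1) (chD 2 3 M) 0 hF ≤ -((Lam : ℝ) / (2 * r.p * r.Sc)) :=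
  chain_le (flds := [(Fin.last (M + 1), true, 6)]) (chD_or (Or.inl rfl) (Or.inr rfl))
    (chD_h22 (Or.inr (Or.inr rfl)))
    (by intro t ht; rw [List.mem_singleton] at ht; rw [ht]; exact chD_last 2 3 M)
    (by
      have e := six_tenths r hr
      simp only [rf, List.map_cons, List.map_nil, List.sum_cons, List.sum_nil, if_true, e,
        Complex.ofReal_zero, zero_smul, zero_add, add_zero]) eds ebs rfl h

/-- sign of the second field -/
noncomputable def sgnF (s : Bool) : ℝ := (if s then (1 : ℝ) else -1) * hF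

theorem sgnF_true : sgnF true = hF := by simp [sgnF]
theorem sgnF_false : sgnF false = -hF := by simp [sgnF]

theorem open_flds (K : ℕ) (r : Run) (hr : r.p = 5) (s : Bool) :
    ((rf r.p [((0 : Fin (K + 1)), true, 6), (Fin.last K, s, 6)]).map fun q =>
      (q.2 : ℂ) • site (κ := fun i => Fin ((fun _ => 3 : Fin (K + 1) → ℕ) i)) q.1
        (Sp ((fun _ => 3 : Fin (K + 1) → ℕ) q.1) 2)).sum =
      (hF : ℂ) • site (κ := fun i => Fin ((fun _ => 3 : Fin (K + 1) → ℕ) i)) 0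
        (Sp ((fun _ => 3 : Fin (K + 1) → ℕ) 0) 2) +
      ((sgnF s : ℝ) : ℂ) • site (κ := fun i => Fin ((fun _ => 3 : Fin (K + 1) → ℕ) i)) (Fin.last K)
        (Sp ((fun _ => 3 : Fin (K + 1) → ℕ) (Fin.last K)) 2) := by
  have e := six_tenths r hr
  have e2 : (if s then (1 : ℝ) else -1) * ((6 : ℕ) : ℝ) / (2 * (r.p : ℝ)) = sgnF s := by
    unfold sgnF; rw [← e]; ring
  simp only [rf, List.map_cons, List.map_nil, List.sum_cons, List.sum_nil, if_true, e, e2, add_zero]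

/-- open chains of `N+2` spins 1 with fields `hF`, `± hF` -/
theorem open_ge {N : ℕ} {s : Bool} {r : Run} (hr : r.p = 5) {ds : List ℕ} {bs : List (ℕ × ℕ)}
    (eds : List.ofFn (fun _ : Fin (N + 2) => 3) = ds) (ebs : nb (chB (N + 1)) = bs) {v Lam : ℕ}
    (h : runChk r ds bs [(0, true, 6), (N + 1, s, 6)] v Lam true = true) :
    -((Lam : ℝ) / (2 * r.p * r.Sc)) ≤ Ech (N + 1) (fun _ => 3) hF (sgnF s) :=
  chain_ge (d := fun _ => 3) (flds := [(0, true, 6), (Fin.last (N + 1), s, 6)])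
    (fun _ => Or.inr rfl) (fun _ h => by omega) (fun _ _ => rfl) (open_flds (N + 1) r hr s) eds ebs rfl h

theorem open_le {N : ℕ} {s : Bool} {r : Run} (hr : r.p = 5) {ds : List ℕ} {bs : List (ℕ × ℕ)}
    (eds : List.ofFn (fun _ : Fin (N + 2) => 3) = ds) (ebs : nb (chB (N + 1)) = bs) {v Lam : ℕ}
    (h : runChk r ds bs [(0, true, 6), (N + 1, s, 6)] v Lam false = true) :
    Ech (N + 1) (fun _ => 3) hF (sgnF s) ≤ -((Lam : ℝ) / (2 * r.p * r.Sc)) :=
  chain_le (d := fun _ => 3) (flds := [(0, true, 6), (Fin.last (N + 1), s, 6)])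
    (fun _ => Or.inr rfl) (fun _ h => by omega) (fun _ _ => rfl) (open_flds (N + 1) r hr s) eds ebs rfl h

/-- local dimensions -/
def dsS (M : ℕ) : List ℕ := 2 :: (List.replicate M 3 ++ [2])
def dsM (M : ℕ) : List ℕ := 2 :: List.replicate M 3
def dsO (M : ℕ) : List ℕ := List.replicate M 3
/-- bonds of the chain of `K+1` sites -/
def bsC (K : ℕ) : List (ℕ × ℕ) := (List.range K).map fun i => (i, i + 1)

end Hald.Cw
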