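import Mathlib

/-!
# Row 347, M7a: packed vectors

`pk w f D = ∑_{i<D} f i 2^{w i}`: a vector of `D` natural numbers `< 2^w` in one natural number.
Masks are computed from a digit specification `List (List Bool)` (site 0 = least significant digit;
the inner list has length = local dimension and tells which digits are allowed).
-/

set_option autoImplicit false

namespace Hald

open Finset

/-- packed vector (natural entries) -/
def pk (w : ℕ) (f : ℕ → ℕ) (D : ℕ) : ℕ := ∑ i ∈ range D, f i * 2 ^ (w * i)

/-- packed vector (integer entries, no size condition) -/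
def pkz (w : ℕ) (f : ℕ → ℤ) (D : ℕ) : ℤ := ∑ i ∈ range D, f i * 2 ^ (w * i)

theorem pk_succ (w : ℕ) (f : ℕ → ℕ) (D : ℕ) : pk w f (D + 1) = pk w f D + f D * 2 ^ (w * D) := by
  simp [pk, sum_range_succ]

theorem pk_lt {w : ℕ} {f : ℕ → ℕ} {D : ℕ} (hf : ∀ i < D, f i < 2 ^ w) : pk w f D < 2 ^ (w * D) := by
  induction D with
  | zero => simp [pk]
  | succ D ih =>
    rw [pk_succ]
    have h1 := ih (fun i hi => hf i (by omega))
    have h2 : f D + 1 ≤ 2 ^ w := hf D (by omega)
    calc pk w f D + f D * 2 ^ (w * D) < 2 ^ (w * D) + f D * 2 ^ (w * D) := by omega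
      _ = (f D + 1) * 2 ^ (w * D) := by ring
      _ ≤ 2 ^ w * 2 ^ (w * D) := Nat.mul_le_mul_right _ h2
      _ = 2 ^ (w * (D + 1)) := by rw [← pow_add]; ring_nf

theorem and_add_mul_pow {a b c d n : ℕ} (ha : a < 2 ^ n) (hc : c < 2 ^ n) :
    (a + b * 2 ^ n) &&& (c + d * 2 ^ n) = (a &&& c) + (b &&& d) * 2 ^ n := by
  have e1 : a + b * 2 ^ n = 2 ^ n * b + a := by ring
  have e2 : c + d * 2 ^ n = 2 ^ n * d + c := by ring
  have hac : a &&& c < 2 ^ n := lt_of_le_of_lt Nat.and_le_left ha
  have e3 : (a &&& c) + (b &&& d) * 2 ^ n = 2 ^ n * (b &&& d) + (a &&& c) := by ring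
  rw [e1, e2, e3]
  apply Nat.eq_of_testBit_eq
  intro i
  rw [Nat.testBit_and, Nat.testBit_two_pow_mul_add _ ha, Nat.testBit_two_pow_mul_add _ hc,
    Nat.testBit_two_pow_mul_add _ hac]
  by_cases hi : i < n <;> simp [hi, Nat.testBit_and]

theorem and_pk {w : ℕ} {f g : ℕ → ℕ} {D : ℕ} (hf : ∀ i < D, f i < 2 ^ w) (hg : ∀ i < D, g i < 2 ^ w) :
    pk w f D &&& pk w g D = pk w (fun i => f i &&& g i) D := by
  induction D with
  | zero => simp [pk]
  | succ D ih =>
    rw [pk_succ, pk_succ, pk_succ, and_add_mul_pow (pk_lt fun i hi => hf i (by omega))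
      (pk_lt fun i hi => hg i (by omega)), ih (fun i hi => hf i (by omega)) (fun i hi => hg i (by omega))]

/-- allowed indices of a digit specification -/
def memb : List (List Bool) → ℕ → Bool
  | [], _ => true
  | bs :: l, i => (bs.getD (i % bs.length) false) && memb l (i / bs.length)

/-- product of the local dimensions -/
def dimL : List (List Bool) → ℕ
  | [] => 1
  | bs :: l => bs.length * dimL l

/-- sum of the copies of `m` shifted by the allowed digits, `s` = stride in bits -/
def digSum (s m : ℕ) : List Bool → ℕ → ℕ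
  | [], _ => 0
  | b :: bs, c => cond b (m <<< (c * s)) 0 + digSum s m bs (c + 1)

/-- mask of a specification: starting from the content `m` of a cell of `s` bits -/
def maskN (s : ℕ) : List (List Bool) → ℕ → ℕ
  | [], m => m
  | bs :: l, m => maskN (s * bs.length) l (digSum s m bs 0)

theorem digSum_eq (s m : ℕ) (bs : List Bool) (c : ℕ) :
    digSum s m bs c = ∑ j ∈ range bs.length, (if bs.getD j false then m * 2 ^ ((c + j) * s) else 0) := by
  induction bs generalizing c with
  | nil => simp [digSum]
  | cons b bs ih =>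
    rw [digSum, ih, List.length_cons, sum_range_succ']
    rw [add_comm]
    congr 1
    · apply sum_congr rfl
      intro j _
      simp only [List.getD_cons_succ]
      congr 2
      congr 1
      ring
    · cases b <;> simp [Nat.shiftLeft_eq]

theorem sum_range_mul_aux (a b : ℕ) (g : ℕ → ℕ) :
    ∑ i ∈ range (a * b), g i = ∑ j ∈ range b, ∑ i ∈ range a, g (i + a * j) := by
  induction b with
  | zero => simp
  | succ b ih =>
    rw [sum_range_succ, ← ih, Nat.mul_succ, sum_range_add]
    congr 1
    apply sum_congr rfl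
    intro i _
    rw [add_comm]

/-- semantics of `maskN` -/
theorem maskN_eq (w : ℕ) (l : List (List Bool)) (s0 : ℕ) (hs : 0 < s0) (f : ℕ → ℕ) :
    maskN (w * s0) l (pk w f s0) =
      pk w (fun i => if memb l (i / s0) then f (i % s0) else 0) (s0 * dimL l) := by
  induction l generalizing s0 f with
  | nil =>
    simp only [maskN, dimL, memb, mul_one]
    apply sum_congr rfl
    intro i hi
    rw [mem_range] at hi
    simp [Nat.mod_eq_of_lt hi]
  | cons bs l ih =>
    rw [maskN]
    rcases Nat.eq_zero_or_pos bs.length with h0 | hpos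
    · -- empty digit list: everything is zero
      have hbs : bs = [] := List.length_eq_zero_iff.mp h0
      subst hbs
      simp only [digSum, dimL, List.length_nil, mul_zero, zero_mul]
      have : ∀ (l : List (List Bool)) (s : ℕ), maskN s l 0 = 0 := by
        intro l
        induction l with
        | nil => intro s; rfl
        | cons b l ih =>
          intro s
          rw [maskN]
          have : digSum s 0 b 0 = 0 := by
            rw [digSum_eq]; simp
          rw [this, ih]
      rw [this]
      simp [pk]
    · have key : digSum (w * s0) (pk w f s0) bs 0 =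
          pk w (fun i => if bs.getD (i / s0) false then f (i % s0) else 0) (s0 * bs.length) := by
        rw [digSum_eq]
        conv_rhs => rw [pk, sum_range_mul_aux]
        apply sum_congr rfl
        intro j hj
        by_cases hb : bs.getD j false = true
        · simp only [hb, if_true, zero_add]
          rw [pk, sum_mul]
          apply sum_congr rfl
          intro i hi
          rw [mem_range] at hi
          have e1 : (i + s0 * j) / s0 = j := by
            rw [Nat.add_mul_div_left _ _ hs, Nat.div_eq_of_lt hi, zero_add]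
          have e2 : (i + s0 * j) % s0 = i := by
            rw [Nat.add_mul_mod_self_left, Nat.mod_eq_of_lt hi]
          rw [e1, e2, if_pos hb, mul_assoc, ← pow_add]
          congr 2
          ring
        · simp only [hb]
          rw [if_neg (by simp)]
          symm
          apply sum_eq_zero
          intro i hi
          rw [mem_range] at hi
          have e1 : (i + s0 * j) / s0 = j := by
            rw [Nat.add_mul_div_left _ _ hs, Nat.div_eq_of_lt hi, zero_add]
          rw [e1, if_neg hb, zero_mul]
      rw [key, mul_assoc, ih (s0 * bs.length) (by positivity), dimL]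
      rw [mul_assoc]
      apply sum_congr rfl
      intro i _
      congr 1
      have e3 : i % (s0 * bs.length) / s0 = i / s0 % bs.length := by
        rw [Nat.mod_mul_right_div_self]
      have e4 : i % (s0 * bs.length) % s0 = i % s0 := by
        rw [Nat.mod_mul_right_mod]
      have e5 : memb (bs :: l) (i / s0) =
          (bs.getD (i / s0 % bs.length) false && memb l (i / (s0 * bs.length))) := by
        rw [memb, Nat.div_div_eq_div_mul]
      simp only [e3, e4, e5]
      by_cases h1 : memb l (i / (s0 * bs.length)) = true <;>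
        by_cases h2 : bs.getD (i / s0 % bs.length) false = true <;> simp [h1, h2]

/-- the mask of the fields allowed by `l` -/
def msk (w : ℕ) (l : List (List Bool)) : ℕ := maskN w l (2 ^ w - 1)

theorem msk_eq (w : ℕ) (l : List (List Bool)) :
    msk w l = pk w (fun i => if memb l i then 2 ^ w - 1 else 0) (dimL l) := by
  have h := maskN_eq w l 1 one_pos (fun _ => 2 ^ w - 1)
  have e : pk w (fun _ => 2 ^ w - 1) 1 = 2 ^ w - 1 := by simp [pk]
  rw [e, mul_one, one_mul] at h
  rw [msk, h]
  simp

/-- repunit of the fields allowed by `l` -/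
def rep (w : ℕ) (l : List (List Bool)) : ℕ := maskN w l 1

theorem rep_eq (w : ℕ) (l : List (List Bool)) :
    rep w l = pk w (fun i => if memb l i then 1 else 0) (dimL l) := by
  have h := maskN_eq w l 1 one_pos (fun _ => 1)
  have e : pk w (fun _ => 1) 1 = 1 := by simp [pk]
  rw [e, mul_one, one_mul] at h
  rw [rep, h]
  simp

/-- selection of the fields allowed by `l` -/
theorem and_msk {w : ℕ} {f : ℕ → ℕ} {l : List (List Bool)} (hf : ∀ i < dimL l, f i < 2 ^ w) :
    pk w f (dimL l) &&& msk w l = pk w (fun i => if memb l i then f i else 0) (dimL l) := by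
  rw [msk_eq, and_pk hf]
  · apply sum_congr rfl
    intro i hi
    rw [mem_range] at hi
    by_cases h : memb l i = true
    · simp only [h, if_true]
      rw [Nat.and_two_pow_sub_one_eq_mod, Nat.mod_eq_of_lt (hf i hi)]
    · simp [h]
  · intro i _
    have : 0 < 2 ^ w := by positivity
    split_ifs <;> omega

/-- reading a field -/
theorem read_pk {w : ℕ} {f : ℕ → ℕ} {D : ℕ} (hf : ∀ i < D, f i < 2 ^ w) {i : ℕ} (hi : i < D) :
    (pk w f D >>> (w * i)) % 2 ^ w = f i := by
  induction D with
  | zero => omega
  | succ D ih =>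
    rw [pk_succ, Nat.shiftRight_eq_div_pow]
    rcases Nat.lt_succ_iff_lt_or_eq.mp hi with h | h
    · have ih' := ih (fun i hi => hf i (by omega)) h
      rw [Nat.shiftRight_eq_div_pow] at ih'
      have e : w * D = w * i + w * (D - i) := by
        rw [← mul_add]; congr 1; omega
      rw [e, pow_add, mul_comm (2 ^ (w * i)) (2 ^ (w * (D - i))), ← mul_assoc,
        Nat.add_mul_div_right _ _ (by positivity)]
      have e2 : w * (D - i) = w + w * (D - i - 1) := by
        obtain ⟨k, hk⟩ : ∃ k, D - i = k + 1 := ⟨D - i - 1, by omega⟩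
        rw [hk]; simp; ring
      rw [e2, pow_add, mul_comm (2 ^ w) _, ← mul_assoc, Nat.add_mul_mod_self_right, ih']
    · subst h
      have h1 := pk_lt (w := w) (f := f) (D := i) (fun j hj => hf j (by omega))
      rw [Nat.add_mul_div_right _ _ (by positivity), Nat.div_eq_of_lt h1, zero_add,
        Nat.mod_eq_of_lt (hf i hi)]

theorem pk_cast (w : ℕ) (f : ℕ → ℕ) (D : ℕ) : (pk w f D : ℤ) = pkz w (fun i => (f i : ℤ)) D := by
  simp [pk, pkz]

theorem pkz_add (w : ℕ) (f g : ℕ → ℤ) (D : ℕ) : pkz w (fun i => f i + g i) D = pkz w f D + pkz w g D := by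
  simp [pkz, add_mul, sum_add_distrib]

theorem pkz_sub (w : ℕ) (f g : ℕ → ℤ) (D : ℕ) : pkz w (fun i => f i - g i) D = pkz w f D - pkz w g D := by
  simp [pkz, sub_mul, sum_sub_distrib]

theorem pkz_congr {w : ℕ} {f g : ℕ → ℤ} {D : ℕ} (h : ∀ i < D, f i = g i) : pkz w f D = pkz w g D :=
  sum_congr rfl fun i hi => by rw [h i (mem_range.mp hi)]

theorem pk_congr {w : ℕ} {f g : ℕ → ℕ} {D : ℕ} (h : ∀ i < D, f i = g i) : pk w f D = pk w g D :=
  sum_congr rfl fun i hi => by rw [h i (mem_range.mp hi)]

/-- comparison/uniqueness -/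
theorem pk_inj {w : ℕ} {f g : ℕ → ℕ} {D : ℕ} (hf : ∀ i < D, f i < 2 ^ w) (hg : ∀ i < D, g i < 2 ^ w)
    (h : pk w f D = pk w g D) : ∀ i < D, f i = g i := by
  intro i hi
  rw [← read_pk hf hi, h, read_pk hg hi]

end Hald
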