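import Crest.Agent.Hald.ChainDefs
import Crest.Agent.Hald.Pack

/-!
# Row 347, M7 (7b): Collatz–Wielandt energy bounds — definitions

General spin system: sites `Fin n`, local dimensions `d i ∈ {2,3}`, a list of Heisenberg bonds and a
list of fields.  `Hgen = (hopping part Wgen, entrywise ≥ 0) + diagonal Dgen` in the `S^z` basis.
-/

set_option autoImplicit false

namespace Hald.Cw

open Matrix Finset Hald

/-- magnetisation of the basis vector number `a` for local dimension `d` -/
noncomputable def mag (d a : ℕ) : ℝ := if d = 3 then 1 - a else if d = 2 then 1 / 2 - a else 0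

/-- amplitude of the raising operator: `√2` for spin 1, `1` for spin ½ -/
noncomputable def amp (d : ℕ) : ℝ := if d = 3 then Real.sqrt 2 else if d = 2 then 1 else 0

/-- raising operator (real matrix): row `a`, column `a+1` -/
noncomputable def Pr (d : ℕ) : Matrix (Fin d) (Fin d) ℝ :=
  Matrix.of fun a b => if b.val = a.val + 1 then amp d else 0

/-- hopping part of one bond -/
noncomputable def Wb {n : ℕ} (d : Fin n → ℕ) (b : Fin n × Fin n) :
    Matrix (∀ i, Fin (d i)) (∀ i, Fin (d i)) ℝ :=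
  (1 / 2 : ℝ) •
    (site (κ := fun i => Fin (d i)) b.1 (Pr (d b.1)) * site (κ := fun i => Fin (d i)) b.2 (Pr (d b.2))ᵀ +
      site (κ := fun i => Fin (d i)) b.1 (Pr (d b.1))ᵀ * site (κ := fun i => Fin (d i)) b.2 (Pr (d b.2)))

/-- hopping part -/
noncomputable def Wgen {n : ℕ} (d : Fin n → ℕ) (bonds : List (Fin n × Fin n)) :
    Matrix (∀ i, Fin (d i)) (∀ i, Fin (d i)) ℝ :=
  (bonds.map (Wb d)).sum

/-- diagonal part -/
noncomputable def Dgen {n : ℕ} (d : Fin n → ℕ) (bonds : List (Fin n × Fin n))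
    (f : List (Fin n × ℝ)) (σ : ∀ i, Fin (d i)) : ℝ :=
  (bonds.map fun b => mag (d b.1) (σ b.1) * mag (d b.2) (σ b.2)).sum -
    (f.map fun p => p.2 * mag (d p.1) (σ p.1)).sum

/-- general Hamiltonian -/
noncomputable def Hgen {n : ℕ} (d : Fin n → ℕ) (bonds : List (Fin n × Fin n))
    (f : List (Fin n × ℝ)) : Matrix (∀ i, Fin (d i)) (∀ i, Fin (d i)) ℂ :=
  (bonds.map fun b => ∑ a : Fin 3, site (κ := fun i => Fin (d i)) b.1 (Sp (d b.1) a) *
      site (κ := fun i => Fin (d i)) b.2 (Sp (d b.2) a)).sum -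
    (f.map fun p => (p.2 : ℂ) • site (κ := fun i => Fin (d i)) p.1 (Sp (d p.1) 2)).sum

end Hald.Cw
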