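import Crest.Agent.Hald.CwEM10l
import Crest.Agent.Hald.CwEM10u
import Crest.Agent.Hald.CwEM1to7
import Crest.Agent.Hald.CwEM8l
import Crest.Agent.Hald.CwEM8u
import Crest.Agent.Hald.CwEM9l
import Crest.Agent.Hald.CwEM9u
import Crest.Agent.Hald.CwEN10l
import Crest.Agent.Hald.CwEN10u
import Crest.Agent.Hald.CwEN2to7
import Crest.Agent.Hald.CwEN8l
import Crest.Agent.Hald.CwEN8u
import Crest.Agent.Hald.CwEN9l
import Crest.Agent.Hald.CwEN9u
import Crest.Agent.Hald.CwEP10l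
import Crest.Agent.Hald.CwEP10u
import Crest.Agent.Hald.CwEP2to7
import Crest.Agent.Hald.CwEP8l
import Crest.Agent.Hald.CwEP8u
import Crest.Agent.Hald.CwEP9l
import Crest.Agent.Hald.CwEP9u
import Crest.Agent.Hald.CwES10l
import Crest.Agent.Hald.CwES10u
import Crest.Agent.Hald.CwES1to7
import Crest.Agent.Hald.CwES8l
import Crest.Agent.Hald.CwES8u
import Crest.Agent.Hald.CwES9l
import Crest.Agent.Hald.CwES9u

/-!
# Row 347, M7 (7b): table of all energy bounds (half width `≤ 2e-8`)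

`stripE<M>_ge/_le`  : `Ech (M+1) (chD 2 2 M) 0 0`, `M = 1..10`;
`mixedE<M>_ge/_le`  : `Ech (M-1+1) (chD 2 3 (M-1)) 0 hF`, `M = 1..10` spins 1;
`openpE<M>_ge/_le`  : `Ech (M-2+1) (fun _ => 3) hF hF`, `M = 2..10` spins 1;
`openmE<M>_ge/_le`  : `Ech (M-2+1) (fun _ => 3) hF (-hF)`, `M = 2..10` spins 1.
The theorems are in `namespace Hald.Cw.Data`.
-/
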