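import Crest.Agent.Hald.CwDefs

/-!
# Row 347, M7 (7b): the Hamiltonian in the `S^z` basis = hopping + diagonal, and its action
-/

set_option autoImplicit false
set_option linter.unusedSectionVars false

namespace Hald.Cw

open Matrix Finset Hald Crest.MathPhysics.SpinChain

/-! ### one-site matrices -/

theorem Sp_zero {d : ℕ} (hd : d = 2 ∨ d = 3) :
    Sp d 0 = (1 / 2 : ℂ) • ((Pr d).map (fun x : ℝ => (x : ℂ)) + (Pr d)ᵀ.map (fun x : ℝ => (x : ℂ))) := by
  rcases hd with rfl | rfl
  · show sHalf 0 = _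
    ext i j; fin_cases i <;> fin_cases j <;> simp [sHalf, Pr, amp]
  · show spinOp 0 = _
    ext i j; fin_cases i <;> fin_cases j <;>
      simp [spinOp, spinX, spinPlus, spinMinus, Pr, amp, Matrix.conjTranspose_apply]

theorem Sp_one {d : ℕ} (hd : d = 2 ∨ d = 3) :
    Sp d 1 = (1 / (2 * Complex.I)) •
      ((Pr d).map (fun x : ℝ => (x : ℂ)) - (Pr d)ᵀ.map (fun x : ℝ => (x : ℂ))) := by
  rcases hd with rfl | rfl
  · show sHalf 1 = _
    ext i j; fin_cases i <;> fin_cases j <;> simp [sHalf, Pr, amp] <;> ring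
  · show spinOp 1 = _
    ext i j; fin_cases i <;> fin_cases j <;>
      simp [spinOp, spinY, spinPlus, spinMinus, Pr, amp, Matrix.conjTranspose_apply]

theorem Sp_two {d : ℕ} (hd : d = 2 ∨ d = 3) :
    Sp d 2 = Matrix.diagonal (fun a : Fin d => ((mag d a.val : ℝ) : ℂ)) := by
  rcases hd with rfl | rfl
  · show sHalf 2 = _
    ext i j; fin_cases i <;> fin_cases j <;> simp [sHalf, mag] <;> norm_num
  · show spinOp 2 = _
    ext i j; fin_cases i <;> fin_cases j <;> simp [spinOp, spinZ, magneticNumber, mag]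

section

variable {n : ℕ} {d : Fin n → ℕ}

theorem site_diag (j : Fin n) (g : Fin (d j) → ℂ) :
    site (κ := fun i => Fin (d i)) j (Matrix.diagonal g) = Matrix.diagonal (fun σ => g (σ j)) := by
  ext σ τ
  rw [site_apply]
  by_cases h : σ = τ
  · subst h; simp
  · rw [Matrix.diagonal_apply_ne _ h]
    split_ifs with h1
    · rw [Matrix.diagonal_apply_ne]
      intro e
      apply h
      funext i
      by_cases hi : i = j
      · subst hi; exact e
      · exact h1 i hi
    · rfl

theorem site_ofReal (j : Fin n) (A : Matrix (Fin (d j)) (Fin (d j)) ℝ) :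
    site (κ := fun i => Fin (d i)) j (A.map (fun x : ℝ => (x : ℂ))) =
      (site (κ := fun i => Fin (d i)) j A).map (fun x : ℝ => (x : ℂ)) :=
  (site_map (κ := fun i => Fin (d i)) Complex.ofRealHom j A).symm

theorem site_sub' (j : Fin n) (A B : Matrix (Fin (d j)) (Fin (d j)) ℂ) :
    site (κ := fun i => Fin (d i)) j (A - B) =
      site (κ := fun i => Fin (d i)) j A - site (κ := fun i => Fin (d i)) j B := by
  have h : A = (A - B) + B := by simp
  conv_rhs => rw [h, site_add]
  simp

theorem map_mul_ofReal {κ : Type*} [Fintype κ] (A B : Matrix κ κ ℝ) :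
    (A * B).map (fun x : ℝ => (x : ℂ)) =
      A.map (fun x : ℝ => (x : ℂ)) * B.map (fun x : ℝ => (x : ℂ)) := by
  ext i j; simp [Matrix.mul_apply]

/-- one bond -/
theorem bond_eq (hd : ∀ i, d i = 2 ∨ d i = 3) (b : Fin n × Fin n) :
    ∑ a : Fin 3, site (κ := fun i => Fin (d i)) b.1 (Sp (d b.1) a) *
      site (κ := fun i => Fin (d i)) b.2 (Sp (d b.2) a) =
    (Wb d b).map (fun x : ℝ => (x : ℂ)) +
      Matrix.diagonal (fun σ => ((mag (d b.1) (σ b.1) * mag (d b.2) (σ b.2) : ℝ) : ℂ)) := by
  obtain ⟨j, k⟩ := b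
  simp only
  rw [Fin.sum_univ_three, Sp_zero (hd j), Sp_zero (hd k), Sp_one (hd j), Sp_one (hd k),
    Sp_two (hd j), Sp_two (hd k), site_diag, site_diag, Matrix.diagonal_mul_diagonal]
  have hI : (1 / (2 * Complex.I)) * (1 / (2 * Complex.I)) = -(1 / 4 : ℂ) := by
    field_simp
    rw [Complex.I_sq]; norm_num
  generalize (1 / (2 * Complex.I) : ℂ) = r at hI ⊢
  simp only [site_smul, site_add, site_sub', site_ofReal]
  set A := site (κ := fun i => Fin (d i)) j (Pr (d j)) with hA
  set A' := site (κ := fun i => Fin (d i)) j (Pr (d j))ᵀ with hA'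
  set B := site (κ := fun i => Fin (d i)) k (Pr (d k)) with hB
  set B' := site (κ := fun i => Fin (d i)) k (Pr (d k))ᵀ with hB'
  have e1 : (Wb d (j, k)).map (fun x : ℝ => (x : ℂ)) = (1 / 2 : ℂ) •
      (A.map (fun x : ℝ => (x : ℂ)) * B'.map (fun x : ℝ => (x : ℂ)) +
        A'.map (fun x : ℝ => (x : ℂ)) * B.map (fun x : ℝ => (x : ℂ))) := by
    rw [← map_mul_ofReal, ← map_mul_ofReal]
    ext σ τ
    simp [Wb, hA, hA', hB, hB']
    ring
  rw [e1]
  set a := A.map (fun x : ℝ => (x : ℂ))
  set a' := A'.map (fun x : ℝ => (x : ℂ))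
  set c := B.map (fun x : ℝ => (x : ℂ))
  set c' := B'.map (fun x : ℝ => (x : ℂ))
  have e2 : (Matrix.diagonal fun i : ∀ i, Fin (d i) =>
      ((mag (d j) (i j).val : ℝ) : ℂ) * ((mag (d k) (i k).val : ℝ) : ℂ)) =
      Matrix.diagonal (fun σ : ∀ i, Fin (d i) => ((mag (d j) (σ j) * mag (d k) (σ k) : ℝ) : ℂ)) := by
    congr 1; funext σ; push_cast; rfl
  rw [e2]
  congr 1
  have e3 : (r • (a - a')) * (r • (c - c')) = (r * r) • ((a - a') * (c - c')) := by
    rw [Matrix.smul_mul, Matrix.mul_smul, smul_smul]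
  rw [e3, hI, Matrix.smul_mul, Matrix.mul_smul, smul_smul, Matrix.add_mul, Matrix.mul_add,
    Matrix.mul_add, Matrix.sub_mul, Matrix.mul_sub, Matrix.mul_sub]
  module

theorem Hgen_eq (d : Fin n → ℕ) (hd : ∀ i, d i = 2 ∨ d i = 3)
    (bonds : List (Fin n × Fin n)) (_hb : ∀ b ∈ bonds, b.1 ≠ b.2) (f : List (Fin n × ℝ)) :
    Hgen d bonds f = (Wgen d bonds).map (fun x : ℝ => (x : ℂ)) +
      Matrix.diagonal (fun σ => ((Dgen d bonds f σ : ℝ) : ℂ)) := by
  have h1 : (bonds.map fun b => ∑ a : Fin 3, site (κ := fun i => Fin (d i)) b.1 (Sp (d b.1) a) *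
      site (κ := fun i => Fin (d i)) b.2 (Sp (d b.2) a)).sum =
      (Wgen d bonds).map (fun x : ℝ => (x : ℂ)) + Matrix.diagonal (fun σ : ∀ i, Fin (d i) =>
        (((bonds.map fun b => mag (d b.1) (σ b.1) * mag (d b.2) (σ b.2)).sum : ℝ) : ℂ)) := by
    clear _hb
    unfold Wgen
    induction bonds with
    | nil => ext σ τ; simp
    | cons b l ih =>
      rw [List.map_cons, List.sum_cons, bond_eq hd b, ih, List.map_cons, List.sum_cons]
      ext σ τ
      by_cases h : σ = τ
      · subst h; simp; ring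
      · simp [h]
  have h2 : (f.map fun p => (p.2 : ℂ) • site (κ := fun i => Fin (d i)) p.1 (Sp (d p.1) 2)).sum =
      Matrix.diagonal (fun σ : ∀ i, Fin (d i) =>
        (((f.map fun p => p.2 * mag (d p.1) (σ p.1)).sum : ℝ) : ℂ)) := by
    induction f with
    | nil => ext σ τ; simp
    | cons p l ih =>
      rw [List.map_cons, List.sum_cons, ih, Sp_two (hd p.1), site_diag]
      ext σ τ
      by_cases h : σ = τ
      · subst h; simp
      · simp [h]
  unfold Hgen
  rw [h1, h2]
  unfold Dgen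
  ext σ τ
  by_cases h : σ = τ
  · subst h; simp; ring
  · simp [h]

theorem site_mulVec (j : Fin n) (A : Matrix (Fin (d j)) (Fin (d j)) ℝ)
    (U : (∀ i, Fin (d i)) → ℝ) (σ : ∀ i, Fin (d i)) :
    (site (κ := fun i => Fin (d i)) j A *ᵥ U) σ = ∑ x, A (σ j) x * U (Function.update σ j x) := by
  classical
  rw [Matrix.mulVec, dotProduct]
  have himg : ∀ τ : (∀ i, Fin (d i)), τ ∉ (univ.image fun x => Function.update σ j x) →
      site (κ := fun i => Fin (d i)) j A σ τ * U τ = 0 := by
    intro τ hτ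
    rw [site_apply, if_neg, zero_mul]
    intro h
    apply hτ
    rw [mem_image]
    refine ⟨τ j, mem_univ _, ?_⟩
    funext i
    by_cases hi : i = j
    · subst hi; simp
    · rw [Function.update_of_ne hi]; exact h i hi
  rw [← Finset.sum_subset (Finset.subset_univ _) (fun τ _ hτ => himg τ hτ),
    Finset.sum_image (fun x _ y _ h => Function.update_injective σ j h)]
  refine Finset.sum_congr rfl fun x _ => ?_
  rw [site_apply, if_pos, Function.update_self]
  intro k hk
  rw [Function.update_of_ne hk]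

theorem site_site_mulVec {j k : Fin n} (hjk : j ≠ k)
    (A : Matrix (Fin (d j)) (Fin (d j)) ℝ) (B : Matrix (Fin (d k)) (Fin (d k)) ℝ)
    (U : (∀ i, Fin (d i)) → ℝ) (σ : ∀ i, Fin (d i)) :
    ((site (κ := fun i => Fin (d i)) j A * site (κ := fun i => Fin (d i)) k B) *ᵥ U) σ =
      ∑ x, ∑ y, A (σ j) x * B (σ k) y * U (Function.update (Function.update σ j x) k y) := by
  rw [← Matrix.mulVec_mulVec, site_mulVec]
  refine Finset.sum_congr rfl fun x _ => ?_
  rw [site_mulVec, Finset.mul_sum]
  refine Finset.sum_congr rfl fun y _ => ?_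
  rw [Function.update_of_ne hjk.symm]
  ring

theorem amp_nonneg (d : ℕ) : 0 ≤ amp d := by
  unfold amp; split_ifs <;> positivity

theorem Pr_nonneg (d : ℕ) (a b : Fin d) : 0 ≤ Pr d a b := by
  unfold Pr
  simp only [Matrix.of_apply]
  split_ifs
  · exact amp_nonneg d
  · exact le_rfl

theorem tens_nonneg (M : ∀ i, Matrix (Fin (d i)) (Fin (d i)) ℝ) (h : ∀ i a b, 0 ≤ M i a b)
    (σ τ : ∀ i, Fin (d i)) : 0 ≤ tens (κ := fun i => Fin (d i)) M σ τ := by
  rw [tens_apply]
  exact Finset.prod_nonneg fun i _ => h i _ _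

theorem site_nonneg (j : Fin n) (A : Matrix (Fin (d j)) (Fin (d j)) ℝ) (h : ∀ a b, 0 ≤ A a b)
    (σ τ : ∀ i, Fin (d i)) : 0 ≤ site (κ := fun i => Fin (d i)) j A σ τ := by
  rw [site_apply]
  split_ifs
  · exact h _ _
  · exact le_rfl

theorem mul_nonneg_entry {κ : Type*} [Fintype κ] {A B : Matrix κ κ ℝ} (hA : ∀ i j, 0 ≤ A i j)
    (hB : ∀ i j, 0 ≤ B i j) (i j : κ) : 0 ≤ (A * B) i j := by
  rw [Matrix.mul_apply]
  exact Finset.sum_nonneg fun k _ => mul_nonneg (hA _ _) (hB _ _)

theorem Wb_nonneg (d : Fin n → ℕ) (b : Fin n × Fin n) (_hb : b.1 ≠ b.2)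
    (σ τ : ∀ i, Fin (d i)) : 0 ≤ Wb d b σ τ := by
  unfold Wb
  rw [Matrix.smul_apply, Matrix.add_apply, smul_eq_mul]
  have h1 : ∀ i a c, 0 ≤ (Pr (d i)) a c := fun i => Pr_nonneg (d i)
  have h2 : ∀ i a c, 0 ≤ (Pr (d i))ᵀ a c := fun i a c => Pr_nonneg (d i) c a
  have h3 := mul_nonneg_entry (site_nonneg b.1 _ (h1 b.1)) (site_nonneg b.2 _ (h2 b.2)) σ τ
  have h4 := mul_nonneg_entry (site_nonneg b.1 _ (h2 b.1)) (site_nonneg b.2 _ (h1 b.2)) σ τ
  positivity

theorem Wgen_nonneg (d : Fin n → ℕ) (bonds : List (Fin n × Fin n))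
    (hb : ∀ b ∈ bonds, b.1 ≠ b.2) (σ τ : ∀ i, Fin (d i)) : 0 ≤ Wgen d bonds σ τ := by
  unfold Wgen
  induction bonds with
  | nil => simp
  | cons b l ih =>
    rw [List.map_cons, List.sum_cons, Matrix.add_apply]
    exact add_nonneg (Wb_nonneg d b (hb b List.mem_cons_self) σ τ)
      (ih fun b' hb' => hb b' (List.mem_cons_of_mem _ hb'))

theorem Wb_symm (d : Fin n → ℕ) (b : Fin n × Fin n) (hb : b.1 ≠ b.2) : (Wb d b)ᵀ = Wb d b := by
  unfold Wb
  rw [Matrix.transpose_smul, Matrix.transpose_add, Matrix.transpose_mul, Matrix.transpose_mul,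
    site_transpose, site_transpose, site_transpose, site_transpose, Matrix.transpose_transpose,
    Matrix.transpose_transpose, site_comm hb.symm, site_comm hb.symm, add_comm]

theorem Wgen_symm (d : Fin n → ℕ) (bonds : List (Fin n × Fin n))
    (hb : ∀ b ∈ bonds, b.1 ≠ b.2) : (Wgen d bonds)ᵀ = Wgen d bonds := by
  unfold Wgen
  induction bonds with
  | nil => simp
  | cons b l ih =>
    rw [List.map_cons, List.sum_cons, Matrix.transpose_add, Wb_symm d b (hb b List.mem_cons_self),
      ih fun b' hb' => hb b' (List.mem_cons_of_mem _ hb')]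

/-- explicit action of one bond.  For a function `U`: only two terms survive. -/
theorem Wb_mulVec (d : Fin n → ℕ) (b : Fin n × Fin n) (hb : b.1 ≠ b.2)
    (U : (∀ i, Fin (d i)) → ℝ) (σ : ∀ i, Fin (d i)) :
    (Wb d b *ᵥ U) σ =
      (if h : (σ b.1).val + 1 < d b.1 ∧ 1 ≤ (σ b.2).val then
        amp (d b.1) * amp (d b.2) / 2 *
          U (Function.update (Function.update σ b.1 ⟨(σ b.1).val + 1, h.1⟩) b.2
            ⟨(σ b.2).val - 1, by have := (σ b.2).isLt; omega⟩) else 0) +
      (if h : 1 ≤ (σ b.1).val ∧ (σ b.2).val + 1 < d b.2 then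
        amp (d b.1) * amp (d b.2) / 2 *
          U (Function.update (Function.update σ b.1 ⟨(σ b.1).val - 1, by have := (σ b.1).isLt; omega⟩)
            b.2 ⟨(σ b.2).val + 1, h.2⟩) else 0) := by
  obtain ⟨j, k⟩ := b
  simp only at hb ⊢
  have key1 : ∀ {e : ℕ} (a : Fin e) (F : Fin e → ℝ), ∑ x, Pr e a x * F x =
      if h : a.val + 1 < e then amp e * F ⟨a.val + 1, h⟩ else 0 := by
    intro e a F
    by_cases h : a.val + 1 < e
    · rw [dif_pos h, Finset.sum_eq_single ⟨a.val + 1, h⟩]
      · simp [Pr]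
      · intro x _ hx
        have : ¬ x.val = a.val + 1 := fun e => hx (Fin.ext e)
        simp [Pr, this]
      · intro hx; exact absurd (Finset.mem_univ _) hx
    · rw [dif_neg h]
      apply Finset.sum_eq_zero
      intro x _
      have : ¬ x.val = a.val + 1 := fun e => h (by rw [← e]; exact x.isLt)
      simp [Pr, this]
  have key2 : ∀ {e : ℕ} (a : Fin e) (F : Fin e → ℝ), ∑ x, (Pr e)ᵀ a x * F x =
      if h : 1 ≤ a.val then amp e * F ⟨a.val - 1, by have := a.isLt; omega⟩ else 0 := by
    intro e a F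
    by_cases h : 1 ≤ a.val
    · rw [dif_pos h, Finset.sum_eq_single ⟨a.val - 1, by have := a.isLt; omega⟩]
      · have : a.val = a.val - 1 + 1 := by omega
        simp [Pr, ← this]
      · intro x _ hx
        have : ¬ a.val = x.val + 1 := fun e => hx (Fin.ext (by simp; omega))
        simp [Pr, this]
      · intro hx; exact absurd (Finset.mem_univ _) hx
    · rw [dif_neg h]
      apply Finset.sum_eq_zero
      intro x _
      have : ¬ a.val = x.val + 1 := by omega
      simp [Pr, this]
  unfold Wb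
  simp only
  rw [Matrix.smul_mulVec, Matrix.add_mulVec, Pi.smul_apply, Pi.add_apply, smul_eq_mul,
    site_site_mulVec hb, site_site_mulVec hb, mul_add]
  congr 1
  · have e1 : ∀ x, ∑ y, Pr (d j) (σ j) x * (Pr (d k))ᵀ (σ k) y *
        U (Function.update (Function.update σ j x) k y) =
        Pr (d j) (σ j) x * (if h : 1 ≤ (σ k).val then amp (d k) *
          U (Function.update (Function.update σ j x) k ⟨(σ k).val - 1, by have := (σ k).isLt; omega⟩)
          else 0) := by
      intro x
      rw [← key2 (σ k) (fun y => U (Function.update (Function.update σ j x) k y)), Finset.mul_sum]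
      exact Finset.sum_congr rfl fun y _ => by ring
    rw [Finset.sum_congr rfl fun x _ => e1 x, key1 (σ j)]
    by_cases h1 : (σ j).val + 1 < d j
    · by_cases h2 : 1 ≤ (σ k).val
      · rw [dif_pos h1, dif_pos h2, dif_pos ⟨h1, h2⟩]; ring
      · rw [dif_pos h1, dif_neg h2, dif_neg (fun h => h2 h.2)]; ring
    · rw [dif_neg h1, dif_neg (fun h => h1 h.1)]; ring
  · have e1 : ∀ x, ∑ y, (Pr (d j))ᵀ (σ j) x * Pr (d k) (σ k) y *
        U (Function.update (Function.update σ j x) k y) =
        (Pr (d j))ᵀ (σ j) x * (if h : (σ k).val + 1 < d k then amp (d k) *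
          U (Function.update (Function.update σ j x) k ⟨(σ k).val + 1, h⟩)
          else 0) := by
      intro x
      rw [← key1 (σ k) (fun y => U (Function.update (Function.update σ j x) k y)), Finset.mul_sum]
      exact Finset.sum_congr rfl fun y _ => by ring
    rw [Finset.sum_congr rfl fun x _ => e1 x, key2 (σ j)]
    by_cases h1 : 1 ≤ (σ j).val
    · by_cases h2 : (σ k).val + 1 < d k
      · rw [dif_pos h1, dif_pos h2, dif_pos ⟨h1, h2⟩]; ring
      · rw [dif_pos h1, dif_neg h2, dif_neg (fun h => h2 h.2)]; ring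
    · rw [dif_neg h1, dif_neg (fun h => h1 h.1)]; ring

/-! ### Marshall sign -/

/-- Marshall sign `(-1)^{Σ_{i odd} σ_i}` -/
noncomputable def msign (σ : ∀ i, Fin (d i)) : ℝ :=
  ∏ i : Fin n, if i.val % 2 = 1 then (-1 : ℝ) ^ (σ i).val else 1

theorem msign_sq (σ : ∀ i, Fin (d i)) : msign σ * msign σ = 1 := by
  unfold msign
  rw [← Finset.prod_mul_distrib]
  apply Finset.prod_eq_one
  intro i _
  split_ifs
  · rw [← pow_add, ← two_mul, pow_mul]; norm_num
  · norm_num

theorem msign_update (σ : ∀ i, Fin (d i)) (j : Fin n) (x : Fin (d j)) :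
    msign (Function.update σ j x) * (if j.val % 2 = 1 then (-1 : ℝ) ^ (σ j).val else 1) =
      msign σ * (if j.val % 2 = 1 then (-1 : ℝ) ^ x.val else 1) := by
  unfold msign
  rw [← Finset.mul_prod_erase univ
      (fun i : Fin n => if i.val % 2 = 1 then (-1 : ℝ) ^ (Function.update σ j x i).val else 1)
      (Finset.mem_univ j),
    ← Finset.mul_prod_erase univ
      (fun i : Fin n => if i.val % 2 = 1 then (-1 : ℝ) ^ (σ i).val else 1) (Finset.mem_univ j)]
  have h : ∏ i ∈ univ.erase j, (if i.val % 2 = 1 then (-1 : ℝ) ^ (Function.update σ j x i).val else 1) =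
      ∏ i ∈ univ.erase j, (if i.val % 2 = 1 then (-1 : ℝ) ^ (σ i).val else 1) := by
    refine Finset.prod_congr rfl fun i hi => ?_
    rw [Function.update_of_ne (Finset.ne_of_mem_erase hi)]
  rw [h]
  simp only [Function.update_self]
  ring

/-- changing the digits of an even and an odd site by one flips the sign -/
theorem msign_flip (σ : ∀ i, Fin (d i)) {j k : Fin n} (hjk : j ≠ k)
    (hpar : (j.val + k.val) % 2 = 1) (x : Fin (d j)) (y : Fin (d k))
    (hx : x.val = (σ j).val + 1 ∨ x.val + 1 = (σ j).val)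
    (hy : y.val = (σ k).val + 1 ∨ y.val + 1 = (σ k).val) :
    msign σ * msign (Function.update (Function.update σ j x) k y) = -1 := by
  have u1 := msign_update σ j x
  have u2 := msign_update (Function.update σ j x) k y
  rw [Function.update_of_ne hjk.symm] at u2
  have hs := msign_sq σ
  have pw : ∀ {a b : ℕ}, (a = b + 1 ∨ a + 1 = b) → (-1 : ℝ) ^ a = -(-1 : ℝ) ^ b := by
    intro a b h
    rcases h with rfl | rfl
    · rw [pow_succ]; ring
    · rw [pow_succ]; ring
  have sq : ∀ b : ℕ, (-1 : ℝ) ^ b * (-1 : ℝ) ^ b = 1 := by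
    intro b; rw [← pow_add, ← two_mul, pow_mul]; norm_num
  rcases Nat.mod_two_eq_zero_or_one j.val with hj | hj
  · have hk : k.val % 2 = 1 := by omega
    rw [if_neg (by omega), if_neg (by omega), mul_one, mul_one] at u1
    rw [if_pos hk, if_pos hk, pw hy, u1] at u2
    set z := (-1 : ℝ) ^ (σ k).val
    have hz : z * z = 1 := sq _
    have : msign (Function.update (Function.update σ j x) k y) = -msign σ := by
      calc msign (Function.update (Function.update σ j x) k y)
          = (msign (Function.update (Function.update σ j x) k y) * z) * z := by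
            rw [mul_assoc, hz, mul_one]
        _ = (msign σ * -z) * z := by rw [u2]
        _ = -msign σ := by linear_combination (-msign σ) * hz
    rw [this]; linarith
  · have hk : ¬ k.val % 2 = 1 := by omega
    rw [if_pos hj, if_pos hj, pw hx] at u1
    rw [if_neg hk, if_neg hk, mul_one, mul_one] at u2
    set z := (-1 : ℝ) ^ (σ j).val
    have hz : z * z = 1 := sq _
    have : msign (Function.update (Function.update σ j x) k y) = -msign σ := by
      rw [u2]
      calc msign (Function.update σ j x)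
          = (msign (Function.update σ j x) * z) * z := by rw [mul_assoc, hz, mul_one]
        _ = (msign σ * -z) * z := by rw [u1]
        _ = -msign σ := by linear_combination (-msign σ) * hz
    rw [this]; linarith

theorem Wb_sign (d : Fin n → ℕ) (b : Fin n × Fin n) (hb : (b.1.val + b.2.val) % 2 = 1)
    (σ τ : ∀ i, Fin (d i)) (h : Wb d b σ τ ≠ 0) : msign σ * msign τ = -1 := by
  classical
  have hne : b.1 ≠ b.2 := fun e => by rw [e] at hb; omega
  have e1 : Wb d b σ τ = (Wb d b *ᵥ Pi.single τ 1) σ := by simp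
  rw [e1, Wb_mulVec d b hne] at h
  have hcase : ∀ {x y : ℝ}, x + y ≠ 0 → x ≠ 0 ∨ y ≠ 0 := by
    intro x y hxy
    by_contra hc
    push Not at hc
    exact hxy (by rw [hc.1, hc.2, add_zero])
  rcases hcase h with h1 | h1
  · split_ifs at h1 with hc
    · have h2 := right_ne_zero_of_mul h1
      rw [Pi.single_apply] at h2
      split_ifs at h2 with he
      · rw [← he]
        exact msign_flip σ hne hb _ _ (Or.inl rfl) (Or.inr (by simp only; omega))
      · exact absurd rfl h2
    · exact absurd rfl h1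
  · split_ifs at h1 with hc
    · have h2 := right_ne_zero_of_mul h1
      rw [Pi.single_apply] at h2
      split_ifs at h2 with he
      · rw [← he]
        exact msign_flip σ hne hb _ _ (Or.inr (by simp only; omega)) (Or.inl rfl)
      · exact absurd rfl h2
    · exact absurd rfl h1

/-- hopping across a bond connecting an even and an odd site flips the Marshall sign -/
theorem Wgen_sign (d : Fin n → ℕ) (bonds : List (Fin n × Fin n))
    (hb : ∀ b ∈ bonds, (b.1.val + b.2.val) % 2 = 1) (σ τ : ∀ i, Fin (d i))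
    (h : Wgen d bonds σ τ ≠ 0) : msign σ * msign τ = -1 := by
  unfold Wgen at h
  induction bonds with
  | nil => simp at h
  | cons b l ih =>
    rw [List.map_cons, List.sum_cons, Matrix.add_apply] at h
    by_cases h1 : Wb d b σ τ = 0
    · rw [h1, zero_add] at h
      exact ih (fun b' hb' => hb b' (List.mem_cons_of_mem _ hb')) h
    · exact Wb_sign d b (hb b List.mem_cons_self) σ τ h1

end

end Hald.Cw
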