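import Crest.Agent.Hald.Pack

/-!
# Row 347, M7 (7b): mixed-radix index and its relation to `memb`
-/

set_option autoImplicit false

namespace Hald.Cw

open Finset

/-- mixed radix value, least significant digit first -/
def idxL : List ℕ → List ℕ → ℕ
  | d :: ds, a :: as => a + d * idxL ds as
  | _, _ => 0

theorem idxL_lt (ds as : List ℕ) (h : List.Forall₂ (fun a d => a < d) as ds) :
    idxL ds as < ds.prod := by
  induction h with
  | nil => simp [idxL]
  | @cons a d as ds ha _ ih =>
    rw [idxL, List.prod_cons]
    calc a + d * idxL ds as < d + d * idxL ds as := by omega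
      _ = d * (idxL ds as + 1) := by ring
      _ ≤ d * ds.prod := Nat.mul_le_mul_left _ ih

theorem idxL_set (ds as : List ℕ) (hl : as.length = ds.length) (j : ℕ) (hj : j < as.length) (x : ℕ) :
    idxL ds (as.set j x) + as[j] * (ds.take j).prod = idxL ds as + x * (ds.take j).prod := by
  induction ds generalizing as j with
  | nil => simp at hl; subst hl; simp at hj
  | cons d ds ih =>
    cases as with
    | nil => simp at hj
    | cons a as =>
      cases j with
      | zero => simp [idxL]; ring
      | succ j =>
        have hl' : as.length = ds.length := by simpa using hl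
        have hj' : j < as.length := by simpa using hj
        have := ih as hl' j hj'
        simp only [List.set_cons_succ, idxL, List.getElem_cons_succ, List.take_succ_cons,
          List.prod_cons]
        calc a + d * idxL ds (as.set j x) + as[j] * (d * (ds.take j).prod)
            = a + d * (idxL ds (as.set j x) + as[j] * (ds.take j).prod) := by ring
          _ = a + d * (idxL ds as + x * (ds.take j).prod) := by rw [this]
          _ = _ := by ring

/-- digit specification: digit list `Lj` at site `j`, `Lk` at site `k`, everything elsewhere -/
def mkSpec (j : ℕ) (Lj : List Bool) (k : ℕ) (Lk : List Bool) : List ℕ → ℕ → List (List Bool)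
  | [], _ => []
  | d :: ds, i => (bif Nat.beq i j then Lj else bif Nat.beq i k then Lk else List.replicate d true) ::
      mkSpec j Lj k Lk ds (i + 1)

theorem replicate_getD {d a : ℕ} (h : a < d) : (List.replicate d true).getD a false = true := by
  simp [List.getD, List.getElem?_replicate, h]

theorem beq_self_true (a : ℕ) : Nat.beq a a = true := Nat.beq_refl a
theorem beq_false {a b : ℕ} (h : a ≠ b) : Nat.beq a b = false := by
  rw [Bool.eq_false_iff]
  intro h2
  exact h (Nat.eq_of_beq_eq_true h2)

theorem mkSpec_dim (j : ℕ) (Lj : List Bool) (k : ℕ) (Lk : List Bool) (ds : List ℕ) (i0 : ℕ)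
    (hj : ∀ i (h : i < ds.length), i0 + i = j → Lj.length = ds[i])
    (hk : ∀ i (h : i < ds.length), i0 + i = k → Lk.length = ds[i]) :
    dimL (mkSpec j Lj k Lk ds i0) = ds.prod := by
  induction ds generalizing i0 with
  | nil => rfl
  | cons d ds ih =>
    have ih' := ih (i0 + 1)
      (fun i h e => by
        have := hj (i + 1) (by simpa using h) (by omega)
        simpa using this)
      (fun i h e => by
        have := hk (i + 1) (by simpa using h) (by omega)
        simpa using this)
    rw [mkSpec, dimL, List.prod_cons, ih']
    congr 1
    by_cases e1 : i0 = j
    · subst e1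
      rw [beq_self_true, cond_true]
      have := hj 0 (by simp) (by omega)
      simpa using this
    · rw [beq_false e1, cond_false]
      by_cases e2 : i0 = k
      · subst e2
        rw [beq_self_true, cond_true]
        have := hk 0 (by simp) (by omega)
        simpa using this
      · rw [beq_false e2, cond_false]
        simp

theorem mkSpec_memb (j : ℕ) (Lj : List Bool) (k : ℕ) (Lk : List Bool) (ds as : List ℕ)
    (h : List.Forall₂ (fun a d => a < d) as ds) (i0 : ℕ)
    (hj : ∀ i (h : i < ds.length), i0 + i = j → Lj.length = ds[i])
    (hk : ∀ i (h : i < ds.length), i0 + i = k → Lk.length = ds[i]) :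
    memb (mkSpec j Lj k Lk ds i0) (idxL ds as) = true ↔
      (∀ i (h : i < as.length), (i0 + i = j → Lj.getD as[i] false = true) ∧
        (i0 + i ≠ j → i0 + i = k → Lk.getD as[i] false = true)) := by
  induction h generalizing i0 with
  | nil => simp [mkSpec, memb]
  | @cons a d as ds ha hr ih =>
    have ih' := ih (i0 + 1)
      (fun i h e => by
        have := hj (i + 1) (by simpa using h) (by omega)
        simpa using this)
      (fun i h e => by
        have := hk (i + 1) (by simpa using h) (by omega)
        simpa using this)
    have hlen : (bif Nat.beq i0 j then Lj else bif Nat.beq i0 k then Lk else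
        List.replicate d true).length = d := by
      by_cases e1 : i0 = j
      · subst e1
        rw [beq_self_true, cond_true]
        have := hj 0 (by simp) (by omega)
        simpa using this
      · rw [beq_false e1, cond_false]
        by_cases e2 : i0 = k
        · subst e2
          rw [beq_self_true, cond_true]
          have := hk 0 (by simp) (by omega)
          simpa using this
        · rw [beq_false e2, cond_false]
          simp
    rw [mkSpec, memb, hlen, idxL, Nat.add_mul_mod_self_left, Nat.mod_eq_of_lt ha,
      Nat.add_mul_div_left _ _ (by omega), Nat.div_eq_of_lt ha, zero_add, Bool.and_eq_true, ih']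
    constructor
    · rintro ⟨h1, h2⟩ i hi
      cases i with
      | zero =>
        simp only [add_zero, List.getElem_cons_zero]
        constructor
        · intro e
          subst e
          rwa [beq_self_true, cond_true] at h1
        · intro e1 e2
          rw [beq_false e1, cond_false] at h1
          subst e2
          rwa [beq_self_true, cond_true] at h1
      | succ i =>
        have hi' : i < as.length := by simpa using hi
        have := h2 i hi'
        rw [show i0 + 1 + i = i0 + (i + 1) by omega] at this
        simpa using this
    · intro h1
      refine ⟨?_, fun i hi => ?_⟩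
      · have := h1 0 (by simp)
        simp only [add_zero, List.getElem_cons_zero] at this
        by_cases e1 : i0 = j
        · rw [e1, beq_self_true, cond_true]; exact this.1 e1
        · rw [beq_false e1, cond_false]
          by_cases e2 : i0 = k
          · rw [e2, beq_self_true, cond_true]; exact this.2 e1 e2
          · rw [beq_false e2, cond_false]
            exact replicate_getD ha
      · have := h1 (i + 1) (by simpa using hi)
        rw [show i0 + (i + 1) = i0 + 1 + i by omega] at this
        simpa using this

/-! ### configurations `σ : ∀ i : Fin n, Fin (d i)` -/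

section Conf

variable {n : ℕ} {d : Fin n → ℕ}

/-- digits of a configuration -/
def digs (σ : ∀ i, Fin (d i)) : List ℕ := List.ofFn fun i => (σ i).val

/-- index of a configuration -/
def idx (σ : ∀ i, Fin (d i)) : ℕ := idxL (List.ofFn d) (digs σ)

/-- stride of site `j` -/
def stride (ds : List ℕ) (j : ℕ) : ℕ := (ds.take j).prod

theorem digs_length (σ : ∀ i, Fin (d i)) : (digs σ).length = n := by simp [digs]

theorem digs_getElem (σ : ∀ i, Fin (d i)) (i : ℕ) (h : i < (digs σ).length) :
    (digs σ)[i] = (σ ⟨i, by simpa [digs] using h⟩).val := by
  simp [digs]

theorem digs_valid (σ : ∀ i, Fin (d i)) :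
    List.Forall₂ (fun a d => a < d) (digs σ) (List.ofFn d) := by
  rw [List.forall₂_iff_get]
  refine ⟨by simp [digs], fun i h1 h2 => ?_⟩
  simp only [digs, List.get_eq_getElem, List.getElem_ofFn]
  exact (σ _).isLt

theorem idx_lt (σ : ∀ i, Fin (d i)) : idx σ < (List.ofFn d).prod := idxL_lt _ _ (digs_valid σ)

theorem digs_update (σ : ∀ i, Fin (d i)) (j : Fin n) (x : Fin (d j)) :
    digs (Function.update σ j x) = (digs σ).set j.val x.val := by
  apply List.ext_getElem
  · simp [digs]
  · intro i h1 h2
    rw [digs_getElem, List.getElem_set]
    split_ifs with h
    · subst h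
      have : (⟨j.val, by simpa [digs] using h1⟩ : Fin n) = j := rfl
      simp
    · rw [digs_getElem, Function.update_of_ne]
      intro e
      exact h (by rw [← e])

theorem idx_update (σ : ∀ i, Fin (d i)) (j : Fin n) (x : Fin (d j)) :
    idx (Function.update σ j x) + (σ j).val * stride (List.ofFn d) j.val =
      idx σ + x.val * stride (List.ofFn d) j.val := by
  have h := idxL_set (List.ofFn d) (digs σ) (by simp [digs]) j.val (by simp [digs]) x.val
  rw [digs_getElem] at h
  rw [idx, digs_update]
  exact h

/-- membership of a configuration in a two-site specification -/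
theorem memb_idx (σ : ∀ i, Fin (d i)) (j k : Fin n) (hjk : j ≠ k) (Lj Lk : List Bool)
    (hj : Lj.length = d j) (hk : Lk.length = d k) :
    memb (mkSpec j.val Lj k.val Lk (List.ofFn d) 0) (idx σ) =
      (Lj.getD (σ j).val false && Lk.getD (σ k).val false) := by
  have h := mkSpec_memb j.val Lj k.val Lk (List.ofFn d) (digs σ) (digs_valid σ) 0
    (fun i h e => by
      have : i = j.val := by omega
      subst this; simpa using hj)
    (fun i h e => by
      have : i = k.val := by omega
      subst this; simpa using hk)
  rw [Bool.eq_iff_iff, idx, h, Bool.and_eq_true]
  have hne : j.val ≠ k.val := fun e => hjk (Fin.ext e)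
  constructor
  · intro h1
    refine ⟨?_, ?_⟩
    · have := (h1 j.val (by simp [digs])).1 (by omega)
      rwa [digs_getElem] at this
    · have := (h1 k.val (by simp [digs])).2 (by omega) (by omega)
      rwa [digs_getElem] at this
  · rintro ⟨h1, h2⟩ i hi
    refine ⟨fun e => ?_, fun e1 e2 => ?_⟩
    · have : i = j.val := by omega
      subst this
      rwa [digs_getElem]
    · have : i = k.val := by omega
      subst this
      rwa [digs_getElem]

/-- membership of a configuration in a one-site specification (`k` out of range) -/
theorem memb_idx1 (σ : ∀ i, Fin (d i)) (j : Fin n) (Lj : List Bool) (hj : Lj.length = d j) :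
    memb (mkSpec j.val Lj n [] (List.ofFn d) 0) (idx σ) = Lj.getD (σ j).val false := by
  have h := mkSpec_memb j.val Lj n [] (List.ofFn d) (digs σ) (digs_valid σ) 0
    (fun i h e => by
      have : i = j.val := by omega
      subst this; simpa using hj)
    (fun i h e => by
      have : i = n := by omega
      subst this; simp at h)
  rw [Bool.eq_iff_iff, idx, h]
  constructor
  · intro h1
    have := (h1 j.val (by simp [digs])).1 (by omega)
    rwa [digs_getElem] at this
  · intro h1 i hi
    refine ⟨fun e => ?_, fun e1 e2 => ?_⟩
    · have : i = j.val := by omega
      subst this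
      rwa [digs_getElem]
    · have : i = n := by omega
      subst this
      simp [digs] at hi

theorem dim_idx (j k : Fin n) (Lj Lk : List Bool)
    (hj : Lj.length = d j) (hk : Lk.length = d k) :
    dimL (mkSpec j.val Lj k.val Lk (List.ofFn d) 0) = (List.ofFn d).prod :=
  mkSpec_dim _ _ _ _ _ _
    (fun i h e => by
      have : i = j.val := by omega
      subst this; simpa using hj)
    (fun i h e => by
      have : i = k.val := by omega
      subst this; simpa using hk)

theorem dim_idx1 (j : Fin n) (Lj : List Bool) (hj : Lj.length = d j) :
    dimL (mkSpec j.val Lj n [] (List.ofFn d) 0) = (List.ofFn d).prod :=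
  mkSpec_dim _ _ _ _ _ _
    (fun i h e => by
      have : i = j.val := by omega
      subst this; simpa using hj)
    (fun i h e => by
      have : i = n := by omega
      subst this; simp at h)

end Conf

end Hald.Cw
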