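import Crest.Agent.Hald.Pack

/-!
# Row 347, M7 (7b): packed evaluation of a sum of masked shifts and fieldwise comparison

A term `(c, up, δ, spec)` maps the vector `f` to
`i ↦ c * [memb spec i] * (up: f (i - δ) if δ ≤ i;  down: f (i + δ) if i + δ < D)`.
The mask is applied AFTER the shift (target mask), so no side condition is needed.
-/

set_option autoImplicit false

namespace Hald.Cw

open Finset Hald

structure Term where
  c : ℕ
  up : Bool
  dl : ℕ
  spec : List (List Bool)

/-- semantics of a term -/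
def tsem (D : ℕ) (f : ℕ → ℕ) (t : Term) (i : ℕ) : ℕ :=
  if memb t.spec i then
    t.c * (if t.up then (if t.dl ≤ i then f (i - t.dl) else 0)
      else (if i + t.dl < D then f (i + t.dl) else 0))
  else 0

/-- semantics of a list of terms -/
def lsem (D : ℕ) (f : ℕ → ℕ) (l : List Term) (i : ℕ) : ℕ := (l.map fun t => tsem D f t i).sum

/-- packed evaluation of a term -/
noncomputable def tval (w v : ℕ) (t : Term) : ℕ :=
  Nat.mul t.c (Nat.land (bif t.up then Nat.shiftLeft v (Nat.mul w t.dl)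
    else Nat.shiftRight v (Nat.mul w t.dl)) (msk w t.spec))

/-- packed evaluation of a list of terms -/
noncomputable def lval (w v : ℕ) (l : List Term) : ℕ :=
  List.rec (motive := fun _ => ℕ) 0 (fun t _ ih => Nat.add (tval w v t) ih) l

@[simp] theorem lval_nil (w v : ℕ) : lval w v [] = 0 := rfl
@[simp] theorem lval_cons (w v : ℕ) (t : Term) (l : List Term) :
    lval w v (t :: l) = tval w v t + lval w v l := rfl

theorem pk_split (w : ℕ) (f : ℕ → ℕ) (D E : ℕ) :
    pk w f (D + E) = pk w f D + (pk w (fun i => f (i + D)) E) * 2 ^ (w * D) := by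
  induction E with
  | zero => simp [pk]
  | succ E ih =>
    rw [← add_assoc, pk_succ, ih, pk_succ, add_mul, add_assoc, add_comm E D]
    congr 2
    rw [mul_assoc, ← pow_add]
    ring_nf

theorem pk_and_trunc {w : ℕ} {f g : ℕ → ℕ} {D E : ℕ} (hf : ∀ i < D, f i < 2 ^ w)
    (hg : ∀ i < D, g i < 2 ^ w) :
    pk w f (D + E) &&& pk w g D = pk w (fun i => f i &&& g i) D := by
  rw [pk_split]
  have h := and_add_mul_pow (a := pk w f D) (b := pk w (fun i => f (i + D)) E) (c := pk w g D) (d := 0)
    (n := w * D) (pk_lt hf) (pk_lt hg)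
  rw [zero_mul, add_zero, Nat.and_zero, zero_mul, add_zero] at h
  rw [h, and_pk hf hg]

theorem pk_shiftLeft (w : ℕ) (f : ℕ → ℕ) (D δ : ℕ) :
    pk w f D <<< (w * δ) = pk w (fun i => if δ ≤ i then f (i - δ) else 0) (D + δ) := by
  rw [add_comm, pk_split, Nat.shiftLeft_eq]
  have h0 : pk w (fun i => if δ ≤ i then f (i - δ) else 0) δ = 0 := by
    rw [pk]
    apply sum_eq_zero
    intro i hi
    rw [mem_range] at hi
    rw [if_neg (by omega), zero_mul]
  rw [h0, zero_add]
  congr 1
  apply pk_congr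
  intro i _
  rw [if_pos (by omega), Nat.add_sub_cancel]

theorem pk_shiftRight {w : ℕ} {f : ℕ → ℕ} {D : ℕ} (hf : ∀ i < D, f i < 2 ^ w) (δ : ℕ) :
    pk w f D >>> (w * δ) = pk w (fun i => if i + δ < D then f (i + δ) else 0) D := by
  rcases Nat.lt_or_ge D δ with h | h
  · have h1 : pk w f D < 2 ^ (w * δ) :=
      lt_of_lt_of_le (pk_lt hf) (Nat.pow_le_pow_right (by norm_num) (Nat.mul_le_mul_left _ h.le))
    rw [Nat.shiftRight_eq_div_pow, Nat.div_eq_of_lt h1, pk]
    symm
    apply sum_eq_zero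
    intro i _
    rw [if_neg (by omega), zero_mul]
  · obtain ⟨E, rfl⟩ : ∃ E, D = δ + E := ⟨D - δ, by omega⟩
    rw [pk_split, Nat.shiftRight_eq_div_pow, Nat.add_mul_div_right _ _ (by positivity),
      Nat.div_eq_of_lt (pk_lt fun i hi => hf i (by omega)), zero_add, add_comm δ E, pk_split w _ E δ]
    have h0 : pk w (fun i => if i + E + δ < E + δ then f (i + E + δ) else 0) δ = 0 := by
      rw [pk]
      apply sum_eq_zero
      intro i _
      rw [if_neg (by omega), zero_mul]
    rw [h0, zero_mul, add_zero]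
    apply pk_congr
    intro i hi
    rw [if_pos (by omega)]

theorem pk_add (w : ℕ) (f g : ℕ → ℕ) (D : ℕ) : pk w f D + pk w g D = pk w (fun i => f i + g i) D := by
  simp [pk, add_mul, sum_add_distrib]

theorem pk_smul (w c : ℕ) (f : ℕ → ℕ) (D : ℕ) : c * pk w f D = pk w (fun i => c * f i) D := by
  simp only [pk, mul_sum]
  exact sum_congr rfl fun i _ => by ring

theorem pk_sub {w : ℕ} {f g : ℕ → ℕ} {D : ℕ} (h : ∀ i < D, g i ≤ f i) :
    pk w f D - pk w g D = pk w (fun i => f i - g i) D := by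
  have : pk w f D = pk w (fun i => f i - g i) D + pk w g D := by
    rw [pk_add]
    exact pk_congr fun i hi => (Nat.sub_add_cancel (h i hi)).symm
  rw [this, Nat.add_sub_cancel]

theorem tval_eq {w : ℕ} {f : ℕ → ℕ} {D : ℕ} (hf : ∀ i < D, f i < 2 ^ w) (t : Term)
    (hD : dimL t.spec = D) : tval w (pk w f D) t = pk w (tsem D f t) D := by
  subst hD
  have key : ∀ g : ℕ → ℕ, (∀ i < dimL t.spec, g i < 2 ^ w) → ∀ E,
      t.c * (pk w g (dimL t.spec + E) &&& msk w t.spec) =
        pk w (fun i => if memb t.spec i then t.c * g i else 0) (dimL t.spec) := by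
    intro g hg E
    rw [msk_eq, pk_and_trunc hg, pk_smul]
    · apply pk_congr
      intro i hi
      by_cases hm : memb t.spec i = true
      · simp only [hm, if_true]
        rw [Nat.and_two_pow_sub_one_eq_mod, Nat.mod_eq_of_lt (hg i hi)]
      · simp [hm]
    · intro i _
      have : 0 < 2 ^ w := by positivity
      split_ifs <;> omega
  show t.c * ((bif t.up then pk w f (dimL t.spec) <<< (w * t.dl) else
    pk w f (dimL t.spec) >>> (w * t.dl)) &&& msk w t.spec) = _
  have hpos : 0 < 2 ^ w := by positivity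
  cases hup : t.up
  · rw [cond_false, pk_shiftRight hf]
    have h := key (fun i => if i + t.dl < dimL t.spec then f (i + t.dl) else 0)
      (fun i _ => by
        split_ifs with h
        · exact hf _ h
        · exact hpos) 0
    rw [add_zero] at h
    rw [h]
    apply pk_congr
    intro i _
    simp only [tsem, hup, Bool.false_eq_true, if_false]
  · rw [cond_true, pk_shiftLeft]
    rw [key (fun i => if t.dl ≤ i then f (i - t.dl) else 0)
      (fun i hi => by
        split_ifs with h
        · exact hf _ (by omega)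
        · exact hpos) t.dl]
    apply pk_congr
    intro i _
    simp only [tsem, hup, if_true]

theorem lval_eq {w : ℕ} {f : ℕ → ℕ} {D : ℕ} (hf : ∀ i < D, f i < 2 ^ w) (l : List Term)
    (hD : ∀ t ∈ l, dimL t.spec = D) : lval w (pk w f D) l = pk w (lsem D f l) D := by
  induction l with
  | nil => simp [lsem, pk]
  | cons t l ih =>
    rw [lval_cons, tval_eq hf t (hD t List.mem_cons_self),
      ih fun t ht => hD t (List.mem_cons_of_mem _ ht), pk_add]
    apply pk_congr
    intro i _
    simp [lsem]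

/-- sum of the coefficients -/
def csum (l : List Term) : ℕ := (l.map Term.c).sum

theorem tsem_le {D B : ℕ} {f : ℕ → ℕ} (hf : ∀ i < D, f i ≤ B) (t : Term) {i : ℕ} (hi : i < D) :
    tsem D f t i ≤ t.c * B := by
  unfold tsem
  split_ifs with h1 h2 h3 h4
  · exact Nat.mul_le_mul_left _ (hf _ (by omega))
  · simp
  · exact Nat.mul_le_mul_left _ (hf _ h4)
  · simp
  · simp

theorem lsem_le {D B : ℕ} {f : ℕ → ℕ} (hf : ∀ i < D, f i ≤ B) (l : List Term) {i : ℕ} (hi : i < D) :
    lsem D f l i ≤ csum l * B := by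
  induction l with
  | nil => simp [lsem, csum]
  | cons t l ih =>
    have h1 := tsem_le hf t hi
    simp only [lsem, csum, List.map_cons, List.sum_cons, add_mul] at ih ⊢
    exact Nat.add_le_add h1 ih

/-! ### fieldwise comparison -/

/-- all fields of `P` are `≤` the fields of `Q`; `G` = guard bits -/
noncomputable def leF (G P Q : ℕ) : Bool := Nat.beq (Nat.land (Nat.sub (Nat.add Q G) P) G) G

theorem leF_sound {w : ℕ} (hw : 0 < w) {p q : ℕ → ℕ} {D : ℕ} (hp : ∀ i < D, p i < 2 ^ (w - 1))
    (hq : ∀ i < D, q i < 2 ^ (w - 1))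
    (h : leF (pk w (fun _ => 2 ^ (w - 1)) D) (pk w p D) (pk w q D) = true) :
    ∀ i < D, p i ≤ q i := by
  obtain ⟨k, rfl⟩ : ∃ k, w = k + 1 := ⟨w - 1, by omega⟩
  rw [Nat.add_sub_cancel] at hp hq h
  have h2 : (2 : ℕ) ^ (k + 1) = 2 ^ k + 2 ^ k := by rw [pow_succ]; ring
  have h1 : (pk (k + 1) q D + pk (k + 1) (fun _ => 2 ^ k) D - pk (k + 1) p D) &&&
      pk (k + 1) (fun _ => 2 ^ k) D = pk (k + 1) (fun _ => 2 ^ k) D := Nat.eq_of_beq_eq_true h
  rw [pk_add, pk_sub (fun i hi => by have := hp i hi; omega), and_pk (fun i hi => by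
    have := hq i hi; omega) (fun i _ => by
    have : 0 < 2 ^ k := by positivity
    omega)] at h1
  intro i hi
  have hk : 0 < 2 ^ k := by positivity
  have h3 : (q i + 2 ^ k - p i) &&& 2 ^ k = 2 ^ k :=
    pk_inj (f := fun i => (q i + 2 ^ k - p i) &&& 2 ^ k) (g := fun _ => 2 ^ k)
      (fun i _ => lt_of_le_of_lt Nat.and_le_right (by omega)) (fun i _ => by omega) h1 i hi
  by_contra hlt
  have h4 : q i + 2 ^ k - p i < 2 ^ k := by omega
  have h5 : (q i + 2 ^ k - p i) &&& 2 ^ k = 0 := by
    apply Nat.eq_of_testBit_eq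
    intro b
    rw [Nat.testBit_and, Nat.testBit_two_pow, Nat.zero_testBit]
    by_cases hb : k = b
    · subst hb
      rw [Nat.testBit_lt_two_pow h4]; simp
    · simp [hb]
  rw [h5] at h3
  omega

/-- a number whose `AND` with the mask of `b` low bits of each field is itself is a packed vector -/
theorem pk_of_and {w b D v : ℕ} (hb : b ≤ w)
    (h : v &&& pk w (fun _ => 2 ^ b - 1) D = v) :
    ∃ f : ℕ → ℕ, (∀ i < D, f i < 2 ^ b) ∧ v = pk w f D := by
  have hbw : 2 ^ b ≤ 2 ^ w := Nat.pow_le_pow_right (by norm_num) hb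
  have hb0 : 0 < 2 ^ b := by positivity
  induction D generalizing v with
  | zero =>
    refine ⟨fun _ => 0, fun i hi => by omega, ?_⟩
    rw [pk, range_zero, sum_empty, Nat.and_zero] at h
    rw [← h]; simp [pk]
  | succ D ih =>
    -- v = lo + hi * 2^{wD}
    set lo := v % 2 ^ (w * D) with hlo
    set hi := v / 2 ^ (w * D) with hhi
    have hv : v = lo + hi * 2 ^ (w * D) := by
      rw [hlo, hhi]; exact (Nat.mod_add_div' v (2 ^ (w * D))).symm
    have hlt : lo < 2 ^ (w * D) := Nat.mod_lt _ (by positivity)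
    rw [pk_succ, hv, and_add_mul_pow hlt (pk_lt fun i _ => by omega)] at h
    have h1 : (lo &&& pk w (fun _ => 2 ^ b - 1) D) < 2 ^ (w * D) :=
      lt_of_le_of_lt Nat.and_le_left hlt
    have e1 : lo &&& pk w (fun _ => 2 ^ b - 1) D = lo := by
      have := congrArg (· % 2 ^ (w * D)) h
      simp only [Nat.add_mul_mod_self_right, Nat.mod_eq_of_lt h1, Nat.mod_eq_of_lt hlt] at this
      exact this
    have e2 : hi &&& (2 ^ b - 1) = hi := by
      rw [e1] at h
      have h2 : (hi &&& (2 ^ b - 1)) * 2 ^ (w * D) = hi * 2 ^ (w * D) := Nat.add_left_cancel h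
      exact Nat.eq_of_mul_eq_mul_right (by positivity) h2
    obtain ⟨f, hf, hlof⟩ := ih e1
    refine ⟨fun i => if i < D then f i else hi, fun i hi' => ?_, ?_⟩
    · show (if i < D then f i else hi) < 2 ^ b
      by_cases hlt2 : i < D
      · rw [if_pos hlt2]; exact hf i hlt2
      · rw [if_neg hlt2, ← e2]
        exact lt_of_le_of_lt Nat.and_le_right (by omega)
    · rw [pk_succ, if_neg (lt_irrefl D), hv, hlof]
      congr 1
      exact pk_congr fun i hi' => by rw [if_pos hi']

/-- the complete check of `Sc * pos f ≤ Λ f + Sc * neg f` (`dir = true`) or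
`Λ f + Sc * neg f ≤ Sc * pos f` (`dir = false`); if `dir = true` also `1 ≤ f` is checked. -/
noncomputable def chk (w b : ℕ) (full : List (List Bool)) (pos neg : List Term) (v Sc Lam : ℕ)
    (dir : Bool) : Bool :=
  Nat.beq (Nat.land v (maskN w full (2 ^ b - 1))) v &&
  (Nat.ble (Sc * csum pos * 2 ^ b + 1) (2 ^ (w - 1)) &&
  (Nat.ble ((Lam + Sc * csum neg) * 2 ^ b + 1) (2 ^ (w - 1)) &&
  (bif dir then
    (leF (maskN w full (2 ^ (w - 1))) (rep w full) v &&
      leF (maskN w full (2 ^ (w - 1))) (Nat.mul Sc (lval w v pos))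
        (Nat.add (Nat.mul Lam v) (Nat.mul Sc (lval w v neg))))
  else
    leF (maskN w full (2 ^ (w - 1))) (Nat.add (Nat.mul Lam v) (Nat.mul Sc (lval w v neg)))
      (Nat.mul Sc (lval w v pos)))))

theorem maskN_full {w : ℕ} {full : List (List Bool)} {D : ℕ} (hfull : ∀ i < D, memb full i = true)
    (hD : dimL full = D) (m : ℕ) : maskN w full m = pk w (fun _ => m) D := by
  have h := maskN_eq w full 1 one_pos (fun _ => m)
  have e : pk w (fun _ => m) 1 = m := by simp [pk]
  rw [e, mul_one, one_mul, hD] at h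
  rw [h]
  apply pk_congr
  intro i hi
  simp [hfull i hi]

theorem chk_sound {w b : ℕ} {full : List (List Bool)} {pos neg : List Term} {v Sc Lam D : ℕ}
    {dir : Bool} (hw2 : 2 ≤ w) (hb : b ≤ w - 1) (hfull : ∀ i < D, memb full i = true)
    (hD : dimL full = D)
    (hpos : ∀ t ∈ pos, dimL t.spec = D) (hneg : ∀ t ∈ neg, dimL t.spec = D)
    (h : chk w b full pos neg v Sc Lam dir = true) :
    ∃ f : ℕ → ℕ, v = pk w f D ∧ (∀ i < D, f i < 2 ^ b) ∧
      (dir = true → ∀ i < D, 1 ≤ f i ∧ Sc * lsem D f pos i ≤ Lam * f i + Sc * lsem D f neg i) ∧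
      (dir = false → ∀ i < D, Lam * f i + Sc * lsem D f neg i ≤ Sc * lsem D f pos i) := by
  have hw : 0 < w := by omega
  rw [chk, Bool.and_eq_true, Bool.and_eq_true, Bool.and_eq_true] at h
  obtain ⟨h1, h2, h3, h4⟩ := h
  have h1' : v &&& maskN w full (2 ^ b - 1) = v := Nat.eq_of_beq_eq_true h1
  rw [maskN_full hfull hD] at h1'
  obtain ⟨f, hf, hv⟩ := pk_of_and (by omega) h1'
  have hbw : 2 ^ b ≤ 2 ^ (w - 1) := Nat.pow_le_pow_right (by norm_num) hb
  have hww : 2 ^ (w - 1) ≤ 2 ^ w := Nat.pow_le_pow_right (by norm_num) (by omega)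
  have hfw : ∀ i < D, f i < 2 ^ w := fun i hi => by have := hf i hi; omega
  have hB : ∀ i < D, f i ≤ 2 ^ b := fun i hi => (hf i hi).le
  rw [Nat.ble_eq] at h2 h3
  have eP : Nat.mul Sc (lval w v pos) = pk w (fun i => Sc * lsem D f pos i) D := by
    show Sc * lval w v pos = _
    rw [hv, lval_eq hfw pos hpos, pk_smul]
  have eQ : Nat.add (Nat.mul Lam v) (Nat.mul Sc (lval w v neg)) =
      pk w (fun i => Lam * f i + Sc * lsem D f neg i) D := by
    show Lam * v + Sc * lval w v neg = _
    rw [hv, lval_eq hfw neg hneg, pk_smul, pk_smul, pk_add]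
  have bP : ∀ i < D, Sc * lsem D f pos i < 2 ^ (w - 1) := by
    intro i hi
    have := Nat.mul_le_mul_left Sc (lsem_le hB pos hi)
    rw [← mul_assoc] at this
    omega
  have bQ : ∀ i < D, Lam * f i + Sc * lsem D f neg i < 2 ^ (w - 1) := by
    intro i hi
    have a1 := Nat.mul_le_mul_left Sc (lsem_le hB neg hi)
    have a2 := Nat.mul_le_mul_left Lam (hB i hi)
    rw [← mul_assoc] at a1
    rw [add_mul] at h3
    omega
  have eG : maskN w full (2 ^ (w - 1)) = pk w (fun _ => 2 ^ (w - 1)) D := maskN_full hfull hD _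
  refine ⟨f, hv, hf, fun hd i hi => ?_, fun hd i hi => ?_⟩
  · subst hd
    rw [cond_true, Bool.and_eq_true, eG, eP, eQ] at h4
    have eR : rep w full = pk w (fun _ => 1) D := maskN_full hfull hD 1
    refine ⟨?_, leF_sound hw bP bQ h4.2 i hi⟩
    have h5 := h4.1
    rw [eR, hv] at h5
    exact leF_sound hw (fun i _ => Nat.one_lt_two_pow (by omega))
      (fun i hi => by have := hf i hi; omega) h5 i hi
  · subst hd
    rw [cond_false, eG, eP, eQ] at h4
    exact leF_sound hw bQ bP h4 i hi

end Hald.Cw
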