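import Crest.Agent.Hald.CwHam
import Crest.Agent.Hald.CwAbs
import Crest.Agent.Hald.CwIdx
import Crest.Agent.Hald.CwPack

/-!
# Row 347, M7 (7b): term lists of a spin system and the link with `Hgen`

`p` = half of the scale: the packed operator is `2p * R⁻¹ (Wgen - Dgen) R`.
-/

set_option autoImplicit false
set_option linter.unusedSectionVars false

namespace Hald.Cw

open Matrix Finset Hald Crest.MathPhysics.SpinChain

/-! ### kernel-evaluable term lists -/

/-- digits `a` with `a + 1 < d` -/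
def Llo (d : ℕ) : List Bool := bif Nat.beq d 3 then [true, true, false] else [true, false]
/-- digits `a ≥ 1` -/
def Lhi (d : ℕ) : List Bool := bif Nat.beq d 3 then [false, true, true] else [false, true]
/-- only digit `0` -/
def Lfst (d : ℕ) : List Bool := bif Nat.beq d 3 then [true, false, false] else [true, false]
/-- only the last digit -/
def Llst (d : ℕ) : List Bool := bif Nat.beq d 3 then [false, false, true] else [false, true]

/-- coefficient `2p`, or `p` if `d = 2` -/
def cof (p d : ℕ) : ℕ := bif Nat.beq d 3 then 2 * p else p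
/-- coefficient `2p` for two spins 1, otherwise `p` -/
def cof2 (p d e : ℕ) : ℕ := bif (Nat.beq d 3 && Nat.beq e 3) then 2 * p else p

/-- positive terms of the bond `(j,k)`, `j < k` -/
def bondPos (p : ℕ) (ds : List ℕ) (j k : ℕ) : List Term :=
  let dj := ds.getD j 0
  let dk := ds.getD k 0
  let δ := stride ds k - stride ds j
  [⟨cof p dj, true, δ, mkSpec j (Llo dj) k (Lhi dk) ds 0⟩,
   ⟨cof p dk, false, δ, mkSpec j (Lhi dj) k (Llo dk) ds 0⟩,
   ⟨cof2 p dj dk, true, 0, mkSpec j (Lfst dj) k (Llst dk) ds 0⟩,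
   ⟨cof2 p dj dk, true, 0, mkSpec j (Llst dj) k (Lfst dk) ds 0⟩]

/-- negative terms of the bond `(j,k)`, `j < k` -/
def bondNeg (p : ℕ) (ds : List ℕ) (j k : ℕ) : List Term :=
  let dj := ds.getD j 0
  let dk := ds.getD k 0
  [⟨cof2 p dj dk, true, 0, mkSpec j (Lfst dj) k (Lfst dk) ds 0⟩,
   ⟨cof2 p dj dk, true, 0, mkSpec j (Llst dj) k (Llst dk) ds 0⟩]

/-- field term: digit `0` (`top = true`) or last digit -/
def fldT (ds : List ℕ) (j : ℕ) (top : Bool) (c : ℕ) : Term :=
  ⟨c, true, 0, mkSpec j (bif top then Lfst (ds.getD j 0) else Llst (ds.getD j 0)) ds.length [] ds 0⟩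

/-- bonds `(j,k)` and fields `(j, sign, c)`: field `± c/(2p)` on the spin-1 site `j` -/
def posT (p : ℕ) (ds : List ℕ) (bonds : List (ℕ × ℕ)) (flds : List (ℕ × Bool × ℕ)) : List Term :=
  (bonds.map fun b => bondPos p ds b.1 b.2).flatten ++ flds.map fun t => fldT ds t.1 t.2.1 t.2.2

def negT (p : ℕ) (ds : List ℕ) (bonds : List (ℕ × ℕ)) (flds : List (ℕ × Bool × ℕ)) : List Term :=
  (bonds.map fun b => bondNeg p ds b.1 b.2).flatten ++ flds.map fun t => fldT ds t.1 (!t.2.1) t.2.2

/-! ### rescaling factor -/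

noncomputable def rho (d a : ℕ) : ℝ := if d = 2 ∧ a = 0 then Real.sqrt 2 else 1

theorem rho_pos (d a : ℕ) : 0 < rho d a := by
  unfold rho; split_ifs
  · positivity
  · exact one_pos

section Conf

variable {n : ℕ} {d : Fin n → ℕ}

noncomputable def RR (σ : ∀ i, Fin (d i)) : ℝ := ∏ i : Fin n, rho (d i) (σ i).val

theorem RR_pos (σ : ∀ i, Fin (d i)) : 0 < RR σ := Finset.prod_pos fun _ _ => rho_pos _ _

theorem RR_update (σ : ∀ i, Fin (d i)) (j : Fin n) (x : Fin (d j)) :
    RR (Function.update σ j x) * rho (d j) (σ j).val = RR σ * rho (d j) x.val := by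
  unfold RR
  rw [← Finset.mul_prod_erase univ (fun i => rho (d i) (Function.update σ j x i).val) (Finset.mem_univ j),
    ← Finset.mul_prod_erase univ (fun i => rho (d i) (σ i).val) (Finset.mem_univ j)]
  have h : ∏ i ∈ univ.erase j, rho (d i) (Function.update σ j x i).val =
      ∏ i ∈ univ.erase j, rho (d i) (σ i).val := by
    refine Finset.prod_congr rfl fun i hi => ?_
    rw [Function.update_of_ne (Finset.ne_of_mem_erase hi)]
  rw [h]
  simp only [Function.update_self]
  ring

/-- the vector on configurations -/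
noncomputable def UU (f : ℕ → ℕ) (σ : ∀ i, Fin (d i)) : ℝ := RR σ * (f (idx σ) : ℝ)

end Conf

/-! ### the two amplitude identities -/

theorem sqrt2_sq : Real.sqrt 2 * Real.sqrt 2 = 2 := Real.mul_self_sqrt (by norm_num)

theorem cof_A {p dj dk a e : ℕ} (hj : dj = 2 ∨ dj = 3) (hk : dk = 2 ∨ dk = 3)
    (hjk : ¬ (dj = 2 ∧ dk = 2)) (ha : a + 1 < dj) (he : 1 ≤ e) (he' : e < dk) :
    (2 * p : ℝ) * (amp dj * amp dk / 2) * (rho dj (a + 1) * rho dk (e - 1)) =
      (cof p dj : ℝ) * (rho dj a * rho dk e) := by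
  rcases hj with rfl | rfl <;> rcases hk with rfl | rfl
  · exact absurd ⟨rfl, rfl⟩ hjk
  · have ha0 : a = 0 := by omega
    subst ha0
    simp only [amp, rho, cof, Nat.beq]
    norm_num
    ring
  · have he0 : e = 1 := by omega
    subst he0
    simp only [amp, rho, cof, Nat.beq]
    norm_num
    have := sqrt2_sq
    linear_combination (p : ℝ) * this
  · simp only [amp, rho, cof, Nat.beq]
    norm_num

theorem cof_B {p dj dk a e : ℕ} (hj : dj = 2 ∨ dj = 3) (hk : dk = 2 ∨ dk = 3)
    (hjk : ¬ (dj = 2 ∧ dk = 2)) (ha : 1 ≤ a) (ha' : a < dj) (he : e + 1 < dk) :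
    (2 * p : ℝ) * (amp dj * amp dk / 2) * (rho dj (a - 1) * rho dk (e + 1)) =
      (cof p dk : ℝ) * (rho dj a * rho dk e) := by
  rcases hj with rfl | rfl <;> rcases hk with rfl | rfl
  · exact absurd ⟨rfl, rfl⟩ hjk
  · have ha0 : a = 1 := by omega
    subst ha0
    simp only [amp, rho, cof, Nat.beq]
    norm_num
    have := sqrt2_sq
    linear_combination (p : ℝ) * this
  · have he0 : e = 0 := by omega
    subst he0
    simp only [amp, rho, cof, Nat.beq]
    norm_num
    ring
  · simp only [amp, rho, cof, Nat.beq]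
    norm_num

theorem cof2_diag {p dj dk a e : ℕ} (hj : dj = 2 ∨ dj = 3) (hk : dk = 2 ∨ dk = 3)
    (hjk : ¬ (dj = 2 ∧ dk = 2)) (ha : a < dj) (he : e < dk) :
    (2 * p : ℝ) * -(mag dj a * mag dk e) =
      (cof2 p dj dk : ℝ) * (((if (Lfst dj).getD a false && (Llst dk).getD e false then 1 else 0) +
        (if (Llst dj).getD a false && (Lfst dk).getD e false then 1 else 0)) -
        ((if (Lfst dj).getD a false && (Lfst dk).getD e false then 1 else 0) +
        (if (Llst dj).getD a false && (Llst dk).getD e false then 1 else 0))) := by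
  rcases hj with rfl | rfl <;> rcases hk with rfl | rfl
  · exact absurd ⟨rfl, rfl⟩ hjk
  · interval_cases a <;> interval_cases e <;> simp [mag, cof2, Lfst, Llst, Nat.beq] <;> ring
  · interval_cases a <;> interval_cases e <;> simp [mag, cof2, Lfst, Llst, Nat.beq] <;> ring
  · interval_cases a <;> interval_cases e <;> simp [mag, cof2, Lfst, Llst, Nat.beq] <;> ring

theorem Llo_getD {d a : ℕ} (hd : d = 2 ∨ d = 3) (ha : a < d) :
    (Llo d).getD a false = decide (a + 1 < d) := by
  rcases hd with rfl | rfl <;> interval_cases a <;> simp [Llo, Nat.beq]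

theorem Lhi_getD {d a : ℕ} (hd : d = 2 ∨ d = 3) (ha : a < d) :
    (Lhi d).getD a false = decide (1 ≤ a) := by
  rcases hd with rfl | rfl <;> interval_cases a <;> simp [Lhi, Nat.beq]

theorem Llo_length {d : ℕ} (hd : d = 2 ∨ d = 3) : (Llo d).length = d := by
  rcases hd with rfl | rfl <;> rfl
theorem Lhi_length {d : ℕ} (hd : d = 2 ∨ d = 3) : (Lhi d).length = d := by
  rcases hd with rfl | rfl <;> rfl
theorem Lfst_length {d : ℕ} (hd : d = 2 ∨ d = 3) : (Lfst d).length = d := by
  rcases hd with rfl | rfl <;> rfl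
theorem Llst_length {d : ℕ} (hd : d = 2 ∨ d = 3) : (Llst d).length = d := by
  rcases hd with rfl | rfl <;> rfl

theorem stride_mono {ds : List ℕ} (h : ∀ x ∈ ds, 1 ≤ x) {j k : ℕ} (hjk : j ≤ k) :
    stride ds j ≤ stride ds k := by
  unfold stride
  obtain ⟨m, rfl⟩ := Nat.exists_eq_add_of_le hjk
  rw [List.take_add, List.prod_append]
  have : 1 ≤ ((ds.drop j).take m).prod := by
    apply List.one_le_prod_of_one_le
    intro x hx
    exact h x (List.mem_of_mem_drop (List.mem_of_mem_take hx))
  exact Nat.le_mul_of_pos_right _ this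

section Bond

variable {n : ℕ} {d : Fin n → ℕ}

theorem ofFn_getD (j : Fin n) : (List.ofFn d).getD j.val 0 = d j := by
  simp [List.getD]

theorem tsem_two (D : ℕ) (f : ℕ → ℕ) (σ : ∀ i, Fin (d i)) {j k : Fin n} (hjk : j ≠ k)
    {Lj Lk : List Bool} (hj : Lj.length = d j) (hk : Lk.length = d k) (c δ : ℕ) (up : Bool) :
    tsem D f ⟨c, up, δ, mkSpec j.val Lj k.val Lk (List.ofFn d) 0⟩ (idx σ) =
      if (Lj.getD (σ j).val false && Lk.getD (σ k).val false) then
        c * (if up then (if δ ≤ idx σ then f (idx σ - δ) else 0)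
          else (if idx σ + δ < D then f (idx σ + δ) else 0)) else 0 := by
  unfold tsem
  simp only [memb_idx σ j k hjk Lj Lk hj hk]

/-- the bond identity -/
theorem bond_id (hd : ∀ i, d i = 2 ∨ d i = 3) (p : ℕ) (f : ℕ → ℕ) {j k : Fin n} (hjk : j < k)
    (h22 : ¬ (d j = 2 ∧ d k = 2)) (σ : ∀ i, Fin (d i)) :
    RR σ * ((lsem (List.ofFn d).prod f (bondPos p (List.ofFn d) j.val k.val) (idx σ) : ℝ) -
      (lsem (List.ofFn d).prod f (bondNeg p (List.ofFn d) j.val k.val) (idx σ) : ℝ)) =
    2 * p * ((Wb d (j, k) *ᵥ UU f) σ - mag (d j) (σ j) * mag (d k) (σ k) * UU f σ) := by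
  have hne : j ≠ k := ne_of_lt hjk
  set D := (List.ofFn d).prod with hD
  set sj := stride (List.ofFn d) j.val with hsj
  set sk := stride (List.ofFn d) k.val with hsk
  have hst : sj ≤ sk := stride_mono (fun x hx => by
    rw [List.mem_ofFn] at hx
    obtain ⟨i, rfl⟩ := hx
    rcases hd i with h | h <;> omega) (le_of_lt hjk)
  rw [Wb_mulVec d (j, k) hne]
  have ha : (σ j).val < d j := (σ j).isLt
  have he : (σ k).val < d k := (σ k).isLt
  have hR := RR_pos σ
  have r1 : 0 < rho (d j) (σ j).val := rho_pos _ _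
  have r2 : 0 < rho (d k) (σ k).val := rho_pos _ _
  -- the two hopping terms
  have hA : (RR σ : ℝ) * (tsem D f ⟨cof p (d j), true, sk - sj,
      mkSpec j.val (Llo (d j)) k.val (Lhi (d k)) (List.ofFn d) 0⟩ (idx σ) : ℝ) =
      2 * p * (if h : (σ j).val + 1 < d j ∧ 1 ≤ (σ k).val then
        amp (d j) * amp (d k) / 2 *
          UU f (Function.update (Function.update σ j ⟨(σ j).val + 1, h.1⟩) k
            ⟨(σ k).val - 1, by omega⟩) else 0) := by
    rw [tsem_two D f σ hne (Llo_length (hd j)) (Lhi_length (hd k)), Llo_getD (hd j) ha,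
      Lhi_getD (hd k) he]
    by_cases h : (σ j).val + 1 < d j ∧ 1 ≤ (σ k).val
    · rw [dif_pos h]
      have hc : (decide ((σ j).val + 1 < d j) && decide (1 ≤ (σ k).val)) = true := by simp [h.1, h.2]
      rw [if_pos hc, if_pos rfl]
      set σ₁ := Function.update σ j ⟨(σ j).val + 1, h.1⟩ with hσ₁
      set σ₂ := Function.update σ₁ k ⟨(σ k).val - 1, by omega⟩ with hσ₂
      have i1 := idx_update σ j ⟨(σ j).val + 1, h.1⟩
      have i2 := idx_update σ₁ k ⟨(σ k).val - 1, by omega⟩
      have hk1 : σ₁ k = σ k := by rw [hσ₁, Function.update_of_ne hne.symm]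
      rw [hk1, ← hsk] at i2
      rw [← hsj] at i1
      simp only at i1 i2
      rw [← hσ₁] at i1
      rw [← hσ₂] at i2
      have e1 : idx σ₁ = idx σ + sj := by
        have : ((σ j).val + 1) * sj = (σ j).val * sj + sj := by ring
        omega
      have e2 : idx σ₂ + sk = idx σ₁ := by
        have h3 : (σ k).val * sk = ((σ k).val - 1) * sk + sk := by
          obtain ⟨m, hm⟩ : ∃ m, (σ k).val = m + 1 := ⟨(σ k).val - 1, by omega⟩
          rw [hm, Nat.add_sub_cancel]; ring
        omega
      rw [if_pos (by omega), show idx σ - (sk - sj) = idx σ₂ by omega]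
      have q1 := RR_update σ j ⟨(σ j).val + 1, h.1⟩
      have q2 := RR_update σ₁ k ⟨(σ k).val - 1, by omega⟩
      rw [hk1] at q2
      simp only at q1 q2
      rw [← hσ₁] at q1
      rw [← hσ₂] at q2
      have key := cof_A (p := p) (hd j) (hd k) h22 h.1 h.2 he
      rw [UU]
      push_cast
      have q3 : RR σ₂ * (rho (d j) (σ j).val * rho (d k) (σ k).val) =
          RR σ * (rho (d j) ((σ j).val + 1) * rho (d k) ((σ k).val - 1)) := by
        calc RR σ₂ * (rho (d j) (σ j).val * rho (d k) (σ k).val)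
            = (RR σ₂ * rho (d k) (σ k).val) * rho (d j) (σ j).val := by ring
          _ = (RR σ₁ * rho (d j) (σ j).val) * rho (d k) ((σ k).val - 1) := by rw [q2]; ring
          _ = _ := by rw [q1]; ring
      have hr : rho (d j) (σ j).val * rho (d k) (σ k).val ≠ 0 := (mul_pos r1 r2).ne'
      have q4 : RR σ * (cof p (d j) : ℝ) = 2 * p * (amp (d j) * amp (d k) / 2) * RR σ₂ := by
        apply mul_right_cancel₀ hr
        calc RR σ * (cof p (d j) : ℝ) * (rho (d j) (σ j).val * rho (d k) (σ k).val)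
            = RR σ * ((cof p (d j) : ℝ) * (rho (d j) (σ j).val * rho (d k) (σ k).val)) := by ring
          _ = (2 * p : ℝ) * (amp (d j) * amp (d k) / 2) *
              (RR σ * (rho (d j) ((σ j).val + 1) * rho (d k) ((σ k).val - 1))) := by
                rw [← key]; ring
          _ = _ := by rw [← q3]; ring
      rw [← mul_assoc, q4]; ring
    · rw [dif_neg h, if_neg]
      · simp
      · intro hc
        rw [Bool.and_eq_true, decide_eq_true_eq, decide_eq_true_eq] at hc
        exact h hc
  have hB : (RR σ : ℝ) * (tsem D f ⟨cof p (d k), false, sk - sj,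
      mkSpec j.val (Lhi (d j)) k.val (Llo (d k)) (List.ofFn d) 0⟩ (idx σ) : ℝ) =
      2 * p * (if h : 1 ≤ (σ j).val ∧ (σ k).val + 1 < d k then
        amp (d j) * amp (d k) / 2 *
          UU f (Function.update (Function.update σ j ⟨(σ j).val - 1, by omega⟩) k
            ⟨(σ k).val + 1, h.2⟩) else 0) := by
    rw [tsem_two D f σ hne (Lhi_length (hd j)) (Llo_length (hd k)), Lhi_getD (hd j) ha,
      Llo_getD (hd k) he]
    by_cases h : 1 ≤ (σ j).val ∧ (σ k).val + 1 < d k
    · rw [dif_pos h]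
      have hc : (decide (1 ≤ (σ j).val) && decide ((σ k).val + 1 < d k)) = true := by simp [h.1, h.2]
      rw [if_pos hc, if_neg (by simp)]
      set σ₁ := Function.update σ j ⟨(σ j).val - 1, by omega⟩ with hσ₁
      set σ₂ := Function.update σ₁ k ⟨(σ k).val + 1, h.2⟩ with hσ₂
      have i1 := idx_update σ j ⟨(σ j).val - 1, by omega⟩
      have i2 := idx_update σ₁ k ⟨(σ k).val + 1, h.2⟩
      have hk1 : σ₁ k = σ k := by rw [hσ₁, Function.update_of_ne hne.symm]
      rw [hk1, ← hsk] at i2
      rw [← hsj] at i1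
      simp only at i1 i2
      rw [← hσ₁] at i1
      rw [← hσ₂] at i2
      have e1 : idx σ₁ + sj = idx σ := by
        have h3 : (σ j).val * sj = ((σ j).val - 1) * sj + sj := by
          obtain ⟨m, hm⟩ : ∃ m, (σ j).val = m + 1 := ⟨(σ j).val - 1, by omega⟩
          rw [hm, Nat.add_sub_cancel]; ring
        omega
      have e2 : idx σ₂ = idx σ₁ + sk := by
        have : ((σ k).val + 1) * sk = (σ k).val * sk + sk := by ring
        omega
      have hlt := idx_lt σ₂
      rw [← hD] at hlt
      rw [if_pos (by omega), show idx σ + (sk - sj) = idx σ₂ by omega]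
      have q1 := RR_update σ j ⟨(σ j).val - 1, by omega⟩
      have q2 := RR_update σ₁ k ⟨(σ k).val + 1, h.2⟩
      rw [hk1] at q2
      simp only at q1 q2
      rw [← hσ₁] at q1
      rw [← hσ₂] at q2
      have key := cof_B (p := p) (hd j) (hd k) h22 h.1 ha h.2
      rw [UU]
      push_cast
      have q3 : RR σ₂ * (rho (d j) (σ j).val * rho (d k) (σ k).val) =
          RR σ * (rho (d j) ((σ j).val - 1) * rho (d k) ((σ k).val + 1)) := by
        calc RR σ₂ * (rho (d j) (σ j).val * rho (d k) (σ k).val)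
            = (RR σ₂ * rho (d k) (σ k).val) * rho (d j) (σ j).val := by ring
          _ = (RR σ₁ * rho (d j) (σ j).val) * rho (d k) ((σ k).val + 1) := by rw [q2]; ring
          _ = _ := by rw [q1]; ring
      have hr : rho (d j) (σ j).val * rho (d k) (σ k).val ≠ 0 := (mul_pos r1 r2).ne'
      have q4 : RR σ * (cof p (d k) : ℝ) = 2 * p * (amp (d j) * amp (d k) / 2) * RR σ₂ := by
        apply mul_right_cancel₀ hr
        calc RR σ * (cof p (d k) : ℝ) * (rho (d j) (σ j).val * rho (d k) (σ k).val)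
            = RR σ * ((cof p (d k) : ℝ) * (rho (d j) (σ j).val * rho (d k) (σ k).val)) := by ring
          _ = (2 * p : ℝ) * (amp (d j) * amp (d k) / 2) *
              (RR σ * (rho (d j) ((σ j).val - 1) * rho (d k) ((σ k).val + 1))) := by
                rw [← key]; ring
          _ = _ := by rw [← q3]; ring
      rw [← mul_assoc, q4]; ring
    · rw [dif_neg h, if_neg]
      · simp
      · intro hc
        rw [Bool.and_eq_true, decide_eq_true_eq, decide_eq_true_eq] at hc
        exact h hc
  have hdiag : ∀ (Lj Lk : List Bool) (hj : Lj.length = d j) (hk : Lk.length = d k) (c : ℕ),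
      (tsem D f ⟨c, true, 0, mkSpec j.val Lj k.val Lk (List.ofFn d) 0⟩ (idx σ) : ℝ) =
        (c : ℝ) * (if Lj.getD (σ j).val false && Lk.getD (σ k).val false then 1 else 0) *
          (f (idx σ) : ℝ) := by
    intro Lj Lk hj hk c
    rw [tsem_two D f σ hne hj hk]
    split_ifs <;> simp_all
  have e1 : lsem D f (bondPos p (List.ofFn d) j.val k.val) (idx σ) =
      tsem D f ⟨cof p (d j), true, sk - sj,
        mkSpec j.val (Llo (d j)) k.val (Lhi (d k)) (List.ofFn d) 0⟩ (idx σ) +
      (tsem D f ⟨cof p (d k), false, sk - sj,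
        mkSpec j.val (Lhi (d j)) k.val (Llo (d k)) (List.ofFn d) 0⟩ (idx σ) +
      (tsem D f ⟨cof2 p (d j) (d k), true, 0,
        mkSpec j.val (Lfst (d j)) k.val (Llst (d k)) (List.ofFn d) 0⟩ (idx σ) +
      tsem D f ⟨cof2 p (d j) (d k), true, 0,
        mkSpec j.val (Llst (d j)) k.val (Lfst (d k)) (List.ofFn d) 0⟩ (idx σ))) := by
    simp only [lsem, bondPos, ofFn_getD, List.map_cons, List.map_nil, List.sum_cons, List.sum_nil,
      add_zero, hsj, hsk]
  have e2 : lsem D f (bondNeg p (List.ofFn d) j.val k.val) (idx σ) =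
      tsem D f ⟨cof2 p (d j) (d k), true, 0,
        mkSpec j.val (Lfst (d j)) k.val (Lfst (d k)) (List.ofFn d) 0⟩ (idx σ) +
      tsem D f ⟨cof2 p (d j) (d k), true, 0,
        mkSpec j.val (Llst (d j)) k.val (Llst (d k)) (List.ofFn d) 0⟩ (idx σ) := by
    simp only [lsem, bondNeg, ofFn_getD, List.map_cons, List.map_nil, List.sum_cons, List.sum_nil,
      add_zero]
  have key := cof2_diag (p := p) (hd j) (hd k) h22 ha he
  rw [e1, e2]
  push_cast
  rw [hdiag _ _ (Lfst_length (hd j)) (Llst_length (hd k)),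
    hdiag _ _ (Llst_length (hd j)) (Lfst_length (hd k)),
    hdiag _ _ (Lfst_length (hd j)) (Lfst_length (hd k)),
    hdiag _ _ (Llst_length (hd j)) (Llst_length (hd k))]
  have hU : UU f σ = RR σ * (f (idx σ) : ℝ) := rfl
  rw [hU]
  linear_combination hA + hB - (RR σ * (f (idx σ) : ℝ)) * key

end Bond

end Hald.Cw
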