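import Crest.Agent.Hald.CwLink

/-!
# Row 347, M7 (7b): final soundness of the packed Collatz–Wielandt check
-/

set_option autoImplicit false
set_option linter.unusedSectionVars false

namespace Hald.Cw

open Matrix Finset Hald Crest.MathPhysics.SpinChain

theorem lsem_append (D : ℕ) (f : ℕ → ℕ) (l m : List Term) (i : ℕ) :
    lsem D f (l ++ m) i = lsem D f l i + lsem D f m i := by
  simp [lsem]

theorem lsem_flatten (D : ℕ) (f : ℕ → ℕ) (l : List (List Term)) (i : ℕ) :
    lsem D f l.flatten i = (l.map fun m => lsem D f m i).sum := by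
  induction l with
  | nil => simp [lsem]
  | cons a l ih => rw [List.flatten_cons, lsem_append, ih, List.map_cons, List.sum_cons]

section Sys

variable {n : ℕ} {d : Fin n → ℕ}

/-- bonds as pairs of numbers -/
def nb (bonds : List (Fin n × Fin n)) : List (ℕ × ℕ) := bonds.map fun b => (b.1.val, b.2.val)
def nf (flds : List (Fin n × Bool × ℕ)) : List (ℕ × Bool × ℕ) :=
  flds.map fun t => (t.1.val, t.2.1, t.2.2)

/-- real fields -/
noncomputable def rf (p : ℕ) (flds : List (Fin n × Bool × ℕ)) : List (Fin n × ℝ) :=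
  flds.map fun t => (t.1, (if t.2.1 then (1 : ℝ) else -1) * (t.2.2 : ℝ) / (2 * p))

theorem tsem_one (D : ℕ) (f : ℕ → ℕ) (σ : ∀ i, Fin (d i)) {j : Fin n}
    {Lj : List Bool} (hj : Lj.length = d j) (c : ℕ) :
    (tsem D f ⟨c, true, 0, mkSpec j.val Lj n [] (List.ofFn d) 0⟩ (idx σ) : ℝ) =
      (c : ℝ) * (if Lj.getD (σ j).val false then 1 else 0) * (f (idx σ) : ℝ) := by
  unfold tsem
  simp only [memb_idx1 σ j Lj hj]
  split_ifs <;> simp_all

theorem fld_id {p : ℕ} (hp : 0 < p) (f : ℕ → ℕ) (j : Fin n) (hj : d j = 3) (s : Bool) (c : ℕ)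
    (σ : ∀ i, Fin (d i)) :
    RR σ * ((tsem (List.ofFn d).prod f (fldT (List.ofFn d) j.val s c) (idx σ) : ℝ) -
      (tsem (List.ofFn d).prod f (fldT (List.ofFn d) j.val (!s) c) (idx σ) : ℝ)) =
    2 * p * (((if s then (1 : ℝ) else -1) * (c : ℝ) / (2 * p)) * mag (d j) (σ j) * UU f σ) := by
  have hp' : (p : ℝ) ≠ 0 := by exact_mod_cast hp.ne'
  have hl : (List.ofFn d).length = n := by simp
  have hfst : (Lfst (d j)).length = d j := Lfst_length (Or.inr hj)
  have hlst : (Llst (d j)).length = d j := Llst_length (Or.inr hj)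
  have ha : (σ j).val < d j := (σ j).isLt
  have hm : mag (d j) (σ j).val = (if (Lfst (d j)).getD (σ j).val false then (1 : ℝ) else 0) -
      (if (Llst (d j)).getD (σ j).val false then (1 : ℝ) else 0) := by
    have ha' : (σ j).val < 3 := by rw [← hj]; exact ha
    generalize (σ j).val = a at ha' ⊢
    rw [hj]
    interval_cases a <;> simp [mag, Lfst, Llst, Nat.beq] <;> norm_num
  have hU : UU f σ = RR σ * (f (idx σ) : ℝ) := rfl
  cases s
  · simp only [fldT, ofFn_getD, hl, cond_false, Bool.not_false, cond_true]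
    rw [tsem_one _ f σ hfst, tsem_one _ f σ hlst, hm, hU]
    simp only [Bool.false_eq_true, if_false]
    field_simp
    ring
  · simp only [fldT, ofFn_getD, hl, cond_false, Bool.not_true, cond_true]
    rw [tsem_one _ f σ hfst, tsem_one _ f σ hlst, hm, hU]
    simp only [if_true]
    field_simp

theorem sum_map_sub (l : List (Fin n × Fin n)) (g h : Fin n × Fin n → ℝ) :
    (l.map g).sum - (l.map h).sum = (l.map fun b => g b - h b).sum := by
  induction l with
  | nil => simp
  | cons a l ih => simp only [List.map_cons, List.sum_cons, ← ih]; ring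

theorem Wgen_mulVec (bonds : List (Fin n × Fin n)) (U : (∀ i, Fin (d i)) → ℝ) (σ : ∀ i, Fin (d i)) :
    (Wgen d bonds *ᵥ U) σ = (bonds.map fun b => (Wb d b *ᵥ U) σ).sum := by
  unfold Wgen
  induction bonds with
  | nil => simp
  | cons b l ih =>
    rw [List.map_cons, List.sum_cons, List.map_cons, List.sum_cons, Matrix.add_mulVec, Pi.add_apply, ih]

/-- total identity -/
theorem sys_id (hd : ∀ i, d i = 2 ∨ d i = 3) {p : ℕ} (hp : 0 < p) (f : ℕ → ℕ)
    (bonds : List (Fin n × Fin n)) (hb : ∀ b ∈ bonds, b.1 < b.2 ∧ ¬ (d b.1 = 2 ∧ d b.2 = 2))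
    (flds : List (Fin n × Bool × ℕ)) (hf : ∀ t ∈ flds, d t.1 = 3) (σ : ∀ i, Fin (d i)) :
    RR σ * ((lsem (List.ofFn d).prod f (posT p (List.ofFn d) (nb bonds) (nf flds)) (idx σ) : ℝ) -
      (lsem (List.ofFn d).prod f (negT p (List.ofFn d) (nb bonds) (nf flds)) (idx σ) : ℝ)) =
    2 * p * ((Wgen d bonds *ᵥ UU f) σ - Dgen d bonds (rf p flds) σ * UU f σ) := by
  set D := (List.ofFn d).prod with hD
  set ds := List.ofFn d with hds
  have h1 : RR σ * ((lsem D f ((nb bonds).map fun b => bondPos p ds b.1 b.2).flatten (idx σ) : ℝ) -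
      (lsem D f ((nb bonds).map fun b => bondNeg p ds b.1 b.2).flatten (idx σ) : ℝ)) =
      2 * p * ((Wgen d bonds *ᵥ UU f) σ -
        (bonds.map fun b => mag (d b.1) (σ b.1) * mag (d b.2) (σ b.2)).sum * UU f σ) := by
    rw [Wgen_mulVec]
    induction bonds with
    | nil => simp [nb, lsem]
    | cons b l ih =>
      have hbl := fun b' hb' => hb b' (List.mem_cons_of_mem b hb')
      have ih' := ih hbl
      have hbb := hb b List.mem_cons_self
      have key := bond_id hd p f hbb.1 hbb.2 σ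
      rw [← hds, ← hD] at key
      have e1 : (nb (b :: l)) = (b.1.val, b.2.val) :: nb l := rfl
      rw [e1, List.map_cons, List.map_cons, List.flatten_cons, List.flatten_cons, lsem_append,
        lsem_append, List.map_cons, List.sum_cons, List.map_cons, List.sum_cons]
      push_cast
      linear_combination ih' + key
  have h2 : RR σ * ((lsem D f ((nf flds).map fun t => fldT ds t.1 t.2.1 t.2.2) (idx σ) : ℝ) -
      (lsem D f ((nf flds).map fun t => fldT ds t.1 (!t.2.1) t.2.2) (idx σ) : ℝ)) =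
      2 * p * (((rf p flds).map fun q => q.2 * mag (d q.1) (σ q.1)).sum * UU f σ) := by
    induction flds with
    | nil => simp [nf, rf, lsem]
    | cons t l ih =>
      have ih' := ih fun t' ht' => hf t' (List.mem_cons_of_mem t ht')
      have key := fld_id hp f t.1 (hf t List.mem_cons_self) t.2.1 t.2.2 σ
      rw [← hds, ← hD] at key
      have e1 : (nf (t :: l)) = (t.1.val, t.2.1, t.2.2) :: nf l := rfl
      have e2 : (rf p (t :: l)) =
          (t.1, (if t.2.1 then (1 : ℝ) else -1) * (t.2.2 : ℝ) / (2 * p)) :: rf p l := rfl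
      have e3 : ∀ (a : Term) (m : List Term), lsem D f (a :: m) (idx σ) =
          tsem D f a (idx σ) + lsem D f m (idx σ) := fun a m => by simp [lsem]
      rw [e1, e2, List.map_cons, List.map_cons, e3, e3, List.map_cons, List.sum_cons]
      push_cast
      linear_combination ih' + key
  rw [posT, negT, lsem_append, lsem_append, Dgen]
  push_cast
  linear_combination h1 + h2

/-- the full specification -/
def fullS (ds : List ℕ) : List (List Bool) := ds.map fun d => List.replicate d true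

theorem fullS_dim (ds : List ℕ) : dimL (fullS ds) = ds.prod := by
  induction ds with
  | nil => rfl
  | cons d ds ih =>
    show (List.replicate d true).length * dimL (fullS ds) = _
    rw [ih, List.length_replicate, List.prod_cons]

theorem fullS_memb (ds : List ℕ) (i : ℕ) (hi : i < ds.prod) : memb (fullS ds) i = true := by
  induction ds generalizing i with
  | nil => rfl
  | cons d ds ih =>
    have hd : 0 < d := by
      rcases Nat.eq_zero_or_pos d with h | h
      · subst h; simp at hi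
      · exact h
    show ((List.replicate d true).getD (i % (List.replicate d true).length) false &&
      memb (fullS ds) (i / (List.replicate d true).length)) = true
    rw [List.length_replicate, replicate_getD (Nat.mod_lt _ hd), Bool.true_and]
    apply ih
    rw [List.prod_cons] at hi
    exact Nat.div_lt_of_lt_mul hi

/-- digits of a number -/
def digL : List ℕ → ℕ → List ℕ
  | [], _ => []
  | d :: ds, i => (i % d) :: digL ds (i / d)

theorem digL_length (ds : List ℕ) (i : ℕ) : (digL ds i).length = ds.length := by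
  induction ds generalizing i with
  | nil => rfl
  | cons d ds ih => simp [digL, ih]

theorem digL_valid (ds : List ℕ) (h : ∀ x ∈ ds, 1 ≤ x) (i : ℕ) :
    List.Forall₂ (fun a d => a < d) (digL ds i) ds := by
  induction ds generalizing i with
  | nil => exact List.Forall₂.nil
  | cons d ds ih =>
    refine List.Forall₂.cons ?_ (ih (fun x hx => h x (List.mem_cons_of_mem _ hx)) _)
    exact Nat.mod_lt _ (h d List.mem_cons_self)

theorem idxL_digL (ds : List ℕ) (i : ℕ) (hi : i < ds.prod) : idxL ds (digL ds i) = i := by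
  induction ds generalizing i with
  | nil => simp at hi; simp [idxL, hi]
  | cons d ds ih =>
    rw [digL, idxL, ih (i / d) (Nat.div_lt_of_lt_mul (by rwa [List.prod_cons] at hi))]
    exact Nat.mod_add_div i d

theorem idx_surj (hd : ∀ i, 1 ≤ d i) (i : ℕ) (hi : i < (List.ofFn d).prod) :
    ∃ σ : ∀ i, Fin (d i), idx σ = i := by
  have hl : (digL (List.ofFn d) i).length = n := by rw [digL_length]; simp
  have hv := digL_valid (List.ofFn d) (fun x hx => by
    rw [List.mem_ofFn] at hx
    obtain ⟨j, rfl⟩ := hx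
    exact hd j) i
  rw [List.forall₂_iff_get] at hv
  refine ⟨fun j => ⟨(digL (List.ofFn d) i)[j.val]'(by rw [hl]; exact j.isLt), ?_⟩, ?_⟩
  · have := hv.2 j.val (by rw [hl]; exact j.isLt) (by simp)
    simpa using this
  · have : digs (fun j => (⟨(digL (List.ofFn d) i)[j.val]'(by rw [hl]; exact j.isLt), by
        have := hv.2 j.val (by rw [hl]; exact j.isLt) (by simp)
        simpa using this⟩ : Fin (d j))) = digL (List.ofFn d) i := by
      apply List.ext_getElem
      · simp [digs, hl]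
      · intro m h1 h2
        simp [digs]
    rw [idx, this]
    exact idxL_digL _ _ hi

theorem bond_spec_dim (hd : ∀ i, d i = 2 ∨ d i = 3) (p : ℕ) {j k : Fin n} (t : Term)
    (ht : t ∈ bondPos p (List.ofFn d) j.val k.val ++ bondNeg p (List.ofFn d) j.val k.val) :
    dimL t.spec = (List.ofFn d).prod := by
  simp only [bondPos, bondNeg, ofFn_getD, List.cons_append, List.nil_append, List.mem_cons,
    List.not_mem_nil, or_false] at ht
  rcases ht with rfl | rfl | rfl | rfl | rfl | rfl
  · exact dim_idx j k _ _ (Llo_length (hd j)) (Lhi_length (hd k))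
  · exact dim_idx j k _ _ (Lhi_length (hd j)) (Llo_length (hd k))
  · exact dim_idx j k _ _ (Lfst_length (hd j)) (Llst_length (hd k))
  · exact dim_idx j k _ _ (Llst_length (hd j)) (Lfst_length (hd k))
  · exact dim_idx j k _ _ (Lfst_length (hd j)) (Lfst_length (hd k))
  · exact dim_idx j k _ _ (Llst_length (hd j)) (Llst_length (hd k))

theorem fld_spec_dim (hd : ∀ i, d i = 2 ∨ d i = 3) (j : Fin n) (s : Bool) (c : ℕ) :
    dimL (fldT (List.ofFn d) j.val s c).spec = (List.ofFn d).prod := by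
  have hl : (List.ofFn d).length = n := by simp
  cases s
  · simp only [fldT, ofFn_getD, hl, cond_false]
    exact dim_idx1 j _ (Llst_length (hd j))
  · simp only [fldT, ofFn_getD, hl, cond_true]
    exact dim_idx1 j _ (Lfst_length (hd j))

theorem pos_dim (hd : ∀ i, d i = 2 ∨ d i = 3) (p : ℕ) (bonds : List (Fin n × Fin n))
    (flds : List (Fin n × Bool × ℕ)) :
    ∀ t ∈ posT p (List.ofFn d) (nb bonds) (nf flds), dimL t.spec = (List.ofFn d).prod := by
  intro t ht
  simp only [posT, nb, nf, List.map_map, List.mem_append, List.mem_flatten, List.mem_map] at ht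
  rcases ht with ⟨l, ⟨b, _, rfl⟩, ht⟩ | ⟨b, _, rfl⟩
  · exact bond_spec_dim hd p t (List.mem_append_left _ ht)
  · exact fld_spec_dim hd _ _ _

theorem neg_dim (hd : ∀ i, d i = 2 ∨ d i = 3) (p : ℕ) (bonds : List (Fin n × Fin n))
    (flds : List (Fin n × Bool × ℕ)) :
    ∀ t ∈ negT p (List.ofFn d) (nb bonds) (nf flds), dimL t.spec = (List.ofFn d).prod := by
  intro t ht
  simp only [negT, nb, nf, List.map_map, List.mem_append, List.mem_flatten, List.mem_map] at ht
  rcases ht with ⟨l, ⟨b, _, rfl⟩, ht⟩ | ⟨b, _, rfl⟩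
  · exact bond_spec_dim hd p t (List.mem_append_right _ ht)
  · exact fld_spec_dim hd _ _ _

/-- upper bound for `-H`: all eigenvalues of `H` are `≥ -Λ/(2 p Sc)` -/
theorem sys_upper (hd : ∀ i, d i = 2 ∨ d i = 3) {p : ℕ} (hp : 0 < p)
    (bonds : List (Fin n × Fin n)) (hb : ∀ b ∈ bonds, b.1 < b.2 ∧ ¬ (d b.1 = 2 ∧ d b.2 = 2))
    (flds : List (Fin n × Bool × ℕ)) (hf : ∀ t ∈ flds, d t.1 = 3)
    {w b v Sc Lam : ℕ} (hw : 2 ≤ w) (hbw : b ≤ w - 1) (hSc : 0 < Sc)
    (hchk : chk w b (fullS (List.ofFn d)) (posT p (List.ofFn d) (nb bonds) (nf flds))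
      (negT p (List.ofFn d) (nb bonds) (nf flds)) v Sc Lam true = true)
    (hH : (Hgen d bonds (rf p flds)).IsHermitian) (j : ∀ i, Fin (d i)) :
    -((Lam : ℝ) / (2 * p * Sc)) ≤ hH.eigenvalues j := by
  obtain ⟨f, -, -, h1, -⟩ := chk_sound hw hbw (fullS_memb (List.ofFn d)) (fullS_dim _)
    (pos_dim hd p bonds flds) (neg_dim hd p bonds flds) hchk
  have h1 := h1 rfl
  have hp' : (0 : ℝ) < p := by exact_mod_cast hp
  have hSc' : (0 : ℝ) < Sc := by exact_mod_cast hSc
  refine eig_ge hH (Wgen d bonds) (Dgen d bonds (rf p flds))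
    (Hgen_eq d hd bonds (fun b hb' => ne_of_lt (hb b hb').1) _)
    (Wgen_nonneg d bonds fun b hb' => ne_of_lt (hb b hb').1) (UU f) (fun σ => ?_) _ (fun σ => ?_) j
  · exact mul_pos (RR_pos σ) (by exact_mod_cast (h1 _ (idx_lt σ)).1)
  · have key := sys_id hd hp f bonds hb flds hf σ
    have h2 := (h1 _ (idx_lt σ)).2
    have h3 : (Sc : ℝ) * ((lsem (List.ofFn d).prod f (posT p (List.ofFn d) (nb bonds) (nf flds)) (idx σ) : ℝ) -
      (lsem (List.ofFn d).prod f (negT p (List.ofFn d) (nb bonds) (nf flds)) (idx σ) : ℝ)) ≤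
        Lam * (f (idx σ) : ℝ) := by
      have : ((Sc * lsem (List.ofFn d).prod f (posT p (List.ofFn d) (nb bonds) (nf flds)) (idx σ) : ℕ) : ℝ) ≤
          ((Lam * f (idx σ) + Sc * lsem (List.ofFn d).prod f (negT p (List.ofFn d) (nb bonds) (nf flds))
            (idx σ) : ℕ) : ℝ) := by exact_mod_cast h2
      push_cast at this
      linarith
    have h4 := mul_le_mul_of_nonneg_left h3 (RR_pos σ).le
    have hU : UU f σ = RR σ * (f (idx σ) : ℝ) := rfl
    rw [div_mul_eq_mul_div, le_div_iff₀ (by positivity)]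
    calc ((Wgen d bonds *ᵥ UU f) σ - Dgen d bonds (rf p flds) σ * UU f σ) * (2 * ↑p * ↑Sc)
        = Sc * (2 * p * ((Wgen d bonds *ᵥ UU f) σ - Dgen d bonds (rf p flds) σ * UU f σ)) := by ring
      _ = RR σ * (Sc * ((lsem (List.ofFn d).prod f (posT p (List.ofFn d) (nb bonds) (nf flds)) (idx σ) : ℝ) -
      (lsem (List.ofFn d).prod f (negT p (List.ofFn d) (nb bonds) (nf flds)) (idx σ) : ℝ))) := by
          rw [← key]; ring
      _ ≤ RR σ * (Lam * (f (idx σ) : ℝ)) := h4
      _ = Lam * UU f σ := by rw [hU]; ring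

/-- lower bound for `-H`: some eigenvalue of `H` is `≤ -Λ/(2 p Sc)` -/
theorem sys_lower (hd : ∀ i, d i = 2 ∨ d i = 3) {p : ℕ} (hp : 0 < p)
    (bonds : List (Fin n × Fin n)) (hb : ∀ b ∈ bonds, b.1 < b.2 ∧ ¬ (d b.1 = 2 ∧ d b.2 = 2))
    (hpar : ∀ b ∈ bonds, (b.1.val + b.2.val) % 2 = 1)
    (flds : List (Fin n × Bool × ℕ)) (hf : ∀ t ∈ flds, d t.1 = 3)
    {w b v Sc Lam : ℕ} (hw : 2 ≤ w) (hbw : b ≤ w - 1) (hSc : 0 < Sc) (hv : v ≠ 0)
    (hchk : chk w b (fullS (List.ofFn d)) (posT p (List.ofFn d) (nb bonds) (nf flds))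
      (negT p (List.ofFn d) (nb bonds) (nf flds)) v Sc Lam false = true)
    (hH : (Hgen d bonds (rf p flds)).IsHermitian) :
    ∃ j, hH.eigenvalues j ≤ -((Lam : ℝ) / (2 * p * Sc)) := by
  obtain ⟨f, hvf, -, -, h1⟩ := chk_sound hw hbw (fullS_memb (List.ofFn d)) (fullS_dim _)
    (pos_dim hd p bonds flds) (neg_dim hd p bonds flds) hchk
  have h1 := h1 rfl
  have hp' : (0 : ℝ) < p := by exact_mod_cast hp
  have hSc' : (0 : ℝ) < Sc := by exact_mod_cast hSc
  obtain ⟨i, hi, hfi⟩ : ∃ i < (List.ofFn d).prod, f i ≠ 0 := by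
    by_contra hcon
    push Not at hcon
    apply hv
    rw [hvf, pk]
    apply Finset.sum_eq_zero
    intro i hi
    rw [hcon i (Finset.mem_range.mp hi), zero_mul]
  obtain ⟨σ₀, hσ₀⟩ := idx_surj (d := d) (fun i => by rcases hd i with h | h <;> omega) i hi
  refine exists_eig_le hH (Wgen d bonds) (Dgen d bonds (rf p flds))
    (Hgen_eq d hd bonds (fun b hb' => ne_of_lt (hb b hb').1) _)
    msign msign_sq (Wgen_sign d bonds hpar) (UU f)
    (fun σ => mul_nonneg (RR_pos σ).le (Nat.cast_nonneg _)) σ₀ ?_ _ (fun σ => ?_)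
  · have : 0 < UU f σ₀ := mul_pos (RR_pos σ₀) (by
      rw [hσ₀]; exact_mod_cast Nat.pos_of_ne_zero hfi)
    exact this.ne'
  · have key := sys_id hd hp f bonds hb flds hf σ
    have h2 := h1 _ (idx_lt σ)
    have h3 : Lam * (f (idx σ) : ℝ) ≤ (Sc : ℝ) * ((lsem (List.ofFn d).prod f (posT p (List.ofFn d) (nb bonds) (nf flds)) (idx σ) : ℝ) -
      (lsem (List.ofFn d).prod f (negT p (List.ofFn d) (nb bonds) (nf flds)) (idx σ) : ℝ)) := by
      have : ((Lam * f (idx σ) + Sc * lsem (List.ofFn d).prod f (negT p (List.ofFn d) (nb bonds) (nf flds))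
            (idx σ) : ℕ) : ℝ) ≤ ((Sc * lsem (List.ofFn d).prod f (posT p (List.ofFn d) (nb bonds) (nf flds)) (idx σ) : ℕ) : ℝ) := by exact_mod_cast h2
      push_cast at this
      linarith
    have h4 := mul_le_mul_of_nonneg_left h3 (RR_pos σ).le
    have hU : UU f σ = RR σ * (f (idx σ) : ℝ) := rfl
    rw [div_mul_eq_mul_div, div_le_iff₀ (by positivity)]
    calc (Lam : ℝ) * UU f σ = RR σ * (Lam * (f (idx σ) : ℝ)) := by rw [hU]; ring
      _ ≤ RR σ * (Sc * ((lsem (List.ofFn d).prod f (posT p (List.ofFn d) (nb bonds) (nf flds)) (idx σ) : ℝ) -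
      (lsem (List.ofFn d).prod f (negT p (List.ofFn d) (nb bonds) (nf flds)) (idx σ) : ℝ))) := h4
      _ = Sc * (2 * p * ((Wgen d bonds *ᵥ UU f) σ - Dgen d bonds (rf p flds) σ * UU f σ)) := by
          rw [← key]; ring
      _ = ((Wgen d bonds *ᵥ UU f) σ - Dgen d bonds (rf p flds) σ * UU f σ) * (2 * ↑p * ↑Sc) := by ring

end Sys

end Hald.Cw
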