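import Crest.Agent.Hald.CwES8u
import Crest.Agent.Hald.CwES10l

/-!
# Row 347, M7 (7b): upper bound of the energy density from the strips `M = 8, 10`
-/

set_option autoImplicit false

namespace Hald.Cw

open Matrix Finset Hald

theorem strip8_ge : -(11.818823 : ℝ) ≤ Ech 9 (chD 2 2 8) 0 0 := by
  refine le_trans ?_ Data.stripE8_ge
  norm_num

theorem strip10_le : Ech 11 (chD 2 2 10) 0 0 ≤ -(14.621737 : ℝ) := by
  refine le_trans Data.stripE10_le ?_
  norm_num

/-- fine upper bound of the energy density -/
theorem theE_le_fine : theE ≤ -(1.40145803 : ℝ) := by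
  have h := theE_le (M := 8) (by decide) Data.stripE8_ge Data.stripE10_le
  refine le_trans h ?_
  norm_num

theorem theE_le_num : theE ≤ -(1.401457 : ℝ) := by
  refine le_trans theE_le_fine ?_
  norm_num

theorem theE_le_num' : theE ≤ -(1.40145 : ℝ) := by
  refine le_trans theE_le_fine ?_
  norm_num

end Hald.Cw
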