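import Mathlib
import Crest.Prelude.Def_SpinChain

/-!
# Row 347 (Haldane gap): core definitions

Everything about the ring is done in the real Cartesian basis, where `-S_j·S_k = Σ_a L_a ⊗ L_a` with
`L_a` real antisymmetric and `S_a = i L_a`.
-/

set_option autoImplicit false

namespace Hald

open Matrix

/-- tensor product operator on a finite family of sites (local dimensions may differ) -/
noncomputable def tens {R : Type*} [CommSemiring R] {ι : Type*} [Fintype ι] {κ : ι → Type*}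
    (M : ∀ i, Matrix (κ i) (κ i) R) : Matrix (∀ i, κ i) (∀ i, κ i) R :=
  Matrix.of fun σ τ => ∏ i, M i (σ i) (τ i)

/-- one-site operator in tensor form (all local dimensions equal) -/
noncomputable def site {R : Type*} [CommSemiring R] {ι : Type*} [Fintype ι] [DecidableEq ι]
    {κ : ι → Type*} [∀ i, DecidableEq (κ i)] (j : ι) (A : Matrix (κ j) (κ j) R) :
    Matrix (∀ i, κ i) (∀ i, κ i) R :=
  tens (Function.update (fun i => (1 : Matrix (κ i) (κ i) R)) j A)

/-- `(L_a)_{bc} = -ε_{abc}`: the real antisymmetric rotation generators. `S_a = i L_a`. -/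
def Lr : Fin 3 → Matrix (Fin 3) (Fin 3) ℝ :=
  ![!![0, 0, 0; 0, 0, -1; 0, 1, 0], !![0, 0, 1; 0, 0, 0; -1, 0, 0], !![0, -1, 0; 1, 0, 0; 0, 0, 0]]

/-- rotations by π about x, y, z and the cyclic rotation e₀ → e₁ → e₂ → e₀ -/
def gx : Matrix (Fin 3) (Fin 3) ℝ := !![1, 0, 0; 0, -1, 0; 0, 0, -1]
def gy : Matrix (Fin 3) (Fin 3) ℝ := !![-1, 0, 0; 0, 1, 0; 0, 0, -1]
def gz : Matrix (Fin 3) (Fin 3) ℝ := !![-1, 0, 0; 0, -1, 0; 0, 0, 1]
def gc : Matrix (Fin 3) (Fin 3) ℝ := !![0, 0, 1; 1, 0, 0; 0, 1, 0]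

/-- ring with `2m` sites indexed by `Fin m × Fin 2`; site `(i,s)` is number `2i+s` -/
abbrev RSite (m : ℕ) := Fin m × Fin 2

/-- cyclic successor -/
def nxt {m : ℕ} (i : Fin m) : Fin m := finRotate m i

/-- negative bond `-S_j·S_k` with the second spin conjugated by the rotation `h` -/
noncomputable def nbond {ι : Type*} [Fintype ι] [DecidableEq ι] (h : Matrix (Fin 3) (Fin 3) ℝ)
    (j k : ι) : Matrix (ι → Fin 3) (ι → Fin 3) ℝ :=
  ∑ a : Fin 3, site (κ := fun _ => Fin 3) j (Lr a) * site (κ := fun _ => Fin 3) k (h * Lr a * hᵀ)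

/-- negative Heisenberg Hamiltonian of the ring of `2m` sites with seam twist `h`
(the bond between `(m-1,1)` and `(0,0)` is twisted). -/
noncomputable def negH (h : Matrix (Fin 3) (Fin 3) ℝ) (m : ℕ) :
    Matrix (RSite m → Fin 3) (RSite m → Fin 3) ℝ :=
  (∑ i : Fin m, nbond 1 (i, 0) (i, 1)) +
    ∑ i : Fin m, nbond (if i.val + 1 = m then h else 1) (i, 1) (nxt i, 0)

/-- (unnormalised) twisted partition function `Tr (U_g e^{-β H_h})` -/
noncomputable def Zp (g h : Matrix (Fin 3) (Fin 3) ℝ) (β : ℝ) (m : ℕ) : ℝ :=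
  Matrix.trace (tens (κ := fun _ : RSite m => Fin 3) (fun _ => g) * NormedSpace.exp (β • negH h m))

/-- the eight twist classes u,v,tv,w,tw,p,q,r = (1,1),(1,x),(1,c),(x,1),(c,1),(x,x),(x,y),(c,c) -/
def tw : Fin 8 → Matrix (Fin 3) (Fin 3) ℝ × Matrix (Fin 3) (Fin 3) ℝ :=
  ![(1, 1), (1, gx), (1, gc), (gx, 1), (gc, 1), (gx, gx), (gx, gy), (gc, gc)]

end Hald
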