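import Crest.Agent.Hald.World

/-!
# Row 347, M9a: end game for the ring (S0545), purely from the abstract `World`
-/

set_option autoImplicit false

namespace Hald

theorem rp2 (a : ℝ) : a ^ (2 : ℝ) = a ^ (2 : ℕ) := Real.rpow_two a

theorem rp4 (a : ℝ) : a ^ (4 : ℝ) = a ^ (4 : ℕ) := by
  rw [← Real.rpow_natCast]
  norm_num

/-- A power sum with a top: the total power rule (`(a+b)^r ≥ a^r + b^r` for `r ≥ 1`). -/
theorem PSTop.pow_total {α : Type*} {S : Set α} {c : α → ℝ} {f : α → ℝ} {t : ℝ}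
    (h : PSTop S c 1 f t) {x y : α} (hx : x ∈ S) (hy : y ∈ S) (hc : 0 < c x) (hxy : c x ≤ c y) :
    f y ≤ f x ^ (c y / c x) := by
  have h1 := h.rem.pow x hx y hy hxy
  simp only [div_one] at h1
  have hr : 1 ≤ c y / c x := by rwa [le_div_iff₀ hc, one_mul]
  have ha : 0 ≤ f x - t ^ (c x) := h.rem.nonneg x hx
  have hb : 0 ≤ t ^ (c x) := Real.rpow_nonneg h.t_nonneg _
  have h2 := Real.add_rpow_le_rpow_add ha hb hr
  have h3 : (t ^ (c x)) ^ (c y / c x) = t ^ (c y) := by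
    rw [← Real.rpow_mul h.t_nonneg]
    congr 1
    field_simp
  rw [h3, sub_add_cancel] at h2
  linarith

/-- the top is below the total -/
theorem PSTop.top_le {α : Type*} {S : Set α} {c : α → ℝ} {f : α → ℝ} {t : ℝ}
    (h : PSTop S c 1 f t) {x : α} (hx : x ∈ S) : t ^ (c x) ≤ f x := by
  have := h.rem.nonneg x hx
  linarith

/-- total power rule in the space direction: from `hZtopA`: `Z = R + V^L`, both parts are power sums,
`(a+b)^r ≥ a^r+b^r` for `r ≥ 1`. -/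
theorem World.Z_powA (w : World) {β : ℝ} (hβ : 0 < β) {m m' : ℕ} (hm : 1 ≤ m) (hmm : m ≤ m') :
    w.Z 0 β m' ≤ (w.Z 0 β m) ^ ((m' : ℝ) / m) := by
  have hm0 : (0 : ℝ) < m := by exact_mod_cast hm
  have hmm' : (m : ℝ) ≤ m' := by exact_mod_cast hmm
  have h := (w.hZtopA β hβ).pow_total (x := m) (y := m') hm (le_trans hm hmm) (by positivity)
    (by linarith)
  have h2 : 2 * (m' : ℝ) / (2 * m) = (m' : ℝ) / m := by
    rw [mul_div_mul_left _ _ two_ne_zero]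
  rwa [h2] at h

/-- total power rule in the time direction. -/
theorem World.Z_powB (w : World) {β β' : ℝ} (hβ : 0 < β) (hbb : β ≤ β') {m : ℕ} (hm : 1 ≤ m) :
    w.Z 0 β' m ≤ (w.Z 0 β m) ^ (β' / β) :=
  (w.hZtopB m hm).pow_total (x := β) (y := β') hβ (lt_of_lt_of_le hβ hbb) hβ hbb

theorem World.one_le_Z (w : World) {β : ℝ} (hβ : 0 < β) {m : ℕ} (hm : 1 ≤ m) : 1 ≤ w.Z 0 β m := by
  have h := (w.hZtopA β hβ).top_le (x := m) hm
  have h2 : 1 ≤ w.V 0 β ^ (2 * (m : ℝ)) := Real.one_le_rpow (w.one_le_V β hβ) (by positivity)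
  linarith

/-- Doubling lemma.  Let `x = V(2β)^{4m}`.
(i) `x² = V(2β)^{8m} ≤ Z(2β,4m) = W(4m)^{2β} + R'(2β,4m)`, `R'(2β,4m) ≤ R'(β,4m)² ≤ (Z(β,4m)-1)² ≤ ((1+ε)⁴-1)²`,
`W(4m) ≤ W(2m)`;  (ii) `W(2m)^{2β} ≤ Z(2β,2m) = x + R(2β,2m)`, `R(2β,2m) ≤ R(2β,m)² ≤ ((1+ε)²-1)²`.
Hence `x² ≤ x + ((1+ε)⁴-1)² + ((1+ε)²-1)²`, so `x - 1 ≤` the same sum (as `x ≥ 1`), and
`Z(2β,2m) ≤ 1 + ((1+ε)⁴-1)² + 2((1+ε)²-1)² ≤ 1 + 28 ε²` for `ε ≤ 1/40`. -/
theorem World.doubling (w : World) {β ε : ℝ} (hβ : 0 < β) {m : ℕ} (hm : 1 ≤ m) (hε0 : 0 ≤ ε)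
    (hε : ε ≤ 1 / 40) (h : w.Z 0 β m ≤ 1 + ε) : w.Z 0 (2 * β) (2 * m) ≤ 1 + 28 * ε ^ 2 := by
  have hm0 : (0 : ℝ) < m := by exact_mod_cast hm
  have hβ2 : 0 < 2 * β := by linarith
  have h2m : 1 ≤ 2 * m := by omega
  have h4m : 1 ≤ 4 * m := by omega
  have hVnn : 0 ≤ w.V 0 (2 * β) := le_trans zero_le_one (w.one_le_V _ hβ2)
  -- `Z(2β, m) ≤ (1+ε)²`
  have hZ1 : w.Z 0 (2 * β) m ≤ (1 + ε) ^ 2 := by
    have h1 := w.Z_powB hβ (β' := 2 * β) (by linarith) hm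
    have h2 : 2 * β / β = 2 := by field_simp
    rw [h2] at h1
    have h3 : w.Z 0 β m ^ (2 : ℝ) ≤ (1 + ε) ^ (2 : ℝ) :=
      Real.rpow_le_rpow (le_trans zero_le_one (w.one_le_Z hβ hm)) h (by norm_num)
    rw [rp2] at h1 h3
    rw [rp2] at h3
    linarith
  -- `Z(β, 4m) ≤ (1+ε)⁴`
  have hZ4 : w.Z 0 β (4 * m) ≤ (1 + ε) ^ 4 := by
    have h1 := w.Z_powA hβ hm (m' := 4 * m) (by omega)
    have h2 : ((4 * m : ℕ) : ℝ) / m = 4 := by push_cast; field_simp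
    rw [h2] at h1
    have h3 : w.Z 0 β m ^ (4 : ℝ) ≤ (1 + ε) ^ (4 : ℝ) :=
      Real.rpow_le_rpow (le_trans zero_le_one (w.one_le_Z hβ hm)) h (by norm_num)
    rw [rp4] at h1 h3
    rw [rp4] at h3
    linarith
  -- `R(2β,2m) ≤ ((1+ε)²-1)²`
  set V := w.V 0 (2 * β) with hV
  have hA := w.hZtopA (2 * β) hβ2
  have hR2 : w.Z 0 (2 * β) (2 * m) - V ^ (4 * (m : ℝ)) ≤ ((1 + ε) ^ 2 - 1) ^ 2 := by
    have h1 := hA.rem.pow m hm (2 * m) h2m (by push_cast; linarith)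
    have e1 : 2 * ((2 * m : ℕ) : ℝ) = 4 * m := by push_cast; ring
    have e2 : (4 * (m : ℝ)) / (2 * m) = 2 := by field_simp; norm_num
    simp only [div_one, e1, e2] at h1
    rw [← hV] at h1
    have h0 : 0 ≤ w.Z 0 (2 * β) m - V ^ (2 * (m : ℝ)) := hA.rem.nonneg m hm
    have h3 : 1 ≤ V ^ (2 * (m : ℝ)) := Real.one_le_rpow (w.one_le_V _ hβ2) (by positivity)
    have h4 : (w.Z 0 (2 * β) m - V ^ (2 * (m : ℝ))) ^ (2 : ℝ) ≤ ((1 + ε) ^ 2 - 1) ^ (2 : ℝ) :=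
      Real.rpow_le_rpow h0 (by linarith) (by norm_num)
    rw [rp2] at h1 h4
    rw [rp2] at h4
    linarith
  -- `R'(2β,4m) ≤ ((1+ε)⁴-1)²`
  have hB4 := w.hZtopB (4 * m) h4m
  have hR' : w.Z 0 (2 * β) (4 * m) - w.W 0 (4 * m) ^ (2 * β) ≤ ((1 + ε) ^ 4 - 1) ^ 2 := by
    have h1 := hB4.rem.pow β hβ (2 * β) hβ2 (by linarith)
    have e2 : 2 * β / β = 2 := by field_simp
    simp only [div_one, e2] at h1
    have h0 : 0 ≤ w.Z 0 β (4 * m) - w.W 0 (4 * m) ^ β := hB4.rem.nonneg β hβ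
    have h3 : 1 ≤ w.W 0 (4 * m) ^ β := Real.one_le_rpow (w.one_le_W _ h4m) hβ.le
    have h4 : (w.Z 0 β (4 * m) - w.W 0 (4 * m) ^ β) ^ (2 : ℝ) ≤ ((1 + ε) ^ 4 - 1) ^ (2 : ℝ) :=
      Real.rpow_le_rpow h0 (by linarith) (by norm_num)
    rw [rp2] at h1 h4
    rw [rp2] at h4
    linarith
  -- `x² ≤ Z(2β,4m)`
  set x := V ^ (4 * (m : ℝ)) with hx
  have hx1 : 1 ≤ x := Real.one_le_rpow (w.one_le_V _ hβ2) (by positivity)
  have hxx : x ^ 2 ≤ w.Z 0 (2 * β) (4 * m) := by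
    have h1 := hA.top_le (x := 4 * m) h4m
    have e1 : V ^ (2 * ((4 * m : ℕ) : ℝ)) = x ^ 2 := by
      rw [hx, ← Real.rpow_natCast (V ^ (4 * (m : ℝ))) 2, ← Real.rpow_mul hVnn]
      congr 1
      push_cast
      ring
    rw [← hV] at h1
    rw [e1] at h1
    exact h1
  have hW : w.W 0 (4 * m) ^ (2 * β) ≤ w.Z 0 (2 * β) (2 * m) := by
    have h1 := (w.hZtopB (2 * m) h2m).top_le (x := 2 * β) hβ2
    have h2 : w.W 0 (4 * m) ^ (2 * β) ≤ w.W 0 (2 * m) ^ (2 * β) :=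
      Real.rpow_le_rpow (le_trans zero_le_one (w.one_le_W _ h4m))
        (w.W_anti (2 * m) (4 * m) h2m (by omega)) hβ2.le
    exact h2.trans h1
  have hfin : x ^ 2 ≤ x + ((1 + ε) ^ 4 - 1) ^ 2 + ((1 + ε) ^ 2 - 1) ^ 2 := by linarith
  have hx2 : x - 1 ≤ ((1 + ε) ^ 4 - 1) ^ 2 + ((1 + ε) ^ 2 - 1) ^ 2 := by nlinarith
  have hb4 : (1 + ε) ^ 4 - 1 ≤ 4.16 * ε := by
    have : (1 + ε) ^ 4 - 1 = ε * (4 + 6 * ε + 4 * ε ^ 2 + ε ^ 3) := by ring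
    rw [this, mul_comm]
    apply mul_le_mul_of_nonneg_right _ hε0
    have h2 : ε ^ 2 ≤ (1 / 40) ^ 2 := pow_le_pow_left₀ hε0 hε 2
    have h3 : ε ^ 3 ≤ (1 / 40) ^ 3 := pow_le_pow_left₀ hε0 hε 3
    norm_num at h2 h3 ⊢
    linarith
  have hb4' : 0 ≤ (1 + ε) ^ 4 - 1 := by
    have : (1 + ε) ^ 4 - 1 = ε * (4 + 6 * ε + 4 * ε ^ 2 + ε ^ 3) := by ring
    rw [this]
    positivity
  have hb2 : (1 + ε) ^ 2 - 1 ≤ 2.03 * ε := by
    have : (1 + ε) ^ 2 - 1 = ε * (2 + ε) := by ring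
    rw [this, mul_comm]
    apply mul_le_mul_of_nonneg_right _ hε0
    norm_num
    linarith
  have hb2' : 0 ≤ (1 + ε) ^ 2 - 1 := by
    have : (1 + ε) ^ 2 - 1 = ε * (2 + ε) := by ring
    rw [this]
    positivity
  have hs4 : ((1 + ε) ^ 4 - 1) ^ 2 ≤ (4.16 * ε) ^ 2 := pow_le_pow_left₀ hb4' hb4 2
  have hs2 : ((1 + ε) ^ 2 - 1) ^ 2 ≤ (2.03 * ε) ^ 2 := pow_le_pow_left₀ hb2' hb2 2
  nlinarith [sq_nonneg ε]

/-- iterate: `ε_k = (28 ε₀)^{2^k} / 28`. -/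
theorem World.iterate (w : World) {β ε : ℝ} (hβ : 0 < β) {m : ℕ} (hm : 1 ≤ m) (hε0 : 0 ≤ ε)
    (hε : ε ≤ 1 / 40) (h : w.Z 0 β m ≤ 1 + ε) (k : ℕ) :
    w.Z 0 (2 ^ k * β) (2 ^ k * m) ≤ 1 + (28 * ε) ^ (2 ^ k) / 28 := by
  induction k with
  | zero =>
    simp only [pow_zero, one_mul, pow_one]
    linarith
  | succ k ih =>
    have h28 : 0 ≤ 28 * ε := by linarith
    have h28' : 28 * ε ≤ 28 / 40 := by linarith
    have hpow : (28 * ε) ^ (2 ^ k) ≤ 28 / 40 := by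
      calc (28 * ε) ^ (2 ^ k) ≤ (28 * ε) ^ 1 :=
            pow_le_pow_of_le_one h28 (by linarith) Nat.one_le_two_pow
        _ ≤ 28 / 40 := by rw [pow_one]; exact h28'
    have h1 := w.doubling (β := 2 ^ k * β) (ε := (28 * ε) ^ (2 ^ k) / 28) (m := 2 ^ k * m)
      (by positivity) (Nat.one_le_iff_ne_zero.mpr (by positivity))
      (by positivity) (by linarith) ih
    have e1 : (2 : ℝ) ^ (k + 1) * β = 2 * (2 ^ k * β) := by rw [pow_succ]; ring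
    have e2 : 2 ^ (k + 1) * m = 2 * (2 ^ k * m) := by rw [pow_succ]; ring
    rw [e1, e2]
    refine h1.trans (le_of_eq ?_)
    rw [pow_succ 2 k, pow_mul (28 * ε) (2 ^ k) 2]
    ring

/-- The certificate facts used for S0545. -/
structure RingNum (w : World) : Prop where
  f16 : w.Z 0 16 16 ≤ 1.25
  f24 : w.Z 0 24 32 ≤ 1.07
  f48 : w.Z 0 48 64 ≤ 1.01

/-- the total at `m'` from the total at `m ≤ m' ≤ 2m` -/
theorem World.Z_sq (w : World) {β c : ℝ} (hβ : 0 < β) {m m' : ℕ} (hm : 1 ≤ m) (hmm : m ≤ m')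
    (hmm2 : m' ≤ 2 * m) (h : w.Z 0 β m ≤ c) : w.Z 0 β m' ≤ c ^ 2 := by
  have hm0 : (0 : ℝ) < m := by exact_mod_cast hm
  have h1 := w.Z_powA hβ hm hmm
  have hZ := w.one_le_Z hβ hm
  have h2 : w.Z 0 β m ^ ((m' : ℝ) / m) ≤ w.Z 0 β m ^ (2 : ℝ) := by
    apply Real.rpow_le_rpow_of_exponent_le hZ
    rw [div_le_iff₀ hm0]
    exact_mod_cast hmm2
  have h3 : w.Z 0 β m ^ (2 : ℝ) ≤ c ^ (2 : ℝ) :=
    Real.rpow_le_rpow (by linarith) h (by norm_num)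
  rw [rp2] at h3
  rw [rp2] at h2 h3
  linarith

theorem gap_of_Z (w : World) {β : ℝ} (hβ : 0 < β) {m : ℕ} (hm : 1 ≤ m)
    (h : w.Z 0 β m < 1 + Real.exp (-(β * (1 / 100)))) :
    w.Z 0 β m < (w.W 0 m) ^ β * (1 + Real.exp (-(β * (1 / 100)))) := by
  have h1 : 1 ≤ w.W 0 m ^ β := Real.one_le_rpow (w.one_le_W m hm) hβ.le
  have h2 : 0 < 1 + Real.exp (-(β * (1 / 100))) := by positivity
  nlinarith

/-- Main result: for all `m ≥ 16` the gap of the ring of `2m` sites exceeds `1/100`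
(in the trace form consumed by `Link`).
m ∈ [16,32): β=16, Z ≤ 1.25² = 1.5625 < 1 + e^{-0.16};  m ∈ [32,64): β=24, 1.07² < 1+e^{-0.24};
m ∈ [2^k·64, 2^{k+1}·64): β = 48·2^k, Z ≤ (1+ε_k)², ε_k = 0.28^{2^k}/28 and
2ε_k+ε_k² < e^{-0.48·2^k} = 0.6187^{2^k};  `W ≥ 1`. -/
theorem ring_gap_trace (w : World) (h : RingNum w) (m : ℕ) (hm : 16 ≤ m) :
    ∃ β : ℝ, 0 < β ∧ w.Z 0 β m < (w.W 0 m) ^ β * (1 + Real.exp (-(β * (1 / 100)))) := by
  rcases lt_or_ge m 32 with h32 | h32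
  · refine ⟨16, by norm_num, gap_of_Z w (by norm_num) (by omega) ?_⟩
    have h1 := w.Z_sq (β := 16) (by norm_num) (m := 16) (by norm_num) hm (by omega) h.f16
    have h2 : -(16 * (1 / 100 : ℝ)) + 1 ≤ Real.exp (-(16 * (1 / 100))) := Real.add_one_le_exp _
    norm_num at h1 h2 ⊢
    linarith
  rcases lt_or_ge m 64 with h64 | h64
  · refine ⟨24, by norm_num, gap_of_Z w (by norm_num) (by omega) ?_⟩
    have h1 := w.Z_sq (β := 24) (by norm_num) (m := 32) (by norm_num) h32 (by omega) h.f24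
    have h2 : -(24 * (1 / 100 : ℝ)) + 1 ≤ Real.exp (-(24 * (1 / 100))) := Real.add_one_le_exp _
    norm_num at h1 h2 ⊢
    linarith
  -- `m ∈ [64·2^k, 64·2^{k+1})`
  obtain ⟨k, hk1, hk2⟩ : ∃ k : ℕ, 2 ^ k * 64 ≤ m ∧ m ≤ 2 * (2 ^ k * 64) := by
    refine ⟨Nat.log 2 (m / 64), ?_, ?_⟩
    · have h1 : 2 ^ Nat.log 2 (m / 64) ≤ m / 64 := Nat.pow_log_le_self 2 (by omega)
      calc 2 ^ Nat.log 2 (m / 64) * 64 ≤ m / 64 * 64 := Nat.mul_le_mul_right _ h1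
        _ ≤ m := Nat.div_mul_le_self m 64
    · have h1 : m / 64 < 2 ^ (Nat.log 2 (m / 64) + 1) := Nat.lt_pow_succ_log_self (by norm_num) _
      rw [pow_succ] at h1
      omega
  have hβ : (0 : ℝ) < 2 ^ k * 48 := by positivity
  refine ⟨2 ^ k * 48, hβ, gap_of_Z w hβ (by omega) ?_⟩
  have h48 : w.Z 0 48 64 ≤ 1 + 1 / 100 := by
    have := h.f48
    norm_num at this ⊢
    linarith
  have h1 := w.iterate (β := 48) (ε := 1 / 100) (by norm_num) (m := 64) (by norm_num)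
    (by norm_num) (by norm_num) h48 k
  have h2 := w.Z_sq hβ (m := 2 ^ k * 64) (Nat.one_le_iff_ne_zero.mpr (by positivity)) hk1 hk2 h1
  have hexp : (28 * (1 / 100 : ℝ)) ^ (2 ^ k) ≤ Real.exp (-(2 ^ k * 48 * (1 / 100))) := by
    have e1 : Real.exp (-(2 ^ k * 48 * (1 / 100))) = Real.exp (-(48 / 100)) ^ (2 ^ k) := by
      rw [← Real.exp_nat_mul]
      congr 1
      push_cast
      ring
    rw [e1]
    apply pow_le_pow_left₀ (by norm_num)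
    have h3 : -(48 / 100 : ℝ) + 1 ≤ Real.exp (-(48 / 100)) := Real.add_one_le_exp _
    norm_num at h3 ⊢
    linarith
  have hy0 : 0 < (28 * (1 / 100 : ℝ)) ^ (2 ^ k) := by positivity
  have hy1 : (28 * (1 / 100 : ℝ)) ^ (2 ^ k) ≤ 1 := pow_le_one₀ (by norm_num) (by norm_num)
  set y := (28 * (1 / 100 : ℝ)) ^ (2 ^ k) with hy
  have h5 : (1 + y / 28) ^ 2 < 1 + y := by nlinarith
  linarith

theorem thresholds : 4 / 105 * Real.log (80 / 79) ≤ 1 / 100 ∧ Real.log 20 / 784 ≤ 1 / 100 ∧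
    Real.log 10 / 392 ≤ 1 / 100 := by
  refine ⟨?_, ?_, ?_⟩
  · have h := Real.log_le_sub_one_of_pos (x := 80 / 79) (by norm_num)
    norm_num at h ⊢
    linarith
  · have h : Real.log 20 ≤ 784 * (1 / 100) := by
      rw [Real.log_le_iff_le_exp (by norm_num)]
      have h1 : (1 : ℝ) + 1 ≤ Real.exp 1 := Real.add_one_le_exp _
      have h2 : Real.exp 1 ^ 7 ≤ Real.exp (784 * (1 / 100)) := by
        rw [← Real.exp_nat_mul]
        apply Real.exp_le_exp.mpr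
        norm_num
      have h3 : (2 : ℝ) ^ 7 ≤ Real.exp 1 ^ 7 := pow_le_pow_left₀ (by norm_num) (by linarith) 7
      have h5 : (20 : ℝ) ≤ 2 ^ 7 := by norm_num
      exact h5.trans (h3.trans h2)
    rw [div_le_iff₀ (by norm_num)]
    linarith
  · have h : Real.log 10 ≤ 392 * (1 / 100) := by
      rw [Real.log_le_iff_le_exp (by norm_num)]
      have h2 : (2.7 : ℝ) ≤ Real.exp 1 := by
        have := Real.exp_one_gt_d9
        linarith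
      have h3 : Real.exp 1 ^ 3 ≤ Real.exp (392 * (1 / 100)) := by
        rw [← Real.exp_nat_mul]
        apply Real.exp_le_exp.mpr
        norm_num
      have h4 : (2.7 : ℝ) ^ 3 ≤ Real.exp 1 ^ 3 := pow_le_pow_left₀ (by norm_num) h2 3
      have h5 : (10 : ℝ) ≤ 2.7 ^ 3 := by norm_num
      exact h5.trans (h4.trans h3)
    rw [div_le_iff₀ (by norm_num)]
    linarith

end Hald
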