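import Crest.Agent.Hald.EdgeWorld
import Crest.Agent.Hald.EndGame

/-!
# Row 347, M9b: basic lemmas about an `EdgeWorld` (abstract open chain)
-/

set_option autoImplicit false

namespace Hald

namespace EdgeWorld

variable {w : World} (E : EdgeWorld w)

/-- remainder in the space direction -/
noncomputable def R (β : ℝ) (M : ℕ) : ℝ := E.ao β M - E.om2 β * (w.V 0 β) ^ (M - 2)

/-- relative excess over the ground state in the time direction -/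
noncomputable def rr (β : ℝ) (M : ℕ) : ℝ := E.ao β M / (E.G M) ^ β - 1

theorem G_pos {M : ℕ} (hM : 2 ≤ M) : 0 < E.G M := by
  have h := E.time M hM
  rcases h.t_nonneg.lt_or_eq with h0 | h0
  · exact h0
  exfalso
  have h1 := h.ratio 1 (by simp) 2 (by simp) (by norm_num)
  have h2 := E.ao_pos 2 (by norm_num) M hM
  have h3 : (E.G M) ^ ((2 : ℝ) - 1) = 0 := by
    rw [← h0]; norm_num
  simp only [h3, zero_mul] at h1
  linarith

theorem Gpow_pos {M : ℕ} (hM : 2 ≤ M) (β : ℝ) : 0 < E.G M ^ β :=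
  Real.rpow_pos_of_pos (E.G_pos hM) _

theorem ao_eq {M : ℕ} (hM : 2 ≤ M) (β : ℝ) : E.ao β M = E.G M ^ β * (1 + E.rr β M) := by
  have h := E.Gpow_pos hM β
  unfold rr
  field_simp
  ring

theorem G_le {M : ℕ} (hM : 2 ≤ M) {β : ℝ} (hβ : 0 < β) : E.G M ^ β ≤ E.ao β M :=
  (E.time M hM).top_le (x := β) hβ

theorem rr_nonneg {M : ℕ} (hM : 2 ≤ M) {β : ℝ} (hβ : 0 < β) : 0 ≤ E.rr β M := by
  have h := E.Gpow_pos hM β
  have h1 := E.G_le hM hβ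
  unfold rr
  rw [sub_nonneg, one_le_div h]
  exact h1

/-- `r(nβ) ≤ r(β)^n` -/
theorem rr_pow {M : ℕ} (hM : 2 ≤ M) {β : ℝ} (hβ : 0 < β) {n : ℕ} (hn : 1 ≤ n) :
    E.rr (n * β) M ≤ E.rr β M ^ n := by
  have hn0 : (1 : ℝ) ≤ n := by exact_mod_cast hn
  have hnβ : 0 < n * β := by positivity
  have hle : β ≤ n * β := by nlinarith
  have h1 := (E.time M hM).rem.pow β hβ (n * β) hnβ hle
  have e2 : (n : ℝ) * β / β = n := by field_simp
  simp only [div_one, e2, Real.rpow_natCast] at h1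
  have hG := E.Gpow_pos hM β
  have hGn := E.Gpow_pos hM (n * β)
  have e3 : E.G M ^ ((n : ℝ) * β) = (E.G M ^ β) ^ n := by
    rw [mul_comm, Real.rpow_mul (E.G_pos hM).le, Real.rpow_natCast]
  have e4 : E.rr (n * β) M = (E.ao (n * β) M - E.G M ^ ((n : ℝ) * β)) / E.G M ^ ((n : ℝ) * β) := by
    unfold rr; field_simp
  have e5 : E.rr β M = (E.ao β M - E.G M ^ β) / E.G M ^ β := by
    unfold rr; field_simp
  rw [e4, e5, div_pow, ← e3]
  gcongr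

/-- `r` is decreasing in `β` -/
theorem rr_anti {M : ℕ} (hM : 2 ≤ M) {β β' : ℝ} (hβ : 0 < β) (hβ' : β ≤ β') :
    E.rr β' M ≤ E.rr β M := by
  have h1 := (E.time M hM).ratio β hβ β' (lt_of_lt_of_le hβ hβ') hβ'
  have hG := E.Gpow_pos hM β
  have hG' := E.Gpow_pos hM β'
  have e3 : E.G M ^ (β' - β) = E.G M ^ β' / E.G M ^ β := Real.rpow_sub (E.G_pos hM) _ _
  simp only [e3] at h1
  unfold rr
  have h2 : E.ao β' M / E.G M ^ β' ≤ E.ao β M / E.G M ^ β := by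
    rw [div_le_iff₀ hG']
    calc E.ao β' M ≤ E.G M ^ β' / E.G M ^ β * E.ao β M := h1
      _ = E.ao β M / E.G M ^ β * E.G M ^ β' := by ring
  linarith

/-- `r(nβ) ≤ ρ^n` if `r(β) ≤ ρ` -/
theorem rr_pow_le {M : ℕ} (hM : 2 ≤ M) {β ρ : ℝ} (hβ : 0 < β) (h : E.rr β M ≤ ρ) {n : ℕ}
    (hn : 1 ≤ n) : E.rr (n * β) M ≤ ρ ^ n :=
  (E.rr_pow hM hβ hn).trans (pow_le_pow_left₀ (E.rr_nonneg hM hβ) h n)

/-- Renormalisation step (time direction): from `ao(β)² ≤ N ao(2β)`. -/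
theorem rr_of_N {M : ℕ} (hM : 2 ≤ M) {β N ρ : ℝ} (hβ : 0 < β) (hρ0 : 0 ≤ ρ) (hρ1 : ρ < 1)
    (hN : N * (1 + ρ ^ 2) ≤ (1 + ρ) ^ 2) (h : E.ao β M ^ 2 ≤ N * E.ao (2 * β) M) :
    E.rr β M ≤ ρ := by
  have hG := E.Gpow_pos hM β
  have hr0 := E.rr_nonneg hM hβ
  have h2β : 0 < 2 * β := by linarith
  have hr2 := E.rr_nonneg hM h2β
  have ha : E.rr (2 * β) M ≤ E.rr β M := E.rr_anti hM hβ (by linarith)
  have hb : E.rr (2 * β) M ≤ E.rr β M ^ 2 := by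
    have := E.rr_pow hM hβ (n := 2) (by norm_num)
    simpa using this
  have e3 : E.G M ^ ((2 : ℝ) * β) = (E.G M ^ β) ^ 2 := by
    rw [mul_comm, Real.rpow_mul (E.G_pos hM).le, Real.rpow_two]
  rw [E.ao_eq hM β, E.ao_eq hM (2 * β), e3] at h
  have hG2 : 0 < (E.G M ^ β) ^ 2 := by positivity
  have h1 : (1 + E.rr β M) ^ 2 ≤ N * (1 + E.rr (2 * β) M) := by
    have : (E.G M ^ β) ^ 2 * (1 + E.rr β M) ^ 2 ≤ (E.G M ^ β) ^ 2 * (N * (1 + E.rr (2 * β) M)) := by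
      calc (E.G M ^ β) ^ 2 * (1 + E.rr β M) ^ 2 = (E.G M ^ β * (1 + E.rr β M)) ^ 2 := by ring
        _ ≤ _ := h
        _ = _ := by ring
    exact le_of_mul_le_mul_left this hG2
  set r := E.rr β M with hr
  set r2 := E.rr (2 * β) M with hr2'
  have hN0 : 0 ≤ N := by
    by_contra hcon
    push Not at hcon
    have : N * (1 + r2) ≤ 0 := by
      apply mul_nonpos_of_nonpos_of_nonneg hcon.le; linarith
    nlinarith [sq_nonneg (1 + r)]
  have hN2 : N < 2 := by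
    by_contra hcon
    push Not at hcon
    nlinarith [mul_pos (sub_pos.mpr hρ1) (sub_pos.mpr hρ1), mul_nonneg (sub_nonneg.mpr hcon) (by positivity : (0:ℝ) ≤ 1 + ρ ^ 2)]
  have hr1 : r < 1 := by
    by_contra hcon
    push Not at hcon
    have h3 : (1 + r) ^ 2 ≤ N * (1 + r) := h1.trans (by gcongr)
    have h4 : 1 + r ≤ N := by
      have h5 : 0 < 1 + r := by linarith
      nlinarith
    linarith
  have h3 : (1 + r) ^ 2 ≤ N * (1 + r ^ 2) := h1.trans (by gcongr)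
  by_contra hcon
  push Not at hcon
  have h4 : (1 + r) ^ 2 * (1 + ρ ^ 2) ≤ (1 + ρ) ^ 2 * (1 + r ^ 2) := by
    calc (1 + r) ^ 2 * (1 + ρ ^ 2) ≤ N * (1 + r ^ 2) * (1 + ρ ^ 2) := by gcongr
      _ = N * (1 + ρ ^ 2) * (1 + r ^ 2) := by ring
      _ ≤ (1 + ρ) ^ 2 * (1 + r ^ 2) := by gcongr
  have h5 : 0 < (r - ρ) * (1 - r * ρ) := by
    apply mul_pos (by linarith)
    have : r * ρ < 1 := by
      calc r * ρ ≤ 1 * ρ := by gcongr
        _ < 1 := by linarith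
    linarith
  nlinarith

/-- `R ≥ 0` for even `M` -/
theorem R_nonneg {β : ℝ} (hβ : 0 < β) {M : ℕ} (hM : 2 ≤ M) (he : Even M) : 0 ≤ E.R β M := by
  have := E.rem_nonneg β hβ M hM he
  unfold R; linarith

theorem R_le {β : ℝ} (hβ : 0 < β) (M : ℕ) : E.R β M ≤ E.ao β M := by
  have h1 := E.om2_nonneg β hβ
  have h2 : 0 ≤ w.V 0 β := le_trans zero_le_one (w.one_le_V β hβ)
  have h3 : 0 ≤ E.om2 β * (w.V 0 β) ^ (M - 2) := by positivity
  unfold R; linarith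

/-- `q` is an admissible decay rate at `β` -/
def Dec (w : World) (β q : ℝ) : Prop :=
  0 < q ∧ (∃ m : ℕ, 1 ≤ m ∧ secA 0 (fun t => w.Z t β m) - (w.V 0 β) ^ (2 * m) ≤ q ^ (2 * m)) ∧
    (∃ m : ℕ, 1 ≤ m ∧ secA 1 (fun t => w.Z t β m) ≤ q ^ (2 * m)) ∧
    (∃ m : ℕ, 1 ≤ m ∧ secA 2 (fun t => w.Z t β m) ≤ q ^ (2 * m))

theorem R_step {β q : ℝ} (hβ : 0 < β) (hq : Dec w β q) {M : ℕ} (hM : 2 ≤ M) (he : Even M) :
    E.R β (M + 2) ≤ q ^ 2 * E.R β M := by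
  obtain ⟨h0, h1, h2, h3⟩ := hq
  have := E.decay β hβ q h0 h1 h2 h3 M hM he
  simpa [R] using this

/-- decay of the remainder (even lengths) -/
theorem R_decay {β q : ℝ} (hβ : 0 < β) (hq : Dec w β q) {M : ℕ} (hM : 2 ≤ M) (he : Even M)
    (j : ℕ) : E.R β (M + 2 * j) ≤ q ^ (2 * j) * E.R β M := by
  induction j with
  | zero => simp
  | succ j ih =>
    have h1 := E.R_step hβ hq (M := M + 2 * j) (by omega) (he.add (even_two_mul j))
    have h2 : 0 ≤ q ^ 2 := by positivity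
    calc E.R β (M + 2 * (j + 1)) = E.R β (M + 2 * j + 2) := by ring_nf
      _ ≤ q ^ 2 * E.R β (M + 2 * j) := h1
      _ ≤ q ^ 2 * (q ^ (2 * j) * E.R β M) := by gcongr
      _ = q ^ (2 * (j + 1)) * E.R β M := by ring

/-- decay of the remainder, all parities -/
theorem abs_R_le {β q : ℝ} (hβ : 0 < β) (hq : Dec w β q) {M₀ M : ℕ} (hM₀ : 2 ≤ M₀)
    (he : Even M₀) (hM : M₀ ≤ M) : |E.R β M| ≤ q ^ (M - M₀) * E.R β M₀ := by
  have hR0 := E.R_nonneg hβ hM₀ he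
  rcases Nat.even_or_odd (M - M₀) with hev | hod
  · obtain ⟨j, hj⟩ := hev
    have hMj : M = M₀ + 2 * j := by omega
    have hMe : Even M := by rw [hMj]; exact he.add (even_two_mul j)
    rw [abs_of_nonneg (E.R_nonneg hβ (by omega) hMe)]
    have h1 := E.R_decay hβ hq hM₀ he j
    have e1 : M - M₀ = 2 * j := by omega
    rw [e1, hMj]
    exact h1
  · obtain ⟨j, hj⟩ := hod
    have hMj : M = M₀ + 2 * j + 1 := by omega
    have hMo : Odd M := by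
      rw [hMj]; exact (he.add (even_two_mul j)).add_one
    have h0 := E.odd β hβ M (by omega) hMo
    have h1 := E.R_decay hβ hq hM₀ he j
    have h2 := E.R_decay hβ hq hM₀ he (j + 1)
    have e1 : M - 1 = M₀ + 2 * j := by omega
    have e2 : M + 1 = M₀ + 2 * (j + 1) := by omega
    have e3 : M - 3 = M₀ + 2 * j - 2 := by omega
    have e4 : M - 1 = M₀ + 2 * (j + 1) - 2 := by omega
    have h3 : (E.ao β (M - 1) - E.om2 β * (w.V 0 β) ^ (M - 3)) *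
        (E.ao β (M + 1) - E.om2 β * (w.V 0 β) ^ (M - 1)) =
        E.R β (M₀ + 2 * j) * E.R β (M₀ + 2 * (j + 1)) := by
      unfold R
      rw [← e1, ← e2]
      congr 3
    rw [h3] at h0
    have hA := E.R_nonneg hβ (M := M₀ + 2 * j) (by omega) (he.add (even_two_mul j))
    have hB := E.R_nonneg hβ (M := M₀ + 2 * (j + 1)) (by omega) (he.add (even_two_mul (j + 1)))
    have hq0 := hq.1
    have h4 : E.R β (M₀ + 2 * j) * E.R β (M₀ + 2 * (j + 1)) ≤ (q ^ (2 * j + 1) * E.R β M₀) ^ 2 := by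
      calc E.R β (M₀ + 2 * j) * E.R β (M₀ + 2 * (j + 1))
          ≤ (q ^ (2 * j) * E.R β M₀) * (q ^ (2 * (j + 1)) * E.R β M₀) := by gcongr
        _ = _ := by ring
    have h5 : Real.sqrt (E.R β (M₀ + 2 * j) * E.R β (M₀ + 2 * (j + 1))) ≤
        q ^ (2 * j + 1) * E.R β M₀ := by
      apply Real.sqrt_le_iff.mpr
      exact ⟨by positivity, h4⟩
    have e5 : M - M₀ = 2 * j + 1 := by omega
    rw [e5]
    calc |E.R β M| = |E.ao β M - E.om2 β * (w.V 0 β) ^ (M - 2)| := rfl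
      _ ≤ _ := h0
      _ ≤ _ := h5

/-- relative closeness of `ao` to its leading term -/
def Close (β : ℝ) (M : ℕ) (s : ℝ) : Prop :=
  |E.R β M| ≤ s * (E.om2 β * (w.V 0 β) ^ (M - 2))

theorem Close.upper {E : EdgeWorld w} {β s : ℝ} {M : ℕ} (h : E.Close β M s) :
    E.ao β M ≤ (1 + s) * (E.om2 β * (w.V 0 β) ^ (M - 2)) := by
  have := le_abs_self (E.R β M)
  unfold Close at h
  unfold R at *
  linarith

theorem Close.lower {E : EdgeWorld w} {β s : ℝ} {M : ℕ} (h : E.Close β M s) :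
    (1 - s) * (E.om2 β * (w.V 0 β) ^ (M - 2)) ≤ E.ao β M := by
  have := neg_abs_le (E.R β M)
  unfold Close at h
  unfold R at *
  linarith

/-- from the amplitude at `M₀` -/
theorem close_of_amp {β q A s : ℝ} (hβ : 0 < β) (hq : Dec w β q) {M₀ M : ℕ} (hM₀ : 2 ≤ M₀)
    (he : Even M₀) (hM : M₀ ≤ M) (hA : E.ao β M₀ ≤ A * E.om2 β) (hs : q ^ (M - M₀) * A ≤ s) :
    E.Close β M s := by
  have h1 := E.abs_R_le hβ hq hM₀ he hM
  have hq0 := hq.1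
  have h2 : E.R β M₀ ≤ A * E.om2 β := (E.R_le hβ M₀).trans hA
  have h3 := E.om2_nonneg β hβ
  have hV : 1 ≤ (w.V 0 β) ^ (M - 2) := one_le_pow₀ (w.one_le_V β hβ)
  have hR0 := E.R_nonneg hβ hM₀ he
  have hs0 : 0 ≤ s * E.om2 β := by
    have h4 : 0 ≤ A * E.om2 β := hR0.trans h2
    have h5 : q ^ (M - M₀) * A * E.om2 β ≤ s * E.om2 β := by gcongr
    have h6 : 0 ≤ q ^ (M - M₀) * (A * E.om2 β) := by positivity
    nlinarith
  unfold Close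
  calc |E.R β M| ≤ q ^ (M - M₀) * E.R β M₀ := h1
    _ ≤ q ^ (M - M₀) * (A * E.om2 β) := by gcongr
    _ = q ^ (M - M₀) * A * E.om2 β := by ring
    _ ≤ s * E.om2 β := by gcongr
    _ ≤ s * E.om2 β * (w.V 0 β) ^ (M - 2) := le_mul_of_one_le_right hs0 hV
    _ = _ := by ring

/-- from closeness at a smaller even length -/
theorem close_of_close {β q s₀ s : ℝ} (hβ : 0 < β) (hq : Dec w β q) {M₀ M : ℕ}
    (hM₀ : 2 ≤ M₀) (he : Even M₀) (hM : M₀ ≤ M) (h₀ : E.Close β M₀ s₀)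
    (hs0 : 0 ≤ s) (hs : q ^ (M - M₀) * s₀ ≤ s) : E.Close β M s := by
  have h1 := E.abs_R_le hβ hq hM₀ he hM
  have hq0 := hq.1
  have h3 := E.om2_nonneg β hβ
  have hV1 := w.one_le_V β hβ
  have hV : (w.V 0 β) ^ (M₀ - 2) ≤ (w.V 0 β) ^ (M - 2) := pow_le_pow_right₀ hV1 (by omega)
  have hR0 := E.R_nonneg hβ hM₀ he
  have hX : 0 ≤ E.om2 β * (w.V 0 β) ^ (M₀ - 2) := by positivity
  unfold Close at h₀ ⊢
  rw [abs_of_nonneg hR0] at h₀
  calc |E.R β M| ≤ q ^ (M - M₀) * E.R β M₀ := h1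
    _ ≤ q ^ (M - M₀) * (s₀ * (E.om2 β * (w.V 0 β) ^ (M₀ - 2))) := by gcongr
    _ = (q ^ (M - M₀) * s₀) * (E.om2 β * (w.V 0 β) ^ (M₀ - 2)) := by ring
    _ ≤ s * (E.om2 β * (w.V 0 β) ^ (M₀ - 2)) := by gcongr
    _ ≤ s * (E.om2 β * (w.V 0 β) ^ (M - 2)) := by gcongr

/-- bound for `N(β,M)` from the `om2` ratio (all parities) -/
theorem N_le {β C s s₂ v : ℝ} (hβ : 0 < β) {M : ℕ} (hM : 2 ≤ M)
    (hC : E.om2 β ^ 2 ≤ C * E.om2 (2 * β)) (h1 : E.Close β M s) (h2 : E.Close (2 * β) M s₂)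
    (hs0 : 0 ≤ s) (hs₂ : s₂ < 1) (hC0 : 0 ≤ C) (hv : (w.V 0 β) ^ (2 * (M - 2)) ≤ v) :
    E.ao β M ^ 2 ≤ C * v * (1 + s) ^ 2 / (1 - s₂) * E.ao (2 * β) M := by
  have h2β : 0 < 2 * β := by linarith
  have hu := h1.upper
  have hl := h2.lower
  have ha := E.ao_pos β hβ M hM
  have hs' : 0 < 1 - s₂ := by linarith
  have hV1 : 1 ≤ (w.V 0 (2 * β)) ^ (M - 2) := one_le_pow₀ (w.one_le_V _ h2β)
  have ho2 := E.om2_nonneg _ h2β
  have hv0 : 0 ≤ v := le_trans (by have := w.one_le_V β hβ; positivity) hv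
  have h3 : (1 - s₂) * E.om2 (2 * β) ≤ E.ao (2 * β) M := by
    calc (1 - s₂) * E.om2 (2 * β) ≤ (1 - s₂) * (E.om2 (2 * β) * (w.V 0 (2 * β)) ^ (M - 2)) := by
          gcongr
          exact le_mul_of_one_le_right ho2 hV1
      _ ≤ _ := hl
  have h4 : E.om2 (2 * β) ≤ E.ao (2 * β) M / (1 - s₂) := by
    rw [le_div_iff₀ hs']; linarith
  calc E.ao β M ^ 2 ≤ ((1 + s) * (E.om2 β * (w.V 0 β) ^ (M - 2))) ^ 2 := by gcongr
    _ = (1 + s) ^ 2 * (w.V 0 β) ^ (2 * (M - 2)) * E.om2 β ^ 2 := by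
        rw [mul_comm 2 (M - 2), pow_mul]; ring
    _ ≤ (1 + s) ^ 2 * v * (C * E.om2 (2 * β)) := by gcongr
    _ ≤ (1 + s) ^ 2 * v * (C * (E.ao (2 * β) M / (1 - s₂))) := by gcongr
    _ = _ := by ring

/-- ratio step: `om2(β)² ≤ (1+ρ)²(1+s) om2(2β)` -/
theorem C_step {β ρ s : ℝ} (hβ : 0 < β) {M : ℕ} (hM : 2 ≤ M) (he : Even M)
    (hr : E.rr β M ≤ ρ) (h2 : E.Close (2 * β) M s) :
    E.om2 β ^ 2 ≤ (1 + ρ) ^ 2 * (1 + s) * E.om2 (2 * β) := by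
  have h2β : 0 < 2 * β := by linarith
  have hr0 := E.rr_nonneg hM hβ
  have hG := E.Gpow_pos hM β
  have hV := w.one_le_V β hβ
  have hV2 := w.V_anti β (2 * β) hβ (by linarith)
  have hV20 : 0 < w.V 0 (2 * β) := lt_of_lt_of_le one_pos (w.one_le_V _ h2β)
  have ho := E.om2_nonneg β hβ
  have ho2 := E.om2_nonneg _ h2β
  have h1 : E.om2 β * (w.V 0 β) ^ (M - 2) ≤ (1 + ρ) * E.G M ^ β := by
    calc E.om2 β * (w.V 0 β) ^ (M - 2) ≤ E.ao β M := E.rem_nonneg β hβ M hM he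
      _ = E.G M ^ β * (1 + E.rr β M) := E.ao_eq hM β
      _ ≤ E.G M ^ β * (1 + ρ) := by gcongr
      _ = _ := by ring
  have e3 : E.G M ^ ((2 : ℝ) * β) = (E.G M ^ β) ^ 2 := by
    rw [mul_comm, Real.rpow_mul (E.G_pos hM).le, Real.rpow_two]
  have h3 : (E.G M ^ β) ^ 2 ≤ (1 + s) * (E.om2 (2 * β) * (w.V 0 β) ^ (M - 2)) := by
    have hg := E.G_le hM h2β
    rw [e3] at hg
    have hu := h2.upper
    have hX : 0 < E.om2 (2 * β) * (w.V 0 (2 * β)) ^ (M - 2) ∨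
        E.om2 (2 * β) * (w.V 0 (2 * β)) ^ (M - 2) = 0 := by
      rcases (by positivity : 0 ≤ E.om2 (2 * β) * (w.V 0 (2 * β)) ^ (M - 2)).lt_or_eq with h | h
      · exact Or.inl h
      · exact Or.inr h.symm
    have ha := E.ao_pos _ h2β M hM
    rcases hX with hX | hX
    · have hs1 : 0 < 1 + s := by
        by_contra hcon
        push Not at hcon
        have := mul_nonpos_of_nonpos_of_nonneg hcon hX.le
        linarith
      calc (E.G M ^ β) ^ 2 ≤ E.ao (2 * β) M := hg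
        _ ≤ (1 + s) * (E.om2 (2 * β) * (w.V 0 (2 * β)) ^ (M - 2)) := hu
        _ ≤ _ := by gcongr
    · rw [hX] at hu
      linarith
  have hVp : 1 ≤ (w.V 0 β) ^ (M - 2) := one_le_pow₀ hV
  have h4 : E.om2 β ^ 2 * (w.V 0 β) ^ (M - 2) * (w.V 0 β) ^ (M - 2) ≤
      (1 + ρ) ^ 2 * (1 + s) * E.om2 (2 * β) * (w.V 0 β) ^ (M - 2) := by
    calc E.om2 β ^ 2 * (w.V 0 β) ^ (M - 2) * (w.V 0 β) ^ (M - 2)
        = (E.om2 β * (w.V 0 β) ^ (M - 2)) ^ 2 := by ring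
      _ ≤ ((1 + ρ) * E.G M ^ β) ^ 2 := by gcongr
      _ = (1 + ρ) ^ 2 * (E.G M ^ β) ^ 2 := by ring
      _ ≤ (1 + ρ) ^ 2 * ((1 + s) * (E.om2 (2 * β) * (w.V 0 β) ^ (M - 2))) := by gcongr
      _ = _ := by ring
  have h5 : E.om2 β ^ 2 * (w.V 0 β) ^ (M - 2) ≤ (1 + ρ) ^ 2 * (1 + s) * E.om2 (2 * β) :=
    le_of_mul_le_mul_right h4 (by linarith)
  have h6 : E.om2 β ^ 2 ≤ E.om2 β ^ 2 * (w.V 0 β) ^ (M - 2) :=
    le_mul_of_one_le_right (by positivity) hVp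
  linarith

/-- `ao(nβ) ≤ ao(β)^n` -/
theorem ao_pow {M : ℕ} (hM : 2 ≤ M) {β : ℝ} (hβ : 0 < β) {n : ℕ} (hn : 1 ≤ n) :
    E.ao (n * β) M ≤ E.ao β M ^ n := by
  have hn0 : (1 : ℝ) ≤ n := by exact_mod_cast hn
  have hnβ : 0 < n * β := by positivity
  have h1 := (E.time M hM).pow_total (x := β) (y := n * β) hβ hnβ hβ (by nlinarith)
  have e2 : (n : ℝ) * β / β = n := by field_simp
  simp only [e2, Real.rpow_natCast] at h1
  exact h1

/-- amplitude doubling -/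
theorem amp_step {β A C : ℝ} (hβ : 0 < β) {M₀ : ℕ} (hM₀ : 2 ≤ M₀)
    (hA : E.ao β M₀ ≤ A * E.om2 β) (hC : E.om2 β ^ 2 ≤ C * E.om2 (2 * β)) :
    E.ao (2 * β) M₀ ≤ A ^ 2 * C * E.om2 (2 * β) := by
  have h1 := E.ao_pow hM₀ hβ (n := 2) (by norm_num)
  have ha := E.ao_pos β hβ M₀ hM₀
  calc E.ao (2 * β) M₀ ≤ E.ao β M₀ ^ 2 := by exact_mod_cast h1
    _ ≤ (A * E.om2 β) ^ 2 := by gcongr
    _ = A ^ 2 * E.om2 β ^ 2 := by ring
    _ ≤ A ^ 2 * (C * E.om2 (2 * β)) := by gcongr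
    _ = _ := by ring

/-- a decay rate from the total trace -/
theorem dec_of_Z {β q : ℝ} (hβ : 0 < β) (hq0 : 0 < q) {m : ℕ} (hm : 1 ≤ m)
    (h : w.Z 0 β m - 1 ≤ q ^ (2 * m)) : Dec w β q := by
  have hV := w.one_le_V β hβ
  have h0 := (w.hAtop0 β hβ).rem.nonneg m hm
  have h1 := (w.hA β hβ 1).nonneg m hm
  have h2 := (w.hA β hβ 2).nonneg m hm
  have hVm : 1 ≤ (w.V 0 β) ^ (2 * m) := one_le_pow₀ hV
  have e : (w.V 0 β) ^ (2 * (m : ℝ)) = (w.V 0 β) ^ (2 * m) := by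
    rw [← Real.rpow_natCast]
    push_cast
    rfl
  rw [e] at h0
  have hs : w.Z 0 β m = secA 0 (fun t => w.Z t β m) + 2 * secA 1 (fun t => w.Z t β m) +
      3 * secA 2 (fun t => w.Z t β m) := by
    simp only [secA, Matrix.cons_val]
    ring
  refine ⟨hq0, ⟨m, hm, ?_⟩, ⟨m, hm, ?_⟩, ⟨m, hm, ?_⟩⟩ <;> linarith

end EdgeWorld

end Hald
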