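import Crest.Agent.Hald.EdgeTail

/-!
# Row 347, M9b: comparison of two lengths (bounds for the relative remainder at larger `β`)
-/

set_option autoImplicit false

namespace Hald

namespace EdgeWorld

variable {w : World} (E : EdgeWorld w)

theorem G_mul_pow {M : ℕ} (hM : 2 ≤ M) (β : ℝ) (n : ℕ) :
    E.G M ^ ((n : ℝ) * β) = (E.G M ^ β) ^ n := by
  rw [mul_comm, Real.rpow_mul (E.G_pos hM).le, Real.rpow_natCast]

/-- comparison of the ground state energies of two lengths -/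
theorem Gratio_le {β s ρ : ℝ} (hβ : 0 < β) {M₁ M₂ : ℕ} (hM₁ : 2 ≤ M₁) (h12 : M₁ ≤ M₂)
    (he₂ : Even M₂) (hc : E.Close β M₁ s) (hr : E.rr β M₂ ≤ ρ) :
    E.G M₁ ^ β ≤ (1 + s) * (1 + ρ) * E.G M₂ ^ β := by
  have hM₂ : 2 ≤ M₂ := hM₁.trans h12
  have hV := w.one_le_V β hβ
  have ho := E.om2_nonneg β hβ
  have hG := E.Gpow_pos hM₂ β
  have h1 : E.G M₁ ^ β ≤ (1 + s) * (E.om2 β * (w.V 0 β) ^ (M₁ - 2)) :=
    (E.G_le hM₁ hβ).trans hc.upper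
  have h2 : E.om2 β * (w.V 0 β) ^ (M₂ - 2) ≤ E.G M₂ ^ β * (1 + ρ) := by
    calc E.om2 β * (w.V 0 β) ^ (M₂ - 2) ≤ E.ao β M₂ := E.rem_nonneg β hβ M₂ hM₂ he₂
      _ = E.G M₂ ^ β * (1 + E.rr β M₂) := E.ao_eq hM₂ β
      _ ≤ _ := by gcongr
  have h3 : E.om2 β * (w.V 0 β) ^ (M₁ - 2) ≤ E.om2 β * (w.V 0 β) ^ (M₂ - 2) := by
    gcongr
  have hs : 0 ≤ 1 + s := by
    by_contra hcon
    push Not at hcon
    have h4 : 0 ≤ E.om2 β * (w.V 0 β) ^ (M₁ - 2) := by positivity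
    have h5 := E.Gpow_pos hM₁ β
    nlinarith [mul_nonneg (neg_nonneg.mpr hcon.le) h4]
  calc E.G M₁ ^ β ≤ (1 + s) * (E.om2 β * (w.V 0 β) ^ (M₁ - 2)) := h1
    _ ≤ (1 + s) * (E.G M₂ ^ β * (1 + ρ)) := by
        apply mul_le_mul_of_nonneg_left (h3.trans h2) hs
    _ = _ := by ring

theorem Gratio_pow {β Y : ℝ} {M₁ M₂ : ℕ} (hM₁ : 2 ≤ M₁) (hM₂ : 2 ≤ M₂)
    (h : E.G M₁ ^ β ≤ Y * E.G M₂ ^ β) (n : ℕ) :
    E.G M₁ ^ ((n : ℝ) * β) ≤ Y ^ n * E.G M₂ ^ ((n : ℝ) * β) := by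
  rw [E.G_mul_pow hM₁, E.G_mul_pow hM₂, ← mul_pow]
  exact pow_le_pow_left₀ (E.Gpow_pos hM₁ β).le h n

/-- bound of the relative remainder at `β` from a comparison of the ground state energies -/
theorem close_of_Gratio {β Y X ρ q v s : ℝ} (hβ : 0 < β) {M₁ M₂ : ℕ} (hM₁ : 2 ≤ M₁)
    (he₁ : Even M₁) (h12 : M₁ ≤ M₂) (hY : 0 ≤ Y)
    (hG : E.G M₁ ^ β ≤ Y * E.G M₂ ^ β) (hr : E.rr β M₁ ≤ ρ) (hq : Dec w β q)
    (hX : Y * (1 + ρ) ≤ X) (hv : (w.V 0 β) ^ (M₂ - M₁) ≤ v) (hqX : q ^ (M₂ - M₁) * X < 1)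
    (hs : (X * v - 1) ≤ s * (1 - q ^ (M₂ - M₁) * X)) : E.Close β M₁ s := by
  have hM₂ : 2 ≤ M₂ := hM₁.trans h12
  have hV := w.one_le_V β hβ
  have ho := E.om2_nonneg β hβ
  have hG2 := E.Gpow_pos hM₂ β
  have hr0 := E.rr_nonneg hM₁ hβ
  have hR1 := E.R_nonneg hβ hM₁ he₁
  have hR2 := E.abs_R_le hβ hq hM₁ he₁ h12
  have hR2' := (le_abs_self _).trans hR2
  have hq0 := hq.1
  have hX0 : 0 ≤ X := le_trans (mul_nonneg hY (by linarith)) hX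
  have ha2 := E.ao_pos β hβ M₂ hM₂
  have h1 : E.ao β M₁ ≤ X * E.ao β M₂ := by
    calc E.ao β M₁ = E.G M₁ ^ β * (1 + E.rr β M₁) := E.ao_eq hM₁ β
      _ ≤ (Y * E.G M₂ ^ β) * (1 + ρ) := by gcongr
      _ = (Y * (1 + ρ)) * E.G M₂ ^ β := by ring
      _ ≤ X * E.ao β M₂ := by
          gcongr
          exact E.G_le hM₂ hβ
  have e1 : E.ao β M₁ = E.om2 β * (w.V 0 β) ^ (M₁ - 2) + E.R β M₁ := by unfold R; ring
  have e2 : E.ao β M₂ = E.om2 β * (w.V 0 β) ^ (M₂ - 2) + E.R β M₂ := by unfold R; ring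
  have e3 : (w.V 0 β) ^ (M₂ - 2) = (w.V 0 β) ^ (M₁ - 2) * (w.V 0 β) ^ (M₂ - M₁) := by
    rw [← pow_add]; congr 1; omega
  set P := E.om2 β * (w.V 0 β) ^ (M₁ - 2) with hP
  have hP0 : 0 ≤ P := by positivity
  have h2 : E.ao β M₂ ≤ P * v + q ^ (M₂ - M₁) * E.R β M₁ := by
    rw [e2, e3, ← mul_assoc, ← hP]
    gcongr
  have h3 : P + E.R β M₁ ≤ X * (P * v + q ^ (M₂ - M₁) * E.R β M₁) := by
    rw [← e1]
    exact h1.trans (mul_le_mul_of_nonneg_left h2 hX0)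
  have h4 : (1 - q ^ (M₂ - M₁) * X) * E.R β M₁ ≤ (X * v - 1) * P := by nlinarith
  have h5 : (1 - q ^ (M₂ - M₁) * X) * E.R β M₁ ≤ (1 - q ^ (M₂ - M₁) * X) * (s * P) := by
    calc _ ≤ (X * v - 1) * P := h4
      _ ≤ (s * (1 - q ^ (M₂ - M₁) * X)) * P := by gcongr
      _ = _ := by ring
  have h6 : E.R β M₁ ≤ s * P := le_of_mul_le_mul_left h5 (by linarith)
  unfold Close
  rw [abs_of_nonneg hR1]
  exact h6

/-- amplitude from closeness -/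
theorem amp_of_close {β s v : ℝ} (hβ : 0 < β) {M₀ : ℕ} (h : E.Close β M₀ s) (hs : 0 ≤ 1 + s)
    (hv : (w.V 0 β) ^ (M₀ - 2) ≤ v) : E.ao β M₀ ≤ (1 + s) * v * E.om2 β := by
  have ho := E.om2_nonneg β hβ
  calc E.ao β M₀ ≤ (1 + s) * (E.om2 β * (w.V 0 β) ^ (M₀ - 2)) := h.upper
    _ ≤ (1 + s) * (E.om2 β * v) := by gcongr
    _ = _ := by ring

/-- ratio step for general multiples: `om2(β)^n ≤ (1+ρ)^n (1+s) om2(nβ)` -/
theorem C_step_n {β ρ s : ℝ} (hβ : 0 < β) {M n : ℕ} (hn : 1 ≤ n) (hM : 2 ≤ M) (he : Even M)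
    (hr : E.rr β M ≤ ρ) (h2 : E.Close (n * β) M s) (hs : 0 ≤ 1 + s) :
    E.om2 β ^ n ≤ (1 + ρ) ^ n * (1 + s) * E.om2 (n * β) := by
  have hn0 : (1 : ℝ) ≤ n := by exact_mod_cast hn
  have hnβ : 0 < n * β := by positivity
  have hr0 := E.rr_nonneg hM hβ
  have hG := E.Gpow_pos hM β
  have hV := w.one_le_V β hβ
  have hV2 := w.V_anti β (n * β) hβ (by nlinarith)
  have hV20 : 1 ≤ w.V 0 (n * β) := w.one_le_V _ hnβ
  have ho := E.om2_nonneg β hβ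
  have ho2 := E.om2_nonneg _ hnβ
  set P := (w.V 0 β) ^ (M - 2) with hP
  have hP1 : 1 ≤ P := one_le_pow₀ hV
  have hP2 : (w.V 0 (n * β)) ^ (M - 2) ≤ P := by
    apply pow_le_pow_left₀ (by linarith) hV2
  have h1 : E.om2 β * P ≤ (1 + ρ) * E.G M ^ β := by
    calc E.om2 β * P ≤ E.ao β M := E.rem_nonneg β hβ M hM he
      _ = E.G M ^ β * (1 + E.rr β M) := E.ao_eq hM β
      _ ≤ E.G M ^ β * (1 + ρ) := by gcongr
      _ = _ := by ring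
  have h3 : (E.G M ^ β) ^ n ≤ (1 + s) * (E.om2 (n * β) * P) := by
    rw [← E.G_mul_pow hM]
    calc E.G M ^ ((n : ℝ) * β) ≤ E.ao (n * β) M := E.G_le hM hnβ
      _ ≤ (1 + s) * (E.om2 (n * β) * (w.V 0 (n * β)) ^ (M - 2)) := h2.upper
      _ ≤ _ := by gcongr
  have hρ0 : 0 ≤ 1 + ρ := by linarith
  have h4 : (E.om2 β * P) ^ n ≤ (1 + ρ) ^ n * ((1 + s) * (E.om2 (n * β) * P)) := by
    calc (E.om2 β * P) ^ n ≤ ((1 + ρ) * E.G M ^ β) ^ n := by gcongr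
      _ = (1 + ρ) ^ n * (E.G M ^ β) ^ n := mul_pow _ _ _
      _ ≤ _ := by gcongr
  have h5 : E.om2 β ^ n * P ≤ (E.om2 β * P) ^ n := by
    rw [mul_pow]
    gcongr
    exact le_self_pow₀ hP1 (by omega)
  have h6 : E.om2 β ^ n * P ≤ ((1 + ρ) ^ n * (1 + s) * E.om2 (n * β)) * P := by
    calc _ ≤ _ := h5.trans h4
      _ = _ := by ring
  exact le_of_mul_le_mul_right h6 (by linarith)

/-- time step: bound of `r` from a bound of the ratio of the `om2` (all parities) -/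
theorem rr_of_C {β C s s₂ v ρ : ℝ} (hβ : 0 < β) {M : ℕ} (hM : 2 ≤ M)
    (hC : E.om2 β ^ 2 ≤ C * E.om2 (2 * β)) (h1 : E.Close β M s) (h2 : E.Close (2 * β) M s₂)
    (hs0 : 0 ≤ s) (hs₂ : s₂ < 1) (hC0 : 0 ≤ C) (hv : (w.V 0 β) ^ (2 * (M - 2)) ≤ v)
    (hρ0 : 0 ≤ ρ) (hρ1 : ρ < 1)
    (hN : C * v * (1 + s) ^ 2 * (1 + ρ ^ 2) ≤ (1 + ρ) ^ 2 * (1 - s₂)) :
    E.rr β M ≤ ρ := by
  have h := E.N_le hβ hM hC h1 h2 hs0 hs₂ hC0 hv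
  refine E.rr_of_N hM hβ hρ0 hρ1 ?_ h
  rw [div_mul_eq_mul_div, div_le_iff₀ (by linarith)]
  exact hN

/-- time step for even `M`: the lower bound at `2β` needs no closeness -/
theorem rr_of_C_even {β C s v ρ : ℝ} (hβ : 0 < β) {M : ℕ} (hM : 2 ≤ M) (he : Even M)
    (hC : E.om2 β ^ 2 ≤ C * E.om2 (2 * β)) (h1 : E.Close β M s)
    (hs0 : 0 ≤ s) (hC0 : 0 ≤ C) (hv : (w.V 0 β) ^ (2 * (M - 2)) ≤ v)
    (hρ0 : 0 ≤ ρ) (hρ1 : ρ < 1)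
    (hN : C * v * (1 + s) ^ 2 * (1 + ρ ^ 2) ≤ (1 + ρ) ^ 2) :
    E.rr β M ≤ ρ := by
  have h2β : 0 < 2 * β := by linarith
  have ho2 := E.om2_nonneg _ h2β
  have ha := E.ao_pos β hβ M hM
  have hv0 : 0 ≤ v := le_trans (by have := w.one_le_V β hβ; positivity) hv
  have hl := E.rem_nonneg _ h2β M hM he
  have hV1 : 1 ≤ (w.V 0 (2 * β)) ^ (M - 2) := one_le_pow₀ (w.one_le_V _ h2β)
  have h3 : E.om2 (2 * β) ≤ E.ao (2 * β) M := (le_mul_of_one_le_right ho2 hV1).trans hl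
  have h : E.ao β M ^ 2 ≤ C * v * (1 + s) ^ 2 * E.ao (2 * β) M := by
    have hu := h1.upper
    calc E.ao β M ^ 2 ≤ ((1 + s) * (E.om2 β * (w.V 0 β) ^ (M - 2))) ^ 2 := by gcongr
      _ = (1 + s) ^ 2 * (w.V 0 β) ^ (2 * (M - 2)) * E.om2 β ^ 2 := by
          rw [mul_comm 2 (M - 2), pow_mul]; ring
      _ ≤ (1 + s) ^ 2 * v * (C * E.om2 (2 * β)) := by gcongr
      _ ≤ (1 + s) ^ 2 * v * (C * E.ao (2 * β) M) := by gcongr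
      _ = _ := by ring
  exact E.rr_of_N hM hβ hρ0 hρ1 hN h

end EdgeWorld

end Hald
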