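import Crest.Agent.Hald.EthTool
import Crest.Agent.Hald.EdgeLists

/-!
# Row 347, chunk C: open chains (helper24)

`b6_ok`: enclosures of `sB 6 k`; `LB16_B`, `LB32_B`: enclosures of `sB 16 k`, `sB 32 k`; `ao16_B`, `ao32_B`.
-/

set_option autoImplicit false

namespace Hald

/-- scale per unit of inverse temperature -/
def sQ : ℚ := mkRat 1495729 1000000

theorem sQ_cast : ((sQ : ℚ) : ℝ) = (1223 / 1000) ^ 2 := by
  unfold sQ
  rw [Rat.mkRat_eq_div]
  norm_num

/-- tops of the open chains -/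
noncomputable def thP (k : ℕ) : ℝ := Real.exp (-Ech (k + 1) (fun _ => 3) hF hF + ((k + 2 : ℕ) : ℝ) * ehat)
noncomputable def thM (k : ℕ) : ℝ := Real.exp (-Ech (k + 1) (fun _ => 3) hF (-hF) + ((k + 2 : ℕ) : ℝ) * ehat)

/-- enclosure over `2^50` -/
def En (t : ℝ) (z : ℤ × ℤ) : Prop := (z.1 : ℝ) / 2 ^ 50 ≤ t ∧ t ≤ (z.2 : ℝ) / 2 ^ 50

theorem three_pos {n : ℕ} : ∀ _ : Fin n, 0 < 3 := fun _ => by norm_num

theorem sB_cast (n k : ℕ) : sB n k =
    (aOpen hF hF ehat n k * ((sQ : ℚ) : ℝ) ^ n + aOpen hF (-hF) ehat n k * ((sQ : ℚ) : ℝ) ^ n) / 2 := by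
  unfold sB bOpen
  rw [sQ_cast, ← pow_mul]
  ring

/-! ### small `k` -/

def okLow (r : ℕ) (z w : ℤ × ℤ) (p m l : ℚ × ℚ) : Bool :=
  let a1 : ℚ := z.1 / 2 ^ 50 * sQ
  let a2 : ℚ := z.2 / 2 ^ 50 * sQ
  let b1 : ℚ := w.1 / 2 ^ 50 * sQ
  let b2 : ℚ := w.2 / 2 ^ 50 * sQ
  decide (0 ≤ a1) && decide (0 ≤ b1) && decide (l.1 ≤ (a1 ^ (8 * r) + b1 ^ (8 * r)) / 2) &&
  decide ((a2 ^ (8 * r) + (p.2 * sQ ^ 8 - a1 ^ 8) ^ r + (b2 ^ (8 * r) + (m.2 * sQ ^ 8 - b1 ^ 8) ^ r)) / 2 ≤ l.2)

theorem okLow_sound {k r : ℕ} (hr : 1 ≤ r) {z w : ℤ × ℤ} {p m l : ℚ × ℚ} (hz : En (thP k) z)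
    (hw : En (thM k) w) (hp : aOpen hF hF ehat 8 k ≤ ((p.2 : ℚ) : ℝ))
    (hm : aOpen hF (-hF) ehat 8 k ≤ ((m.2 : ℚ) : ℝ)) (h : okLow r z w p m l = true) :
    ((l.1 : ℚ) : ℝ) ≤ sB (8 * r) k ∧ sB (8 * r) k ≤ ((l.2 : ℚ) : ℝ) := by
  unfold okLow at h
  simp only [Bool.and_eq_true, decide_eq_true_eq] at h
  obtain ⟨⟨⟨ha, hb⟩, hlo⟩, hup⟩ := h
  have hs : (0 : ℝ) < ((sQ : ℚ) : ℝ) := by rw [sQ_cast]; positivity
  have ha' : (0 : ℝ) ≤ (((z.1 / 2 ^ 50 * sQ : ℚ)) : ℝ) := by exact_mod_cast ha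
  have hb' : (0 : ℝ) ≤ (((w.1 / 2 ^ 50 * sQ : ℚ)) : ℝ) := by exact_mod_cast hb
  have h8 : ((8 : ℕ) : ℝ) = 8 := by norm_num
  have c1 := chain_bd (K := k + 1) (d := fun _ => 3) three_pos (h0 := hF) (h1 := hF) (k := k + 2) (e' := ehat) hs
    (v1 := (((z.1 / 2 ^ 50 * sQ : ℚ)) : ℝ)) (v2 := (((z.2 / 2 ^ 50 * sQ : ℚ)) : ℝ)) ha'
    (by push_cast; exact mul_le_mul_of_nonneg_right (by simpa [thP] using hz.1) hs.le)
    (by push_cast; exact mul_le_mul_of_nonneg_right (by simpa [thP] using hz.2) hs.le)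
    (b := 8) (by norm_num) hr (U := (((p.2 * sQ ^ 8 : ℚ)) : ℝ))
    (by
      rw [← aOpen_chain, h8]
      push_cast
      exact mul_le_mul_of_nonneg_right hp (by positivity))
  have c2 := chain_bd (K := k + 1) (d := fun _ => 3) three_pos (h0 := hF) (h1 := -hF) (k := k + 2) (e' := ehat) hs
    (v1 := (((w.1 / 2 ^ 50 * sQ : ℚ)) : ℝ)) (v2 := (((w.2 / 2 ^ 50 * sQ : ℚ)) : ℝ)) hb'
    (by push_cast; exact mul_le_mul_of_nonneg_right (by simpa [thM] using hw.1) hs.le)
    (by push_cast; exact mul_le_mul_of_nonneg_right (by simpa [thM] using hw.2) hs.le)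
    (b := 8) (by norm_num) hr (U := (((m.2 * sQ ^ 8 : ℚ)) : ℝ))
    (by
      rw [← aOpen_chain, h8]
      push_cast
      exact mul_le_mul_of_nonneg_right hm (by positivity))
  rw [← aOpen_chain] at c1 c2
  rw [sB_cast]
  have hlo' : ((l.1 : ℚ) : ℝ) ≤ (((((z.1 / 2 ^ 50 * sQ) ^ (8 * r) + (w.1 / 2 ^ 50 * sQ) ^ (8 * r)) / 2 : ℚ)) : ℝ) := by
    exact_mod_cast hlo
  have hup' : (((((z.2 / 2 ^ 50 * sQ) ^ (8 * r) + (p.2 * sQ ^ 8 - (z.1 / 2 ^ 50 * sQ) ^ 8) ^ r +
      ((w.2 / 2 ^ 50 * sQ) ^ (8 * r) + (m.2 * sQ ^ 8 - (w.1 / 2 ^ 50 * sQ) ^ 8) ^ r)) / 2 : ℚ)) : ℝ) ≤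
      ((l.2 : ℚ) : ℝ) := by exact_mod_cast hup
  rw [Rat.cast_div, Rat.cast_add, Rat.cast_pow, Rat.cast_pow] at hlo'
  rw [Rat.cast_div, Rat.cast_add, Rat.cast_add, Rat.cast_add, Rat.cast_pow, Rat.cast_pow, Rat.cast_pow,
    Rat.cast_pow, Rat.cast_sub, Rat.cast_sub, Rat.cast_pow _ 8, Rat.cast_pow _ 8] at hup'
  have h2 : ((2 : ℚ) : ℝ) = 2 := by norm_num
  rw [h2] at hlo' hup'
  constructor
  · linarith [c1.1, c2.1]
  · linarith [c1.2, c2.2]

/-! ### large `k` -/

theorem rem_two {F G : ℝ → ℝ} {TF TG : ℝ} (hF : PSTop {β : ℝ | 0 < β} (fun β => β) 1 F TF)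
    (hG : PSTop {β : ℝ | 0 < β} (fun β => β) 1 G TG) {s e r : ℝ} {a : ℕ} (ha : 3 ≤ a) (hs : 0 < s)
    (he : (F 6 * s ^ 6 - (TF * s) ^ 6) + (G 6 * s ^ 6 - (TG * s) ^ 6) ≤ e) (her : e ^ a ≤ r ^ 3)
    (hr : 0 ≤ r) :
    (F ((2 * a : ℕ) : ℝ) * s ^ (2 * a) - (TF * s) ^ (2 * a)) +
      (G ((2 * a : ℕ) : ℝ) * s ^ (2 * a) - (TG * s) ^ (2 * a)) ≤ r ∧
    0 ≤ F ((2 * a : ℕ) : ℝ) * s ^ (2 * a) - (TF * s) ^ (2 * a) ∧
    0 ≤ G ((2 * a : ℕ) : ℝ) * s ^ (2 * a) - (TG * s) ^ (2 * a) := by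
  have haR : (3 : ℝ) ≤ a := by exact_mod_cast ha
  have h6 : (0 : ℝ) < 6 := by norm_num
  have hn : (0 : ℝ) < ((2 * a : ℕ) : ℝ) := by push_cast; linarith
  have hle : (6 : ℝ) ≤ ((2 * a : ℕ) : ℝ) := by push_cast; linarith
  set p : ℝ := ((2 * a : ℕ) : ℝ) / 6 with hp
  have hp1 : 1 ≤ p := by rw [hp, le_div_iff₀ h6]; linarith
  have key : ∀ {f : ℝ → ℝ} {T : ℝ}, PSTop {β : ℝ | 0 < β} (fun β => β) 1 f T →
      0 ≤ f 6 * s ^ 6 - (T * s) ^ 6 ∧ 0 ≤ f ((2 * a : ℕ) : ℝ) * s ^ (2 * a) - (T * s) ^ (2 * a) ∧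
      f ((2 * a : ℕ) : ℝ) * s ^ (2 * a) - (T * s) ^ (2 * a) ≤ (f 6 * s ^ 6 - (T * s) ^ 6) ^ p := by
    intro f T hf
    have n1 := hf.rem.nonneg 6 h6
    have n2 := hf.rem.nonneg _ hn
    have n3 := hf.rem.pow 6 h6 _ hn hle
    simp only [div_one] at n3
    have e6 : T ^ (6 : ℝ) = T ^ 6 := by
      rw [show (6 : ℝ) = ((6 : ℕ) : ℝ) by norm_num, Real.rpow_natCast]
    have e2 : T ^ (((2 * a : ℕ) : ℝ)) = T ^ (2 * a) := Real.rpow_natCast _ _
    rw [e6] at n1 n3
    rw [e2] at n2 n3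
    have hs6 : 0 < s ^ 6 := by positivity
    have hsn : 0 < s ^ (2 * a) := by positivity
    have x1 : f 6 * s ^ 6 - (T * s) ^ 6 = (f 6 - T ^ 6) * s ^ 6 := by rw [mul_pow]; ring
    have x2 : f ((2 * a : ℕ) : ℝ) * s ^ (2 * a) - (T * s) ^ (2 * a) =
        (f ((2 * a : ℕ) : ℝ) - T ^ (2 * a)) * s ^ (2 * a) := by rw [mul_pow]; ring
    rw [x1, x2]
    refine ⟨mul_nonneg n1 hs6.le, mul_nonneg n2 hsn.le, ?_⟩
    have x3 : s ^ (2 * a) = (s ^ 6) ^ p := by
      rw [← Real.rpow_natCast s 6, ← Real.rpow_mul hs.le, ← Real.rpow_natCast s (2 * a)]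
      congr 1
      rw [hp]
      push_cast
      ring
    rw [Real.mul_rpow n1 hs6.le, ← x3]
    exact mul_le_mul_of_nonneg_right n3 hsn.le
  obtain ⟨f1, f2, f3⟩ := key hF
  obtain ⟨g1, g2, g3⟩ := key hG
  refine ⟨?_, f2, g2⟩
  have h1 := Real.add_rpow_le_rpow_add f1 g1 hp1
  have h2 : 0 ≤ (F 6 * s ^ 6 - (TF * s) ^ 6) + (G 6 * s ^ 6 - (TG * s) ^ 6) := add_nonneg f1 g1
  have h3 : ((F 6 * s ^ 6 - (TF * s) ^ 6) + (G 6 * s ^ 6 - (TG * s) ^ 6)) ^ p ≤ r := by
    have h4 : (((F 6 * s ^ 6 - (TF * s) ^ 6) + (G 6 * s ^ 6 - (TG * s) ^ 6)) ^ p) ^ 3 ≤ r ^ 3 := by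
      rw [← Real.rpow_natCast _ 3, ← Real.rpow_mul h2]
      have e3 : p * ((3 : ℕ) : ℝ) = (a : ℝ) := by rw [hp]; push_cast; ring
      rw [e3, Real.rpow_natCast]
      exact (pow_le_pow_left₀ h2 he a).trans her
    exact (pow_le_pow_iff_left₀ (Real.rpow_nonneg h2 _) hr (by norm_num)).1 h4
  linarith

def okHigh (a : ℕ) (z w : ℤ × ℤ) (ub r : ℚ) (l : ℚ × ℚ) : Bool :=
  let a1 : ℚ := z.1 / 2 ^ 50 * sQ
  let a2 : ℚ := z.2 / 2 ^ 50 * sQ
  let b1 : ℚ := w.1 / 2 ^ 50 * sQ
  let b2 : ℚ := w.2 / 2 ^ 50 * sQ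
  decide (0 ≤ a1) && decide (0 ≤ b1) && decide (0 ≤ r) && Nat.ble 3 a &&
  decide ((2 * ub - a1 ^ 6 - b1 ^ 6) ^ a ≤ r ^ 3) &&
  decide (l.1 ≤ (a1 ^ (2 * a) + b1 ^ (2 * a)) / 2) &&
  decide ((a2 ^ (2 * a) + b2 ^ (2 * a) + r) / 2 ≤ l.2)

theorem okHigh_sound {k a : ℕ} {z w : ℤ × ℤ} {ub r : ℚ} {l : ℚ × ℚ} (hz : En (thP k) z)
    (hw : En (thM k) w) (hub : sB 6 k ≤ ((ub : ℚ) : ℝ)) (h : okHigh a z w ub r l = true) :
    (((l.1 : ℚ) : ℝ) ≤ sB (2 * a) k ∧ sB (2 * a) k ≤ ((l.2 : ℚ) : ℝ)) ∧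
    aOpen hF (-hF) ehat ((2 * a : ℕ) : ℝ) k * ((sQ : ℚ) : ℝ) ^ (2 * a) ≤
      ((((w.2 / 2 ^ 50 * sQ) ^ (2 * a) + r : ℚ)) : ℝ) := by
  unfold okHigh at h
  simp only [Bool.and_eq_true, decide_eq_true_eq, Nat.ble_eq] at h
  obtain ⟨⟨⟨⟨⟨⟨ha, hb⟩, hr⟩, h3⟩, her⟩, hlo⟩, hup⟩ := h
  have hs : (0 : ℝ) < ((sQ : ℚ) : ℝ) := by rw [sQ_cast]; positivity
  have ha' : (0 : ℝ) ≤ (((z.1 / 2 ^ 50 * sQ : ℚ)) : ℝ) := by exact_mod_cast ha
  have hb' : (0 : ℝ) ≤ (((w.1 / 2 ^ 50 * sQ : ℚ)) : ℝ) := by exact_mod_cast hb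
  set a1 : ℝ := (((z.1 / 2 ^ 50 * sQ : ℚ)) : ℝ) with ha1
  set a2 : ℝ := (((z.2 / 2 ^ 50 * sQ : ℚ)) : ℝ) with ha2
  set b1 : ℝ := (((w.1 / 2 ^ 50 * sQ : ℚ)) : ℝ) with hb1
  set b2 : ℝ := (((w.2 / 2 ^ 50 * sQ : ℚ)) : ℝ) with hb2
  have hr' : (0 : ℝ) ≤ ((r : ℚ) : ℝ) := by exact_mod_cast hr
  have z1 : a1 ≤ thP k * ((sQ : ℚ) : ℝ) := by
    rw [ha1]; push_cast; exact mul_le_mul_of_nonneg_right hz.1 hs.le
  have z2 : thP k * ((sQ : ℚ) : ℝ) ≤ a2 := by
    rw [ha2]; push_cast; exact mul_le_mul_of_nonneg_right hz.2 hs.le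
  have w1 : b1 ≤ thM k * ((sQ : ℚ) : ℝ) := by
    rw [hb1]; push_cast; exact mul_le_mul_of_nonneg_right hw.1 hs.le
  have w2 : thM k * ((sQ : ℚ) : ℝ) ≤ b2 := by
    rw [hb2]; push_cast; exact mul_le_mul_of_nonneg_right hw.2 hs.le
  have tP := aChain_top (K := k + 1) (d := fun _ => 3) three_pos hF hF (k + 2) ehat
  have tM := aChain_top (K := k + 1) (d := fun _ => 3) three_pos hF (-hF) (k + 2) ehat
  have e6 : ((6 : ℕ) : ℝ) = 6 := by norm_num
  rw [sB_cast, e6] at hub
  have her' : (2 * ((ub : ℚ) : ℝ) - a1 ^ 6 - b1 ^ 6) ^ a ≤ ((r : ℚ) : ℝ) ^ 3 := by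
    rw [ha1, hb1]
    exact_mod_cast her
  have q1 : a1 ^ 6 ≤ (thP k * ((sQ : ℚ) : ℝ)) ^ 6 := pow_le_pow_left₀ ha' z1 6
  have q2 : b1 ^ 6 ≤ (thM k * ((sQ : ℚ) : ℝ)) ^ 6 := pow_le_pow_left₀ hb' w1 6
  have R := rem_two tP tM (s := ((sQ : ℚ) : ℝ)) (e := 2 * ((ub : ℚ) : ℝ) - a1 ^ 6 - b1 ^ 6) (r := ((r : ℚ) : ℝ))
    h3 hs (by
      have g1 : thP k = Real.exp (-Ech (k + 1) (fun _ => 3) hF hF + ((k + 2 : ℕ) : ℝ) * ehat) := rfl
      have g2 : thM k = Real.exp (-Ech (k + 1) (fun _ => 3) hF (-hF) + ((k + 2 : ℕ) : ℝ) * ehat) := rfl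
      rw [← g1, ← g2, ← aOpen_chain, ← aOpen_chain]
      linarith) her' hr'
  have g1 : thP k = Real.exp (-Ech (k + 1) (fun _ => 3) hF hF + ((k + 2 : ℕ) : ℝ) * ehat) := rfl
  have g2 : thM k = Real.exp (-Ech (k + 1) (fun _ => 3) hF (-hF) + ((k + 2 : ℕ) : ℝ) * ehat) := rfl
  rw [← g1, ← g2, ← aOpen_chain, ← aOpen_chain] at R
  obtain ⟨r1, r2, r3⟩ := R
  have p1 : a1 ^ (2 * a) ≤ (thP k * ((sQ : ℚ) : ℝ)) ^ (2 * a) := pow_le_pow_left₀ ha' z1 _
  have p2 : (thP k * ((sQ : ℚ) : ℝ)) ^ (2 * a) ≤ a2 ^ (2 * a) :=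
    pow_le_pow_left₀ (mul_nonneg (Real.exp_pos _).le hs.le) z2 _
  have p3 : b1 ^ (2 * a) ≤ (thM k * ((sQ : ℚ) : ℝ)) ^ (2 * a) := pow_le_pow_left₀ hb' w1 _
  have p4 : (thM k * ((sQ : ℚ) : ℝ)) ^ (2 * a) ≤ b2 ^ (2 * a) :=
    pow_le_pow_left₀ (mul_nonneg (Real.exp_pos _).le hs.le) w2 _
  have hlo' : ((l.1 : ℚ) : ℝ) ≤ (a1 ^ (2 * a) + b1 ^ (2 * a)) / 2 := by
    rw [ha1, hb1]; exact_mod_cast hlo
  have hup' : (a2 ^ (2 * a) + b2 ^ (2 * a) + ((r : ℚ) : ℝ)) / 2 ≤ ((l.2 : ℚ) : ℝ) := by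
    rw [ha2, hb2]; exact_mod_cast hup
  have hend : ((((w.2 / 2 ^ 50 * sQ) ^ (2 * a) + r : ℚ)) : ℝ) = b2 ^ (2 * a) + ((r : ℚ) : ℝ) := by
    rw [hb2, Rat.cast_add, Rat.cast_pow]
  rw [sB_cast, hend]
  refine ⟨⟨?_, ?_⟩, ?_⟩
  · linarith
  · linarith
  · linarith

/-! ### inverse temperature 6 -/

theorem toP_snoc : ∀ (p : List ℚ) (c : ℚ), Pc.toP (p ++ [c]) =
    Pc.toP p + Polynomial.C (c : ℝ) * Polynomial.X ^ p.length
  | [], c => by simp [Pc.toP]
  | a :: p, c => by
    simp only [List.cons_append, Pc.toP, toP_snoc p c, List.length_cons, pow_succ]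
    ring

theorem InL_snoc {m : ℕ → ℝ} {L : List (ℚ × ℚ)} {d : ℚ × ℚ} (h : Pc.InL m L)
    (h1 : ((d.1 : ℚ) : ℝ) ≤ m L.length) (h2 : m L.length ≤ ((d.2 : ℚ) : ℝ)) : Pc.InL m (L ++ [d]) := by
  intro k hk
  rcases Nat.lt_or_ge k L.length with hlt | hge
  · have := h k hlt
    rw [List.getElem_append_left hlt]
    exact this
  · have hk' : k = L.length := by
      simp only [List.length_append, List.length_cons, List.length_nil] at hk
      omega
    subst hk'
    simp only [List.getElem_append_right (le_refl _), Nat.sub_self, List.getElem_cons_zero]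
    exact ⟨h1, h2⟩

/-- `(V-x) r²` or `(V²-x²) r²` -/
def P6 (odd : Bool) (r : List ℚ) : List ℚ :=
  if odd then Pc.mulL [mkRat 101233 100000, -1] (Pc.mulL r r)
  else Pc.mulL [mkRat 101233 100000 * mkRat 101233 100000, 0, -1] (Pc.mulL r r)

theorem P6_nonneg {V : ℝ} (hV : V ≤ 101233 / 100000) (odd : Bool) (r : List ℚ) (x : ℝ) (hx : |x| ≤ V) :
    0 ≤ (Pc.toP (P6 odd r)).eval x := by
  have hx2 : |x| ≤ 101233 / 100000 := hx.trans hV
  obtain ⟨h1, h2⟩ := abs_le.1 hx2
  unfold P6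
  cases odd
  · simp only [Bool.false_eq_true, if_false, Pc.toP_mulL, Polynomial.eval_mul, Pc.toP, Polynomial.eval_add,
      Polynomial.eval_C, Polynomial.eval_X, Polynomial.eval_zero, Rat.mkRat_eq_div]
    push_cast
    have : 0 ≤ (101233 / 100000 : ℝ) ^ 2 - x ^ 2 := by nlinarith
    have h3 := mul_self_nonneg ((Pc.toP r).eval x)
    have h4 := mul_nonneg this h3
    refine h4.trans_eq ?_
    ring
  · simp only [if_true, Pc.toP_mulL, Polynomial.eval_mul, Pc.toP, Polynomial.eval_add,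
      Polynomial.eval_C, Polynomial.eval_X, Polynomial.eval_zero, Rat.mkRat_eq_div]
    push_cast
    have : 0 ≤ (101233 / 100000 : ℝ) - x := by linarith
    have h3 := mul_self_nonneg ((Pc.toP r).eval x)
    have h4 := mul_nonneg this h3
    refine h4.trans_eq ?_
    ring

def okSix (odd : Bool) (r p : List ℚ) (L : List (ℚ × ℚ)) (ub : ℚ) : Bool :=
  decide (P6 odd r = p ++ [-1]) && Nat.beq p.length L.length && decide (Pc.upL p L ≤ ub)

theorem okSix_sound {V : ℝ} {S X B : ℕ → ℝ} (E : EJ0 V S X B) (hV : V ≤ 101233 / 100000) {odd : Bool}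
    {r p : List ℚ} {L : List (ℚ × ℚ)} {ub : ℚ} (hL : Pc.InL B L) (h : okSix odd r p L ub = true) :
    B L.length ≤ ((ub : ℚ) : ℝ) := by
  unfold okSix at h
  simp only [Bool.and_eq_true, decide_eq_true_eq, Nat.beq_eq] at h
  obtain ⟨⟨hP, hlen⟩, hup⟩ := h
  have h1 := E.open_ (Pc.toP (P6 odd r)) (fun x hx => P6_nonneg hV odd r x hx)
  rw [hP, toP_snoc, map_add, mom_C_mul_X_pow] at h1
  have h2 := Pc.mom_le_upL p L B hL (le_of_eq hlen)
  have h3 : ((Pc.upL p L : ℚ) : ℝ) ≤ ((ub : ℚ) : ℝ) := by exact_mod_cast hup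
  rw [hlen] at h1
  push_cast at h1
  linarith

/-- lower bound at 6 from the energies -/
theorem low6 {k : ℕ} {z w : ℤ × ℤ} {lo : ℚ} (hz : En (thP k) z) (hw : En (thM k) w)
    (h : (decide (0 ≤ (z.1 / 2 ^ 50 * sQ : ℚ)) && decide (0 ≤ (w.1 / 2 ^ 50 * sQ : ℚ)) &&
      decide (lo ≤ ((z.1 / 2 ^ 50 * sQ) ^ 6 + (w.1 / 2 ^ 50 * sQ) ^ 6) / 2)) = true) :
    ((lo : ℚ) : ℝ) ≤ sB 6 k := by
  simp only [Bool.and_eq_true, decide_eq_true_eq] at h
  obtain ⟨⟨ha, hb⟩, hlo⟩ := h
  have hs : (0 : ℝ) < ((sQ : ℚ) : ℝ) := by rw [sQ_cast]; positivity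
  have ha' : (0 : ℝ) ≤ (((z.1 / 2 ^ 50 * sQ : ℚ)) : ℝ) := by exact_mod_cast ha
  have hb' : (0 : ℝ) ≤ (((w.1 / 2 ^ 50 * sQ : ℚ)) : ℝ) := by exact_mod_cast hb
  have z1 : (((z.1 / 2 ^ 50 * sQ : ℚ)) : ℝ) ≤ thP k * ((sQ : ℚ) : ℝ) := by
    push_cast; exact mul_le_mul_of_nonneg_right hz.1 hs.le
  have w1 : (((w.1 / 2 ^ 50 * sQ : ℚ)) : ℝ) ≤ thM k * ((sQ : ℚ) : ℝ) := by
    push_cast; exact mul_le_mul_of_nonneg_right hw.1 hs.le
  have n1 := (aChain_top (K := k + 1) (d := fun _ => 3) three_pos hF hF (k + 2) ehat).rem.nonneg 6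
    (by norm_num : (0 : ℝ) < 6)
  have n2 := (aChain_top (K := k + 1) (d := fun _ => 3) three_pos hF (-hF) (k + 2) ehat).rem.nonneg 6
    (by norm_num : (0 : ℝ) < 6)
  have g1 : thP k = Real.exp (-Ech (k + 1) (fun _ => 3) hF hF + ((k + 2 : ℕ) : ℝ) * ehat) := rfl
  have g2 : thM k = Real.exp (-Ech (k + 1) (fun _ => 3) hF (-hF) + ((k + 2 : ℕ) : ℝ) * ehat) := rfl
  have e6 : ∀ T : ℝ, T ^ (6 : ℝ) = T ^ 6 := fun T => by
    rw [show (6 : ℝ) = ((6 : ℕ) : ℝ) by norm_num, Real.rpow_natCast]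
  rw [← g1, ← aOpen_chain, e6] at n1
  rw [← g2, ← aOpen_chain, e6] at n2
  have q1 := pow_le_pow_left₀ ha' z1 6
  have q2 := pow_le_pow_left₀ hb' w1 6
  rw [mul_pow] at q1 q2
  have hs6 : 0 < ((sQ : ℚ) : ℝ) ^ 6 := by positivity
  have m1 := mul_nonneg n1 hs6.le
  have m2 := mul_nonneg n2 hs6.le
  have hlo' : ((lo : ℚ) : ℝ) ≤ ((((z.1 / 2 ^ 50 * sQ : ℚ)) : ℝ) ^ 6 + (((w.1 / 2 ^ 50 * sQ : ℚ)) : ℝ) ^ 6) / 2 := by
    exact_mod_cast hlo
  have e6' : ((6 : ℕ) : ℝ) = 6 := by norm_num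
  rw [sB_cast, e6']
  rw [sub_mul] at m1 m2
  linarith

/-- small `k` at 6 -/
theorem six_small {k : ℕ} {p m l : ℚ × ℚ}
    (hp : ((p.1 : ℚ) : ℝ) ≤ aOpen hF hF ehat 6 k ∧ aOpen hF hF ehat 6 k ≤ ((p.2 : ℚ) : ℝ))
    (hm : ((m.1 : ℚ) : ℝ) ≤ aOpen hF (-hF) ehat 6 k ∧ aOpen hF (-hF) ehat 6 k ≤ ((m.2 : ℚ) : ℝ))
    (h : (decide (l.1 ≤ (p.1 + m.1) / 2 * sQ ^ 6) && decide ((p.2 + m.2) / 2 * sQ ^ 6 ≤ l.2)) = true) :
    ((l.1 : ℚ) : ℝ) ≤ sB 6 k ∧ sB 6 k ≤ ((l.2 : ℚ) : ℝ) := by
  simp only [Bool.and_eq_true, decide_eq_true_eq] at h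
  obtain ⟨h1, h2⟩ := h
  have h1' : ((l.1 : ℚ) : ℝ) ≤ (((p.1 : ℚ) : ℝ) + ((m.1 : ℚ) : ℝ)) / 2 * ((sQ : ℚ) : ℝ) ^ 6 := by
    exact_mod_cast h1
  have h2' : (((p.2 : ℚ) : ℝ) + ((m.2 : ℚ) : ℝ)) / 2 * ((sQ : ℚ) : ℝ) ^ 6 ≤ ((l.2 : ℚ) : ℝ) := by
    exact_mod_cast h2
  have hs : (0 : ℝ) < ((sQ : ℚ) : ℝ) := by rw [sQ_cast]; positivity
  have hs6 : 0 < ((sQ : ℚ) : ℝ) ^ 6 := by positivity
  have e6' : ((6 : ℕ) : ℝ) = 6 := by norm_num
  rw [sB_cast, e6']
  constructor
  · nlinarith [mul_le_mul_of_nonneg_right (add_le_add hp.1 hm.1) hs6.le]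
  · nlinarith [mul_le_mul_of_nonneg_right (add_le_add hp.2 hm.2) hs6.le]


/-! ### data -/

theorem thP_0 (N : NumInput) : En (thP 0) (504434405277423, 504434506164315) := by
  have h : ((mkRat (-20000001) 10000000 : ℚ) : ℝ) ≤ Ech (0 + 1) (fun _ => 3) hF hF ∧ Ech (0 + 1) (fun _ => 3) hF hF ≤ ((mkRat (-19999999) 10000000 : ℚ) : ℝ) :=
    N.enP 0 (by decide)
  exact top_of h 2 (n := 20) (t := 50) (p1 := -802900100000) (q1 := 1000000000000) (a1 := 504434405277423) (b1 := 504434405277424) (p2 := -802899900000) (q2 := 1000000000000) (a2 := 504434506164314) (b2 := 504434506164315)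
    (by decide +kernel) (by decide +kernel) (by simp only [Rat.mkRat_eq_div]; norm_num) (by simp only [Rat.mkRat_eq_div]; norm_num)

theorem thP_1 (N : NumInput) : En (thP 1) (887396028382663, 887396205861888) := by
  have h : ((mkRat (-39663036513) 10000000000 : ℚ) : ℝ) ≤ Ech (1 + 1) (fun _ => 3) hF hF ∧ Ech (1 + 1) (fun _ => 3) hF hF ≤ ((mkRat (-39663034513) 10000000000 : ℚ) : ℝ) :=
    N.enP 1 (by decide)
  exact top_of h 3 (n := 20) (t := 50) (p1 := -238046548700) (q1 := 1000000000000) (a1 := 887396028382663) (b1 := 887396028382664) (p2 := -238046348700) (q2 := 1000000000000) (a2 := 887396205861887) (b2 := 887396205861888)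
    (by decide +kernel) (by decide +kernel) (by simp only [Rat.mkRat_eq_div]; norm_num) (by simp only [Rat.mkRat_eq_div]; norm_num)

theorem thP_2 (N : NumInput) : En (thP 2) (514066106559449, 514066209424088) := by
  have h : ((mkRat (-12054535393) 2500000000 : ℚ) : ℝ) ≤ Ech (2 + 1) (fun _ => 3) hF hF ∧ Ech (2 + 1) (fun _ => 3) hF hF ≤ ((mkRat (-48218139571) 10000000000 : ℚ) : ℝ) :=
    N.enP 2 (by decide)
  exact top_of h 4 (n := 20) (t := 50) (p1 := -783986042900) (q1 := 1000000000000) (a1 := 514066106559449) (b1 := 514066106559450) (p2 := -783985842800) (q2 := 1000000000000) (a2 := 514066209424087) (b2 := 514066209424088)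
    (by decide +kernel) (by decide +kernel) (by simp only [Rat.mkRat_eq_div]; norm_num) (by simp only [Rat.mkRat_eq_div]; norm_num)

theorem thP_3 (N : NumInput) : En (thP 3) (849488358070266, 849488527967956) := by
  have h : ((mkRat (-13451093049) 2000000000 : ℚ) : ℝ) ≤ Ech (3 + 1) (fun _ => 3) hF hF ∧ Ech (3 + 1) (fun _ => 3) hF hF ≤ ((mkRat (-13451092649) 2000000000 : ℚ) : ℝ) :=
    N.enP 3 (by decide)
  exact top_of h 5 (n := 20) (t := 50) (p1 := -281703675500) (q1 := 1000000000000) (a1 := 849488358070266) (b1 := 849488358070267) (p2 := -281703475500) (q2 := 1000000000000) (a2 := 849488527967955) (b2 := 849488527967956)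
    (by decide +kernel) (by decide +kernel) (by simp only [Rat.mkRat_eq_div]; norm_num) (by simp only [Rat.mkRat_eq_div]; norm_num)

theorem thP_4 (N : NumInput) : En (thP 4) (606163271906302, 606163393138970) := by
  have h : ((mkRat (-77895116633) 10000000000 : ℚ) : ℝ) ≤ Ech (4 + 1) (fun _ => 3) hF hF ∧ Ech (4 + 1) (fun _ => 3) hF hF ≤ ((mkRat (-77895114633) 10000000000 : ℚ) : ℝ) :=
    N.enP 4 (by decide)
  exact top_of h 6 (n := 20) (t := 50) (p1 := -619188536700) (q1 := 1000000000000) (a1 := 606163271906302) (b1 := 606163271906303) (p2 := -619188336700) (q2 := 1000000000000) (a2 := 606163393138969) (b2 := 606163393138970)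
    (by decide +kernel) (by decide +kernel) (by simp only [Rat.mkRat_eq_div]; norm_num) (by simp only [Rat.mkRat_eq_div]; norm_num)

theorem thP_5 (N : NumInput) : En (thP 5) (822856597824806, 822856762396143) := by
  have h : ((mkRat (-47482971151) 5000000000 : ℚ) : ℝ) ≤ Ech (5 + 1) (fun _ => 3) hF hF ∧ Ech (5 + 1) (fun _ => 3) hF hF ≤ ((mkRat (-47482970151) 5000000000 : ℚ) : ℝ) :=
    N.enP 5 (by decide)
  exact top_of h 7 (n := 20) (t := 50) (p1 := -313555969800) (q1 := 1000000000000) (a1 := 822856597824806) (b1 := 822856597824807) (p2 := -313555769800) (q2 := 1000000000000) (a2 := 822856762396142) (b2 := 822856762396143)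
    (by decide +kernel) (by decide +kernel) (by simp only [Rat.mkRat_eq_div]; norm_num) (by simp only [Rat.mkRat_eq_div]; norm_num)

theorem thP_6 (N : NumInput) : En (thP 6) (658501087504021, 658501219204253) := by
  have h : ((mkRat (-53376142303) 5000000000 : ℚ) : ℝ) ≤ Ech (6 + 1) (fun _ => 3) hF hF ∧ Ech (6 + 1) (fun _ => 3) hF hF ≤ ((mkRat (-53376141303) 5000000000 : ℚ) : ℝ) :=
    N.enP 6 (by decide)
  exact top_of h 8 (n := 20) (t := 50) (p1 := -536371739400) (q1 := 1000000000000) (a1 := 658501087504021) (b1 := 658501087504022) (p2 := -536371539400) (q2 := 1000000000000) (a2 := 658501219204252) (b2 := 658501219204253)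
    (by decide +kernel) (by decide +kernel) (by simp only [Rat.mkRat_eq_div]; norm_num) (by simp only [Rat.mkRat_eq_div]; norm_num)

theorem thP_7 (N : NumInput) : En (thP 7) (803995779083239, 803995939882412) := by
  have h : ((mkRat (-3836345721) 312500000 : ℚ) : ℝ) ≤ Ech (7 + 1) (fun _ => 3) hF hF ∧ Ech (7 + 1) (fun _ => 3) hF hF ≤ ((mkRat (-7672691317) 625000000 : ℚ) : ℝ) :=
    N.enP 7 (by decide)
  exact top_of h 9 (n := 20) (t := 50) (p1 := -336743892800) (q1 := 1000000000000) (a1 := 803995779083239) (b1 := 803995779083240) (p2 := -336743692800) (q2 := 1000000000000) (a2 := 803995939882411) (b2 := 803995939882412)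
    (by decide +kernel) (by decide +kernel) (by simp only [Rat.mkRat_eq_div]; norm_num) (by simp only [Rat.mkRat_eq_div]; norm_num)

theorem thP_8 (N : NumInput) : En (thP 8) (690307846035315, 690307984096899) := by
  have h : ((mkRat (-135252999397) 10000000000 : ℚ) : ℝ) ≤ Ech (8 + 1) (fun _ => 3) hF hF ∧ Ech (8 + 1) (fun _ => 3) hF hF ≤ ((mkRat (-135252997397) 10000000000 : ℚ) : ℝ) :=
    N.enP 8 (by decide)
  exact top_of h 10 (n := 20) (t := 50) (p1 := -489200260300) (q1 := 1000000000000) (a1 := 690307846035315) (b1 := 690307846035316) (p2 := -489200060300) (q2 := 1000000000000) (a2 := 690307984096898) (b2 := 690307984096899)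
    (by decide +kernel) (by decide +kernel) (by simp only [Rat.mkRat_eq_div]; norm_num) (by simp only [Rat.mkRat_eq_div]; norm_num)

theorem thM_0 (N : NumInput) : En (thM 0) (954357364454203, 954357555325696) := by
  have h : ((mkRat (-26376004851) 10000000000 : ℚ) : ℝ) ≤ Ech (0 + 1) (fun _ => 3) hF (-hF) ∧ Ech (0 + 1) (fun _ => 3) hF (-hF) ≤ ((mkRat (-26376002851) 10000000000 : ℚ) : ℝ) :=
    N.enM 0 (by decide)
  exact top_of h 2 (n := 20) (t := 50) (p1 := -165299714900) (q1 := 1000000000000) (a1 := 954357364454203) (b1 := 954357364454204) (p2 := -165299514900) (q2 := 1000000000000) (a2 := 954357555325695) (b2 := 954357555325696)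
    (by decide +kernel) (by decide +kernel) (by simp only [Rat.mkRat_eq_div]; norm_num) (by simp only [Rat.mkRat_eq_div]; norm_num)

theorem thM_1 (N : NumInput) : En (thM 1) (469810697864265, 469810791826415) := by
  have h : ((mkRat (-3330342131) 1000000000 : ℚ) : ℝ) ≤ Ech (1 + 1) (fun _ => 3) hF (-hF) ∧ Ech (1 + 1) (fun _ => 3) hF (-hF) ≤ ((mkRat (-3330341931) 1000000000 : ℚ) : ℝ) :=
    N.enM 1 (by decide)
  exact top_of h 3 (n := 20) (t := 50) (p1 := -874008069000) (q1 := 1000000000000) (a1 := 469810697864265) (b1 := 469810697864266) (p2 := -874007869000) (q2 := 1000000000000) (a2 := 469810791826414) (b2 := 469810791826415)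
    (by decide +kernel) (by decide +kernel) (by simp only [Rat.mkRat_eq_div]; norm_num) (by simp only [Rat.mkRat_eq_div]; norm_num)

theorem thM_2 (N : NumInput) : En (thM 2) (875869701566136, 875869876740094) := by
  have h : ((mkRat (-53546796253) 10000000000 : ℚ) : ℝ) ≤ Ech (2 + 1) (fun _ => 3) hF (-hF) ∧ Ech (2 + 1) (fun _ => 3) hF (-hF) ≤ ((mkRat (-53546794253) 10000000000 : ℚ) : ℝ) :=
    N.enM 2 (by decide)
  exact top_of h 4 (n := 20) (t := 50) (p1 := -251120574700) (q1 := 1000000000000) (a1 := 875869701566136) (b1 := 875869701566137) (p2 := -251120374700) (q2 := 1000000000000) (a2 := 875869876740093) (b2 := 875869876740094)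
    (by decide +kernel) (by decide +kernel) (by simp only [Rat.mkRat_eq_div]; norm_num) (by simp only [Rat.mkRat_eq_div]; norm_num)

theorem thM_3 (N : NumInput) : En (thM 3) (575716448724878, 575716563925752) := by
  have h : ((mkRat (-6336527551) 1000000000 : ℚ) : ℝ) ≤ Ech (3 + 1) (fun _ => 3) hF (-hF) ∧ Ech (3 + 1) (fun _ => 3) hF (-hF) ≤ ((mkRat (-63365273509) 10000000000 : ℚ) : ℝ) :=
    N.enM 3 (by decide)
  exact top_of h 5 (n := 20) (t := 50) (p1 := -670722649100) (q1 := 1000000000000) (a1 := 575716448724878) (b1 := 575716448724879) (p2 := -670722449000) (q2 := 1000000000000) (a2 := 575716563925751) (b2 := 575716563925752)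
    (by decide +kernel) (by decide +kernel) (by simp only [Rat.mkRat_eq_div]; norm_num) (by simp only [Rat.mkRat_eq_div]; norm_num)

theorem thM_4 (N : NumInput) : En (thM 4) (837609661112014, 837609828633964) := by
  have h : ((mkRat (-81129144817) 10000000000 : ℚ) : ℝ) ≤ Ech (4 + 1) (fun _ => 3) hF (-hF) ∧ Ech (4 + 1) (fun _ => 3) hF (-hF) ≤ ((mkRat (-81129142817) 10000000000 : ℚ) : ℝ) :=
    N.enM 4 (by decide)
  exact top_of h 6 (n := 20) (t := 50) (p1 := -295785718300) (q1 := 1000000000000) (a1 := 837609661112014) (b1 := 837609661112015) (p2 := -295785518300) (q2 := 1000000000000) (a2 := 837609828633963) (b2 := 837609828633964)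
    (by decide +kernel) (by decide +kernel) (by simp only [Rat.mkRat_eq_div]; norm_num) (by simp only [Rat.mkRat_eq_div]; norm_num)

theorem thM_5 (N : NumInput) : En (thM 5) (638530524411183, 638530652117301) := by
  have h : ((mkRat (-92429817687) 10000000000 : ℚ) : ℝ) ≤ Ech (5 + 1) (fun _ => 3) hF (-hF) ∧ Ech (5 + 1) (fun _ => 3) hF (-hF) ≤ ((mkRat (-92429815687) 10000000000 : ℚ) : ℝ) :=
    N.enM 5 (by decide)
  exact top_of h 7 (n := 20) (t := 50) (p1 := -567168431300) (q1 := 1000000000000) (a1 := 638530524411183) (b1 := 638530524411184) (p2 := -567168231300) (q2 := 1000000000000) (a2 := 638530652117300) (b2 := 638530652117301)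
    (by decide +kernel) (by decide +kernel) (by simp only [Rat.mkRat_eq_div]; norm_num) (by simp only [Rat.mkRat_eq_div]; norm_num)

theorem thM_6 (N : NumInput) : En (thM 6) (813546450963707, 813546613673014) := by
  have h : ((mkRat (-108866653131) 10000000000 : ℚ) : ℝ) ≤ Ech (6 + 1) (fun _ => 3) hF (-hF) ∧ Ech (6 + 1) (fun _ => 3) hF (-hF) ≤ ((mkRat (-108866651131) 10000000000 : ℚ) : ℝ) :=
    N.enM 6 (by decide)
  exact top_of h 8 (n := 20) (t := 50) (p1 := -324934886900) (q1 := 1000000000000) (a1 := 813546450963707) (b1 := 813546450963708) (p2 := -324934686900) (q2 := 1000000000000) (a2 := 813546613673013) (b2 := 813546613673014)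
    (by decide +kernel) (by decide +kernel) (by simp only [Rat.mkRat_eq_div]; norm_num) (by simp only [Rat.mkRat_eq_div]; norm_num)

theorem thM_7 (N : NumInput) : En (thM 7) (677225894123998, 677226029569191) := by
  have h : ((mkRat (-24209434349) 2000000000 : ℚ) : ℝ) ≤ Ech (7 + 1) (fun _ => 3) hF (-hF) ∧ Ech (7 + 1) (fun _ => 3) hF (-hF) ≤ ((mkRat (-24209433949) 2000000000 : ℚ) : ℝ) :=
    N.enM 7 (by decide)
  exact top_of h 9 (n := 20) (t := 50) (p1 := -508333025500) (q1 := 1000000000000) (a1 := 677225894123998) (b1 := 677225894123999) (p2 := -508332825500) (q2 := 1000000000000) (a2 := 677226029569190) (b2 := 677226029569191)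
    (by decide +kernel) (by decide +kernel) (by simp only [Rat.mkRat_eq_div]; norm_num) (by simp only [Rat.mkRat_eq_div]; norm_num)

theorem thM_8 (N : NumInput) : En (thM 8) (796993972852555, 796994132251367) := by
  have h : ((mkRat (-34172523511) 2500000000 : ℚ) : ℝ) ≤ Ech (8 + 1) (fun _ => 3) hF (-hF) ∧ Ech (8 + 1) (fun _ => 3) hF (-hF) ≤ ((mkRat (-34172523011) 2500000000 : ℚ) : ℝ) :=
    N.enM 8 (by decide)
  exact top_of h 10 (n := 20) (t := 50) (p1 := -345490795600) (q1 := 1000000000000) (a1 := 796993972852555) (b1 := 796993972852556) (p2 := -345490595600) (q2 := 1000000000000) (a2 := 796994132251366) (b2 := 796994132251367)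
    (by decide +kernel) (by decide +kernel) (by simp only [Rat.mkRat_eq_div]; norm_num) (by simp only [Rat.mkRat_eq_div]; norm_num)


/-- enclosures of `sB 6 k`, k = 0..4 -/
def LB6_5 : List (ℚ × ℚ) :=
  [(mkRat (16613461425552236368930911278631158738857601321) 7812500000000000000000000000000000000000000000, mkRat (4253896819256678839836367687092648266909911717811) 2000000000000000000000000000000000000000000000000),
  (mkRat (696346397664936474201410395526869723494169113549) 500000000000000000000000000000000000000000000000, mkRat (1392971361758081409857992645612621923653837005179) 1000000000000000000000000000000000000000000000000),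
  (mkRat (266246195393108025361284598411588424028284648251) 200000000000000000000000000000000000000000000000, mkRat (2662994499598437230887244554439309452586314850719) 2000000000000000000000000000000000000000000000000),
  (mkRat (2341083616420835603527677537536419297812339109247) 2000000000000000000000000000000000000000000000000, mkRat (468310375999975965549608147431948929318031222307) 400000000000000000000000000000000000000000000000),
  (mkRat (141716309165176748364809318761768401299452625667) 125000000000000000000000000000000000000000000000, mkRat (2267914484208907023687795855161698925209726699593) 2000000000000000000000000000000000000000000000000)]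
def LB6_6 : List (ℚ × ℚ) := LB6_5 ++ [(mkRat (25986293512377) 25000000000000, mkRat (2750937717) 2500000000)]
def LB6_7 : List (ℚ × ℚ) := LB6_6 ++ [(mkRat (10209543665191) 10000000000000, mkRat (10938914239) 10000000000)]
def LB6_8 : List (ℚ × ℚ) := LB6_7 ++ [(mkRat (50375183727353) 50000000000000, mkRat (10933783681) 10000000000)]
def LB6_9 : List (ℚ × ℚ) := LB6_8 ++ [(mkRat (100180266356701) 100000000000000, mkRat (11000291149) 10000000000)]

theorem b6_5 (N : NumInput) : Pc.InL (sB 6) LB6_5 := by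
  intro k hk
  have hk' : k < 5 := hk
  interval_cases k
  · exact six_small (k := 0) (p := (mkRat (8841376449) 1000000000000, mkRat (4421572451) 500000000000)) (m := (mkRat (370982803007) 1000000000000, mkRat (371057006989) 1000000000000)) (l := (mkRat (16613461425552236368930911278631158738857601321) 7812500000000000000000000000000000000000000000, mkRat (4253896819256678839836367687092648266909911717811) 2000000000000000000000000000000000000000000000000)) (N.openP6 0 (by decide)) (N.openM6 0 (by decide)) (by decide +kernel)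
  · exact six_small (k := 1) (p := (mkRat (241069325383) 1000000000000, mkRat (241117544071) 1000000000000)) (m := (mkRat (7683395693) 1000000000000, mkRat (7684932527) 1000000000000)) (l := (mkRat (696346397664936474201410395526869723494169113549) 500000000000000000000000000000000000000000000000, mkRat (1392971361758081409857992645612621923653837005179) 1000000000000000000000000000000000000000000000000)) (N.openP6 1 (by decide)) (N.openM6 1 (by decide)) (by decide +kernel)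
  · exact six_small (k := 2) (p := (mkRat (15198907757) 1000000000000, mkRat (3800486961) 250000000000)) (m := (mkRat (222575947553) 1000000000000, mkRat (44524093439) 200000000000)) (l := (mkRat (266246195393108025361284598411588424028284648251) 200000000000000000000000000000000000000000000000, mkRat (2662994499598437230887244554439309452586314850719) 2000000000000000000000000000000000000000000000000)) (N.openP6 2 (by decide)) (N.openM6 2 (by decide)) (by decide +kernel)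
  · exact six_small (k := 3) (p := (mkRat (187080260573) 1000000000000, mkRat (11694855023) 62500000000)) (m := (mkRat (10996728417) 500000000000, mkRat (21997855967) 1000000000000)) (l := (mkRat (2341083616420835603527677537536419297812339109247) 2000000000000000000000000000000000000000000000000, mkRat (468310375999975965549608147431948929318031222307) 400000000000000000000000000000000000000000000000)) (N.openP6 3 (by decide)) (N.openM6 3 (by decide)) (by decide +kernel)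
  · exact six_small (k := 4) (p := (mkRat (30501504667) 1000000000000, mkRat (30507605579) 1000000000000)) (m := (mkRat (34399447633) 200000000000, mkRat (86015820527) 500000000000)) (l := (mkRat (141716309165176748364809318761768401299452625667) 125000000000000000000000000000000000000000000000, mkRat (2267914484208907023687795855161698925209726699593) 2000000000000000000000000000000000000000000000000)) (N.openP6 4 (by decide)) (N.openM6 4 (by decide)) (by decide +kernel)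

theorem b6_6 (N : NumInput) (he : theE ≤ ehat) (h6 : hatV ehat 0 6 ≤ (101233 / 100000 : ℝ)) :
    Pc.InL (sB 6) LB6_6 := by
  have hE : EJ0 (hatV ehat 0 6) (sS 6) (sX 6) (sB 6) := by
    have := ej0 he (n := 6) (by norm_num)
    exact_mod_cast this
  refine InL_snoc (b6_5 N) ?_ ?_
  · exact low6 (k := 5) (thP_5 N) (thM_5 N) (by decide +kernel)
  · exact okSix_sound hE h6 (odd := true) (r := [mkRat (-213) 1000, mkRat (-193) 1000, mkRat (1) 1]) (p := [mkRat (4592839977) 100000000000, mkRat (1893137397) 50000000000, mkRat (-47576229983) 100000000000, mkRat (-100419) 50000000, mkRat (139833) 100000]) (b6_5 N) (by decide +kernel)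

theorem b6_7 (N : NumInput) (he : theE ≤ ehat) (h6 : hatV ehat 0 6 ≤ (101233 / 100000 : ℝ)) :
    Pc.InL (sB 6) LB6_7 := by
  have hE : EJ0 (hatV ehat 0 6) (sS 6) (sX 6) (sB 6) := by
    have := ej0 he (n := 6) (by norm_num)
    exact_mod_cast this
  refine InL_snoc (b6_6 N he h6) ?_ ?_
  · exact low6 (k := 6) (thP_6 N) (thM_6 N) (by decide +kernel)
  · exact okSix_sound hE h6 (odd := false) (r := [mkRat (-213) 1000, mkRat (-193) 1000, mkRat (1) 1]) (p := [mkRat (464946969391641) 10000000000000000, mkRat (421289976960501) 5000000000000000, mkRat (-4437657010469039) 10000000000000000, mkRat (-2388977215777) 5000000000000, mkRat (14135630289) 10000000000, mkRat (193) 500]) (b6_6 N he h6) (by decide +kernel)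

theorem b6_8 (N : NumInput) (he : theE ≤ ehat) (h6 : hatV ehat 0 6 ≤ (101233 / 100000 : ℝ)) :
    Pc.InL (sB 6) LB6_8 := by
  have hE : EJ0 (hatV ehat 0 6) (sS 6) (sX 6) (sB 6) := by
    have := ej0 he (n := 6) (by norm_num)
    exact_mod_cast this
  refine InL_snoc (b6_7 N he h6) ?_ ?_
  · exact low6 (k := 7) (thP_7 N) (thM_7 N) (by decide +kernel)
  · exact okSix_sound hE h6 (odd := true) (r := [mkRat (-149) 1000, mkRat (-87) 250, mkRat (253) 500, mkRat (1) 1]) (p := [mkRat (2247473833) 100000000000, mkRat (1034770879) 12500000000, mkRat (-3343850093) 25000000000, mkRat (-982044797) 1562500000, mkRat (5119681097) 25000000000, mkRat (36611049) 25000000, mkRat (33) 100000]) (b6_7 N he h6) (by decide +kernel)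

theorem b6_9 (N : NumInput) (he : theE ≤ ehat) (h6 : hatV ehat 0 6 ≤ (101233 / 100000 : ℝ)) :
    Pc.InL (sB 6) LB6_9 := by
  have hE : EJ0 (hatV ehat 0 6) (sS 6) (sX 6) (sB 6) := by
    have := ej0 he (n := 6) (by norm_num)
    exact_mod_cast this
  refine InL_snoc (b6_8 N he h6) ?_ ?_
  · exact low6 (k := 8) (thP_8 N) (thM_8 N) (by decide +kernel)
  · exact okSix_sound hE h6 (odd := false) (r := [mkRat (-9) 250, mkRat (-121) 500, mkRat (-7) 250, mkRat (1) 1]) (p := [mkRat (830097743409) 625000000000000, mkRat (11160202994721) 625000000000000, mkRat (30393556355381) 500000000000000, mkRat (-48326383415717) 625000000000000, mkRat (-347365980848089) 625000000000000, mkRat (1323157977) 1250000000000, mkRat (15080280289) 10000000000, mkRat (7) 125]) (b6_8 N he h6) (by decide +kernel)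

theorem b6_ok (N : NumInput) (he : theE ≤ ehat) (h6 : hatV ehat 0 6 ≤ (101233 / 100000 : ℝ)) :
    Pc.InL (sB 6) LB6_9 := b6_9 N he h6

theorem b6u_5 (N : NumInput) (he : theE ≤ ehat) (h6 : hatV ehat 0 6 ≤ (101233 / 100000 : ℝ)) :
    sB 6 5 ≤ ((mkRat (2750937717) 2500000000 : ℚ) : ℝ) := (b6_ok N he h6 5 (by decide)).2

theorem b6u_6 (N : NumInput) (he : theE ≤ ehat) (h6 : hatV ehat 0 6 ≤ (101233 / 100000 : ℝ)) :
    sB 6 6 ≤ ((mkRat (10938914239) 10000000000 : ℚ) : ℝ) := (b6_ok N he h6 6 (by decide)).2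

theorem b6u_7 (N : NumInput) (he : theE ≤ ehat) (h6 : hatV ehat 0 6 ≤ (101233 / 100000 : ℝ)) :
    sB 6 7 ≤ ((mkRat (10933783681) 10000000000 : ℚ) : ℝ) := (b6_ok N he h6 7 (by decide)).2

theorem b6u_8 (N : NumInput) (he : theE ≤ ehat) (h6 : hatV ehat 0 6 ≤ (101233 / 100000 : ℝ)) :
    sB 6 8 ≤ ((mkRat (11000291149) 10000000000 : ℚ) : ℝ) := (b6_ok N he h6 8 (by decide)).2

theorem LB16_B (N : NumInput) (he : theE ≤ ehat) (h6 : hatV ehat 0 6 ≤ (101233 / 100000 : ℝ)) :
    Pc.InL (sB 16) LB16 := by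
  intro k hk
  have hk' : k < 9 := hk
  interval_cases k
  · exact okLow_sound (k := 0) (r := 2) (by norm_num) (p := (mkRat (338001873) 200000000000, mkRat (845173701) 500000000000)) (m := (mkRat (266473257141) 1000000000000, mkRat (66631639281) 250000000000)) (l := (mkRat (2228500221) 100000000, mkRat (222850752283) 10000000000)) (thP_0 N) (thM_0 N) (N.openP8 0 (by decide)).2 (N.openM8 0 (by decide)).2 (by decide +kernel)
  · exact okLow_sound (k := 1) (r := 2) (by norm_num) (p := (mkRat (5962076431) 40000000000, mkRat (7454086207) 50000000000)) (m := (mkRat (234927449) 200000000000, mkRat (1174872197) 1000000000000)) (l := (mkRat (69585112507) 10000000000, mkRat (34792813237) 5000000000)) (thP_1 N) (thM_1 N) (N.openP8 1 (by decide)).2 (N.openM8 1 (by decide)).2 (by decide +kernel)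
  · exact okLow_sound (k := 2) (r := 2) (by norm_num) (p := (mkRat (297211621) 100000000000, mkRat (1486355347) 500000000000)) (m := (mkRat (67094145941) 500000000000, mkRat (67107566113) 500000000000)) (l := (mkRat (14114914829) 2500000000, mkRat (56463551467) 10000000000)) (thP_2 N) (thM_2 N) (N.openP8 2 (by decide)).2 (N.openM8 2 (by decide)).2 (by decide +kernel)
  · exact okLow_sound (k := 3) (r := 2) (by norm_num) (p := (mkRat (105346770941) 1000000000000, mkRat (26341960601) 250000000000)) (m := (mkRat (81136433) 15625000000, mkRat (1298442591) 250000000000)) (l := (mkRat (34673553961) 10000000000, mkRat (34674898627) 10000000000)) (thP_3 N) (thM_3 N) (N.openP8 3 (by decide)).2 (N.openM8 3 (by decide)).2 (by decide +kernel)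
  · exact okLow_sound (k := 4) (r := 2) (by norm_num) (p := (mkRat (64521569) 8000000000, mkRat (8066809327) 1000000000000)) (m := (mkRat (94077757003) 1000000000000, mkRat (94096574437) 1000000000000)) (l := (mkRat (5556071669) 2000000000, mkRat (27783862049) 10000000000)) (thP_4 N) (thM_4 N) (N.openP8 4 (by decide)).2 (N.openM8 4 (by decide)).2 (by decide +kernel)
  · exact (okHigh_sound (k := 5) (a := 8) (r := mkRat (1459587) 400000000) (l := (mkRat (10573532329) 5000000000, mkRat (1322836073) 625000000)) (thP_5 N) (thM_5 N) (b6u_5 N he h6) (by decide +kernel)).1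
  · exact (okHigh_sound (k := 6) (a := 8) (r := mkRat (11793389) 2000000000) (l := (mkRat (3583154643) 2000000000, mkRat (17945314019) 10000000000)) (thP_6 N) (thM_6 N) (b6u_6 N he h6) (by decide +kernel)).1
  · exact (okHigh_sound (k := 7) (a := 8) (r := mkRat (45571207) 5000000000) (l := (mkRat (15265540779) 10000000000, mkRat (15311160837) 10000000000)) (thP_7 N) (thM_7 N) (b6u_7 N he h6) (by decide +kernel)).1
  · exact (okHigh_sound (k := 8) (a := 8) (r := mkRat (26084701) 2000000000) (l := (mkRat (548884827) 400000000, mkRat (689368817) 500000000)) (thP_8 N) (thM_8 N) (b6u_8 N he h6) (by decide +kernel)).1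

theorem ao16_B (N : NumInput) (he : theE ≤ ehat) (h6 : hatV ehat 0 6 ≤ (101233 / 100000 : ℝ)) :
    aOpen hF (-hF) ehat 16 8 * (1223 / 1000) ^ 32 ≤ (252 / 100 : ℝ) := by
  have h := (okHigh_sound (k := 8) (a := 8) (r := mkRat (26084701) 2000000000) (l := (mkRat (548884827) 400000000, mkRat (689368817) 500000000)) (thP_8 N) (thM_8 N) (b6u_8 N he h6) (by decide +kernel)).2
  have h2 : (((((796994132251367 : ℤ) : ℚ) / 2 ^ 50 * sQ) ^ (2 * 8) + mkRat (26084701) 2000000000 : ℚ)) ≤ mkRat (63) 25 := by decide +kernel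
  have h3 : ((((((796994132251367 : ℤ) : ℚ) / 2 ^ 50 * sQ) ^ (2 * 8) + mkRat (26084701) 2000000000 : ℚ)) : ℝ) ≤ ((mkRat (63) 25 : ℚ) : ℝ) := by exact_mod_cast h2
  have h4 : ((mkRat (63) 25 : ℚ) : ℝ) = 252 / 100 := by rw [Rat.mkRat_eq_div]; norm_num
  have h5 := h.trans h3
  rw [h4, sQ_cast, ← pow_mul] at h5
  norm_num at h5 ⊢
  exact h5

theorem LB32_B (N : NumInput) (he : theE ≤ ehat) (h6 : hatV ehat 0 6 ≤ (101233 / 100000 : ℝ)) :
    Pc.InL (sB 32) LB32 := by
  intro k hk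
  have hk' : k < 9 := hk
  interval_cases k
  · exact okLow_sound (k := 0) (r := 4) (by norm_num) (p := (mkRat (338001873) 200000000000, mkRat (845173701) 500000000000)) (m := (mkRat (266473257141) 1000000000000, mkRat (66631639281) 250000000000)) (l := (mkRat (2482922331713) 2500000000, mkRat (2482938222527) 2500000000)) (thP_0 N) (thM_0 N) (N.openP8 0 (by decide)).2 (N.openM8 0 (by decide)).2 (by decide +kernel)
  · exact okLow_sound (k := 1) (r := 4) (by norm_num) (p := (mkRat (5962076431) 40000000000, mkRat (7454086207) 50000000000)) (m := (mkRat (234927449) 200000000000, mkRat (1174872197) 1000000000000)) (l := (mkRat (968343795233) 10000000000, mkRat (484174996349) 5000000000)) (thP_1 N) (thM_1 N) (N.openP8 1 (by decide)).2 (N.openM8 1 (by decide)).2 (by decide +kernel)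
  · exact okLow_sound (k := 2) (r := 4) (by norm_num) (p := (mkRat (297211621) 100000000000, mkRat (1486355347) 500000000000)) (m := (mkRat (67094145941) 500000000000, mkRat (67107566113) 500000000000)) (l := (mkRat (637285908263) 10000000000, mkRat (127457997929) 2000000000)) (thP_2 N) (thM_2 N) (N.openP8 2 (by decide)).2 (N.openM8 2 (by decide)).2 (by decide +kernel)
  · exact okLow_sound (k := 3) (r := 4) (by norm_num) (p := (mkRat (105346770941) 1000000000000, mkRat (26341960601) 250000000000)) (m := (mkRat (81136433) 15625000000, mkRat (1298442591) 250000000000)) (l := (mkRat (239502306841) 10000000000, mkRat (59875959961) 2500000000)) (thP_3 N) (thM_3 N) (N.openP8 3 (by decide)).2 (N.openM8 3 (by decide)).2 (by decide +kernel)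
  · exact okLow_sound (k := 4) (r := 4) (by norm_num) (p := (mkRat (64521569) 8000000000, mkRat (8066809327) 1000000000000)) (m := (mkRat (94077757003) 1000000000000, mkRat (94096574437) 1000000000000)) (l := (mkRat (152622230081) 10000000000, mkRat (152623208917) 10000000000)) (thP_4 N) (thM_4 N) (N.openP8 4 (by decide)).2 (N.openM8 4 (by decide)).2 (by decide +kernel)
  · exact (okHigh_sound (k := 5) (a := 16) (r := mkRat (2663) 200000000) (l := (mkRat (43225790687) 5000000000, mkRat (43226100623) 5000000000)) (thP_5 N) (thM_5 N) (b6u_5 N he h6) (by decide +kernel)).1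
  · exact (okHigh_sound (k := 6) (a := 16) (r := mkRat (347711) 10000000000) (l := (mkRat (30059081709) 5000000000, mkRat (12023744407) 2000000000)) (thP_6 N) (thM_6 N) (b6u_6 N he h6) (by decide +kernel)).1
  · exact (okHigh_sound (k := 7) (a := 16) (r := mkRat (415347) 5000000000) (l := (mkRat (10330427399) 2500000000, mkRat (8264477881) 2000000000)) (thP_7 N) (thM_7 N) (b6u_7 N he h6) (by decide +kernel)).1
  · exact (okHigh_sound (k := 8) (a := 16) (r := mkRat (170103) 1000000000) (l := (mkRat (31418153143) 10000000000, mkRat (15709602369) 5000000000)) (thP_8 N) (thM_8 N) (b6u_8 N he h6) (by decide +kernel)).1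

theorem ao32_B (N : NumInput) (he : theE ≤ ehat) (h6 : hatV ehat 0 6 ≤ (101233 / 100000 : ℝ)) :
    aOpen hF (-hF) ehat 32 8 * (1223 / 1000) ^ 64 ≤ (623 / 100 : ℝ) := by
  have h := (okHigh_sound (k := 8) (a := 16) (r := mkRat (170103) 1000000000) (l := (mkRat (31418153143) 10000000000, mkRat (15709602369) 5000000000)) (thP_8 N) (thM_8 N) (b6u_8 N he h6) (by decide +kernel)).2
  have h2 : (((((796994132251367 : ℤ) : ℚ) / 2 ^ 50 * sQ) ^ (2 * 16) + mkRat (170103) 1000000000 : ℚ)) ≤ mkRat (623) 100 := by decide +kernel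
  have h3 : ((((((796994132251367 : ℤ) : ℚ) / 2 ^ 50 * sQ) ^ (2 * 16) + mkRat (170103) 1000000000 : ℚ)) : ℝ) ≤ ((mkRat (623) 100 : ℚ) : ℝ) := by exact_mod_cast h2
  have h4 : ((mkRat (623) 100 : ℚ) : ℝ) = 623 / 100 := by rw [Rat.mkRat_eq_div]; norm_num
  have h5 := h.trans h3
  rw [h4, sQ_cast, ← pow_mul] at h5
  norm_num at h5 ⊢
  exact h5

theorem B6u_ok (N : NumInput) (he : theE ≤ ehat) (h6 : hatV ehat 0 6 ≤ (101233 / 100000 : ℝ)) :
    UbL (sB 6) 0 B6u :=
  ⟨(b6_ok N he h6 0 (by decide)).2, (b6_ok N he h6 1 (by decide)).2, (b6_ok N he h6 2 (by decide)).2,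
    (b6_ok N he h6 3 (by decide)).2, (b6_ok N he h6 4 (by decide)).2, (b6_ok N he h6 5 (by decide)).2,
    (b6_ok N he h6 6 (by decide)).2, (b6_ok N he h6 7 (by decide)).2, (b6_ok N he h6 8 (by decide)).2,
    trivial⟩

end Hald
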