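import Crest.Agent.Hald.M8Chain
import Crest.Agent.Hald.HatWorld

/-!
# Row 347, M8: rational bounds of exponentials, final form of the enclosures

`expOk n p q el eh t = true` ⇒ `el / 2^t ≤ exp (p/q) ≤ eh / 2^t`.
`encl_final`: from `lo/2^s ≤ exp x * Z ≤ hi/2^s` and `y = x + p/q` to `A/2^a ≤ Z * exp y ≤ B/2^a`.
-/

set_option autoImplicit false
set_option linter.unusedSectionVars false

namespace Hald

open Finset

/-- `(N_k, p^k, q^k k!)` with `N_k / (q^k k!) = ∑_{m<k} (p/q)^m / m!` -/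
def expRec (p : ℤ) (q : ℕ) : ℕ → ℤ × ℤ × ℤ
  | 0 => (0, 1, 1)
  | k + 1 =>
    let r := expRec p q k
    ((q : ℤ) * ((k : ℤ) + 1) * (r.1 + r.2.1), r.2.1 * p, r.2.2 * ((q : ℤ) * ((k : ℤ) + 1)))

theorem expRec_snd (p : ℤ) (q : ℕ) (k : ℕ) : (expRec p q k).2.1 = p ^ k := by
  induction k with
  | zero => simp [expRec]
  | succ k ih => rw [expRec, pow_succ]; exact congrArg (· * p) ih

theorem expRec_den (p : ℤ) (q : ℕ) (k : ℕ) : (expRec p q k).2.2 = (q : ℤ) ^ k * (k.factorial : ℤ) := by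
  induction k with
  | zero => simp [expRec]
  | succ k ih =>
    have : (expRec p q (k + 1)).2.2 = (expRec p q k).2.2 * ((q : ℤ) * ((k : ℤ) + 1)) := rfl
    rw [this, ih, Nat.factorial_succ]
    push_cast
    ring

theorem expRec_fst (p : ℤ) {q : ℕ} (hq : 0 < q) (k : ℕ) :
    ((expRec p q k).1 : ℝ) = (∑ m ∈ range k, ((p : ℝ) / q) ^ m / (m.factorial : ℝ)) *
      ((q : ℝ) ^ k * (k.factorial : ℝ)) := by
  have hq' : (q : ℝ) ≠ 0 := by positivity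
  induction k with
  | zero => simp [expRec]
  | succ k ih =>
    have h1 : (expRec p q (k + 1)).1 = (q : ℤ) * ((k : ℤ) + 1) * ((expRec p q k).1 + (expRec p q k).2.1) :=
      rfl
    rw [h1, expRec_snd, sum_range_succ, Nat.factorial_succ]
    push_cast
    rw [ih, div_pow (p : ℝ) (q : ℝ) k]
    have hk : (k.factorial : ℝ) ≠ 0 := by positivity
    generalize (∑ m ∈ range k, ((p : ℝ) / q) ^ m / (m.factorial : ℝ)) = S
    field_simp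
    try ring

/-- check of the bounds `el / 2^t ≤ exp (p/q) ≤ eh / 2^t`, `|p| ≤ q` -/
def expOk (n : ℕ) (p : ℤ) (q : ℕ) (el eh : ℤ) (t : ℕ) : Bool :=
  let r := expRec p q n
  let P := |r.2.1| * ((n : ℤ) + 1)
  decide (|p| ≤ q) && decide (0 < q) && decide (0 < n) &&
  decide (el * (r.2.2 * n) ≤ 2 ^ t * (r.1 * n - P)) &&
  decide (2 ^ t * (r.1 * n + P) ≤ eh * (r.2.2 * n))

theorem exp_of_ok {n : ℕ} {p : ℤ} {q : ℕ} {el eh : ℤ} {t : ℕ} (h : expOk n p q el eh t = true) :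
    (el : ℝ) / 2 ^ t ≤ Real.exp ((p : ℝ) / q) ∧ Real.exp ((p : ℝ) / q) ≤ (eh : ℝ) / 2 ^ t := by
  unfold expOk at h
  simp only [Bool.and_eq_true, decide_eq_true_eq] at h
  obtain ⟨⟨⟨⟨hp, hq⟩, hn⟩, hl⟩, hh⟩ := h
  rw [expRec_snd, expRec_den] at hl hh
  have hq' : (0 : ℝ) < q := by exact_mod_cast hq
  have hn' : (0 : ℝ) < n := by exact_mod_cast hn
  have hx : |(p : ℝ) / q| ≤ 1 := by
    rw [abs_div, abs_of_pos hq', div_le_one hq']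
    exact_mod_cast hp
  have hb := Real.exp_bound hx hn
  rw [abs_le] at hb
  set S := ∑ m ∈ range n, ((p : ℝ) / q) ^ m / (m.factorial : ℝ) with hS
  have hN := expRec_fst p hq n
  rw [← hS] at hN
  have hf : (0 : ℝ) < (n.factorial : ℝ) := by positivity
  set D : ℝ := (q : ℝ) ^ n * (n.factorial : ℝ) * n with hD
  have hD0 : 0 < D := by positivity
  have hE : |(p : ℝ) / q| ^ n * ((n.succ : ℝ) / ((n.factorial : ℝ) * n)) * D =
      |(p : ℝ) ^ n| * ((n : ℝ) + 1) := by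
    rw [hD, abs_div, abs_of_pos hq', div_pow, abs_pow]
    push_cast
    field_simp
  have hl' : (el : ℝ) * (((q : ℝ) ^ n * (n.factorial : ℝ)) * n) ≤
      2 ^ t * (((expRec p q n).1 : ℝ) * n - |(p : ℝ) ^ n| * ((n : ℝ) + 1)) := by exact_mod_cast hl
  have hh' : 2 ^ t * (((expRec p q n).1 : ℝ) * n + |(p : ℝ) ^ n| * ((n : ℝ) + 1)) ≤
      (eh : ℝ) * (((q : ℝ) ^ n * (n.factorial : ℝ)) * n) := by exact_mod_cast hh
  have hN' : ((expRec p q n).1 : ℝ) * n = S * D := by rw [hN, hD]; ring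
  rw [hN', ← hE, ← hD] at hl' hh'
  have h2t : (0 : ℝ) < 2 ^ t := by positivity
  set E := |(p : ℝ) / q| ^ n * ((n.succ : ℝ) / ((n.factorial : ℝ) * n)) with hEd
  constructor
  · rw [div_le_iff₀ h2t]
    have h3 : (S - E) * (2 ^ t * D) ≤ Real.exp ((p : ℝ) / q) * (2 ^ t * D) :=
      mul_le_mul_of_nonneg_right (by linarith [hb.1]) (by positivity)
    refine le_of_mul_le_mul_right (a := D) ?_ hD0
    calc (el : ℝ) * D ≤ 2 ^ t * (S * D - E * D) := hl'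
      _ = (S - E) * (2 ^ t * D) := by ring
      _ ≤ _ := h3
      _ = _ := by ring
  · rw [le_div_iff₀ h2t]
    have h3 : Real.exp ((p : ℝ) / q) * (2 ^ t * D) ≤ (S + E) * (2 ^ t * D) :=
      mul_le_mul_of_nonneg_right (by linarith [hb.2]) (by positivity)
    refine le_of_mul_le_mul_right (a := D) ?_ hD0
    calc Real.exp ((p : ℝ) / q) * 2 ^ t * D = Real.exp ((p : ℝ) / q) * (2 ^ t * D) := by ring
      _ ≤ (S + E) * (2 ^ t * D) := h3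
      _ = 2 ^ t * (S * D + E * D) := by ring
      _ ≤ _ := hh'

/-- final check: `exp (p/q) = exp (p/(q 2^j))^(2^j)` -/
def enclOk (n : ℕ) (p : ℤ) (q j t : ℕ) (el eh lo hi : ℤ) (s : ℕ) (A B : ℤ) (a : ℕ) : Bool :=
  let M := 2 ^ j
  let l := el ^ M
  let h := eh ^ M
  let T : ℤ := 2 ^ (s + t * M)
  expOk n p (q * M) el eh t && decide (0 ≤ el) &&
  decide (A * T ≤ lo * l * 2 ^ a) && decide (A * T ≤ lo * h * 2 ^ a) &&
  decide (hi * l * 2 ^ a ≤ B * T) && decide (hi * h * 2 ^ a ≤ B * T)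

theorem mul_bounds {v w vl vh wl wh A B : ℝ} (h1 : vl ≤ v) (h2 : v ≤ vh) (h3 : wl ≤ w) (h4 : w ≤ wh)
    (hw : 0 ≤ wl) (a1 : A ≤ vl * wl) (a2 : A ≤ vl * wh) (b1 : vh * wl ≤ B) (b2 : vh * wh ≤ B) :
    A ≤ v * w ∧ v * w ≤ B := by
  have hw0 : 0 ≤ w := hw.trans h3
  constructor
  · refine le_trans ?_ (mul_le_mul_of_nonneg_right h1 hw0)
    rcases le_total 0 vl with h | h
    · exact a1.trans (mul_le_mul_of_nonneg_left h3 h)
    · exact a2.trans (mul_le_mul_of_nonpos_left h4 h)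
  · refine le_trans (mul_le_mul_of_nonneg_right h2 hw0) ?_
    rcases le_total 0 vh with h | h
    · exact (mul_le_mul_of_nonneg_left h4 h).trans b2
    · exact (mul_le_mul_of_nonpos_left h3 h).trans b1

theorem encl_final {lo hi : ℤ} {s : ℕ} {x Z y : ℝ}
    (h : (lo : ℝ) / 2 ^ s ≤ Real.exp x * Z ∧ Real.exp x * Z ≤ (hi : ℝ) / 2 ^ s) {p : ℤ} {q : ℕ}
    (hxy : y = x + (p : ℝ) / q) (n j t : ℕ) (el eh A B : ℤ) (a : ℕ)
    (hok : enclOk n p q j t el eh lo hi s A B a = true) :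
    (A : ℝ) / 2 ^ a ≤ Z * Real.exp y ∧ Z * Real.exp y ≤ (B : ℝ) / 2 ^ a := by
  unfold enclOk at hok
  simp only [Bool.and_eq_true, decide_eq_true_eq] at hok
  obtain ⟨⟨⟨⟨⟨he, hel⟩, a1⟩, a2⟩, b1⟩, b2⟩ := hok
  obtain ⟨e1, e2⟩ := exp_of_ok he
  have hM : (0 : ℕ) < 2 ^ j := by positivity
  have hM' : ((2 : ℝ) ^ j) ≠ 0 := by positivity
  have hpow : Real.exp ((p : ℝ) / ((q * 2 ^ j : ℕ) : ℝ)) ^ (2 ^ j) = Real.exp ((p : ℝ) / q) := by
    rw [← Real.exp_nat_mul]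
    congr 1
    push_cast
    by_cases hq : (q : ℝ) = 0
    · rw [hq]; simp
    · field_simp
  have hel' : (0 : ℝ) ≤ (el : ℝ) / 2 ^ t := by
    have : (0 : ℝ) ≤ el := by exact_mod_cast hel
    positivity
  have f1 := pow_le_pow_left₀ hel' e1 (2 ^ j)
  have f2 := pow_le_pow_left₀ (Real.exp_pos _).le e2 (2 ^ j)
  rw [hpow] at f1 f2
  have key : Z * Real.exp y = (Real.exp x * Z) * Real.exp ((p : ℝ) / q) := by
    rw [hxy, Real.exp_add]; ring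
  rw [key]
  have hT : (0 : ℝ) < 2 ^ (s + t * 2 ^ j) := by positivity
  have hT' : (2 : ℝ) ^ (s + t * 2 ^ j) = 2 ^ s * (2 ^ t) ^ (2 ^ j) := by rw [pow_add, ← pow_mul]
  have ha : (0 : ℝ) < 2 ^ a := by positivity
  have conv : ∀ (U V : ℤ) (W : ℤ), W * 2 ^ (s + t * 2 ^ j) ≤ U * V ^ (2 ^ j) * 2 ^ a →
      (W : ℝ) / 2 ^ a ≤ (U : ℝ) / 2 ^ s * (((V : ℝ) / 2 ^ t) ^ (2 ^ j)) := by
    intro U V W hW
    have hW' : (W : ℝ) * 2 ^ (s + t * 2 ^ j) ≤ (U : ℝ) * (V : ℝ) ^ (2 ^ j) * 2 ^ a := by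
      exact_mod_cast hW
    have e : (U : ℝ) / 2 ^ s * (((V : ℝ) / 2 ^ t) ^ (2 ^ j)) =
        (U : ℝ) * (V : ℝ) ^ (2 ^ j) / 2 ^ (s + t * 2 ^ j) := by
      rw [hT', div_pow]
      field_simp
    rw [e, div_le_div_iff₀ ha hT]
    linarith
  have conv' : ∀ (U V : ℤ) (W : ℤ), U * V ^ (2 ^ j) * 2 ^ a ≤ W * 2 ^ (s + t * 2 ^ j) →
      (U : ℝ) / 2 ^ s * (((V : ℝ) / 2 ^ t) ^ (2 ^ j)) ≤ (W : ℝ) / 2 ^ a := by
    intro U V W hW
    have hW' : (U : ℝ) * (V : ℝ) ^ (2 ^ j) * 2 ^ a ≤ (W : ℝ) * 2 ^ (s + t * 2 ^ j) := by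
      exact_mod_cast hW
    have e : (U : ℝ) / 2 ^ s * (((V : ℝ) / 2 ^ t) ^ (2 ^ j)) =
        (U : ℝ) * (V : ℝ) ^ (2 ^ j) / 2 ^ (s + t * 2 ^ j) := by
      rw [hT', div_pow]
      field_simp
    rw [e, div_le_div_iff₀ hT ha]
    linarith
  exact mul_bounds h.1 h.2 f1 f2 (pow_nonneg hel' _) (conv _ _ _ a1) (conv _ _ _ a2)
    (conv' _ _ _ b1) (conv' _ _ _ b2)

/-! ### the three kinds of numbers -/

/-- strips: turn an enclosure of `Re Zch` into one of `aStrip` -/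
theorem aStrip_encl {Gt : (d : ℕ) → Matrix (Fin d) (Fin d) ℂ} {M : ℕ} {β β' x : ℝ} {lo hi : ℤ}
    {s : ℕ} (h : (lo : ℝ) / 2 ^ s ≤ Real.exp x * (Zch Gt (M + 1) (chD 2 2 M) 0 0 β').re ∧
      Real.exp x * (Zch Gt (M + 1) (chD 2 2 M) 0 0 β').re ≤ (hi : ℝ) / 2 ^ s) (hβ : β' = β)
    {e' : ℝ} {p : ℤ} {q : ℕ} (hxy : β * M * e' = x + (p : ℝ) / q) (n j t : ℕ) (el eh A B : ℤ) (a : ℕ)
    (hok : enclOk n p q j t el eh lo hi s A B a = true) :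
    (A : ℝ) / 2 ^ a ≤ aStrip Gt e' β M ∧ aStrip Gt e' β M ≤ (B : ℝ) / 2 ^ a := by
  subst hβ
  exact encl_final h hxy n j t el eh A B a hok

/-- open chains with `N + 2` sites -/
theorem aOpen_encl {h0 h1 : ℝ} {N : ℕ} {β β' x : ℝ} {lo hi : ℤ}
    {s : ℕ} (h : (lo : ℝ) / 2 ^ s ≤ Real.exp x * (Zch G1 (N + 1) (fun _ => 3) h0 h1 β').re ∧
      Real.exp x * (Zch G1 (N + 1) (fun _ => 3) h0 h1 β').re ≤ (hi : ℝ) / 2 ^ s) (hβ : β' = β)
    {e' : ℝ} {p : ℤ} {q : ℕ} (hxy : β * ((N + 2 : ℕ) : ℝ) * e' = x + (p : ℝ) / q) (n j t : ℕ)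
    (el eh A B : ℤ) (a : ℕ)
    (hok : enclOk n p q j t el eh lo hi s A B a = true) :
    (A : ℝ) / 2 ^ a ≤ aOpen h0 h1 e' β N ∧ aOpen h0 h1 e' β N ≤ (B : ℝ) / 2 ^ a := by
  subst hβ
  exact encl_final h hxy n j t el eh A B a hok

/-- the ring -/
theorem hatZ_encl {tt : Fin 8} {m : ℕ} {β β' x : ℝ} {lo hi : ℤ}
    {s : ℕ} (h : (lo : ℝ) / 2 ^ s ≤ Real.exp x * Zp (tw tt).1 (tw tt).2 β' m ∧
      Real.exp x * Zp (tw tt).1 (tw tt).2 β' m ≤ (hi : ℝ) / 2 ^ s) (hβ : β' = β)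
    {e' : ℝ} {p : ℤ} {q : ℕ} (hxy : β * (2 * m) * e' = x + (p : ℝ) / q) (n j t : ℕ)
    (el eh A B : ℤ) (a : ℕ)
    (hok : enclOk n p q j t el eh lo hi s A B a = true) :
    (A : ℝ) / 2 ^ a ≤ hatZ e' tt β m ∧ hatZ e' tt β m ≤ (B : ℝ) / 2 ^ a := by
  subst hβ
  exact encl_final h hxy n j t el eh A B a hok

end Hald
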