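import Crest.Agent.Hald.ChEncl
import Crest.Agent.Hald.ChWrapO
import Crest.Agent.Hald.NumInput

/-!
# Row 347, M8: bounds of `aOpen` from the moments `opMomP*`, `opMomM*`; interval lists from lists of bounds
-/

set_option autoImplicit false
set_option linter.unusedSectionVars false

namespace Hald

open Matrix Finset

theorem openP_num {N K : ℕ} {μ : List ℤ}
    (hμ : ∀ k ≤ K, ∑ σ, ((cOpP N).mat ^ k) σ σ = μ.getD k 0)
    {τ : List ℕ} (hτ : τ = chebL K) {dim : ℕ} (hdim : 3 ^ (N + 2) = dim) {cn M' : ℕ}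
    (hcn : cn = 10 * (N + 1) + 12) (hM' : M' = N + 2)
    {u w y s : ℕ} {lo hi : ℤ} {en ed n j t : ℕ} {el eh A B : ℤ} {a : ℕ}
    (hok : chainOk dim 10 K u w y s μ μ τ lo hi cn 1 M' en ed n j t el eh A B a = true)
    {e' β : ℝ} (he : e' = -((en : ℝ) / ed)) (hβ : β = u * 10 / w) :
    (A : ℝ) / 2 ^ a ≤ aOpen hF hF e' β N ∧ aOpen hF hF e' β N ≤ (B : ℝ) / 2 ^ a :=
  open_num (cOpP N) (p' := 1) rfl rfl (Or.inl ⟨rfl, fun a _ => by simp [cOpP]⟩)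
    (Or.inl ⟨rfl, fun a _ => by simp [cOpP]⟩) hμ hτ hdim (by omega) hM' hok he
    (by rw [hβ]; norm_num)

theorem openM_num {N K : ℕ} {μ : List ℤ}
    (hμ : ∀ k ≤ K, ∑ σ, ((cOpM N).mat ^ k) σ σ = μ.getD k 0)
    {τ : List ℕ} (hτ : τ = chebL K) {dim : ℕ} (hdim : 3 ^ (N + 2) = dim) {cn M' : ℕ}
    (hcn : cn = 10 * (N + 1) + 12) (hM' : M' = N + 2)
    {u w y s : ℕ} {lo hi : ℤ} {en ed n j t : ℕ} {el eh A B : ℤ} {a : ℕ}
    (hok : chainOk dim 10 K u w y s μ μ τ lo hi cn 1 M' en ed n j t el eh A B a = true)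
    {e' β : ℝ} (he : e' = -((en : ℝ) / ed)) (hβ : β = u * 10 / w) :
    (A : ℝ) / 2 ^ a ≤ aOpen hF (-hF) e' β N ∧ aOpen hF (-hF) e' β N ≤ (B : ℝ) / 2 ^ a :=
  open_num (cOpM N) (p' := 1) rfl rfl (Or.inl ⟨rfl, fun a _ => by simp [cOpM]⟩)
    (Or.inr ⟨rfl, fun a _ => by simp [cOpM]⟩) hμ hτ hdim (by omega) hM' hok he
    (by rw [hβ]; norm_num)

theorem ehat_eq : ehat = -(((28029 : ℕ) : ℝ) / ((20000 : ℕ) : ℝ)) := by
  unfold ehat; norm_num

/-- the intervals `[d.1/2^a, d.2/2^a]` are contained in the intervals of `L` -/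
def chkD (a : ℕ) : List (ℤ × ℤ) → List (ℚ × ℚ) → Bool
  | d :: ds, l :: ls => decide (l.1 * 2 ^ a ≤ (d.1 : ℚ)) && decide ((d.2 : ℚ) ≤ l.2 * 2 ^ a) && chkD a ds ls
  | [], [] => true
  | _, _ => false

/-- the bounds at the indices `i, i+1, …` -/
def BdL (m : ℕ → ℝ) (a : ℕ) : ℕ → List (ℤ × ℤ) → Prop
  | _, [] => True
  | i, d :: ds => ((d.1 : ℝ) / 2 ^ a ≤ m i ∧ m i ≤ (d.2 : ℝ) / 2 ^ a) ∧ BdL m a (i + 1) ds

theorem chkD_get {m : ℕ → ℝ} {a : ℕ} : ∀ (D : List (ℤ × ℤ)) (L : List (ℚ × ℚ)) (i : ℕ),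
    chkD a D L = true → BdL m a i D →
      ∀ k (h : k < L.length), ((L[k].1 : ℚ) : ℝ) ≤ m (i + k) ∧ m (i + k) ≤ ((L[k].2 : ℚ) : ℝ)
  | [], [], _, _, _, k, h => absurd h (Nat.not_lt_zero k)
  | [], _ :: _, _, hc, _, _, _ => by simp [chkD] at hc
  | _ :: _, [], _, hc, _, _, _ => by simp [chkD] at hc
  | d :: ds, l :: ls, i, hc, hb, k, h => by
    simp only [chkD, Bool.and_eq_true, decide_eq_true_eq] at hc
    obtain ⟨⟨h1, h2⟩, h3⟩ := hc
    obtain ⟨⟨b1, b2⟩, b3⟩ := hb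
    cases k with
    | zero =>
      have h1' : ((l.1 : ℚ) : ℝ) * 2 ^ a ≤ (d.1 : ℝ) := by exact_mod_cast h1
      have h2' : (d.2 : ℝ) ≤ ((l.2 : ℚ) : ℝ) * 2 ^ a := by exact_mod_cast h2
      have hp : (0 : ℝ) < 2 ^ a := by positivity
      constructor
      · refine le_trans ?_ b1
        rw [le_div_iff₀ hp]
        exact h1'
      · refine b2.trans ?_
        rw [div_le_iff₀ hp]
        exact h2'
    | succ k =>
      have := chkD_get ds ls (i + 1) h3 b3 k (by simpa using h)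
      have e : i + 1 + k = i + (k + 1) := by ring
      rw [e] at this
      exact this

theorem inL_of {m : ℕ → ℝ} (a : ℕ) (D : List (ℤ × ℤ)) {L : List (ℚ × ℚ)} (hc : chkD a D L = true)
    (hb : BdL m a 0 D) : Pc.InL m L := by
  intro k hk
  have := chkD_get D L 0 hc hb k hk
  rw [zero_add] at this
  exact this

end Hald
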