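import Crest.Agent.Hald.HatEJ
import Crest.Agent.Hald.M8Exp
import Crest.Agent.Hald.OpenEncl

/-!
# Row 347, chunk C, tools: thermodynamic bounds of the chains at large `β` from energies and traces at `β = b`

`chain_bd`: `v₁^(br) ≤ F(br) s^(br) ≤ v₂^(br) + (U - v₁^b)^r`;  `top_of`: enclosure of `exp(-E + k ehat)`;
`tcL_get`: list version.
-/

set_option autoImplicit false
set_option linter.unusedSectionVars false

namespace Hald

/-- enclosure of the top -/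
theorem top_of {E : ℝ} {E1 E2 : ℚ} (hE : (E1 : ℝ) ≤ E ∧ E ≤ (E2 : ℝ)) (k : ℕ) {n t : ℕ} {p1 p2 : ℤ}
    {q1 q2 : ℕ} {a1 b1 a2 b2 : ℤ} (h1 : expOk n p1 q1 a1 b1 t = true)
    (h2 : expOk n p2 q2 a2 b2 t = true)
    (c1 : (p1 : ℚ) / q1 ≤ k * (-140145 / 100000) - E2)
    (c2 : k * (-140145 / 100000) - E1 ≤ (p2 : ℚ) / q2) :
    (a1 : ℝ) / 2 ^ t ≤ Real.exp (-E + k * ehat) ∧ Real.exp (-E + k * ehat) ≤ (b2 : ℝ) / 2 ^ t := by
  have c1' : (p1 : ℝ) / q1 ≤ k * (-140145 / 100000) - E2 := by exact_mod_cast c1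
  have c2' : k * (-140145 / 100000) - E1 ≤ (p2 : ℝ) / q2 := by exact_mod_cast c2
  obtain ⟨g1, -⟩ := exp_of_ok h1
  obtain ⟨-, g2⟩ := exp_of_ok h2
  have e : (k : ℝ) * (-140145 / 100000) = k * ehat := by unfold ehat; ring
  constructor
  · refine g1.trans (Real.exp_le_exp.2 ?_)
    linarith [hE.2]
  · refine le_trans (Real.exp_le_exp.2 ?_) g2
    linarith [hE.1]

/-- **bounds at `β = b r`** -/
theorem chain_bd {K : ℕ} {d : Fin (K + 1) → ℕ} (hd : ∀ i, 0 < d i) {h0 h1 : ℝ} {k : ℕ} {e' s : ℝ}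
    (hs : 0 < s) {v1 v2 : ℝ} (hv0 : 0 ≤ v1) (hv1 : v1 ≤ Real.exp (-Ech K d h0 h1 + k * e') * s)
    (hv2 : Real.exp (-Ech K d h0 h1 + k * e') * s ≤ v2) {b r : ℕ} (hb : 0 < b) (hr : 1 ≤ r) {U : ℝ}
    (hU : aChain K d h0 h1 k e' b * s ^ b ≤ U) :
    v1 ^ (b * r) ≤ aChain K d h0 h1 k e' ((b * r : ℕ) : ℝ) * s ^ (b * r) ∧
      aChain K d h0 h1 k e' ((b * r : ℕ) : ℝ) * s ^ (b * r) ≤ v2 ^ (b * r) + (U - v1 ^ b) ^ r := by
  set T := Real.exp (-Ech K d h0 h1 + k * e') with hT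
  have hT0 : 0 < T := Real.exp_pos _
  have htop := aChain_top hd h0 h1 k e'
  have hbR : (0 : ℝ) < b := by exact_mod_cast hb
  have hrR : (1 : ℝ) ≤ r := by exact_mod_cast hr
  have hbrR : (0 : ℝ) < ((b * r : ℕ) : ℝ) := by
    have : 0 < b * r := Nat.mul_pos hb hr
    exact_mod_cast this
  have hle : (b : ℝ) ≤ ((b * r : ℕ) : ℝ) := by push_cast; nlinarith
  have hpow := htop.rem.pow b hbR ((b * r : ℕ) : ℝ) hbrR hle
  have hn1 := htop.rem.nonneg b hbR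
  have hn2 := htop.rem.nonneg ((b * r : ℕ) : ℝ) hbrR
  simp only [div_one] at hpow
  rw [← hT] at hpow hn1 hn2
  have e1 : T ^ (b : ℝ) = T ^ b := Real.rpow_natCast _ _
  have e2 : T ^ (((b * r : ℕ) : ℝ)) = T ^ (b * r) := Real.rpow_natCast _ _
  have e3 : ((b * r : ℕ) : ℝ) / (b : ℝ) = (r : ℝ) := by push_cast; field_simp
  rw [e1] at hn1
  rw [e2] at hn2
  rw [e1, e2, e3, Real.rpow_natCast] at hpow
  set Fb := aChain K d h0 h1 k e' b
  set Fn := aChain K d h0 h1 k e' ((b * r : ℕ) : ℝ)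
  have hsn : 0 < s ^ (b * r) := by positivity
  have hsb : 0 < s ^ b := by positivity
  constructor
  · calc v1 ^ (b * r) ≤ (T * s) ^ (b * r) := pow_le_pow_left₀ hv0 hv1 _
      _ = T ^ (b * r) * s ^ (b * r) := mul_pow _ _ _
      _ ≤ Fn * s ^ (b * r) := mul_le_mul_of_nonneg_right (by linarith) hsn.le
  · have h3 : (Fn - T ^ (b * r)) * s ^ (b * r) ≤ (Fb - T ^ b) ^ r * s ^ (b * r) :=
      mul_le_mul_of_nonneg_right hpow hsn.le
    have h4 : (Fb - T ^ b) ^ r * s ^ (b * r) = ((Fb - T ^ b) * s ^ b) ^ r := by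
      rw [mul_pow, ← pow_mul]
    have h5 : ((Fb - T ^ b) * s ^ b) ^ r ≤ (U - v1 ^ b) ^ r := by
      refine pow_le_pow_left₀ (mul_nonneg hn1 hsb.le) ?_ r
      have h6 : v1 ^ b ≤ T ^ b * s ^ b := by
        rw [← mul_pow]
        exact pow_le_pow_left₀ hv0 hv1 b
      rw [sub_mul]
      linarith
    have h7 : T ^ (b * r) * s ^ (b * r) ≤ v2 ^ (b * r) := by
      rw [← mul_pow]
      exact pow_le_pow_left₀ (by positivity) hv2 _
    rw [sub_mul] at h3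
    linarith

/-- upper bounds of a sequence from index `i` on -/
def UbL (m : ℕ → ℝ) : ℕ → List ℚ → Prop
  | _, [] => True
  | i, u :: us => m i ≤ ((u : ℚ) : ℝ) ∧ UbL m (i + 1) us

/-- check: tops `D` (over `2^a`, unscaled), upper bounds `us` at `b`, targets `L` at `b r` -/
def tcL (s : ℚ) (a b r : ℕ) : List (ℤ × ℤ) → List ℚ → List (ℚ × ℚ) → Bool
  | z :: D, u :: us, l :: L =>
    let v1 : ℚ := z.1 / 2 ^ a * s
    let v2 : ℚ := z.2 / 2 ^ a * s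
    decide (0 ≤ v1) && decide (l.1 ≤ v1 ^ (b * r)) &&
      decide (v2 ^ (b * r) + (u - v1 ^ b) ^ r ≤ l.2) && tcL s a b r D us L
  | [], [], [] => true
  | _, _, _ => false

theorem tcL_get {s : ℚ} (hs : 0 < s) {a b r : ℕ} {T Fb Fn : ℕ → ℝ}
    (hF : ∀ k (v1 v2 U : ℝ), 0 ≤ v1 → v1 ≤ T k * s → T k * s ≤ v2 → Fb k ≤ U →
      v1 ^ (b * r) ≤ Fn k ∧ Fn k ≤ v2 ^ (b * r) + (U - v1 ^ b) ^ r) :
    ∀ (D : List (ℤ × ℤ)) (us : List ℚ) (L : List (ℚ × ℚ)) (i : ℕ), tcL s a b r D us L = true →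
      BdL T a i D → UbL Fb i us →
      ∀ k (h : k < L.length), ((L[k].1 : ℚ) : ℝ) ≤ Fn (i + k) ∧ Fn (i + k) ≤ ((L[k].2 : ℚ) : ℝ)
  | [], [], [], _, _, _, _, k, h => absurd h (Nat.not_lt_zero k)
  | [], [], _ :: _, _, hc, _, _, _, _ => by simp [tcL] at hc
  | [], _ :: _, _, _, hc, _, _, _, _ => by simp [tcL] at hc
  | _ :: _, [], _, _, hc, _, _, _, _ => by simp [tcL] at hc
  | _ :: _, _ :: _, [], _, hc, _, _, _, _ => by simp [tcL] at hc
  | z :: D, u :: us, l :: L, i, hc, hD, hU, k, h => by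
    simp only [tcL, Bool.and_eq_true, decide_eq_true_eq] at hc
    obtain ⟨⟨⟨c0, c1⟩, c2⟩, c3⟩ := hc
    obtain ⟨⟨d1, d2⟩, d3⟩ := hD
    obtain ⟨u1, u2⟩ := hU
    cases k with
    | zero =>
      have hs' : (0 : ℝ) < (s : ℝ) := by exact_mod_cast hs
      have key := hF i (((z.1 / 2 ^ a * s : ℚ)) : ℝ) (((z.2 / 2 ^ a * s : ℚ)) : ℝ) ((u : ℚ) : ℝ)
        (by exact_mod_cast c0)
        (by push_cast; exact mul_le_mul_of_nonneg_right d1 hs'.le)
        (by push_cast; exact mul_le_mul_of_nonneg_right d2 hs'.le) u1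
      refine ⟨le_trans ?_ key.1, key.2.trans ?_⟩
      · exact_mod_cast c1
      · exact_mod_cast c2
    | succ k =>
      have := tcL_get hs hF D us L (i + 1) c3 d3 u2 k (by simpa using h)
      have e : i + 1 + k = i + (k + 1) := by ring
      rw [e] at this
      exact this

end Hald
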