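import Crest.Agent.Hald.EthTop
import Crest.Agent.Hald.EthBase

/-!
# Row 347, chunk C: mixed chains `LX16`, `LX32`, amplitudes `ao16`, `ao32` (helper45)
-/

set_option autoImplicit false

namespace Hald

open Finset

theorem UbL.getDx {m : ℕ → ℝ} : ∀ {L : List ℚ} {i : ℕ}, UbL m i L → ∀ k < L.length,
    m (i + k) ≤ ((L.getD k 0 : ℚ) : ℝ)
  | [], _, _, k, hk => absurd hk (Nat.not_lt_zero k)
  | u :: us, i, h, k, hk => by
    cases k with
    | zero => simpa using h.1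
    | succ k =>
      have := UbL.getDx h.2 k (by simpa using hk)
      have e : i + 1 + k = i + (k + 1) := by ring
      rw [e] at this
      simpa using this

theorem mom_X_pow' (m : ℕ → ℝ) (k : ℕ) : mom m (Polynomial.X ^ k) = m k := by
  have := mom_C_mul_X_pow m k 1
  simpa using this

theorem chD22_pos (k : ℕ) : ∀ i, 0 < chD 2 2 k i := by
  intro i
  unfold chD
  split_ifs <;> norm_num

theorem chD23_pos (k : ℕ) : ∀ i, 0 < chD 2 3 k i := by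
  intro i
  unfold chD
  split_ifs <;> norm_num

theorem sS_nonneg {n : ℕ} (hn : 1 ≤ n) (k : ℕ) : 0 ≤ sS n k := by
  unfold sS
  rw [aStrip_chain]
  have := aChain_pos (chD22_pos k) 0 0 k ehat (β := (n : ℝ)) (nat_pos_real hn)
  positivity

theorem S6a_chk : ∀ k < 8, (TS6.getD k (0, 0)).2 * kS ^ 12 ≤ S6u.getD k 0 := by decide +kernel

theorem S6b_chk : 0 ≤ S6u.getD 6 0 ∧ (101233 / 100000 : ℚ) ^ 2 * S6u.getD 6 0 ≤ S6u.getD 8 0 ∧
    (101233 / 100000 : ℚ) ^ 4 * S6u.getD 6 0 ≤ S6u.getD 10 0 := by decide +kernel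

theorem cast6 : ((6 : ℕ) : ℝ) = 6 := by norm_num

theorem S6_lt8 (N : NumInput) {k : ℕ} (hk : k < 8) : sS 6 k ≤ ((S6u.getD k 0 : ℚ) : ℝ) := by
  have h1 := (N.strip6.get (k := k) (by rw [show TS6.length = 8 from rfl]; exact hk)).2
  have h2 : (((TS6.getD k (0, 0)).2 : ℚ) : ℝ) * (7383 / 10000) ^ 12 ≤
      ((S6u.getD k 0 : ℚ) : ℝ) := by
    have := S6a_chk k hk
    have h3 : (((TS6.getD k (0, 0)).2 * kS ^ 12 : ℚ) : ℝ) ≤ ((S6u.getD k 0 : ℚ) : ℝ) := by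
      exact_mod_cast this
    rw [Rat.cast_mul, Rat.cast_pow, cast_kS] at h3
    exact h3
  unfold sS
  rw [cast6]
  refine le_trans (mul_le_mul_of_nonneg_right h1 (by positivity)) ?_
  exact h2

theorem S6_8_10 (N : NumInput) (he : theE ≤ ehat)
    (h6 : hatV ehat 0 6 ≤ (101233 / 100000 : ℝ)) :
    sS 6 8 ≤ ((S6u.getD 8 0 : ℚ) : ℝ) ∧ sS 6 10 ≤ ((S6u.getD 10 0 : ℚ) : ℝ) := by
  have E := ej0 he (n := 6) (by norm_num)
  rw [cast6] at E
  obtain ⟨c0, c1, c2⟩ := S6b_chk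
  have hS6 := S6_lt8 N (k := 6) (by norm_num)
  have hS0 := sS_nonneg (n := 6) (by norm_num) 6
  set V := hatV ehat 0 6 with hV
  have hV1 : 1 ≤ V := E.one_le_V
  have hc0 : (0 : ℝ) ≤ ((S6u.getD 6 0 : ℚ) : ℝ) := by exact_mod_cast c0
  have hc1 : (101233 / 100000 : ℝ) ^ 2 * ((S6u.getD 6 0 : ℚ) : ℝ) ≤ ((S6u.getD 8 0 : ℚ) : ℝ) := by
    have := (Rat.cast_le (K := ℝ)).2 c1
    push_cast at this
    exact this
  have hc2 : (101233 / 100000 : ℝ) ^ 4 * ((S6u.getD 6 0 : ℚ) : ℝ) ≤ ((S6u.getD 10 0 : ℚ) : ℝ) := by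
    have := (Rat.cast_le (K := ℝ)).2 c2
    push_cast at this
    exact this
  constructor
  · have h := E.strip (Polynomial.C (V ^ 2) * Polynomial.X ^ 6 + Polynomial.C (-1) *
      Polynomial.X ^ 8) (fun x hx => by
        simp only [Polynomial.eval_add, Polynomial.eval_mul, Polynomial.eval_pow,
          Polynomial.eval_X, Polynomial.eval_C]
        have h1 : x ^ 2 ≤ V ^ 2 := by rw [← sq_abs x]; gcongr
        have h2 : V ^ 2 * x ^ 6 + -1 * x ^ 8 = (V ^ 2 - x ^ 2) * (x ^ 3) ^ 2 := by ring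
        rw [h2]
        exact mul_nonneg (by linarith) (sq_nonneg _))
    rw [map_add, mom_C_mul_X_pow, mom_C_mul_X_pow] at h
    have h3 : V ^ 2 * sS 6 6 ≤ (101233 / 100000 : ℝ) ^ 2 * ((S6u.getD 6 0 : ℚ) : ℝ) := by gcongr
    linarith
  · have h := E.strip (Polynomial.C (V ^ 4) * Polynomial.X ^ 6 + Polynomial.C (-1) *
      Polynomial.X ^ 10) (fun x hx => by
        simp only [Polynomial.eval_add, Polynomial.eval_mul, Polynomial.eval_pow,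
          Polynomial.eval_X, Polynomial.eval_C]
        have h1 : x ^ 2 ≤ V ^ 2 := by rw [← sq_abs x]; gcongr
        have h1' : x ^ 4 ≤ V ^ 4 := by
          calc x ^ 4 = (x ^ 2) ^ 2 := by ring
            _ ≤ (V ^ 2) ^ 2 := by gcongr
            _ = V ^ 4 := by ring
        have h2 : V ^ 4 * x ^ 6 + -1 * x ^ 10 = (V ^ 4 - x ^ 4) * (x ^ 3) ^ 2 := by ring
        rw [h2]
        exact mul_nonneg (by linarith) (sq_nonneg _))
    rw [map_add, mom_C_mul_X_pow, mom_C_mul_X_pow] at h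
    have h3 : V ^ 4 * sS 6 6 ≤ (101233 / 100000 : ℝ) ^ 4 * ((S6u.getD 6 0 : ℚ) : ℝ) := by gcongr
    linarith

theorem S6_even (N : NumInput) (he : theE ≤ ehat) (h6 : hatV ehat 0 6 ≤ (101233 / 100000 : ℝ))
    {i : ℕ} (hi : i ≤ 5) : sS 6 (2 * i) ≤ ((S6u.getD (2 * i) 0 : ℚ) : ℝ) := by
  rcases Nat.lt_or_ge i 4 with h | h
  · exact S6_lt8 N (by omega)
  · have h8 := S6_8_10 N he h6
    rcases (by omega : i = 4 ∨ i = 5) with rfl | rfl
    · exact h8.1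
    · exact h8.2

/-- the splitting `k = i + j` -/
def ijL : List (ℕ × ℕ) :=
  [(0, 0), (1, 0), (1, 1), (1, 2), (1, 3), (2, 3), (2, 4), (3, 4), (4, 4), (5, 4)]

/-- all numerical conditions for the mixed chain `k` -/
def okX (k : ℕ) : Bool :=
  let i := (ijL.getD k (0, 0)).1
  let j := (ijL.getD k (0, 0)).2
  let U := UX.getD k (0, 0)
  let x := X6u.getD k 0
  let S := S6u.getD (2 * i) 0
  let B := B6u.getD (2 * j) 0
  let r := rX16.getD k 0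
  let s := rX32.getD k 0
  decide (i + j = k) && decide (i ≤ 5) && decide (j ≤ 4) && decide (0 ≤ S) && decide (0 ≤ B) &&
  decide (0 ≤ x) && decide (S * B ≤ x ^ 2) && decide (0 ≤ r) && decide (0 ≤ s) &&
  decide ((x - U.1 ^ 3) ^ 8 ≤ r ^ 3) && decide ((x - U.1 ^ 3) ^ 16 ≤ s ^ 3) &&
  decide ((LX16.getD k (0, 0)).1 ≤ U.1 ^ 8) && decide (U.2 ^ 8 + r ≤ (LX16.getD k (0, 0)).2) &&
  decide ((LX32.getD k (0, 0)).1 ≤ U.1 ^ 16) && decide (U.2 ^ 16 + s ≤ (LX32.getD k (0, 0)).2)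

theorem okX_chk : ∀ k < 10, okX k = true := by decide +kernel

theorem sX_eq (n k : ℕ) : sX n k = aChain (k + 1) (chD 2 3 k) 0 hF (k + 1 : ℕ) ehat n *
    (7383 / 10000 * (1223 / 1000)) ^ n := by
  unfold sX
  rw [aMixed_chain]

theorem sX_nonneg {n : ℕ} (hn : 1 ≤ n) (k : ℕ) : 0 ≤ sX n k := by
  rw [sX_eq]
  have := aChain_pos (chD23_pos k) 0 hF (k + 1) ehat (β := (n : ℝ)) (nat_pos_real hn)
  positivity

theorem mixed_ok (N : NumInput) (he : theE ≤ ehat) (h6 : hatV ehat 0 6 ≤ (101233 / 100000 : ℝ))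
    (hB : ∀ k < 9, sB 6 k ≤ ((B6u.getD k 0 : ℚ) : ℝ)) {k : ℕ} (hk : k < 10) :
    ((((LX16.getD k (0, 0)).1 : ℚ) : ℝ) ≤ sX 16 k ∧ sX 16 k ≤ (((LX16.getD k (0, 0)).2 : ℚ) : ℝ)) ∧
    ((((LX32.getD k (0, 0)).1 : ℚ) : ℝ) ≤ sX 32 k ∧
      sX 32 k ≤ (((LX32.getD k (0, 0)).2 : ℚ) : ℝ)) := by
  have hok := okX_chk k hk
  simp only [okX, Bool.and_eq_true, decide_eq_true_eq] at hok
  obtain ⟨⟨⟨⟨⟨⟨⟨⟨⟨⟨⟨⟨⟨⟨a1, a2⟩, a3⟩, a4⟩, a5⟩, a6⟩, a7⟩, a8⟩, a9⟩, b1⟩, b2⟩, b3⟩, b4⟩, b5⟩, b6⟩ := hok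
  set i := (ijL.getD k (0, 0)).1 with hi
  set j := (ijL.getD k (0, 0)).2 with hj
  set x := X6u.getD k 0 with hx
  set S := S6u.getD (2 * i) 0 with hS
  set B := B6u.getD (2 * j) 0 with hBd
  set r := rX16.getD k 0
  set s := rX32.getD k 0
  obtain ⟨u0, u1, u2⟩ := UX_ok N hk
  set U := UX.getD k (0, 0)
  -- upper bound at 6
  have E := ej0 he (n := 6) (by norm_num)
  have hcs := E.cs (Polynomial.X ^ i) (Polynomial.X ^ j)
  rw [← pow_add, ← pow_add, ← pow_add, mom_X_pow', mom_X_pow', mom_X_pow', a1, ← two_mul,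
    ← two_mul] at hcs
  have hSi := S6_even N he h6 a2
  have hBj := hB (2 * j) (by omega)
  have hS0 := sS_nonneg (n := 6) (by norm_num) (2 * i)
  have hx6 : sX 6 k ≤ (x : ℝ) := by
    have c6 : (0 : ℝ) ≤ x := by exact_mod_cast a6
    have c7 : (S : ℝ) * B ≤ (x : ℝ) ^ 2 := by exact_mod_cast a7
    have c4 : (0 : ℝ) ≤ S := by exact_mod_cast a4
    have c5 : (0 : ℝ) ≤ B := by exact_mod_cast a5
    refine abs_le_of_sq_le_sq' (le_trans hcs (le_trans ?_ c7)) c6 |>.2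
    calc sS 6 (2 * i) * sB 6 (2 * j) ≤ sS 6 (2 * i) * (B : ℝ) := by gcongr
      _ ≤ (S : ℝ) * B := by gcongr
  have hc : (0 : ℝ) < 7383 / 10000 * (1223 / 1000) := by norm_num
  rw [sX_eq] at hx6
  have hlo := fun m (hm : 1 ≤ m) => chain_lo (chD23_pos k) 0 hF (k + 1) hc u0 u1 (m := m) hm
  have hup := fun {m p q : ℕ} {r : ℝ} (ham : 3 ≤ m) (hpq : m * q = p * 3) (hq : 1 ≤ q)
    (hr : 0 ≤ r) (he' : ((x : ℝ) - ((U.1 : ℚ) : ℝ) ^ 3) ^ p ≤ r ^ q) =>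
    chain_up (chD23_pos k) 0 hF (k + 1) hc u0 u1 u2 (a := 3) (by norm_num) ham hpq hq
      (f := (x : ℝ)) hx6 hr he'
  refine ⟨⟨?_, ?_⟩, ⟨?_, ?_⟩⟩
  · have h := hlo 8 (by norm_num)
    rw [sX_eq]
    refine le_trans ?_ h
    exact_mod_cast b3
  · have h := hup (m := 8) (p := 8) (q := 3) (r := (r : ℝ)) (by norm_num) (by norm_num)
      (by norm_num) (by exact_mod_cast a8) (by exact_mod_cast b1)
    rw [sX_eq]
    refine le_trans h ?_
    exact_mod_cast b4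
  · have h := hlo 16 (by norm_num)
    rw [sX_eq]
    refine le_trans ?_ h
    exact_mod_cast b5
  · have h := hup (m := 16) (p := 16) (q := 3) (r := (s : ℝ)) (by norm_num) (by norm_num)
      (by norm_num) (by exact_mod_cast a9) (by exact_mod_cast b2)
    rw [sX_eq]
    refine le_trans h ?_
    exact_mod_cast b6

theorem LX16_of (N : NumInput) (he : theE ≤ ehat) (h6 : hatV ehat 0 6 ≤ (101233 / 100000 : ℝ))
    (hB : UbL (sB 6) 0 B6u) : Pc.InL (sX 16) LX16 := by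
  refine Pc.InL.of_getD fun k hk => ?_
  have hB' : ∀ k < 9, sB 6 k ≤ ((B6u.getD k 0 : ℚ) : ℝ) := fun k hk => by
    have := hB.getDx k (by rw [show B6u.length = 9 from rfl]; exact hk)
    rwa [zero_add] at this
  exact (mixed_ok N he h6 hB' (by rwa [show LX16.length = 10 from rfl] at hk)).1

theorem LX32_of (N : NumInput) (he : theE ≤ ehat) (h6 : hatV ehat 0 6 ≤ (101233 / 100000 : ℝ))
    (hB : UbL (sB 6) 0 B6u) : Pc.InL (sX 32) LX32 := by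
  refine Pc.InL.of_getD fun k hk => ?_
  have hB' : ∀ k < 9, sB 6 k ≤ ((B6u.getD k 0 : ℚ) : ℝ) := fun k hk => by
    have := hB.getDx k (by rw [show B6u.length = 9 from rfl]; exact hk)
    rwa [zero_add] at this
  exact (mixed_ok N he h6 hB' (by rwa [show LX32.length = 10 from rfl] at hk)).2

/-! ### amplitudes -/

/-- remainders of the amplitude -/
def ra16 : ℚ := 131 / 10000
def ra32 : ℚ := 2 / 10000

/-- the numerical conditions for the amplitudes -/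
theorem ao_chk :
    (2 * B6u.getD 8 0 - (UP.getD 8 (0, 0)).1 ^ 3 - (UM.getD 8 (0, 0)).1 ^ 3) ^ 8 ≤ ra16 ^ 3 ∧
    (2 * B6u.getD 8 0 - (UP.getD 8 (0, 0)).1 ^ 3 - (UM.getD 8 (0, 0)).1 ^ 3) ^ 16 ≤ ra32 ^ 3 ∧
    (UM.getD 8 (0, 0)).2 ^ 8 + ra16 ≤ 252 / 100 ∧
    (UM.getD 8 (0, 0)).2 ^ 16 + ra32 ≤ 623 / 100 := by decide +kernel

theorem ao_of (N : NumInput) (hB : sB 6 8 ≤ ((B6u.getD 8 0 : ℚ) : ℝ)) :
    aOpen hF (-hF) ehat 16 8 * (1223 / 1000) ^ 32 ≤ (252 / 100 : ℝ) ∧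
    aOpen hF (-hF) ehat 32 8 * (1223 / 1000) ^ 64 ≤ (623 / 100 : ℝ) := by
  obtain ⟨c1, c2, c3, c4⟩ := ao_chk
  obtain ⟨p0, p1, p2⟩ := UP_ok N (k := 8) (by norm_num)
  obtain ⟨m0, m1, m2⟩ := UM_ok N (k := 8) (by norm_num)
  set UPp := UP.getD 8 (0, 0)
  set UMm := UM.getD 8 (0, 0)
  set b := B6u.getD 8 0
  have hc : (0 : ℝ) < (1223 / 1000) ^ 2 := by norm_num
  have hd : ∀ i : Fin (8 + 1 + 1), 0 < (fun _ : Fin (8 + 1 + 1) => 3) i := fun _ => by norm_num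
  -- lower bound of the (h,h) chain at 6
  have hP := chain_lo hd hF hF (8 + 2) hc p0 p1 (m := 3) (by norm_num)
  have e6 : ((2 * 3 : ℕ) : ℝ) = 6 := by norm_num
  rw [e6] at hP
  have hf : aChain (8 + 1) (fun _ => 3) hF (-hF) (8 + 2 : ℕ) ehat (2 * 3 : ℕ) *
      ((1223 / 1000 : ℝ) ^ 2) ^ (2 * 3) ≤ 2 * (b : ℝ) - ((UPp.1 : ℚ) : ℝ) ^ 3 := by
    rw [e6]
    unfold sB bOpen at hB
    rw [aOpen_chain, aOpen_chain, cast6] at hB
    have e12 : ((1223 / 1000 : ℝ) ^ 2) ^ (2 * 3) = (1223 / 1000) ^ (2 * 6) := by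
      rw [← pow_mul]
    rw [e12] at hP ⊢
    linarith
  have hup := fun {m p q : ℕ} {r : ℝ} (ham : 3 ≤ m) (hpq : m * q = p * 3) (hq : 1 ≤ q)
    (hr : 0 ≤ r) (he' : (2 * (b : ℝ) - ((UPp.1 : ℚ) : ℝ) ^ 3 - ((UMm.1 : ℚ) : ℝ) ^ 3) ^ p ≤ r ^ q) =>
    chain_up hd hF (-hF) (8 + 2) hc m0 m1 m2 (a := 3) (by norm_num) ham hpq hq hf hr he'
  have hr16 : (0 : ℝ) ≤ (ra16 : ℚ) := by
    have : (0 : ℚ) ≤ ra16 := by unfold ra16; norm_num
    exact_mod_cast this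
  have hr32 : (0 : ℝ) ≤ (ra32 : ℚ) := by
    have : (0 : ℚ) ≤ ra32 := by unfold ra32; norm_num
    exact_mod_cast this
  have h16 := hup (m := 8) (p := 8) (q := 3) (r := ((ra16 : ℚ) : ℝ)) (by norm_num) (by norm_num)
    (by norm_num) hr16 (by exact_mod_cast c1)
  have h32 := hup (m := 16) (p := 16) (q := 3) (r := ((ra32 : ℚ) : ℝ)) (by norm_num) (by norm_num)
    (by norm_num) hr32 (by exact_mod_cast c2)
  have d3 : ((UMm.2 : ℚ) : ℝ) ^ 8 + ((ra16 : ℚ) : ℝ) ≤ 252 / 100 := by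
    have := (Rat.cast_le (K := ℝ)).2 c3
    push_cast at this
    exact this
  have d4 : ((UMm.2 : ℚ) : ℝ) ^ 16 + ((ra32 : ℚ) : ℝ) ≤ 623 / 100 := by
    have := (Rat.cast_le (K := ℝ)).2 c4
    push_cast at this
    exact this
  have f16 : ((2 * 8 : ℕ) : ℝ) = 16 := by norm_num
  have f32 : ((2 * 16 : ℕ) : ℝ) = 32 := by norm_num
  have g16 : ((1223 / 1000 : ℝ) ^ 2) ^ (2 * 8) = (1223 / 1000) ^ 32 := by rw [← pow_mul]
  have g32 : ((1223 / 1000 : ℝ) ^ 2) ^ (2 * 16) = (1223 / 1000) ^ 64 := by rw [← pow_mul]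
  rw [f16, g16] at h16
  rw [f32, g32] at h32
  rw [aOpen_chain, aOpen_chain]
  exact ⟨h16.trans d3, h32.trans d4⟩

theorem ao16_of (N : NumInput) (hB : UbL (sB 6) 0 B6u) :
    aOpen hF (-hF) ehat 16 8 * (1223 / 1000) ^ 32 ≤ (252 / 100 : ℝ) := by
  have := hB.getDx 8 (by rw [show B6u.length = 9 from rfl]; norm_num)
  rw [zero_add] at this
  exact (ao_of N this).1

theorem ao32_of (N : NumInput) (hB : UbL (sB 6) 0 B6u) :
    aOpen hF (-hF) ehat 32 8 * (1223 / 1000) ^ 64 ≤ (623 / 100 : ℝ) := by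
  have := hB.getDx 8 (by rw [show B6u.length = 9 from rfl]; norm_num)
  rw [zero_add] at this
  exact (ao_of N this).2

end Hald
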