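import Crest.Agent.Hald.EthS
import Crest.Agent.Hald.EthX
import Crest.Agent.Hald.EthB

/-!
# Row 347, chunk C: the interval lists `LS16, LX16, LB16, LS32, LX32, LB32` from `NumInput`

(1) Each chain: `F(β) = aChain … k ehat β` is a power sum with top `t = exp(-Ech + k ehat)` (`aChain_top`).  Let
`u = t² · scale` with enclosure `[u₁, u₂]` (lists below, from the energies).  Then at n = 16, 32:
`u₁^(n/2) ≤ F(n)·scale ≤ u₂^(n/2) + (F(b)·scale - u₁^(b/2))^(n/b)`  for b = 8 (`PSTop.rem`, `PS.pow`) and for b = 6.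
(2) Upper bounds at b = 8 for the strips: `S_0..S_7` = `TS8`, and `S_8 ≤ V²S_6`, `S_9 ≤ V³S_6`, `S_10 ≤ V⁴S_6`,
V = 1.00561 (`EJ0.strip` with `V x^k - x^(k+1)` etc., `k` even: `f = x^6(V²-x²)`, `x^6(V³ - x³)`, `x^6(V⁴-x⁴)`).
(3) open chains: k ≤ 4: separately for (h,h) and (h,-h) with b = 8 (`TP8, TM8`);
k = 5..8: total `2 B_k(6)` with b = 6: `B_k(6) ≤ ub_k`, where for V = 1.01233 and the polynomial
`P = (V - x) r(x)²` (k = 5, 7) or `(V² - x²) r(x)²` (k = 6, 8), leading coefficient -1 at `x^k`: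
`0 ≤ mom B P`, i.e. `B_k ≤ ∑_{i<k} P_i B_i ≤ ∑ P_i (hi_i or lo_i)`; `lo_i = (u^3+u'^3)/2` for i ≥ 5
(lower bounds from the energies), hi_i = the bound just proved.
   k = 5: r = ['-213/1000', '-193/1000', '1'] (constant term first), ub_5 = 2750937717/2500000000
   k = 6: r = ['-213/1000', '-193/1000', '1'] (constant term first), ub_6 = 10938914239/10000000000
   k = 7: r = ['-149/1000', '-87/250', '253/500', '1'] (constant term first), ub_7 = 10933783681/10000000000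
   k = 8: r = ['-9/250', '-121/500', '-7/250', '1'] (constant term first), ub_8 = 11000291149/10000000000
(4) mixed chains, b = 6: `X_k(6)² ≤ S_{2i}(6) B_{2j}(6)` with (i,j) = [(0, 0), (1, 0), (1, 1), (1, 2), (1, 3), (2, 3), (2, 4), (3, 4), (4, 4), (5, 4)] for k = 0..9
(`EJ0.cs` with `x^i`, `x^j`), `S_8(6) ≤ V² S_6`, `S_10(6) ≤ V⁴ S_6`, V = 1.01233.
(5) exponents n/6: bound `e^(16/6) ≤ r` by `e^8 ≤ r^3` (`e^(32/6) ≤ r` by `e^16 ≤ r^3`), r below.
The final lists are rounded outwards to 10 digits; all inequalities were verified in exact arithmetic.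
-/

set_option autoImplicit false

namespace Hald

-- `LS16_ok`, `LS32_ok` are in EthS.lean

theorem LX16_ok (N : NumInput) (he : theE ≤ ehat)
    (h6 : hatV ehat 0 6 ≤ (101233 / 100000 : ℝ)) (_ : hatV ehat 0 8 ≤ (100561 / 100000 : ℝ)) :
    Pc.InL (sX 16) LX16 := LX16_of N he h6 (B6u_ok N he h6)

theorem LB16_ok (N : NumInput) (he : theE ≤ ehat)
    (h6 : hatV ehat 0 6 ≤ (101233 / 100000 : ℝ)) (_ : hatV ehat 0 8 ≤ (100561 / 100000 : ℝ)) :
    Pc.InL (sB 16) LB16 := LB16_B N he h6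

theorem LX32_ok (N : NumInput) (he : theE ≤ ehat)
    (h6 : hatV ehat 0 6 ≤ (101233 / 100000 : ℝ)) (_ : hatV ehat 0 8 ≤ (100561 / 100000 : ℝ)) :
    Pc.InL (sX 32) LX32 := LX32_of N he h6 (B6u_ok N he h6)

theorem LB32_ok (N : NumInput) (he : theE ≤ ehat)
    (h6 : hatV ehat 0 6 ≤ (101233 / 100000 : ℝ)) (_ : hatV ehat 0 8 ≤ (100561 / 100000 : ℝ)) :
    Pc.InL (sB 32) LB32 := LB32_B N he h6

/-- amplitudes: 10 spins 1, fields (h,-h): `t^n + (2B_8(6) - …)^(n/6)` -/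
theorem ao16_le (N : NumInput) (he : theE ≤ ehat)
    (h6 : hatV ehat 0 6 ≤ (101233 / 100000 : ℝ)) (_ : hatV ehat 0 8 ≤ (100561 / 100000 : ℝ)) :
    aOpen hF (-hF) ehat 16 8 * (1223 / 1000) ^ 32 ≤ (252 / 100 : ℝ) := ao16_B N he h6

theorem ao32_le (N : NumInput) (he : theE ≤ ehat)
    (h6 : hatV ehat 0 6 ≤ (101233 / 100000 : ℝ)) (_ : hatV ehat 0 8 ≤ (100561 / 100000 : ℝ)) :
    aOpen hF (-hF) ehat 32 8 * (1223 / 1000) ^ 64 ≤ (623 / 100 : ℝ) := ao32_B N he h6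

end Hald
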