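import Crest.Agent.Hald.EthTool

/-!
# Row 347, chunk C: strips at `n = 16, 32`: `LS16_ok`, `LS32_ok`; upper bounds `S8u`, `S6u`
-/

set_option autoImplicit false

namespace Hald

/-- `S_{6+j} ≤ v^j S_6` -/
theorem EJ0.strip_ext {V : ℝ} {S X B : ℕ → ℝ} (J : EJ0 V S X B) {v : ℝ} (hV : V ≤ v) (j : ℕ) :
    S (6 + j) ≤ v ^ j * S 6 := by
  have h := J.strip (Polynomial.X ^ 6 * (Polynomial.C (v ^ j) - Polynomial.X ^ j)) (fun x hx => by
    simp only [Polynomial.eval_mul, Polynomial.eval_pow, Polynomial.eval_X, Polynomial.eval_sub,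
      Polynomial.eval_C]
    have h1 : x ^ j ≤ v ^ j := by
      calc x ^ j ≤ |x ^ j| := le_abs_self _
        _ = |x| ^ j := abs_pow _ _
        _ ≤ v ^ j := pow_le_pow_left₀ (abs_nonneg _) (hx.trans hV) _
    have h2 : 0 ≤ x ^ 6 := by positivity
    exact mul_nonneg h2 (sub_nonneg.2 h1))
  have e : (Polynomial.X ^ 6 * (Polynomial.C (v ^ j) - Polynomial.X ^ j) : Polynomial ℝ) =
      Polynomial.monomial 6 (v ^ j) - Polynomial.monomial (6 + j) (1 : ℝ) := by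
    rw [mul_sub, ← pow_add, ← Polynomial.C_mul_X_pow_eq_monomial, ← Polynomial.C_mul_X_pow_eq_monomial,
      map_one, one_mul, mul_comm]
  rw [e, map_sub, mom_monomial, mom_monomial] at h
  linarith

theorem UbL.of_getD {m : ℕ → ℝ} : ∀ (us : List ℚ) (i : ℕ),
    (∀ k < us.length, m (i + k) ≤ ((us.getD k 0 : ℚ) : ℝ)) → UbL m i us
  | [], _, _ => trivial
  | u :: us, i, h => by
    refine ⟨?_, UbL.of_getD us (i + 1) fun k hk => ?_⟩
    · have := h 0 (by simp)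
      simpa using this
    · have := h (k + 1) (by simpa using hk)
      rw [show i + 1 + k = i + (k + 1) by ring]
      simpa using this

theorem UbL.getD {m : ℕ → ℝ} : ∀ {us : List ℚ} {i : ℕ}, UbL m i us →
    ∀ k < us.length, m (i + k) ≤ ((us.getD k 0 : ℚ) : ℝ)
  | [], _, _, k, hk => absurd hk (Nat.not_lt_zero k)
  | u :: us, i, h, k, hk => by
    cases k with
    | zero => simpa using h.1
    | succ k =>
      have := UbL.getD h.2 k (by simpa using hk)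
      rw [show i + 1 + k = i + (k + 1) by ring] at this
      simpa using this

theorem S8u_chk1 : ∀ k < 8, (TS8.getD k (0, 0)).2 * kS ^ 16 ≤ S8u.getD k 0 := by decide +kernel
theorem S8u_chk2 : ∀ j < 5, 2 ≤ j → (mkRat 100561 100000) ^ j * S8u.getD 6 0 ≤ S8u.getD (6 + j) 0 := by
  decide +kernel
theorem S6u_chk1 : ∀ k < 8, (TS6.getD k (0, 0)).2 * kS ^ 12 ≤ S6u.getD k 0 := by decide +kernel
theorem S6u_chk2 : ∀ j < 5, 2 ≤ j → (mkRat 101233 100000) ^ j * S6u.getD 6 0 ≤ S6u.getD (6 + j) 0 := by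
  decide +kernel

theorem sS8_le (N : NumInput) (he : theE ≤ ehat) (h8 : hatV ehat 0 8 ≤ (100561 / 100000 : ℝ)) :
    ∀ k < 11, sS 8 k ≤ ((S8u.getD k 0 : ℚ) : ℝ) := by
  have hlo : ∀ k < 8, sS 8 k ≤ ((S8u.getD k 0 : ℚ) : ℝ) := by
    intro k hk
    have h1 := (N.strip8.get (k := k) (by rw [show TS8.length = 8 from rfl]; exact hk)).2
    have h2 : ((((TS8.getD k (0, 0)).2 * kS ^ 16 : ℚ)) : ℝ) ≤ ((S8u.getD k 0 : ℚ) : ℝ) := by
      exact_mod_cast S8u_chk1 k hk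
    refine le_trans ?_ h2
    rw [Rat.cast_mul, Rat.cast_pow, cast_kS]
    exact mul_le_mul_of_nonneg_right h1 (by positivity)
  intro k hk
  rcases Nat.lt_or_ge k 8 with h | h
  · exact hlo k h
  · obtain ⟨j, rfl⟩ : ∃ j, k = 6 + j := ⟨k - 6, by omega⟩
    have J := ej0 he (n := 8) (by norm_num)
    have h1 := J.strip_ext (v := 100561 / 100000) (by exact_mod_cast h8) j
    have h2 : ((((mkRat 100561 100000) ^ j * S8u.getD 6 0 : ℚ)) : ℝ) ≤ ((S8u.getD (6 + j) 0 : ℚ) : ℝ) := by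
      exact_mod_cast S8u_chk2 j (by omega) (by omega)
    refine h1.trans (le_trans ?_ h2)
    rw [Rat.cast_mul, Rat.cast_pow, cast_mkRat']
    push_cast
    exact mul_le_mul_of_nonneg_left (hlo 6 (by norm_num)) (by positivity)

theorem sS6_le (N : NumInput) (he : theE ≤ ehat) (h6 : hatV ehat 0 6 ≤ (101233 / 100000 : ℝ)) :
    ∀ k < 11, sS 6 k ≤ ((S6u.getD k 0 : ℚ) : ℝ) := by
  have hlo : ∀ k < 8, sS 6 k ≤ ((S6u.getD k 0 : ℚ) : ℝ) := by
    intro k hk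
    have h1 := (N.strip6.get (k := k) (by rw [show TS6.length = 8 from rfl]; exact hk)).2
    have h2 : ((((TS6.getD k (0, 0)).2 * kS ^ 12 : ℚ)) : ℝ) ≤ ((S6u.getD k 0 : ℚ) : ℝ) := by
      exact_mod_cast S6u_chk1 k hk
    refine le_trans ?_ h2
    rw [Rat.cast_mul, Rat.cast_pow, cast_kS]
    exact mul_le_mul_of_nonneg_right h1 (by positivity)
  intro k hk
  rcases Nat.lt_or_ge k 8 with h | h
  · exact hlo k h
  · obtain ⟨j, rfl⟩ : ∃ j, k = 6 + j := ⟨k - 6, by omega⟩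
    have J := ej0 he (n := 6) (by norm_num)
    have h1 := J.strip_ext (v := 101233 / 100000) (by exact_mod_cast h6) j
    have h2 : ((((mkRat 101233 100000) ^ j * S6u.getD 6 0 : ℚ)) : ℝ) ≤ ((S6u.getD (6 + j) 0 : ℚ) : ℝ) := by
      exact_mod_cast S6u_chk2 j (by omega) (by omega)
    refine h1.trans (le_trans ?_ h2)
    rw [Rat.cast_mul, Rat.cast_pow, cast_mkRat']
    push_cast
    exact mul_le_mul_of_nonneg_left (hlo 6 (by norm_num)) (by positivity)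

theorem S8u_ok (N : NumInput) (he : theE ≤ ehat) (h8 : hatV ehat 0 8 ≤ (100561 / 100000 : ℝ)) :
    UbL (sS 8) 0 S8u :=
  UbL.of_getD _ _ fun k hk => by
    rw [zero_add]
    exact sS8_le N he h8 k hk

theorem S6u_ok (N : NumInput) (he : theE ≤ ehat) (h6 : hatV ehat 0 6 ≤ (101233 / 100000 : ℝ)) :
    UbL (sS 6) 0 S6u :=
  UbL.of_getD _ _ fun k hk => by
    rw [zero_add]
    exact sS6_le N he h6 k hk

/-- bounds of the strips at `n = 2 m = 8 p` -/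
theorem sS_bounds (N : NumInput) {k : ℕ} (hk : k < 11) {m p : ℕ} (hp : m = 4 * p) (hp0 : 1 ≤ p) {f : ℝ}
    (hf : sS 8 k ≤ f) :
    (((US.getD k (0, 0)).1 : ℚ) : ℝ) ^ m ≤ sS (2 * m) k ∧
      sS (2 * m) k ≤ (((US.getD k (0, 0)).2 : ℚ) : ℝ) ^ m + (f - (((US.getD k (0, 0)).1 : ℚ) : ℝ) ^ 4) ^ p := by
  obtain ⟨u0, u1, u2⟩ := US_ok N hk
  have hd : ∀ i, 0 < chD 2 2 k i := chD_pos (by norm_num) (by norm_num)
  have hc : (0 : ℝ) < (7383 / 10000 : ℝ) ^ 2 := by positivity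
  have e : ∀ q : ℕ, sS (2 * q) k =
      aChain (k + 1) (chD 2 2 k) 0 0 k ehat ((2 * q : ℕ) : ℝ) * ((7383 / 10000 : ℝ) ^ 2) ^ (2 * q) := by
    intro q
    unfold sS
    rw [aStrip_chain, ← pow_mul]
  have hf4 : aChain (k + 1) (chD 2 2 k) 0 0 k ehat ((2 * 4 : ℕ) : ℝ) *
      ((7383 / 10000 : ℝ) ^ 2) ^ (2 * 4) ≤ f := by
    rw [← e 4]; exact hf
  have lo4 := chain_lo hd 0 0 k hc u0 u1 (m := 4) (by norm_num)
  constructor
  · rw [e m]
    exact chain_lo hd 0 0 k hc u0 u1 (by omega)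
  · rw [e m]
    exact chain_up hd 0 0 k hc u0 u1 u2 (a := 4) (p := p) (q := 1) (by norm_num) (by omega)
      (by omega) le_rfl hf4 (pow_nonneg (sub_nonneg.2 (lo4.trans hf4)) _) (by rw [pow_one])

theorem LS_chk : ∀ k < 11,
    ((LS16.getD k (0, 0)).1 ≤ (US.getD k (0, 0)).1 ^ 8 ∧
      (US.getD k (0, 0)).2 ^ 8 + (S8u.getD k 0 - (US.getD k (0, 0)).1 ^ 4) ^ 2 ≤ (LS16.getD k (0, 0)).2) ∧
    ((LS32.getD k (0, 0)).1 ≤ (US.getD k (0, 0)).1 ^ 16 ∧
      (US.getD k (0, 0)).2 ^ 16 + (S8u.getD k 0 - (US.getD k (0, 0)).1 ^ 4) ^ 4 ≤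
        (LS32.getD k (0, 0)).2) := by decide +kernel

theorem LS16_ok (N : NumInput) (he : theE ≤ ehat)
    (_h6 : hatV ehat 0 6 ≤ (101233 / 100000 : ℝ)) (h8 : hatV ehat 0 8 ≤ (100561 / 100000 : ℝ)) :
    Pc.InL (sS 16) LS16 := by
  refine Pc.InL.of_getD fun k hk => ?_
  have hk : k < 11 := hk
  obtain ⟨b1, b2⟩ := sS_bounds N hk (m := 8) (p := 2) (by norm_num) (by norm_num) (sS8_le N he h8 k hk)
  obtain ⟨⟨c1, c2⟩, -⟩ := LS_chk k hk
  constructor
  · refine le_trans ?_ b1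
    exact_mod_cast c1
  · refine b2.trans ?_
    exact_mod_cast c2

theorem LS32_ok (N : NumInput) (he : theE ≤ ehat)
    (_h6 : hatV ehat 0 6 ≤ (101233 / 100000 : ℝ)) (h8 : hatV ehat 0 8 ≤ (100561 / 100000 : ℝ)) :
    Pc.InL (sS 32) LS32 := by
  refine Pc.InL.of_getD fun k hk => ?_
  have hk : k < 11 := hk
  obtain ⟨b1, b2⟩ := sS_bounds N hk (m := 16) (p := 4) (by norm_num) (by norm_num) (sS8_le N he h8 k hk)
  obtain ⟨-, c1, c2⟩ := LS_chk k hk
  constructor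
  · refine le_trans ?_ b1
    exact_mod_cast c1
  · refine b2.trans ?_
    exact_mod_cast c2

end Hald
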