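import Crest.Agent.Hald.EthBase
import Crest.Agent.Hald.EthTop

/-! # Row 347: imports `EthBase` (UbL, tcL) and `EthTop` (lists, US_ok, …) -/
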