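import Crest.Agent.Hald.Tensor

/-!
# Row 347, module M2 (auxiliary): facts about matrix exponentials

* `exp_conj_of_mul_eq_one`: `U * V = 1 → exp (U * A * V) = U * exp A * V`;
* `exp_commute`: `U * A = A * U → U * exp A = exp A * U`;
* `exp_site`: `exp (site j F) = site j (exp F)`;
* `exp_map_ofReal`, `exp_reindex`;
* `trace_exp_eq_sum`: trace of the exponential of a Hermitian matrix.
-/

set_option autoImplicit false
set_option linter.unusedSectionVars false

namespace Hald

open Matrix Finset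

section

variable {𝕜 κ : Type*} [RCLike 𝕜] [Fintype κ] [DecidableEq κ]

theorem exp_conj_of_mul_eq_one {U V : Matrix κ κ 𝕜} (h : U * V = 1) (A : Matrix κ κ 𝕜) :
    NormedSpace.exp (U * A * V) = U * NormedSpace.exp A * V := by
  have hV : V = U⁻¹ := (Matrix.inv_eq_right_inv h).symm
  have hU : IsUnit U := IsUnit.of_mul_eq_one V h
  rw [hV]
  exact Matrix.exp_conj U A hU

theorem exp_commute {U A : Matrix κ κ 𝕜} (h : U * A = A * U) :
    U * NormedSpace.exp A = NormedSpace.exp A * U := by
  have : Commute U A := h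
  exact (this.exp_right).eq

theorem exp_smul_commute {U A : Matrix κ κ 𝕜} (h : U * A = A * U) (β : ℝ) :
    U * NormedSpace.exp (β • A) = NormedSpace.exp (β • A) * U := by
  apply exp_commute
  rw [Matrix.mul_smul, Matrix.smul_mul, h]

theorem exp_conj_smul_of_mul_eq_one {U V : Matrix κ κ 𝕜} (h : U * V = 1) (A : Matrix κ κ 𝕜)
    (β : ℝ) :
    NormedSpace.exp (β • (U * A * V)) = U * NormedSpace.exp (β • A) * V := by
  rw [← exp_conj_of_mul_eq_one h, Matrix.mul_smul, Matrix.smul_mul]

/-- Real exponentials inside the complex matrices. -/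
theorem exp_map_ofReal (A : Matrix κ κ ℝ) :
    (NormedSpace.exp A).map (fun x : ℝ => (x : ℂ)) =
      NormedSpace.exp (A.map (fun x : ℝ => (x : ℂ))) := by
  have hc : Continuous (fun A : Matrix κ κ ℝ => (Complex.ofRealHom.mapMatrix A : Matrix κ κ ℂ)) := by
    refine continuous_matrix fun i j => ?_
    exact Complex.continuous_ofReal.comp (continuous_id.matrix_elem i j)
  have := open scoped Norms.Operator in
    NormedSpace.map_exp (Complex.ofRealHom.mapMatrix : Matrix κ κ ℝ →+* Matrix κ κ ℂ) hc A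
  exact this

theorem exp_reindex {κ' : Type*} [Fintype κ'] [DecidableEq κ'] (e : κ ≃ κ') (A : Matrix κ κ 𝕜) :
    NormedSpace.exp (Matrix.reindex e e A) = Matrix.reindex e e (NormedSpace.exp A) := by
  have hc : Continuous (fun A : Matrix κ κ 𝕜 => (Matrix.reindexRingEquiv 𝕜 e A : Matrix κ' κ' 𝕜)) :=
    continuous_matrix fun i j => continuous_id.matrix_elem (e.symm i) (e.symm j)
  have := open scoped Norms.Operator in
    NormedSpace.map_exp (Matrix.reindexRingEquiv 𝕜 e : Matrix κ κ 𝕜 ≃+* Matrix κ' κ' 𝕜) hc A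
  exact this.symm

theorem trace_reindex {κ' R : Type*} [Fintype κ'] [AddCommMonoid R] (e : κ ≃ κ')
    (A : Matrix κ κ R) : (Matrix.reindex e e A).trace = A.trace := by
  simp only [Matrix.trace, Matrix.diag_apply, Matrix.reindex_apply, Matrix.submatrix_apply]
  exact e.symm.sum_comp fun i => A i i

end

section Site

variable {𝕜 ι : Type*} {κ : ι → Type*} [RCLike 𝕜] [Fintype ι] [DecidableEq ι]
  [∀ i, Fintype (κ i)] [∀ i, DecidableEq (κ i)]

/-- `site j` as a ring homomorphism. -/
noncomputable def siteHom (j : ι) : Matrix (κ j) (κ j) 𝕜 →+* Matrix (∀ i, κ i) (∀ i, κ i) 𝕜 where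
  toFun := site j
  map_one' := site_one j
  map_mul' A B := (site_mul_same j A B).symm
  map_zero' := site_zero j
  map_add' := site_add j

theorem continuous_site (j : ι) :
    Continuous (site j : Matrix (κ j) (κ j) 𝕜 → Matrix (∀ i, κ i) (∀ i, κ i) 𝕜) := by
  refine continuous_matrix fun σ τ => ?_
  simp only [site_apply]
  split_ifs
  · exact continuous_id.matrix_elem _ _
  · exact continuous_const

theorem exp_site (j : ι) (F : Matrix (κ j) (κ j) 𝕜) :
    NormedSpace.exp (site j F : Matrix (∀ i, κ i) (∀ i, κ i) 𝕜) = site j (NormedSpace.exp F) := by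
  have := open scoped Norms.Operator in
    NormedSpace.map_exp (siteHom (κ := κ) (𝕜 := 𝕜) j) (continuous_site j) F
  exact this.symm

theorem site_real_smul (j : ι) (c : ℝ) (F : Matrix (κ j) (κ j) 𝕜) :
    site j (c • F) = c • (site j F : Matrix (∀ i, κ i) (∀ i, κ i) 𝕜) := by
  have h1 : c • F = (c : 𝕜) • F := by
    ext a b
    simp [RCLike.real_smul_eq_coe_mul]
  have h2 : c • (site j F : Matrix (∀ i, κ i) (∀ i, κ i) 𝕜) = (c : 𝕜) • site j F := by
    ext a b
    simp [RCLike.real_smul_eq_coe_mul]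
  rw [h1, site_smul, h2]

theorem exp_smul_site (j : ι) (c : ℝ) (F : Matrix (κ j) (κ j) 𝕜) :
    NormedSpace.exp (c • (site j F : Matrix (∀ i, κ i) (∀ i, κ i) 𝕜)) =
      site j (NormedSpace.exp (c • F)) := by
  rw [← site_real_smul, exp_site]

end Site

section Trace

variable {𝕜 κ : Type*} [RCLike 𝕜] [Fintype κ] [DecidableEq κ]

/-- Trace of the exponential of a Hermitian matrix. -/
theorem trace_exp_eq_sum {H : Matrix κ κ 𝕜} (hH : H.IsHermitian) (β : ℝ) :
    (NormedSpace.exp (β • H)).trace = ((∑ i, Real.exp (β * hH.eigenvalues i) : ℝ) : 𝕜) := by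
  have hU : (hH.eigenvectorUnitary : Matrix κ κ 𝕜) * star (hH.eigenvectorUnitary : Matrix κ κ 𝕜) = 1 :=
    Unitary.mul_star_self_of_mem hH.eigenvectorUnitary.2
  have hU' : star (hH.eigenvectorUnitary : Matrix κ κ 𝕜) * (hH.eigenvectorUnitary : Matrix κ κ 𝕜) = 1 :=
    Unitary.star_mul_self_of_mem hH.eigenvectorUnitary.2
  have hs : H = (hH.eigenvectorUnitary : Matrix κ κ 𝕜) *
      Matrix.diagonal (fun i => (hH.eigenvalues i : 𝕜)) *
        star (hH.eigenvectorUnitary : Matrix κ κ 𝕜) := by
    have := hH.spectral_theorem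
    simpa [Unitary.conjStarAlgAut_apply, Function.comp_def] using this
  have h1 : NormedSpace.exp (β • H) = (hH.eigenvectorUnitary : Matrix κ κ 𝕜) *
      NormedSpace.exp (β • Matrix.diagonal (fun i => (hH.eigenvalues i : 𝕜))) *
        star (hH.eigenvectorUnitary : Matrix κ κ 𝕜) := by
    conv_lhs => rw [hs]
    exact exp_conj_smul_of_mul_eq_one hU _ β
  have h2 : β • Matrix.diagonal (fun i => (hH.eigenvalues i : 𝕜)) =
      Matrix.diagonal (fun i => ((β * hH.eigenvalues i : ℝ) : 𝕜)) := by
    rw [← Matrix.diagonal_smul]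
    congr 1
    funext i
    simp [RCLike.real_smul_eq_coe_mul]
  rw [h1, Matrix.trace_mul_cycle, hU', Matrix.one_mul, h2, Matrix.exp_diagonal, Matrix.trace_diagonal]
  push_cast
  refine Finset.sum_congr rfl fun i _ => ?_
  rw [Pi.coe_exp, Real.exp_eq_exp_ℝ]
  have := NormedSpace.algebraMap_exp_comm (𝕂 := ℝ) (𝔸 := 𝕜) (β * hH.eigenvalues i)
  simpa using this.symm

end Trace

end Hald
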