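import Crest.Agent.Hald.SectorAlg

/-!
# Row 347, M5 (5d): finite dimensional spectral facts

* `trace_ge_one`, `trace_ge_two`: eigenvectors inside a sector bound the sector trace from below;
* `exists_top`: the top of a sector;
* `SymK K Π`: hypotheses on a transfer matrix; `SymK.spectral`: moments as sums over a spectral decomposition.
-/

set_option autoImplicit false
set_option linter.unusedSectionVars false

namespace Hald

open Matrix Finset
open scoped ComplexOrder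

variable {Ω : Type*} [Fintype Ω] [DecidableEq Ω]

/-- rank one projector -/
noncomputable def rk1 (x : Ω → ℂ) : Matrix Ω Ω ℂ := Matrix.vecMulVec x (star x)

theorem rk1_herm (x : Ω → ℂ) : (rk1 x)ᴴ = rk1 x := by
  ext i j
  simp [rk1, Matrix.vecMulVec_apply, Matrix.conjTranspose_apply, mul_comm]

theorem rk1_mul_self {x : Ω → ℂ} (hx : star x ⬝ᵥ x = 1) : rk1 x * rk1 x = rk1 x := by
  unfold rk1
  rw [Matrix.vecMulVec_mul_vecMulVec, hx, one_smul]

theorem rk1_mul_orth {x y : Ω → ℂ} (hxy : star x ⬝ᵥ y = 0) : rk1 x * rk1 y = 0 := by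
  unfold rk1
  rw [Matrix.vecMulVec_mul_vecMulVec, hxy, zero_smul, Matrix.vecMulVec_zero]

theorem mul_rk1 (A : Matrix Ω Ω ℂ) (x : Ω → ℂ) : A * rk1 x = Matrix.vecMulVec (A *ᵥ x) (star x) := by
  unfold rk1
  rw [Matrix.mul_vecMulVec]

theorem mul_rk1_of {P : Matrix Ω Ω ℂ} {x : Ω → ℂ} (h : P *ᵥ x = x) : P * rk1 x = rk1 x := by
  rw [mul_rk1, h]; rfl

theorem rk1_mul_of {P : Matrix Ω Ω ℂ} (hP : Pᴴ = P) {x : Ω → ℂ} (h : P *ᵥ x = x) :
    rk1 x * P = rk1 x := by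
  have := congrArg Matrix.conjTranspose (mul_rk1_of h)
  rw [Matrix.conjTranspose_mul, rk1_herm, hP] at this
  exact this

theorem trace_rk1_mul (A : Matrix Ω Ω ℂ) (x : Ω → ℂ) :
    (rk1 x * A).trace = star x ⬝ᵥ A *ᵥ x := by
  rw [Matrix.trace_mul_comm, mul_rk1, Matrix.trace_vecMulVec, dotProduct_comm]

theorem pow_mulVec_eig {T : Matrix Ω Ω ℂ} {x : Ω → ℂ} {μ : ℂ} (h : T *ᵥ x = μ • x) (m : ℕ) :
    T ^ m *ᵥ x = μ ^ m • x := by
  induction m with
  | zero => simp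
  | succ m ih =>
    rw [pow_succ', ← Matrix.mulVec_mulVec, ih, Matrix.mulVec_smul, h, smul_smul, pow_succ]

/-- trace against a Hermitian projection is nonnegative -/
theorem trace_proj_nonneg {R S : Matrix Ω Ω ℂ} (hR : HProj R) (hS : S.PosSemidef) :
    0 ≤ (R * S).trace.re := by
  have h1 : (R * S).trace = (Rᴴ * S * R).trace := by
    rw [hR.herm, Matrix.trace_mul_comm (R * S) R, ← Matrix.mul_assoc, hR.idem]
  rw [h1]
  exact (Complex.nonneg_iff.1 (hS.conjTranspose_mul_mul_same R).trace_nonneg).1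

theorem HProj.sub_of {P Q : Matrix Ω Ω ℂ} (hP : HProj P) (hQ : HProj Q) (h : P * Q = Q) :
    HProj (P - Q) := by
  have h' : Q * P = Q := by
    have := congrArg Matrix.conjTranspose h
    rw [Matrix.conjTranspose_mul, hP.herm, hQ.herm] at this
    exact this
  refine ⟨by rw [Matrix.conjTranspose_sub, hP.herm, hQ.herm], ?_⟩
  rw [Matrix.sub_mul, Matrix.mul_sub, Matrix.mul_sub, hP.idem, hQ.idem, h, h', sub_self, sub_zero]

theorem trace_mono {P Q S : Matrix Ω Ω ℂ} (hP : HProj P) (hQ : HProj Q) (h : P * Q = Q)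
    (hS : S.PosSemidef) : (Q * S).trace.re ≤ (P * S).trace.re := by
  have := trace_proj_nonneg (hP.sub_of hQ h) hS
  rw [Matrix.sub_mul, Matrix.trace_sub, Complex.sub_re] at this
  linarith

theorem trace_ge_one {P T : Matrix Ω Ω ℂ} (hP : HProj P) (hT : T.PosSemidef) {x : Ω → ℂ}
    (hx : star x ⬝ᵥ x = 1) (hPx : P *ᵥ x = x) {μ : ℝ} (hTx : T *ᵥ x = (μ : ℂ) • x) (m : ℕ) :
    μ ^ m ≤ (P * T ^ m).trace.re := by
  have hQ : HProj (rk1 x) := ⟨rk1_herm x, rk1_mul_self hx⟩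
  refine le_trans (le_of_eq ?_) (trace_mono hP hQ (mul_rk1_of hPx) (hT.pow m))
  rw [trace_rk1_mul, pow_mulVec_eig hTx, dotProduct_smul, hx, smul_eq_mul, mul_one,
    ← Complex.ofReal_pow, Complex.ofReal_re]

theorem trace_ge_two {P T : Matrix Ω Ω ℂ} (hP : HProj P) (hT : T.PosSemidef) {x y : Ω → ℂ}
    (hx : star x ⬝ᵥ x = 1) (hy : star y ⬝ᵥ y = 1) (hxy : star x ⬝ᵥ y = 0) (hPx : P *ᵥ x = x)
    (hPy : P *ᵥ y = y) {l μ : ℝ} (hTx : T *ᵥ x = (l : ℂ) • x) (hTy : T *ᵥ y = (μ : ℂ) • y) (m : ℕ) :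
    l ^ m + μ ^ m ≤ (P * T ^ m).trace.re := by
  have hyx : star y ⬝ᵥ x = 0 := by
    have := congrArg star hxy
    rw [star_zero, Matrix.star_dotProduct, star_star] at this
    exact this
  have hQ : HProj (rk1 x + rk1 y) := by
    refine ⟨by rw [Matrix.conjTranspose_add, rk1_herm, rk1_herm], ?_⟩
    rw [Matrix.add_mul, Matrix.mul_add, Matrix.mul_add, rk1_mul_self hx, rk1_mul_self hy,
      rk1_mul_orth hxy, rk1_mul_orth hyx, add_zero, zero_add]
  have hPQ : P * (rk1 x + rk1 y) = rk1 x + rk1 y := by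
    rw [Matrix.mul_add, mul_rk1_of hPx, mul_rk1_of hPy]
  refine le_trans (le_of_eq ?_) (trace_mono hP hQ hPQ (hT.pow m))
  rw [Matrix.add_mul, Matrix.trace_add, trace_rk1_mul, trace_rk1_mul, pow_mulVec_eig hTx,
    pow_mulVec_eig hTy, dotProduct_smul, dotProduct_smul, hx, hy, smul_eq_mul, smul_eq_mul,
    mul_one, mul_one, ← Complex.ofReal_pow, ← Complex.ofReal_pow, Complex.add_re,
    Complex.ofReal_re, Complex.ofReal_re]

/-- eigenvectors of a Hermitian matrix with different eigenvalues are orthogonal -/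
theorem eig_orth {T : Matrix Ω Ω ℂ} (hT : Tᴴ = T) {x y : Ω → ℂ} {l μ : ℝ}
    (hTx : T *ᵥ x = (l : ℂ) • x) (hTy : T *ᵥ y = (μ : ℂ) • y) (h : l ≠ μ) : star x ⬝ᵥ y = 0 := by
  have h1 : star x ⬝ᵥ T *ᵥ y = (μ : ℂ) * (star x ⬝ᵥ y) := by
    rw [hTy, dotProduct_smul, smul_eq_mul]
  have h2 : star x ⬝ᵥ T *ᵥ y = (l : ℂ) * (star x ⬝ᵥ y) := by
    rw [Matrix.dotProduct_mulVec]
    have h3 : star x ᵥ* T = star (T *ᵥ x) := by
      rw [Matrix.star_mulVec, hT]
    rw [h3, hTx, star_smul, smul_dotProduct, smul_eq_mul]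
    congr 1
    exact Complex.conj_ofReal l
  have h4 : ((l : ℂ) - μ) * (star x ⬝ᵥ y) = 0 := by rw [sub_mul, ← h1, ← h2, sub_self]
  rcases mul_eq_zero.1 h4 with h5 | h5
  · exfalso
    apply h
    have := sub_eq_zero.1 h5
    exact_mod_cast this
  · exact h5

/-- the top of a sector -/
theorem exists_top {P T : Matrix Ω Ω ℂ} (hP : HProj P) (hPT : P * T = T * P) (hT : T.PosSemidef)
    (hpos : 0 < (P * T).trace.re) :
    ∃ (v : ℝ) (x : Ω → ℂ), 0 < v ∧ star x ⬝ᵥ x = 1 ∧ P *ᵥ x = x ∧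
      T *ᵥ x = ((v ^ 2 : ℝ) : ℂ) • x ∧
      (∀ m, 1 ≤ m → v ^ (2 * m) ≤ (P * T ^ m).trace.re) ∧
      (∀ m, 1 ≤ m → (P * T ^ m).trace.re ≤ v ^ (2 * (m - 1)) * (P * T).trace.re) ∧
      (∀ (μ : ℝ) (y : Ω → ℂ), y ≠ 0 → P *ᵥ y = y → T *ᵥ y = (μ : ℂ) • y → μ ≤ v ^ 2) := by
  have hA := proj_posSemidef hP hT hPT
  obtain ⟨U, h1, h2, hd⟩ := herm_decomp hA.isHermitian
  set l := hA.isHermitian.eigenvalues with hl
  have hl0 : ∀ i, 0 ≤ l i := hA.eigenvalues_nonneg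
  have htr : ∀ m, 1 ≤ m → (P * T ^ m).trace.re = ∑ i, l i ^ m := by
    intro m hm
    rw [← proj_mul_pow' hP hPT hm]
    conv_lhs => rw [hd]
    rw [conj_diag_pow h1 h2, trace_conj_diag h2]
    rw [Complex.re_sum]
    refine Finset.sum_congr rfl fun i _ => ?_
    rw [← Complex.ofReal_pow, Complex.ofReal_re]
  have htr1 : (P * T).trace.re = ∑ i, l i := by
    have := htr 1 le_rfl
    simpa using this
  have hne : (Finset.univ : Finset Ω).Nonempty := by
    rw [Finset.univ_nonempty_iff]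
    by_contra hcon
    rw [not_nonempty_iff] at hcon
    rw [htr1] at hpos
    simp at hpos
  obtain ⟨i0, -, hi0⟩ := Finset.exists_max_image Finset.univ l hne
  have hmax : ∀ i, l i ≤ l i0 := fun i => hi0 i (Finset.mem_univ i)
  have hl1 : 0 < l i0 := by
    by_contra hcon
    push Not at hcon
    have : ∑ i, l i ≤ 0 := Finset.sum_nonpos fun i _ => (hmax i).trans hcon
    rw [htr1] at hpos
    linarith
  have hv2 : Real.sqrt (l i0) ^ 2 = l i0 := Real.sq_sqrt hl1.le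
  -- the eigenvector
  set x : Ω → ℂ := U *ᵥ Pi.single i0 1 with hx
  have hAx : (P * T) *ᵥ x = ((l i0 : ℝ) : ℂ) • x := by
    rw [hx, hd, Matrix.mulVec_mulVec, Matrix.mul_assoc, Matrix.mul_assoc, h2, Matrix.mul_one,
      ← Matrix.mulVec_mulVec]
    have : (Matrix.diagonal fun i => (l i : ℂ)) *ᵥ (Pi.single i0 1 : Ω → ℂ) =
        ((l i0 : ℝ) : ℂ) • Pi.single i0 1 := by
      ext j
      rw [Matrix.mulVec_diagonal]
      by_cases hj : j = i0
      · subst hj; simp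
      · simp [hj]
    rw [this, Matrix.mulVec_smul]
  have hxx : star x ⬝ᵥ x = 1 := by
    rw [hx, Matrix.star_mulVec, ← Matrix.dotProduct_mulVec, Matrix.mulVec_mulVec, h2,
      Matrix.one_mulVec]
    have : star (Pi.single i0 1 : Ω → ℂ) = Pi.single i0 1 := by
      ext j; by_cases hj : j = i0
      · subst hj; simp
      · simp [hj]
    rw [this, single_one_dotProduct, Pi.single_eq_same]
  have hPx : P *ᵥ x = x := by
    have h3 : P *ᵥ ((P * T) *ᵥ x) = (P * T) *ᵥ x := by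
      rw [Matrix.mulVec_mulVec, ← Matrix.mul_assoc, hP.idem]
    rw [hAx, Matrix.mulVec_smul] at h3
    have h4 : ((l i0 : ℝ) : ℂ) ≠ 0 := by exact_mod_cast hl1.ne'
    exact smul_right_injective _ h4 h3
  have hTx : T *ᵥ x = ((l i0 : ℝ) : ℂ) • x := by
    rw [← hAx, hPT, ← Matrix.mulVec_mulVec, hPx]
  have hpow : ∀ m, 1 ≤ m → (P * T ^ m).trace.re ≤ l i0 ^ (m - 1) * (P * T).trace.re := by
    intro m hm
    rw [htr m hm, htr1, Finset.mul_sum]
    refine Finset.sum_le_sum fun i _ => ?_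
    obtain ⟨k, rfl⟩ : ∃ k, m = k + 1 := ⟨m - 1, by omega⟩
    rw [Nat.add_sub_cancel, pow_succ]
    exact mul_le_mul_of_nonneg_right (pow_le_pow_left₀ (hl0 i) (hmax i) k) (hl0 i)
  refine ⟨Real.sqrt (l i0), x, Real.sqrt_pos.2 hl1, hxx, hPx, by rw [hv2]; exact hTx, ?_, ?_, ?_⟩
  · intro m hm
    rw [pow_mul, hv2, htr m hm]
    exact Finset.single_le_sum (f := fun i => l i ^ m) (fun i _ => pow_nonneg (hl0 i) m)
      (Finset.mem_univ i0)
  · intro m hm
    rw [pow_mul, hv2]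
    exact hpow m hm
  · intro μ y hy hPy hTy
    rw [hv2]
    -- coordinates
    set z : Ω → ℂ := Uᴴ *ᵥ y with hz
    have hzy : y = U *ᵥ z := by rw [hz, Matrix.mulVec_mulVec, h1, Matrix.one_mulVec]
    have hz0 : z ≠ 0 := by
      intro h0; apply hy; rw [hzy, h0, Matrix.mulVec_zero]
    have hAy : (P * T) *ᵥ y = (μ : ℂ) • y := by
      rw [← Matrix.mulVec_mulVec, hTy, Matrix.mulVec_smul, hPy]
    have h5 : (Matrix.diagonal fun i => (l i : ℂ)) *ᵥ z = (μ : ℂ) • z := by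
      have h6 : Uᴴ *ᵥ ((P * T) *ᵥ y) = (μ : ℂ) • z := by rw [hAy, Matrix.mulVec_smul]
      rw [hzy, hd, Matrix.mulVec_mulVec, Matrix.mulVec_mulVec] at h6
      rw [show Uᴴ * (U * (Matrix.diagonal fun i => (l i : ℂ)) * Uᴴ) * U =
        (Uᴴ * U) * (Matrix.diagonal fun i => (l i : ℂ)) * (Uᴴ * U) by
          simp only [Matrix.mul_assoc], h2, Matrix.one_mul, Matrix.mul_one] at h6
      exact h6
    obtain ⟨i, hi⟩ := Function.ne_iff.1 hz0
    have h7 := congrFun h5 i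
    rw [Matrix.mulVec_diagonal, Pi.smul_apply, smul_eq_mul] at h7
    have h8 : (l i : ℂ) = (μ : ℂ) := mul_right_cancel₀ hi h7
    have h9 : l i = μ := by exact_mod_cast h8
    rw [← h9]
    exact hmax i

/-! ### transfer matrices that are symmetric on a subspace -/

/-- `K` is symmetric on the range of the orthogonal projection `Q`. -/
structure SymK (K Q : Matrix Ω Ω ℝ) : Prop where
  pt : Qᵀ = Q
  pp : Q * Q = Q
  comm : Q * K = K * Q
  tr : Kᵀ * Q = K * Q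

theorem SymK.symm {K Q : Matrix Ω Ω ℝ} (h : SymK K Q) : (K * Q)ᵀ = K * Q := by
  have h1 : Q * Kᵀ = Q * K := by
    have := congrArg Matrix.transpose h.tr
    rw [Matrix.transpose_mul, Matrix.transpose_mul, Matrix.transpose_transpose, h.pt] at this
    exact this.symm
  rw [Matrix.transpose_mul, h.pt, h1, h.comm]

theorem SymK.sq {K Q : Matrix Ω Ω ℝ} (h : SymK K Q) : (K * Q) * (K * Q) = K * Kᵀ * Q := by
  calc (K * Q) * (K * Q) = K * (Q * K) * Q := by simp only [Matrix.mul_assoc]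
    _ = K * (K * Q) * Q := by rw [h.comm]
    _ = K * (K * (Q * Q)) := by simp only [Matrix.mul_assoc]
    _ = K * (Kᵀ * Q) := by rw [h.pp, h.tr]
    _ = _ := by rw [Matrix.mul_assoc]

theorem SymK.pow_fix {K Q : Matrix Ω Ω ℝ} (h : SymK K Q) {y : Ω → ℝ} (hy : Q *ᵥ y = y) (M : ℕ) :
    (K * Q) ^ M *ᵥ y = K ^ M *ᵥ y ∧ Q *ᵥ (K ^ M *ᵥ y) = K ^ M *ᵥ y := by
  induction M with
  | zero => simp [hy]
  | succ M ih =>
    have h2 : Q *ᵥ (K ^ (M + 1) *ᵥ y) = K ^ (M + 1) *ᵥ y := by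
      rw [pow_succ', ← Matrix.mulVec_mulVec, Matrix.mulVec_mulVec, h.comm, ← Matrix.mulVec_mulVec,
        ih.2]
    refine ⟨?_, h2⟩
    rw [pow_succ', ← Matrix.mulVec_mulVec, ih.1, ← Matrix.mulVec_mulVec, ih.2, pow_succ',
      ← Matrix.mulVec_mulVec]

/-- real spectral theorem in coordinates -/
theorem real_spectral {A : Matrix Ω Ω ℝ} (hA : Aᵀ = A) :
    ∃ (U : Matrix Ω Ω ℝ) (κ : Ω → ℝ), U * Uᵀ = 1 ∧ Uᵀ * U = 1 ∧ A = U * Matrix.diagonal κ * Uᵀ := by
  have hH : A.IsHermitian := by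
    unfold Matrix.IsHermitian
    rw [Matrix.conjTranspose_eq_transpose_of_trivial]; exact hA
  have e : (hH.eigenvectorUnitary : Matrix Ω Ω ℝ)ᵀ = star (hH.eigenvectorUnitary : Matrix Ω Ω ℝ) := by
    rw [Matrix.star_eq_conjTranspose, Matrix.conjTranspose_eq_transpose_of_trivial]
  refine ⟨(hH.eigenvectorUnitary : Matrix Ω Ω ℝ), hH.eigenvalues, ?_, ?_, ?_⟩
  · rw [e]; exact Unitary.mul_star_self_of_mem hH.eigenvectorUnitary.2
  · rw [e]; exact Unitary.star_mul_self_of_mem hH.eigenvectorUnitary.2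
  · rw [e]
    have := hH.spectral_theorem
    simpa [Unitary.conjStarAlgAut_apply, Function.comp_def] using this

theorem real_diag_pow {U : Matrix Ω Ω ℝ} (h1 : U * Uᵀ = 1) (h2 : Uᵀ * U = 1) (d : Ω → ℝ) (n : ℕ) :
    (U * Matrix.diagonal d * Uᵀ) ^ n = U * Matrix.diagonal (fun i => d i ^ n) * Uᵀ := by
  induction n with
  | zero =>
    simp only [pow_zero]
    have : (Matrix.diagonal fun _ : Ω => (1 : ℝ)) = 1 := Matrix.diagonal_one
    rw [this, Matrix.mul_one, h1]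
  | succ n ih =>
    rw [pow_succ, ih]
    calc U * Matrix.diagonal (fun i => d i ^ n) * Uᵀ * (U * Matrix.diagonal d * Uᵀ)
        = U * Matrix.diagonal (fun i => d i ^ n) * (Uᵀ * U) * Matrix.diagonal d * Uᵀ := by
          simp only [Matrix.mul_assoc]
      _ = U * (Matrix.diagonal (fun i => d i ^ n) * Matrix.diagonal d) * Uᵀ := by
          rw [h2, Matrix.mul_one]
          simp only [Matrix.mul_assoc]
      _ = _ := by
          rw [Matrix.diagonal_mul_diagonal]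
          rfl

/-- **Spectral decomposition of the moments** `x · K^M y` on the range of `Q`. -/
theorem SymK.spectral {K Q : Matrix Ω Ω ℝ} (h : SymK K Q) :
    ∃ (κ : Ω → ℝ) (u : Ω → Ω → ℝ),
      (∀ j k, u j ⬝ᵥ u k = if j = k then 1 else 0) ∧
      (∀ x y : Ω → ℝ, Q *ᵥ x = x → Q *ᵥ y = y → ∀ M : ℕ,
        x ⬝ᵥ (K ^ M *ᵥ y) = ∑ j, (u j ⬝ᵥ x) * (u j ⬝ᵥ y) * κ j ^ M) ∧
      (∀ j, (K * Q) *ᵥ u j = κ j • u j) ∧
      (∀ j, κ j ≠ 0 → Q *ᵥ u j = u j) ∧
      (∀ j, κ j ≠ 0 → (K * Kᵀ) *ᵥ u j = (κ j ^ 2) • u j) := by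
  obtain ⟨U, κ, h1, h2, hd⟩ := real_spectral h.symm
  have hu : ∀ j, (fun i => U i j) = U *ᵥ Pi.single j 1 := by
    intro j; funext i; simp
  have hdot : ∀ (j : Ω) (x : Ω → ℝ), (fun i => U i j) ⬝ᵥ x = (Uᵀ *ᵥ x) j := by
    intro j x
    simp [Matrix.mulVec, dotProduct, Matrix.transpose_apply]
  have heig : ∀ j, (K * Q) *ᵥ (fun i => U i j) = κ j • (fun i => U i j) := by
    intro j
    rw [hu j, hd, Matrix.mulVec_mulVec, Matrix.mul_assoc, Matrix.mul_assoc, h2, Matrix.mul_one,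
      ← Matrix.mulVec_mulVec]
    have : (Matrix.diagonal κ) *ᵥ (Pi.single j 1 : Ω → ℝ) = κ j • Pi.single j 1 := by
      ext k
      rw [Matrix.mulVec_diagonal]
      by_cases hk : k = j
      · subst hk; simp
      · simp [hk]
    rw [this, Matrix.mulVec_smul]
  have hfix : ∀ j, κ j ≠ 0 → Q *ᵥ (fun i => U i j) = (fun i => U i j) := by
    intro j hj
    have h3 : Q *ᵥ ((K * Q) *ᵥ (fun i => U i j)) = (K * Q) *ᵥ (fun i => U i j) := by
      rw [Matrix.mulVec_mulVec, ← Matrix.mul_assoc, h.comm, Matrix.mul_assoc, h.pp]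
    rw [heig j, Matrix.mulVec_smul] at h3
    exact smul_right_injective _ hj h3
  refine ⟨κ, fun j i => U i j, ?_, ?_, heig, hfix, ?_⟩
  · intro j k
    have := congrFun (congrFun h2 j) k
    rw [Matrix.mul_apply, Matrix.one_apply] at this
    rw [← this]
    rfl
  · intro x y hx hy M
    rw [← (h.pow_fix hy M).1, hd, real_diag_pow h1 h2, ← Matrix.mulVec_mulVec, ← Matrix.mulVec_mulVec,
      Matrix.dotProduct_mulVec]
    have h3 : x ᵥ* U = Uᵀ *ᵥ x := (Matrix.mulVec_transpose U x).symm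
    rw [h3]
    simp only [dotProduct, Matrix.mulVec_diagonal]
    refine Finset.sum_congr rfl fun j _ => ?_
    have e1 := hdot j x
    have e2 := hdot j y
    simp only [dotProduct] at e1 e2
    rw [e1, e2]
    ring
  · intro j hj
    have h3 : (K * Q) *ᵥ ((K * Q) *ᵥ (fun i => U i j)) = (K * Kᵀ * Q) *ᵥ (fun i => U i j) := by
      rw [Matrix.mulVec_mulVec, h.sq]
    rw [← Matrix.mulVec_mulVec (fun i => U i j) (K * Kᵀ) Q, hfix j hj] at h3
    show (K * Kᵀ) *ᵥ (fun i => U i j) = (κ j ^ 2) • (fun i => U i j)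
    rw [← h3, heig j, Matrix.mulVec_smul, heig j, smul_smul, pow_two]

end Hald
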