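import Crest.Agent.Hald.NumInput
import Crest.Agent.Hald.ChainEnergy

/-!
# Row 347, chunk T: bounds of the tops `hatV ehat 0 β`, `hatV ehat 1 β`, β = 4, 6, 8, and consequences

Notation: `A(β) = secA 0 (hatZ ehat · β 4) ≤ (R0+3R1+8R2)/12`, `D(β) = secA 4 = (R3+R5-2R6)/4` with the ring
intervals `TRβ` (hatZ ehat t n 4 = rR n t).

UP (untwisted): suppose `V := hatV ehat 0 β > c`.  Then `A - V^8 < A - c^8 ≤ l^8`, so `HS ehat β l` and
`(theHatJoint ehat hβ).strip l` applies to `f(x) = (c-x)(l-x)(l+x) q(x)²`: `f ≥ 0` on `[-l,l]` (l ≤ c), so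
`α² f(V) ≤ mom S f`; but `f(V) ≥ 0` (V > c ≥ l) and `mom S f ≤ upL f TSβ < 0`.
UP (twisted): `V1 := hatV ehat 1 β ≤ hatV ehat 0 β ≤ C` (World.Vx_le; C = the untwisted bound), suppose
`V1 > c`; use `strip_out_z` scaled (`hat` version) for `P(x) = (c-x)(l-x)(C+x) q(x)²`:
`P ≥ 0` on `[-l,l]`, `P(V1) ≥ 0`, `P(-V1) = (c+V1)(l+V1)(C-V1) q² ≥ 0`, and `∑ P_i z_i < 0`.
LOW (twisted): `hat_strip_lower_z` with `P(x) = (c-x) q(x)²`.
All inequalities `upL … < 0` were verified exactly (Python, rational arithmetic) for the polynomials below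
(coefficient lists, constant term first):
UP   β=4: c = 646/625, l = 21223/50000, q = ['7/1250', '579/2000', '1']
UP   β=6: c = 50613/50000, l = 28427/50000, q = ['1/400', '651/2500', '1']
UP   β=8: c = 2011/2000, l = 32761/50000, q = ['1/10000', '2321/10000', '1']
UPZ  β=4: c = 49341/50000, l = 7243/12500, C = 646/625, q = ['9/5000', '567/2500', '1']
UPZ  β=6: c = 24919/25000, l = 14029/20000, C = 50613/50000, q = ['1/5000', '2347/10000', '1']
UPZ  β=8: c = 25029/25000, l = 39109/50000, C = 2011/2000, q = ['-1/1000', '283/1250', '1']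
LOWZ β=4: c = 1973/2000, q = ['-17/5000', '-269/2500', '-1021/10000', '1']
LOWZ β=6: c = 2489/2500, q = ['-7/2000', '-587/5000', '-591/10000', '1']
LOWZ β=8: c = 99829/100000, q = ['-2/625', '-607/5000', '-471/10000', '1']
-/

set_option autoImplicit false

namespace Hald

/-! ### generic lemmas -/

theorem mom_eq_sum (a : ℕ → ℝ) (P : Polynomial ℝ) :
    mom a P = ∑ M ∈ Finset.range (P.natDegree + 1), P.coeff M * a M := by
  conv_lhs => rw [P.as_sum_range' (P.natDegree + 1) (Nat.lt_succ_self _)]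
  rw [map_sum]
  exact Finset.sum_congr rfl fun i _ => mom_monomial _ _ _

theorem hat_out_z {e' β : ℝ} (hβ : 0 < β) {l : ℝ} (hl : 0 < l)
    (hm : ∃ m : ℕ, 1 ≤ m ∧
      secA 4 (fun t => hatZ e' t β m) - hatV e' 1 β ^ (2 * m) < l ^ (2 * m))
    (P : Polynomial ℝ) (h1 : ∀ x : ℝ, |x| ≤ l → 0 ≤ P.eval x) (h2 : 0 ≤ P.eval (hatV e' 1 β))
    (h3 : 0 ≤ P.eval (-hatV e' 1 β)) : 0 ≤ mom (aStrip Gz e' β) P := by
  have hs := sc_pos β e'
  have e1 : (P.comp (Polynomial.C (sc β e') * Polynomial.X)).eval (theWorld.V 1 β) =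
      P.eval (hatV e' 1 β) := by
    rw [Polynomial.eval_comp, Polynomial.eval_mul, Polynomial.eval_C, Polynomial.eval_X, mul_comm,
      hatV]
  have e2 : (P.comp (Polynomial.C (sc β e') * Polynomial.X)).eval (-theWorld.V 1 β) =
      P.eval (-hatV e' 1 β) := by
    rw [Polynomial.eval_comp, Polynomial.eval_mul, Polynomial.eval_C, Polynomial.eval_X, mul_neg,
      mul_comm, hatV]
  have h := (strip_out_z hβ).1 (l / sc β e') (div_pos hl hs) (hat_rest hβ hm)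
    (P.comp (Polynomial.C (sc β e') * Polynomial.X)) (comp_nonneg hs h1) (by rw [e1]; exact h2)
    (by rw [e2]; exact h3)
  rw [← mom_eq_sum] at h
  rw [mom_scale (aStrip Gz theE β) _ (sc β e') 0 (fun M => by rw [aStrip_hat, add_zero]) P,
    pow_zero, one_mul]
  exact h

theorem rR_hat (n : ℕ) (t : Fin 8) : rR n t = hatZ ehat t n 4 := by
  unfold rR hatZ
  rw [dif_pos t.2]
  congr 2
  push_cast
  ring

/-! ### checks -/

/-- `(c-x)(l²-x²) q(x)²` -/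
def tpP (c l : ℚ) (q : List ℚ) : List ℚ := Pc.mulL [c, -1] (Pc.mulL [l * l, 0, -1] (Pc.mulL q q))

theorem tpP_eval (c l : ℚ) (q : List ℚ) (x : ℝ) : (Pc.toP (tpP c l q)).eval x =
    ((c : ℝ) - x) * ((l : ℝ) ^ 2 - x ^ 2) * ((Pc.toP q).eval x) ^ 2 := by
  simp only [tpP, Pc.toP_mulL, Polynomial.eval_mul, Pc.toP, Polynomial.eval_add, Polynomial.eval_C,
    Polynomial.eval_X, Polynomial.eval_zero]
  push_cast
  ring

/-- `(c-x)(l-x)(C+x) q(x)²` -/
def tpPZ (c l C : ℚ) (q : List ℚ) : List ℚ :=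
  Pc.mulL [c, -1] (Pc.mulL [l, -1] (Pc.mulL [C, 1] (Pc.mulL q q)))

theorem tpPZ_eval (c l C : ℚ) (q : List ℚ) (x : ℝ) : (Pc.toP (tpPZ c l C q)).eval x =
    ((c : ℝ) - x) * ((l : ℝ) - x) * ((C : ℝ) + x) * ((Pc.toP q).eval x) ^ 2 := by
  simp only [tpPZ, Pc.toP_mulL, Polynomial.eval_mul, Pc.toP, Polynomial.eval_add, Polynomial.eval_C,
    Polynomial.eval_X, Polynomial.eval_zero]
  push_cast
  ring

/-- `(c-x) q(x)²` -/
def tpPL (c : ℚ) (q : List ℚ) : List ℚ := Pc.mulL [c, -1] (Pc.mulL q q)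

theorem tpPL_eval (c : ℚ) (q : List ℚ) (x : ℝ) : (Pc.toP (tpPL c q)).eval x =
    ((c : ℝ) - x) * ((Pc.toP q).eval x) ^ 2 := by
  simp only [tpPL, Pc.toP_mulL, Polynomial.eval_mul, Pc.toP, Polynomial.eval_add, Polynomial.eval_C,
    Polynomial.eval_X, Polynomial.eval_zero]
  push_cast
  ring

def tpA0 : List ℚ := [mkRat 1 12, mkRat 3 12, mkRat 8 12]
def tpA4 : List ℚ := [0, 0, 0, mkRat 1 4, 0, mkRat 1 4, mkRat (-2) 4]

def tpU (c l : ℚ) (q : List ℚ) (TR TS : List (ℚ × ℚ)) : Bool :=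
  decide (0 < l) && decide (l ≤ c) && decide (Pc.upL tpA0 TR - c ^ 8 ≤ l ^ 8) && Nat.ble 8 TR.length &&
    Nat.ble (tpP c l q).length TS.length && decide (Pc.upL (tpP c l q) TS < 0)

def tpZ (c l C : ℚ) (q : List ℚ) (TR TS : List (ℚ × ℚ)) : Bool :=
  decide (0 < l) && decide (l ≤ c) && decide (c ≤ C) && decide (Pc.upL tpA4 TR - c ^ 8 ≤ l ^ 8) &&
    Nat.ble 8 TR.length && Nat.ble (tpPZ c l C q).length TS.length &&
    decide (Pc.upL (tpPZ c l C q) TS < 0)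

def tpL (c : ℚ) (q : List ℚ) (TS : List (ℚ × ℚ)) : Bool :=
  decide (0 < c) && Nat.ble (tpPL c q).length TS.length && decide (Pc.upL (tpPL c q) TS < 0)

theorem tpsecA0 (n : ℕ) : secA 0 (fun t => hatZ ehat t n 4) = mom (rR n) (Pc.toP tpA0) := by
  have e0 : hatZ ehat 0 n 4 = rR n 0 := (rR_hat n 0).symm
  have e1 : hatZ ehat 1 n 4 = rR n 1 := (rR_hat n 1).symm
  have e2 : hatZ ehat 2 n 4 = rR n 2 := (rR_hat n 2).symm
  show (hatZ ehat 0 n 4 + 3 * hatZ ehat 1 n 4 + 8 * hatZ ehat 2 n 4) / 12 = _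
  rw [tpA0, Pc.mom_cons, Pc.mom_cons, Pc.mom_cons, Pc.toP, map_zero, e0, e1, e2]
  simp only [Rat.mkRat_eq_div]
  push_cast
  ring

theorem tpsecA4 (n : ℕ) : secA 4 (fun t => hatZ ehat t n 4) = mom (rR n) (Pc.toP tpA4) := by
  have e3 : hatZ ehat 3 n 4 = rR n 3 := (rR_hat n 3).symm
  have e5 : hatZ ehat 5 n 4 = rR n 5 := (rR_hat n 5).symm
  have e6 : hatZ ehat 6 n 4 = rR n 6 := (rR_hat n 6).symm
  show (hatZ ehat 3 n 4 + hatZ ehat 5 n 4 - 2 * hatZ ehat 6 n 4) / 4 = _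
  rw [tpA4, Pc.mom_cons, Pc.mom_cons, Pc.mom_cons, Pc.mom_cons, Pc.mom_cons, Pc.mom_cons, Pc.mom_cons,
    Pc.toP, map_zero, e3, e5, e6]
  simp only [Rat.mkRat_eq_div]
  push_cast
  ring

theorem tpU_sound {n : ℕ} (hn : 0 < n) {c l : ℚ} {q : List ℚ} {TR TS : List (ℚ × ℚ)}
    (hR : Pc.InL (rR n) TR) (hS : Pc.InL (fun k => aStrip G1 ehat n k) TS)
    (h : tpU c l q TR TS = true) : hatV ehat 0 n ≤ (c : ℝ) := by
  unfold tpU at h
  simp only [Bool.and_eq_true, decide_eq_true_eq, Nat.ble_eq] at h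
  obtain ⟨⟨⟨⟨⟨hl, hlc⟩, hr⟩, hlen⟩, hlen2⟩, hneg⟩ := h
  have hβ : (0 : ℝ) < n := by exact_mod_cast hn
  by_contra hcon
  push Not at hcon
  have hl' : (0 : ℝ) < l := by exact_mod_cast hl
  have hlc' : (l : ℝ) ≤ c := by exact_mod_cast hlc
  have hA : secA 0 (fun t => hatZ ehat t n 4) ≤ ((Pc.upL tpA0 TR : ℚ) : ℝ) := by
    rw [tpsecA0]
    exact Pc.mom_le_upL _ _ _ hR (le_trans (by decide) hlen)
  have hr' : ((Pc.upL tpA0 TR : ℚ) : ℝ) - (c : ℝ) ^ 8 ≤ (l : ℝ) ^ 8 := by exact_mod_cast hr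
  have hc8 : (c : ℝ) ^ 8 ≤ hatV ehat 0 n ^ 8 :=
    pow_le_pow_left₀ (by linarith) hcon.le _
  have hHS : HS ehat n l := ⟨4, by norm_num, by
    show secA 0 (fun t => hatZ ehat t n 4) - hatV ehat 0 n ^ 8 ≤ (l : ℝ) ^ 8
    linarith⟩
  have h1 := (theHatJoint ehat hβ).strip l hl' (Or.inl hHS) (Pc.toP (tpP c l q)) (by
    intro x hx
    rw [tpP_eval]
    have hx2 : x ^ 2 ≤ (l : ℝ) ^ 2 := sq_le_sq' (abs_le.1 hx).1 (abs_le.1 hx).2
    have hx3 := (abs_le.1 hx).2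
    exact mul_nonneg (mul_nonneg (by linarith) (by linarith)) (sq_nonneg _))
  have h2 : mom (aStrip G1 ehat n) (Pc.toP (tpP c l q)) ≤ ((Pc.upL (tpP c l q) TS : ℚ) : ℝ) :=
    Pc.mom_le_upL _ _ _ hS hlen2
  have h3 : ((Pc.upL (tpP c l q) TS : ℚ) : ℝ) < 0 := by exact_mod_cast hneg
  have h4 : 0 ≤ (Pc.toP (tpP c l q)).eval (hatV ehat 0 n) := by
    rw [tpP_eval]
    refine mul_nonneg ?_ (sq_nonneg _)
    have h5 : (l : ℝ) ^ 2 ≤ hatV ehat 0 n ^ 2 := pow_le_pow_left₀ hl'.le (by linarith) _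
    exact mul_nonneg_of_nonpos_of_nonpos (by linarith) (by linarith)
  have h5 : 0 ≤ theAlpha n ^ 2 * (Pc.toP (tpP c l q)).eval (hatV ehat 0 n) :=
    mul_nonneg (sq_nonneg _) h4
  linarith

theorem tpZ_sound {n : ℕ} (hn : 0 < n) {c l C : ℚ} {q : List ℚ} {TR TS : List (ℚ × ℚ)}
    (hR : Pc.InL (rR n) TR) (hS : Pc.InL (fun k => aStrip Gz ehat n k) TS)
    (hC : hatV ehat 0 n ≤ (C : ℝ))
    (h : tpZ c l C q TR TS = true) : hatV ehat 1 n ≤ (c : ℝ) := by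
  unfold tpZ at h
  simp only [Bool.and_eq_true, decide_eq_true_eq, Nat.ble_eq] at h
  obtain ⟨⟨⟨⟨⟨⟨hl, hlc⟩, hcC⟩, hr⟩, hlen⟩, hlen2⟩, hneg⟩ := h
  have hβ : (0 : ℝ) < n := by exact_mod_cast hn
  by_contra hcon
  push Not at hcon
  have hl' : (0 : ℝ) < l := by exact_mod_cast hl
  have hlc' : (l : ℝ) ≤ c := by exact_mod_cast hlc
  have hcC' : (c : ℝ) ≤ C := by exact_mod_cast hcC
  have hV : hatV ehat 1 n ≤ hatV ehat 0 n := by
    unfold hatV
    exact mul_le_mul_of_nonneg_right (theWorld.Vx_le n hβ) (sc_pos _ _).le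
  have hA : secA 4 (fun t => hatZ ehat t n 4) ≤ ((Pc.upL tpA4 TR : ℚ) : ℝ) := by
    rw [tpsecA4]
    exact Pc.mom_le_upL _ _ _ hR (le_trans (by decide) hlen)
  have hr' : ((Pc.upL tpA4 TR : ℚ) : ℝ) - (c : ℝ) ^ 8 ≤ (l : ℝ) ^ 8 := by exact_mod_cast hr
  have hc8 : (c : ℝ) ^ 8 < hatV ehat 1 n ^ 8 :=
    pow_lt_pow_left₀ hcon (by linarith) (by norm_num)
  have h1 := hat_out_z (e' := ehat) hβ hl' ⟨4, by norm_num, by
    show secA 4 (fun t => hatZ ehat t n 4) - hatV ehat 1 n ^ 8 < (l : ℝ) ^ 8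
    linarith⟩ (Pc.toP (tpPZ c l C q)) (by
      intro x hx
      rw [tpPZ_eval]
      obtain ⟨hx1, hx2⟩ := abs_le.1 hx
      exact mul_nonneg (mul_nonneg (mul_nonneg (by linarith) (by linarith)) (by linarith))
        (sq_nonneg _)) (by
      rw [tpPZ_eval]
      refine mul_nonneg (mul_nonneg ?_ (by linarith)) (sq_nonneg _)
      exact mul_nonneg_of_nonpos_of_nonpos (by linarith) (by linarith)) (by
      rw [tpPZ_eval]
      exact mul_nonneg (mul_nonneg (mul_nonneg (by linarith) (by linarith)) (by linarith))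
        (sq_nonneg _))
  have h2 : mom (aStrip Gz ehat n) (Pc.toP (tpPZ c l C q)) ≤ ((Pc.upL (tpPZ c l C q) TS : ℚ) : ℝ) :=
    Pc.mom_le_upL _ _ _ hS hlen2
  have h3 : ((Pc.upL (tpPZ c l C q) TS : ℚ) : ℝ) < 0 := by exact_mod_cast hneg
  linarith

theorem tpL_sound {n : ℕ} (hn : 0 < n) {c : ℚ} {q : List ℚ} {TS : List (ℚ × ℚ)}
    (hS : Pc.InL (fun k => aStrip Gz ehat n k) TS)
    (h : tpL c q TS = true) : (c : ℝ) ≤ hatV ehat 1 n := by
  unfold tpL at h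
  simp only [Bool.and_eq_true, decide_eq_true_eq, Nat.ble_eq] at h
  obtain ⟨⟨hc, hlen2⟩, hneg⟩ := h
  have hβ : (0 : ℝ) < n := by exact_mod_cast hn
  have hc' : (0 : ℝ) < c := by exact_mod_cast hc
  refine hat_strip_lower_z hβ hc' ((Pc.toP (tpPL c q)).natDegree + 1) (Pc.toP (tpPL c q)).coeff ?_ ?_
  · intro x hx
    rw [← Polynomial.eval_eq_sum_range, tpPL_eval]
    exact mul_nonneg (by linarith [(abs_le.1 hx).2]) (sq_nonneg _)
  · rw [← mom_eq_sum]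
    have h2 : mom (aStrip Gz ehat n) (Pc.toP (tpPL c q)) ≤ ((Pc.upL (tpPL c q) TS : ℚ) : ℝ) :=
      Pc.mom_le_upL _ _ _ hS hlen2
    have h3 : ((Pc.upL (tpPL c q) TS : ℚ) : ℝ) < 0 := by exact_mod_cast hneg
    linarith

theorem tpkU4 : tpU (mkRat 646 625) (mkRat 21223 50000) [mkRat 7 1250, mkRat 579 2000, 1] TR4 TS4 = true := by
  decide +kernel
theorem tpkU6 : tpU (mkRat 50613 50000) (mkRat 28427 50000) [mkRat 1 400, mkRat 651 2500, 1] TR6 TS6 = true := by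
  decide +kernel
theorem tpkU8 : tpU (mkRat 2011 2000) (mkRat 32761 50000) [mkRat 1 10000, mkRat 2321 10000, 1] TR8 TS8 = true := by
  decide +kernel
theorem tpkZ4 : tpZ (mkRat 49341 50000) (mkRat 7243 12500) (mkRat 646 625)
    [mkRat 9 5000, mkRat 567 2500, 1] TR4 TZ4 = true := by
  decide +kernel
theorem tpkZ6 : tpZ (mkRat 24919 25000) (mkRat 14029 20000) (mkRat 50613 50000)
    [mkRat 1 5000, mkRat 2347 10000, 1] TR6 TZ6 = true := by
  decide +kernel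
theorem tpkZ8 : tpZ (mkRat 25029 25000) (mkRat 39109 50000) (mkRat 2011 2000)
    [mkRat (-1) 1000, mkRat 283 1250, 1] TR8 TZ8 = true := by
  decide +kernel
theorem tpkL4 : tpL (mkRat 1973 2000) [mkRat (-17) 5000, mkRat (-269) 2500, mkRat (-1021) 10000, 1] TZ4 = true := by
  decide +kernel
theorem tpkL6 : tpL (mkRat 2489 2500) [mkRat (-7) 2000, mkRat (-587) 5000, mkRat (-591) 10000, 1] TZ6 = true := by
  decide +kernel
theorem tpkL8 : tpL (mkRat 99829 100000) [mkRat (-2) 625, mkRat (-607) 5000, mkRat (-471) 10000, 1] TZ8 = true := by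
  decide +kernel

theorem tp_mkRat (a : ℤ) (c : ℕ) : ((mkRat a c : ℚ) : ℝ) = (a : ℝ) / c := by
  rw [Rat.mkRat_eq_div]; push_cast; rfl

/-! ### the bounds -/

theorem hatV0_le_4 (N : NumInput) : hatV ehat 0 4 ≤ (646 / 625 : ℝ) := by
  have h := tpU_sound (n := 4) (by norm_num) N.ring4 N.strip4 tpkU4
  rw [tp_mkRat] at h
  norm_num at h ⊢
  exact h

theorem hatV0_le_6 (N : NumInput) : hatV ehat 0 6 ≤ (50613 / 50000 : ℝ) := by
  have h := tpU_sound (n := 6) (by norm_num) N.ring6 N.strip6 tpkU6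
  rw [tp_mkRat] at h
  norm_num at h ⊢
  exact h

theorem hatV0_le_8 (N : NumInput) : hatV ehat 0 8 ≤ (2011 / 2000 : ℝ) := by
  have h := tpU_sound (n := 8) (by norm_num) N.ring8 N.strip8 tpkU8
  rw [tp_mkRat] at h
  norm_num at h ⊢
  exact h

theorem hatV1_le_4 (N : NumInput) : hatV ehat 1 4 ≤ (49341 / 50000 : ℝ) := by
  have h0 := hatV0_le_4 N
  have h := tpZ_sound (n := 4) (by norm_num) N.ring4 N.stripz4
    (by rw [tp_mkRat]; norm_num at h0 ⊢; exact h0) tpkZ4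
  rw [tp_mkRat] at h
  norm_num at h ⊢
  exact h

theorem hatV1_le_6 (N : NumInput) : hatV ehat 1 6 ≤ (24919 / 25000 : ℝ) := by
  have h0 := hatV0_le_6 N
  have h := tpZ_sound (n := 6) (by norm_num) N.ring6 N.stripz6
    (by rw [tp_mkRat]; norm_num at h0 ⊢; exact h0) tpkZ6
  rw [tp_mkRat] at h
  norm_num at h ⊢
  exact h

theorem hatV1_le_8 (N : NumInput) : hatV ehat 1 8 ≤ (25029 / 25000 : ℝ) := by
  have h0 := hatV0_le_8 N
  have h := tpZ_sound (n := 8) (by norm_num) N.ring8 N.stripz8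
    (by rw [tp_mkRat]; norm_num at h0 ⊢; exact h0) tpkZ8
  rw [tp_mkRat] at h
  norm_num at h ⊢
  exact h

theorem le_hatV1_4 (N : NumInput) : (1973 / 2000 : ℝ) ≤ hatV ehat 1 4 := by
  have h := tpL_sound (n := 4) (by norm_num) N.stripz4 tpkL4
  rw [tp_mkRat] at h
  norm_num at h ⊢
  exact h

theorem le_hatV1_6 (N : NumInput) : (2489 / 2500 : ℝ) ≤ hatV ehat 1 6 := by
  have h := tpL_sound (n := 6) (by norm_num) N.stripz6 tpkL6
  rw [tp_mkRat] at h
  norm_num at h ⊢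
  exact h

theorem le_hatV1_8 (N : NumInput) : (99829 / 100000 : ℝ) ≤ hatV ehat 1 8 := by
  have h := tpL_sound (n := 8) (by norm_num) N.stripz8 tpkL8
  rw [tp_mkRat] at h
  norm_num at h ⊢
  exact h

/-- `theE_le` with the energies of the strips M = 8, 10: `(ES[10].2 - ES[8].1)/2 ≤ ehat` -/
theorem theE_le_ehat (N : NumInput) : theE ≤ ehat := by
  have h8 := N.enS 8 (by decide)
  have h10 := N.enS 10 (by decide)
  have h := theE_le (M := 8) (by decide) h8.1 h10.2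
  refine h.trans ?_
  simp only [ES, List.getElem_cons_zero, List.getElem_cons_succ]
  simp only [tp_mkRat]
  unfold ehat
  norm_num

/-- `1 ≤ V 0 8`, so `exp (8 (ehat - theE)) ≤ hatV ehat 0 8 ≤ 1.0055`; in particular
`ehat - theE ≤ 7/10000` -/
theorem sc_eight_le (N : NumInput) : sc 8 ehat ≤ (10055 / 10000 : ℝ) := by
  have h := hatV0_le_8 N
  have h1 := theWorld.one_le_V 8 (by norm_num)
  have h2 := sc_pos 8 ehat
  have h3 : sc 8 ehat ≤ hatV ehat 0 8 := by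
    unfold hatV
    nlinarith
  linarith

theorem ehat_sub_le (N : NumInput) : ehat - theE ≤ 7 / 10000 := by
  have h := sc_eight_le N
  have h1 := Real.add_one_le_exp (8 * (ehat - theE))
  unfold sc at h
  linarith

end Hald
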