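import Crest.Agent.Hald.CertAll
import Crest.Agent.Hald.EdgeFin
import Crest.Agent.Hald.EdgeTherm
import Crest.Agent.Hald.Tops

/-!
# Row 347: the final assembly from `NumInput` (helper24)
-/

set_option autoImplicit false

namespace Hald

theorem theWorld_link (β : ℝ) (m : ℕ) (_ : 0 < β) (_ : 1 ≤ m) :
    theWorld.Z 0 β m = Zp 1 1 β m * Real.exp (β * (2 * m) * theE) := by
  rw [theWorld_Z]
  rfl

theorem q_lt {n : ℕ} {q : ℝ} (hn : 1 ≤ n) (h0 : 0 < q) (h1 : q < 1) (h : QHyp n q) :
    ∃ q₀, 0 < q₀ ∧ q₀ < theWorld.V 0 n ∧ QHyp n q₀ :=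
  ⟨q, h0, h1.trans_le (theWorld.one_le_V n (by exact_mod_cast hn)), h⟩

theorem ej32 (N : NumInput) :
    EJ (hatV ehat 0 32) (939 / 1000) (sAlpha 32) (sOmega 32) (sS 32) (sX 32) (sB 32) := by
  have T := rgTab N
  have h := ej (theE_le_ehat N) (n := 32) (by norm_num) (κ := 939 / 1000) (by norm_num)
    (by exact_mod_cast T.s32)
    (q_lt (q := 939 / 1000) (by norm_num) (by norm_num) (by norm_num) (by exact_mod_cast T.q32))
  exact_mod_cast h

theorem ej16 (N : NumInput) :
    EJ (hatV ehat 0 16) (893 / 1000) (sAlpha 16) (sOmega 16) (sS 16) (sX 16) (sB 16) := by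
  have T := rgTab N
  have h := ej (theE_le_ehat N) (n := 16) (by norm_num) (κ := 893 / 1000) (by norm_num)
    (by exact_mod_cast T.s16)
    (q_lt (q := 911 / 1000) (by norm_num) (by norm_num) (by norm_num) (by exact_mod_cast T.q16))
  exact_mod_cast h

theorem tail_of (N : NumInput) : theEdge.Tail 128 0 := by
  have T := rgTab N
  have he := theE_le_ehat N
  have h8 := sc_eight_le N
  have v6 : hatV ehat 0 6 ≤ (101233 / 100000 : ℝ) := (hatV0_le_6 N).trans (by norm_num)
  have v8 : hatV ehat 0 8 ≤ (100561 / 100000 : ℝ) := (hatV0_le_8 N).trans (by norm_num)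
  have V32 := hatV32_le T he h8 (LS32_ok N he v6 v8) (ej32 N)
  have V16 := hatV16_le T he V32
  have w32 := omega32_ge (ej32 N) (LS32_ok N he v6 v8) (LX32_ok N he v6 v8) (LB32_ok N he v6 v8) V32
  have w16 := omega16_le (ej16 N) (LS16_ok N he v6 v8) (LX16_ok N he v6 v8) (LB16_ok N he v6 v8) V16
  exact theTail T (C16_le w16 w32) (A32_le he w32 (ao32_le N he v6 v8)) (A16_le T he w32 (ao16_le N he v6 v8))

open Crest.MathPhysics.SpinChain

theorem S0545_fin (N : NumInput) :
    (∀ L : ℕ, Even L → 60 ≤ L →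
      HasSimpleGroundStateWithGap (heisenbergRing L) (4 / 105 * Real.log (80 / 79))) ∧
    (∀ L : ℕ, Even L → 2304 ≤ L →
      HasSimpleGroundStateWithGap (heisenbergRing L) (Real.log 20 / 784)) :=
  S0545_of theWorld theE theWorld_link (ringNum N)

theorem S0546_fin (N : NumInput) (L : ℕ) (hL : 960 ≤ L) :
    HasSimpleGroundStateWithGap (openChainEndField (2 * L) (3 / 5)) (Real.log 10 / 392) :=
  S0546_of (M₀ := 128) (by norm_num) (by decide) le_rfl
    ((rgTab N).z48.trans (by norm_num)) (tail_of N) L hL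

end Hald
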