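import Crest.Agent.Hald.LinkOpen
import Crest.Agent.Hald.EndGame

/-!
# Row 347: final wrapper for S0545 (from the world, the certificate facts and the end game)
-/

set_option autoImplicit false

namespace Hald

open Matrix Finset Crest.MathPhysics.SpinChain

theorem gap_mono {κ : Type*} [Fintype κ] {H : Matrix κ κ ℂ} {c c' : ℝ} (hc : c' ≤ c)
    (h : HasSimpleGroundStateWithGap H c) : HasSimpleGroundStateWithGap H c' := by
  obtain ⟨E, ψ₀, h0, h1, h2⟩ := h
  refine ⟨E, ψ₀, h0, h1, fun ψ hψ ho => lt_of_le_of_lt ?_ (h2 ψ hψ ho)⟩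
  have h3 : 0 ≤ (star ψ ⬝ᵥ ψ).re := by
    simp only [dotProduct, Pi.star_apply, Complex.re_sum]
    refine Finset.sum_nonneg fun j _ => ?_
    rw [Complex.star_def, ← Complex.normSq_eq_conj_mul_self, Complex.ofReal_re]
    exact Complex.normSq_nonneg _
  exact mul_le_mul_of_nonneg_right (by linarith) h3

/-- Gap `1/100` for every even ring with at least 32 sites. -/
theorem ring_gap_all (w : World) (e : ℝ)
    (hw : ∀ (β : ℝ) (m : ℕ), 0 < β → 1 ≤ m →
      w.Z 0 β m = Zp 1 1 β m * Real.exp (β * (2 * m) * e))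
    (hnum : RingNum w) (L : ℕ) (hL : Even L) (h32 : 32 ≤ L) :
    HasSimpleGroundStateWithGap (heisenbergRing L) (1 / 100) := by
  obtain ⟨m, rfl⟩ := hL
  obtain ⟨β, hβ, hg⟩ := ring_gap_trace w hnum m (by omega)
  have := ring_gap w e (m := m) (by omega) (fun b hb => hw b m hb (by omega)) hβ hg
  rw [← mul_two]
  exact this

/-- The statement of S0545. -/
theorem S0545_of (w : World) (e : ℝ)
    (hw : ∀ (β : ℝ) (m : ℕ), 0 < β → 1 ≤ m →
      w.Z 0 β m = Zp 1 1 β m * Real.exp (β * (2 * m) * e))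
    (hnum : RingNum w) :
    (∀ L : ℕ, Even L → 60 ≤ L →
      HasSimpleGroundStateWithGap (heisenbergRing L) (4 / 105 * Real.log (80 / 79))) ∧
    (∀ L : ℕ, Even L → 2304 ≤ L →
      HasSimpleGroundStateWithGap (heisenbergRing L) (Real.log 20 / 784)) :=
  ⟨fun L hL h => gap_mono thresholds.1 (ring_gap_all w e hw hnum L hL (by omega)),
    fun L hL h => gap_mono thresholds.2.1 (ring_gap_all w e hw hnum L hL (by omega))⟩

end Hald
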