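import Crest.Agent.Hald.World
import Crest.Agent.Hald.ExpFacts
import Crest.Prelude.Def_SpinChain

/-!
# Row 347, M1 (1c), (1e): gap of a Hermitian matrix from traces of exponentials

* `gap_of_eig`: all eigenvalues but one are `> E₀ + c`  ⇒  `HasSimpleGroundStateWithGap H c`.
* `gap_of_sum`: `∑_j exp(-β (E_j - E_{j₀})) < 1 + exp(-β c)`.
* `gap_of_top`: the form consumed together with `World.hZtopB`.
* `gap_of_ratio`, `gap_of_trace_ratio`: `(Tr e^{-βH})² (1+r²) < (1+r)² Tr e^{-2βH}`, `r = e^{-βc}`.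
-/

set_option autoImplicit false

namespace Hald

open Matrix Finset Crest.MathPhysics.SpinChain

section gap

variable {κ : Type*} [Fintype κ] [DecidableEq κ] {H : Matrix κ κ ℂ}

theorem gap_of_eig (hH : H.IsHermitian) {c : ℝ} (j0 : κ)
    (hgap : ∀ j, j ≠ j0 → hH.eigenvalues j0 + c < hH.eigenvalues j) :
    HasSimpleGroundStateWithGap H c := by
  classical
  set U : Matrix κ κ ℂ := (hH.eigenvectorUnitary : Matrix κ κ ℂ) with hU
  have hUU : U * star U = 1 := Unitary.mul_star_self_of_mem hH.eigenvectorUnitary.2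
  have hUU' : star U * U = 1 := Unitary.star_mul_self_of_mem hH.eigenvectorUnitary.2
  have hs : H = U * Matrix.diagonal (fun i => (hH.eigenvalues i : ℂ)) * star U := by
    have := hH.spectral_theorem
    simpa [Unitary.conjStarAlgAut_apply, Function.comp_def] using this
  -- the ground vector
  set ψ₀ : κ → ℂ := U *ᵥ (Pi.single j0 1) with hψ
  have hstar : star U *ᵥ ψ₀ = Pi.single j0 1 := by
    rw [hψ, Matrix.mulVec_mulVec, hUU', Matrix.one_mulVec]
  refine ⟨hH.eigenvalues j0, ψ₀, ?_, ?_, ?_⟩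
  · intro h0
    rw [h0, Matrix.mulVec_zero] at hstar
    have := congrFun hstar j0
    simp at this
  · conv_lhs => rw [hs]
    rw [← Matrix.mulVec_mulVec, ← Matrix.mulVec_mulVec, hstar]
    have h1 : (Matrix.diagonal fun i => (hH.eigenvalues i : ℂ)) *ᵥ (Pi.single j0 1 : κ → ℂ) =
        (hH.eigenvalues j0 : ℂ) • Pi.single j0 1 := by
      ext i
      rw [Matrix.mulVec_diagonal]
      by_cases hi : i = j0
      · subst hi; simp
      · simp [hi]
    rw [h1, Matrix.mulVec_smul]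
  · intro ψ hψ0 horth
    set φ : κ → ℂ := star U *ᵥ ψ with hφ
    have hψφ : ψ = U *ᵥ φ := by
      rw [hφ, Matrix.mulVec_mulVec, hUU, Matrix.one_mulVec]
    have hnorm : ∀ χ : κ → ℂ, star (U *ᵥ φ) ⬝ᵥ (U *ᵥ χ) = star φ ⬝ᵥ χ := by
      intro χ
      rw [Matrix.star_mulVec, ← Matrix.dotProduct_mulVec, Matrix.mulVec_mulVec]
      have : Uᴴ * U = 1 := hUU'
      rw [this, Matrix.one_mulVec]
    have hφ0 : φ j0 = 0 := by
      have h1 : star ψ₀ ⬝ᵥ ψ = star (Pi.single j0 1 : κ → ℂ) ⬝ᵥ φ := by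
        rw [hψ, hψφ, Matrix.star_mulVec, ← Matrix.dotProduct_mulVec, Matrix.mulVec_mulVec]
        have : Uᴴ * U = 1 := hUU'
        rw [this, Matrix.one_mulVec]
      rw [horth] at h1
      have h2 : star (Pi.single j0 1 : κ → ℂ) ⬝ᵥ φ = φ j0 := by
        simp [dotProduct, Pi.single_apply, apply_ite (star : ℂ → ℂ)]
      rw [h2] at h1
      exact h1.symm
    have hHψ : H *ᵥ ψ = U *ᵥ ((Matrix.diagonal fun i => (hH.eigenvalues i : ℂ)) *ᵥ φ) := by
      conv_lhs => rw [hs]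
      rw [← Matrix.mulVec_mulVec, ← Matrix.mulVec_mulVec]
    have e1 : (star ψ ⬝ᵥ ψ).re = ∑ j, ‖φ j‖ ^ 2 := by
      rw [hψφ, hnorm]
      simp only [dotProduct, Complex.re_sum]
      refine Finset.sum_congr rfl fun j _ => ?_
      rw [Pi.star_apply, ← starRingEnd_apply, mul_comm, Complex.mul_conj, Complex.ofReal_re,
        Complex.normSq_eq_norm_sq]
    have e2 : (star ψ ⬝ᵥ H *ᵥ ψ).re = ∑ j, hH.eigenvalues j * ‖φ j‖ ^ 2 := by
      rw [hHψ, hψφ, hnorm]
      simp only [dotProduct, Complex.re_sum]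
      refine Finset.sum_congr rfl fun j _ => ?_
      rw [Matrix.mulVec_diagonal, Pi.star_apply, ← starRingEnd_apply, mul_left_comm,
        mul_comm ((starRingEnd ℂ) (φ j)), Complex.mul_conj, ← Complex.ofReal_mul, Complex.ofReal_re,
        Complex.normSq_eq_norm_sq]
    rw [e1, e2, Finset.mul_sum]
    obtain ⟨i, hi⟩ : ∃ i, φ i ≠ 0 := by
      by_contra hcon
      push Not at hcon
      apply hψ0
      rw [hψφ]
      have : φ = 0 := funext hcon
      rw [this, Matrix.mulVec_zero]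
    have hterm : ∀ j, (hH.eigenvalues j0 + c) * ‖φ j‖ ^ 2 ≤ hH.eigenvalues j * ‖φ j‖ ^ 2 := by
      intro j
      by_cases hj : j = j0
      · subst hj; rw [hφ0]; simp
      · exact mul_le_mul_of_nonneg_right (hgap j hj).le (by positivity)
    have hne : i ≠ j0 := by
      rintro rfl; exact hi hφ0
    refine Finset.sum_lt_sum (fun j _ => hterm j) ⟨i, Finset.mem_univ i, ?_⟩
    have : 0 < ‖φ i‖ ^ 2 := by positivity
    exact mul_lt_mul_of_pos_right (hgap i hne) this

/-- (1c) -/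
theorem gap_of_sum (hH : H.IsHermitian) {β c : ℝ} (hβ : 0 < β) (j0 : κ)
    (h : ∑ j, Real.exp (-(β * (hH.eigenvalues j - hH.eigenvalues j0))) < 1 + Real.exp (-(β * c))) :
    HasSimpleGroundStateWithGap H c := by
  apply gap_of_eig hH j0
  intro j hj
  have h1 : Real.exp (-(β * (hH.eigenvalues j0 - hH.eigenvalues j0))) +
      Real.exp (-(β * (hH.eigenvalues j - hH.eigenvalues j0))) ≤
      ∑ j, Real.exp (-(β * (hH.eigenvalues j - hH.eigenvalues j0))) := by
    rw [← Finset.sum_pair (f := fun j => Real.exp (-(β * (hH.eigenvalues j - hH.eigenvalues j0))))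
      hj.symm]
    exact Finset.sum_le_sum_of_subset_of_nonneg (Finset.subset_univ _)
      (fun _ _ _ => (Real.exp_pos _).le)
  rw [sub_self, mul_zero, neg_zero, Real.exp_zero] at h1
  have h2 : Real.exp (-(β * (hH.eigenvalues j - hH.eigenvalues j0))) < Real.exp (-(β * c)) := by
    linarith
  rw [Real.exp_lt_exp] at h2
  have h3 : β * c < β * (hH.eigenvalues j - hH.eigenvalues j0) := by linarith
  have h4 := lt_of_mul_lt_mul_left h3 hβ.le
  linarith

/-- the smallest eigenvalue -/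
theorem exists_min_eig [Nonempty κ] (hH : H.IsHermitian) :
    ∃ j0, ∀ j, hH.eigenvalues j0 ≤ hH.eigenvalues j := by
  obtain ⟨j0, -, h⟩ := Finset.exists_min_image Finset.univ hH.eigenvalues Finset.univ_nonempty
  exact ⟨j0, fun j => h j (Finset.mem_univ j)⟩

/-- Gap from the partition function and its top (time direction power sum). -/
theorem gap_of_top [Nonempty κ] (hH : H.IsHermitian) {z : ℝ → ℝ} {t x : ℝ}
    (hz : ∀ β : ℝ, 0 < β → z β = (∑ j, Real.exp (-(β * hH.eigenvalues j))) * Real.exp (β * x))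
    (hT : PSTop {β : ℝ | 0 < β} (fun β => β) 1 z t) {β c : ℝ} (hβ : 0 < β)
    (h : z β < t ^ β * (1 + Real.exp (-(β * c)))) : HasSimpleGroundStateWithGap H c := by
  obtain ⟨j0, hj0⟩ := exists_min_eig hH
  set E := hH.eigenvalues with hE
  set a : ℝ := Real.exp (x - E j0) with ha
  have ha0 : 0 < a := Real.exp_pos _
  have hapow : ∀ y : ℝ, a ^ y = Real.exp (y * x) * Real.exp (-(y * E j0)) := by
    intro y
    rw [ha, ← Real.exp_mul, ← Real.exp_add]
    congr 1
    ring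
  -- upper bound for the top
  have hub : ∀ y : ℝ, 0 < y → z y ≤ Fintype.card κ * a ^ y := by
    intro y hy
    rw [hz y hy, hapow]
    have : ∑ j, Real.exp (-(y * E j)) ≤ Fintype.card κ * Real.exp (-(y * E j0)) := by
      have h1 : ∀ j ∈ (Finset.univ : Finset κ), Real.exp (-(y * E j)) ≤ Real.exp (-(y * E j0)) := by
        intro j _
        apply Real.exp_le_exp.mpr
        have := mul_le_mul_of_nonneg_left (hj0 j) hy.le
        linarith
      have h2 := Finset.sum_le_card_nsmul _ _ _ h1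
      simpa [Finset.card_univ] using h2
    calc (∑ j, Real.exp (-(y * E j))) * Real.exp (y * x)
        ≤ (Fintype.card κ * Real.exp (-(y * E j0))) * Real.exp (y * x) :=
          mul_le_mul_of_nonneg_right this (Real.exp_pos _).le
      _ = _ := by ring
  have hta : t ≤ a := by
    by_contra hcon
    push Not at hcon
    have hq : 1 < t / a := by rwa [lt_div_iff₀ ha0, one_mul]
    have hN : ∀ y : ℝ, 0 < y → (t / a) ^ y ≤ Fintype.card κ := by
      intro y hy
      have h1 : t ^ y ≤ z y := by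
        have := hT.rem.nonneg y hy
        linarith
      have h2 := h1.trans (hub y hy)
      rw [Real.div_rpow hT.t_nonneg ha0.le, div_le_iff₀ (Real.rpow_pos_of_pos ha0 y)]
      exact h2
    obtain ⟨n, hn⟩ := pow_unbounded_of_one_lt ((Fintype.card κ : ℕ) : ℝ) hq
    have h3 := hN (n + 1) (by positivity)
    have h4 : (t / a) ^ (n : ℕ) ≤ (t / a) ^ ((n : ℝ) + 1) := by
      rw [← Real.rpow_natCast]
      exact Real.rpow_le_rpow_of_exponent_le hq.le (by linarith)
    linarith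
  apply gap_of_sum hH hβ j0
  have h5 : t ^ β ≤ a ^ β := Real.rpow_le_rpow hT.t_nonneg hta hβ.le
  have h6 : z β < a ^ β * (1 + Real.exp (-(β * c))) :=
    lt_of_lt_of_le h (mul_le_mul_of_nonneg_right h5 (by positivity))
  have h7 : z β = a ^ β * ∑ j, Real.exp (-(β * (E j - E j0))) := by
    rw [hz β hβ, hapow, Finset.mul_sum, Finset.sum_mul]
    refine Finset.sum_congr rfl fun j _ => ?_
    rw [← Real.exp_add, ← Real.exp_add, ← Real.exp_add]
    congr 1
    ring
  rw [h7] at h6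
  exact lt_of_mul_lt_mul_left h6 (Real.rpow_nonneg ha0.le β)

/-- elementary inequality behind (1e) -/
theorem ratio_lemma {ι : Type*} [Fintype ι] [DecidableEq ι] (l : ι → ℝ) (hl : ∀ i, 0 < l i)
    {j0 j1 : ι} (hne : j1 ≠ j0) (hmax : ∀ j, l j ≤ l j0) {r : ℝ} (hr0 : 0 ≤ r) (_hr1 : r ≤ 1)
    (h : (∑ j, l j) ^ 2 * (1 + r ^ 2) < (1 + r) ^ 2 * ∑ j, l j ^ 2) : l j1 < r * l j0 := by
  by_contra hcon
  push Not at hcon
  set s : Finset ι := (Finset.univ.erase j0).erase j1 with hs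
  have hj1 : j1 ∈ Finset.univ.erase j0 := Finset.mem_erase.mpr ⟨hne, Finset.mem_univ _⟩
  have e1 : ∑ j, l j = l j0 + (l j1 + ∑ j ∈ s, l j) := by
    rw [hs, Finset.add_sum_erase _ _ hj1, Finset.add_sum_erase _ _ (Finset.mem_univ j0)]
  have e2 : ∑ j, l j ^ 2 = l j0 ^ 2 + (l j1 ^ 2 + ∑ j ∈ s, l j ^ 2) := by
    rw [hs, Finset.add_sum_erase _ (fun j => l j ^ 2) hj1,
      Finset.add_sum_erase _ (fun j => l j ^ 2) (Finset.mem_univ j0)]
  set σ := ∑ j ∈ s, l j with hσ
  have hσ0 : 0 ≤ σ := Finset.sum_nonneg fun j _ => (hl j).le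
  have e3 : ∑ j ∈ s, l j ^ 2 ≤ σ * l j0 := by
    rw [hσ, Finset.sum_mul]
    refine Finset.sum_le_sum fun j _ => ?_
    rw [sq]
    exact mul_le_mul_of_nonneg_left (hmax j) (hl j).le
  have ha := hl j0
  have hb := hl j1
  have hba := hmax j1
  set a := l j0
  set b := l j1
  rw [e1, e2] at h
  -- monotonicity in the ratio `b / a`
  have hmono : (1 + r) ^ 2 * (a ^ 2 + b ^ 2) ≤ (a + b) ^ 2 * (1 + r ^ 2) := by
    have h1 : (a + b) ^ 2 * (1 + r ^ 2) - (1 + r) ^ 2 * (a ^ 2 + b ^ 2) =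
        2 * (b - r * a) * (a - r * b) := by ring
    have h2 : 0 ≤ b - r * a := by linarith
    have h3 : 0 ≤ a - r * b := by nlinarith
    nlinarith [mul_nonneg h2 h3]
  -- adding the other levels
  have hadd : (a + b) ^ 2 * (a ^ 2 + b ^ 2 + σ * a) ≤ (a + b + σ) ^ 2 * (a ^ 2 + b ^ 2) := by
    have h1 : (a + b + σ) ^ 2 * (a ^ 2 + b ^ 2) - (a + b) ^ 2 * (a ^ 2 + b ^ 2 + σ * a) =
        σ * ((a + b) * (a * (a - b) + 2 * b ^ 2) + σ * (a ^ 2 + b ^ 2)) := by ring
    have h2 : 0 ≤ (a + b) * (a * (a - b) + 2 * b ^ 2) + σ * (a ^ 2 + b ^ 2) := by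
      have : 0 ≤ a - b := by linarith
      positivity
    nlinarith [mul_nonneg hσ0 h2]
  have hQ : 0 < a ^ 2 + b ^ 2 := by positivity
  have h1 : (a + (b + σ)) ^ 2 * (1 + r ^ 2) * (a ^ 2 + b ^ 2) <
      (1 + r) ^ 2 * (a ^ 2 + (b ^ 2 + ∑ j ∈ s, l j ^ 2)) * (a ^ 2 + b ^ 2) :=
    mul_lt_mul_of_pos_right h hQ
  have h2 : (1 + r) ^ 2 * (a ^ 2 + (b ^ 2 + ∑ j ∈ s, l j ^ 2)) * (a ^ 2 + b ^ 2) ≤
      (1 + r) ^ 2 * (a ^ 2 + b ^ 2 + σ * a) * (a ^ 2 + b ^ 2) := by
    apply mul_le_mul_of_nonneg_right _ hQ.le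
    apply mul_le_mul_of_nonneg_left _ (by positivity)
    linarith
  have h3 : (1 + r) ^ 2 * (a ^ 2 + b ^ 2 + σ * a) * (a ^ 2 + b ^ 2) ≤
      (a + b) ^ 2 * (1 + r ^ 2) * (a ^ 2 + b ^ 2 + σ * a) := by
    have : 0 ≤ a ^ 2 + b ^ 2 + σ * a := by positivity
    nlinarith [mul_le_mul_of_nonneg_right hmono this]
  have h4 : (a + b) ^ 2 * (1 + r ^ 2) * (a ^ 2 + b ^ 2 + σ * a) ≤
      (a + b + σ) ^ 2 * (a ^ 2 + b ^ 2) * (1 + r ^ 2) := by
    have : 0 ≤ 1 + r ^ 2 := by positivity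
    nlinarith [mul_le_mul_of_nonneg_right hadd this]
  have h5 : (a + (b + σ)) ^ 2 * (1 + r ^ 2) * (a ^ 2 + b ^ 2) =
      (a + b + σ) ^ 2 * (a ^ 2 + b ^ 2) * (1 + r ^ 2) := by ring
  linarith

/-- (1e), eigenvalue form -/
theorem gap_of_ratio [Nonempty κ] (hH : H.IsHermitian) {β c : ℝ} (hβ : 0 < β) (hc : 0 ≤ c)
    (h : (∑ j, Real.exp (-(β * hH.eigenvalues j))) ^ 2 * (1 + Real.exp (-(β * c)) ^ 2) <
      (1 + Real.exp (-(β * c))) ^ 2 * ∑ j, Real.exp (-(2 * β * hH.eigenvalues j))) :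
    HasSimpleGroundStateWithGap H c := by
  obtain ⟨j0, hj0⟩ := exists_min_eig hH
  apply gap_of_eig hH j0
  intro j hj
  have e : ∀ j, Real.exp (-(2 * β * hH.eigenvalues j)) = Real.exp (-(β * hH.eigenvalues j)) ^ 2 := by
    intro j
    rw [← Real.exp_nat_mul]
    congr 1
    push_cast
    ring
  simp_rw [e] at h
  have h1 := ratio_lemma (fun j => Real.exp (-(β * hH.eigenvalues j))) (fun _ => Real.exp_pos _) hj
    (fun i => by
      apply Real.exp_le_exp.mpr
      have := mul_le_mul_of_nonneg_left (hj0 i) hβ.le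
      linarith)
    (Real.exp_pos _).le (Real.exp_le_one_iff.mpr (by have := mul_nonneg hβ.le hc; linarith)) h
  rw [← Real.exp_add, Real.exp_lt_exp] at h1
  have h3 : β * (hH.eigenvalues j0 + c) < β * hH.eigenvalues j := by linarith
  exact lt_of_mul_lt_mul_left h3 hβ.le

theorem trace_exp_neg_re (hH : H.IsHermitian) (β : ℝ) :
    (NormedSpace.exp ((-β) • H)).trace.re = ∑ j, Real.exp (-(β * hH.eigenvalues j)) := by
  rw [trace_exp_eq_sum hH]
  have h1 : (((∑ j, Real.exp (-β * hH.eigenvalues j) : ℝ) : ℂ)).re =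
      ∑ j, Real.exp (-β * hH.eigenvalues j) := Complex.ofReal_re _
  simp only [neg_mul] at h1 ⊢
  exact h1

/-- (1e), trace form: `a` is a normalised trace, `a β = Tr e^{-βH} e^{β x}`. -/
theorem gap_of_trace_ratio [Nonempty κ] (hH : H.IsHermitian) {β c x : ℝ} (hβ : 0 < β) (hc : 0 ≤ c)
    (h : ((NormedSpace.exp ((-β) • H)).trace.re * Real.exp (β * x)) ^ 2 *
        (1 + Real.exp (-(β * c)) ^ 2) <
      (1 + Real.exp (-(β * c))) ^ 2 *
        ((NormedSpace.exp ((-(2 * β)) • H)).trace.re * Real.exp (2 * β * x))) :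
    HasSimpleGroundStateWithGap H c := by
  apply gap_of_ratio hH hβ hc
  rw [trace_exp_neg_re hH, trace_exp_neg_re hH] at h
  have e : Real.exp (2 * β * x) = Real.exp (β * x) ^ 2 := by
    rw [← Real.exp_nat_mul]
    congr 1
    push_cast
    ring
  rw [e, mul_pow] at h
  have hp : 0 < Real.exp (β * x) ^ 2 := by positivity
  have h1 : Real.exp (β * x) ^ 2 * ((∑ j, Real.exp (-(β * hH.eigenvalues j))) ^ 2 *
      (1 + Real.exp (-(β * c)) ^ 2)) < Real.exp (β * x) ^ 2 *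
      ((1 + Real.exp (-(β * c))) ^ 2 * ∑ j, Real.exp (-(2 * β * hH.eigenvalues j))) := by
    calc _ = (∑ j, Real.exp (-(β * hH.eigenvalues j))) ^ 2 * Real.exp (β * x) ^ 2 *
          (1 + Real.exp (-(β * c)) ^ 2) := by ring
      _ < _ := h
      _ = _ := by ring
  exact lt_of_mul_lt_mul_left h1 hp.le

end gap

end Hald
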