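import Crest.Agent.Hald.Tensor

/-!
# Row 347, module M2 (2b): label (word) expansions

* `ofFn_prod_sum`, `sum_pow_eq`: expansion of ordered products of sums in a ring;
* `trace_label_expand`: statement (2b) of the specification;
* `bondOp x j k = ∑ w, x_j^w ⊗ x_k^w`, `bond_factor`: `1 + τ ∑_a P_a(j) Q_a(k)` is a `bondOp`;
* `layer_expand`, `twoLayer_pow`, `trace_twoLayer_pow`: two layers of disjoint bonds (ring);
* `graph_expand`, `graph_pow`, `trace_graph_pow`: an arbitrary ordered list of bonds (chains,
  sequential order), with arbitrary one-site factors allowed through `z`.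
-/

set_option autoImplicit false
set_option linter.unusedSectionVars false

namespace Hald

open Matrix Finset

section Expand

/-- Expansion of an ordered product of sums in a (noncommutative) ring. -/
theorem ofFn_prod_sum {A W : Type*} [Ring A] [Fintype W] {n : ℕ} (G : Fin n → W → A) :
    (List.ofFn fun b => ∑ w, G b w).prod =
      ∑ w : Fin n → W, (List.ofFn fun b => G b (w b)).prod := by
  classical
  have h := (MultilinearMap.mkPiAlgebraFin ℤ n A).map_sum (fun (b : Fin n) (w : W) => G b w)
  simpa [MultilinearMap.mkPiAlgebraFin_apply] using h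

/-- Expansion of a power of a sum in a (noncommutative) ring. -/
theorem sum_pow_eq {A W : Type*} [Ring A] [Fintype W] (n : ℕ) (G : W → A) :
    (∑ w, G w) ^ n = ∑ w : Fin n → W, (List.ofFn fun b => G (w b)).prod := by
  rw [← ofFn_prod_sum (fun (_ : Fin n) w => G w)]
  simp

/-- In a monoid, an ordered product with at most one factor `≠ 1`. -/
theorem ofFn_prod_eq_single {A : Type*} [Monoid A] {n : ℕ} (f : Fin n → A) (b : Fin n)
    (h : ∀ i, i ≠ b → f i = 1) : (List.ofFn f).prod = f b := by
  induction n with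
  | zero => exact b.elim0
  | succ n ih =>
    rw [List.ofFn_succ, List.prod_cons]
    by_cases hb : b = 0
    · subst hb
      have : (List.ofFn fun i : Fin n => f i.succ).prod = 1 := by
        apply List.prod_eq_one
        intro x hx
        rw [List.mem_ofFn] at hx
        obtain ⟨i, rfl⟩ := hx
        exact h _ (Fin.succ_ne_zero i)
      rw [this, mul_one]
    · obtain ⟨b', rfl⟩ := Fin.exists_succ_eq.2 hb
      rw [h 0 (Ne.symm hb), one_mul]
      exact ih (fun i => f i.succ) b' fun i hi => h _ fun h' => hi (Fin.succ_injective _ h')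

theorem ofFn_prod_eq_one {A : Type*} [Monoid A] {n : ℕ} (f : Fin n → A)
    (h : ∀ i, f i = 1) : (List.ofFn f).prod = 1 := by
  apply List.prod_eq_one
  intro x hx
  rw [List.mem_ofFn] at hx
  obtain ⟨i, rfl⟩ := hx
  exact h _

/-- In a monoid, an ordered product with at most two factors `≠ 1`, at `b < b'`. -/
theorem ofFn_prod_eq_pair {A : Type*} [Monoid A] {n : ℕ} (f : Fin n → A) (b b' : Fin n)
    (hbb : b < b') (h : ∀ i, i ≠ b → i ≠ b' → f i = 1) : (List.ofFn f).prod = f b * f b' := by
  induction n with
  | zero => exact b.elim0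
  | succ n ih =>
    rw [List.ofFn_succ, List.prod_cons]
    have hb' : b' ≠ 0 := fun h0 => by subst h0; exact absurd hbb (Fin.not_lt_zero b)
    obtain ⟨c', rfl⟩ := Fin.exists_succ_eq.2 hb'
    by_cases hb : b = 0
    · subst hb
      rw [ofFn_prod_eq_single (fun i : Fin n => f i.succ) c' fun i hi =>
        h _ (Fin.succ_ne_zero i) fun h' => hi (Fin.succ_injective _ h')]
    · obtain ⟨c, rfl⟩ := Fin.exists_succ_eq.2 hb
      rw [h 0 (Ne.symm hb) (Ne.symm hb'), one_mul]
      exact ih (fun i => f i.succ) c c' (Fin.succ_lt_succ_iff.1 hbb) fun i hi hi' =>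
        h _ (fun h' => hi (Fin.succ_injective _ h')) (fun h' => hi' (Fin.succ_injective _ h'))

end Expand

section

variable {ι : Type*} {κ : ι → Type*} {R W : Type*} [Fintype ι] [DecidableEq ι]
  [∀ i, Fintype (κ i)] [∀ i, DecidableEq (κ i)] [CommRing R] [Fintype W]

/-- **(2b)** label expansion of the trace of a power. -/
theorem trace_label_expand {B : Type*} [Fintype B] [DecidableEq B] (n : ℕ)
    (U : ∀ i, Matrix (κ i) (κ i) R) (G : ∀ i, (B → W) → Matrix (κ i) (κ i) R) :
    (tens U * (∑ a : B → W, tens fun i => G i a) ^ n).trace =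
      ∑ ω : B → Fin n → W,
        ∏ i, (U i * (List.ofFn fun t => G i (fun b => ω b t)).prod).trace := by
  rw [sum_pow_eq n (fun a : B → W => tens fun i => G i a), Finset.mul_sum, Matrix.trace_sum]
  refine Fintype.sum_equiv (Equiv.piComm (fun (_ : Fin n) (_ : B) => W)) _ _ fun f => ?_
  rw [ofFn_prod_tens, tens_mul, trace_tens]
  rfl

/-- The bond operator `∑ w, x_j^w ⊗ x_k^w`. -/
noncomputable def bondOp (x : ∀ i, W → Matrix (κ i) (κ i) R) (j k : ι) : Matrix (∀ i, κ i) (∀ i, κ i) R :=
  ∑ w, tens (pairFam j k (x j w) (x k w))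

/-- The matrix at one site for one layer: `x i (w b)` if the site lies on the bond `b`, else `1`. -/
def layerMat {M : ℕ} (x : ∀ i, W → Matrix (κ i) (κ i) R) (c : ι → Option (Fin M))
    (w : Fin M → W) (i : ι) : Matrix (κ i) (κ i) R :=
  (c i).elim 1 fun b => x i (w b)

/-- **Layer expansion.** -/
theorem layer_expand {M : ℕ} (x : ∀ i, W → Matrix (κ i) (κ i) R) (a a' : Fin M → ι)
    (c : ι → Option (Fin M)) (hne : ∀ b, a b ≠ a' b)
    (hc : ∀ i b, c i = some b ↔ (i = a b ∨ i = a' b)) :
    (List.ofFn fun b => bondOp x (a b) (a' b)).prod =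
      ∑ w : Fin M → W, tens (layerMat x c w) := by
  unfold bondOp
  rw [ofFn_prod_sum (fun b w => tens (pairFam (a b) (a' b) (x (a b) w) (x (a' b) w)))]
  refine Finset.sum_congr rfl fun w _ => ?_
  rw [ofFn_prod_tens]
  congr 1
  funext i
  unfold layerMat
  have hother : ∀ b, c i ≠ some b →
      pairFam (a b) (a' b) (x (a b) (w b)) (x (a' b) (w b)) i = 1 := by
    intro b hb
    rw [Ne, hc, not_or] at hb
    exact pairFam_other hb.1 hb.2 _ _
  rcases hci : c i with _ | b
  · exact ofFn_prod_eq_one _ fun b => hother b (by rw [hci]; simp)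
  · rw [ofFn_prod_eq_single _ b fun b' hb' => hother b' (by
      rw [hci]; intro h; exact hb' (Option.some.inj h).symm)]
    rcases (hc i b).1 hci with h | h
    · subst h; simp [pairFam_left]
    · subst h; simp [pairFam_right (hne b)]

/-- The word matrix at one site: the time-ordered product of the letters of the (optional) word
`p` of the first layer and the (optional) word `q` of the second layer. -/
def wordMat {n : ℕ} (x y : ∀ i, W → Matrix (κ i) (κ i) R) (i : ι)
    (p q : Option (Fin n → W)) : Matrix (κ i) (κ i) R :=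
  (List.ofFn fun t => (p.elim 1 fun u => x i (u t)) * (q.elim 1 fun v => y i (v t))).prod

theorem wordMat_some_some {n : ℕ} (x y : ∀ i, W → Matrix (κ i) (κ i) R) (i : ι)
    (u v : Fin n → W) :
    wordMat x y i (some u) (some v) = (List.ofFn fun t => x i (u t) * y i (v t)).prod := rfl

theorem wordMat_some_none {n : ℕ} (x y : ∀ i, W → Matrix (κ i) (κ i) R) (i : ι)
    (u : Fin n → W) :
    wordMat x y i (some u) none = (List.ofFn fun t => x i (u t)).prod := by
  simp [wordMat]

theorem wordMat_none_some {n : ℕ} (x y : ∀ i, W → Matrix (κ i) (κ i) R) (i : ι)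
    (v : Fin n → W) :
    wordMat x y i none (some v) = (List.ofFn fun t => y i (v t)).prod := by
  simp [wordMat]

/-- **Two-layer word expansion** of the `n`-th power. -/
theorem twoLayer_pow {M M' : ℕ} (n : ℕ) (x y : ∀ i, W → Matrix (κ i) (κ i) R)
    (c : ι → Option (Fin M)) (c' : ι → Option (Fin M')) :
    ((∑ w : Fin M → W, tens (layerMat x c w)) * (∑ w : Fin M' → W, tens (layerMat y c' w))) ^ n =
      ∑ u : Fin M → (Fin n → W), ∑ v : Fin M' → (Fin n → W),
        tens fun i => wordMat x y i ((c i).map u) ((c' i).map v) := by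
  rw [Finset.sum_mul_sum, ← Finset.sum_product', Finset.univ_product_univ,
    sum_pow_eq n (fun p : (Fin M → W) × (Fin M' → W) =>
      tens (layerMat x c p.1) * tens (layerMat y c' p.2))]
  rw [← Finset.sum_product', Finset.univ_product_univ]
  -- reindexing
  let e : (Fin n → (Fin M → W) × (Fin M' → W)) ≃ (Fin M → Fin n → W) × (Fin M' → Fin n → W) :=
    { toFun := fun f => (fun b t => (f t).1 b, fun b t => (f t).2 b)
      invFun := fun g t => (fun b => g.1 b t, fun b => g.2 b t)
      left_inv := fun f => by funext t; rfl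
      right_inv := fun g => rfl }
  refine Fintype.sum_equiv e _ _ fun f => ?_
  simp only [tens_mul]
  rw [ofFn_prod_tens]
  congr 1
  funext i
  unfold wordMat layerMat
  congr 1
  congr 1
  funext t
  rcases c i with _ | b <;> rcases c' i with _ | b' <;> simp [e]

/-- Trace form of `twoLayer_pow`. -/
theorem trace_twoLayer_pow {M M' : ℕ} (n : ℕ) (x y : ∀ i, W → Matrix (κ i) (κ i) R)
    (c : ι → Option (Fin M)) (c' : ι → Option (Fin M')) (g : ∀ i, Matrix (κ i) (κ i) R) :
    (tens g * ((∑ w : Fin M → W, tens (layerMat x c w)) *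
      (∑ w : Fin M' → W, tens (layerMat y c' w))) ^ n).trace =
      ∑ u : Fin M → (Fin n → W), ∑ v : Fin M' → (Fin n → W),
        ∏ i, (g i * wordMat x y i ((c i).map u) ((c' i).map v)).trace := by
  rw [twoLayer_pow, Finset.mul_sum, Matrix.trace_sum]
  refine Finset.sum_congr rfl fun u _ => ?_
  rw [Finset.mul_sum, Matrix.trace_sum]
  refine Finset.sum_congr rfl fun v _ => ?_
  rw [tens_mul, trace_tens]

/-- Convenient combination for the ring: the ordered products of two layers of bond operators. -/
theorem trace_two_bond_layers {M M' : ℕ} (n : ℕ) (x y : ∀ i, W → Matrix (κ i) (κ i) R)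
    (a a' : Fin M → ι) (c : ι → Option (Fin M)) (hne : ∀ b, a b ≠ a' b)
    (hc : ∀ i b, c i = some b ↔ (i = a b ∨ i = a' b))
    (d d' : Fin M' → ι) (e : ι → Option (Fin M')) (hne' : ∀ b, d b ≠ d' b)
    (he : ∀ i b, e i = some b ↔ (i = d b ∨ i = d' b))
    (g : ∀ i, Matrix (κ i) (κ i) R) :
    (tens g * ((List.ofFn fun b => bondOp x (a b) (a' b)).prod *
      (List.ofFn fun b => bondOp y (d b) (d' b)).prod) ^ n).trace =
      ∑ u : Fin M → (Fin n → W), ∑ v : Fin M' → (Fin n → W),
        ∏ i, (g i * wordMat x y i ((c i).map u) ((e i).map v)).trace := by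
  rw [layer_expand x a a' c hne hc, layer_expand y d d' e hne' he, trace_twoLayer_pow]

/-! ### arbitrary ordered families of factors -/

/-- **Graph expansion**: an ordered product of factors `∑ w, tens (F b w)`. -/
theorem graph_expand {M : ℕ} (F : Fin M → W → ∀ i, Matrix (κ i) (κ i) R) :
    (List.ofFn fun b => ∑ w, tens (F b w)).prod =
      ∑ w : Fin M → W, tens fun i => (List.ofFn fun b => F b (w b) i).prod := by
  rw [ofFn_prod_sum (fun b w => tens (F b w))]
  exact Finset.sum_congr rfl fun w _ => ofFn_prod_tens _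

/-- Trace of `tens g` times the `n`-th power of an ordered product of factors `∑ w, tens (F b w)`. -/
theorem trace_graph_pow {M : ℕ} (n : ℕ) (F : Fin M → W → ∀ i, Matrix (κ i) (κ i) R)
    (g : ∀ i, Matrix (κ i) (κ i) R) :
    (tens g * ((List.ofFn fun b => ∑ w, tens (F b w)).prod) ^ n).trace =
      ∑ ω : Fin M → Fin n → W,
        ∏ i, (g i * (List.ofFn fun t => (List.ofFn fun b => F b (ω b t) i).prod).prod).trace := by
  rw [graph_expand]
  exact trace_label_expand n g (fun i a => (List.ofFn fun b => F b (a b) i).prod)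

end

section BondFactor

variable {ι : Type*} {κ : ι → Type*} {R : Type*} [Fintype ι] [DecidableEq ι]
  [∀ i, Fintype (κ i)] [∀ i, DecidableEq (κ i)] [CommRing R]

/-- The letter family `1, s • P_0, …, s • P_{q-1}`. -/
def letters {q : ℕ} {k : Type*} [DecidableEq k] (s : R) (P : Fin q → Matrix k k R) :
    Fin (q + 1) → Matrix k k R :=
  Fin.cons 1 fun a => s • P a

theorem pairFam_smul (j k : ι) (hjk : j ≠ k) (s : R) (A : Matrix (κ j) (κ j) R)
    (B : Matrix (κ k) (κ k) R) :
    tens (pairFam j k (s • A) (s • B)) = (s * s) • tens (pairFam j k A B) := by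
  rw [← site_mul_site hjk, ← site_mul_site hjk, site_smul, site_smul, Matrix.smul_mul,
    Matrix.mul_smul, smul_smul]

/-- The Trotter factor of one bond as a sum of pure tensors:
`1 + (s * s) ∑_a P_a(j) Q_a(k) = ∑_w x^w(j) y^w(k)` with `x = letters s P`, `y = letters s Q`. -/
theorem bond_factor {q : ℕ} {j k : ι} (hjk : j ≠ k) (s : R) (P : Fin q → Matrix (κ j) (κ j) R)
    (Q : Fin q → Matrix (κ k) (κ k) R) :
    1 + (s * s) • ∑ a, site j (P a) * site k (Q a) =
      ∑ w, tens (pairFam j k (letters s P w) (letters s Q w)) := by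
  rw [Fin.sum_univ_succ]
  simp only [letters, Fin.cons_zero, Fin.cons_succ]
  rw [pairFam_one, tens_one, Finset.smul_sum]
  congr 1
  refine Finset.sum_congr rfl fun a _ => ?_
  rw [pairFam_smul j k hjk, site_mul_site hjk]

end BondFactor

end Hald
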