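import Crest.Agent.Hald.ExpFacts

/-!
# Row 347, M1 (1a): the Cartesian basis

`cartU` is unitary and `spinOp a = cartU * (I • Lr a) * cartUᴴ`.
-/

set_option autoImplicit false

namespace Hald

open Matrix Finset Crest.MathPhysics.SpinChain

/-- `1/√2` as a complex number -/
noncomputable def rh : ℂ := ((Real.sqrt 2 / 2 : ℝ) : ℂ)

theorem rh_sq : rh * rh = 1 / 2 := by
  unfold rh
  rw [← Complex.ofReal_mul]
  have : Real.sqrt 2 / 2 * (Real.sqrt 2 / 2) = 1 / 2 := by
    have h := Real.mul_self_sqrt (show (0 : ℝ) ≤ 2 by norm_num)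
    nlinarith
  rw [this]; push_cast; ring

theorem rh_star : (starRingEnd ℂ) rh = rh := by
  unfold rh; exact Complex.conj_ofReal _

theorem sqrt2_eq : ((Real.sqrt 2 : ℝ) : ℂ) = 2 * rh := by
  unfold rh; push_cast; ring

/-- the Cartesian basis change -/
noncomputable def cartU : Matrix (Fin 3) (Fin 3) ℂ :=
  !![-rh, Complex.I * rh, 0; 0, 0, 1; rh, Complex.I * rh, 0]

theorem cartU_conjTranspose : cartUᴴ = !![-rh, 0, rh; -Complex.I * rh, 0, -Complex.I * rh; 0, 1, 0] := by
  ext i j
  fin_cases i <;> fin_cases j <;> simp [cartU, Matrix.conjTranspose_apply, rh_star]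

theorem rh_pow : rh ^ 2 = 1 / 2 := by rw [sq]; exact rh_sq

theorem cartU_mul_conj : cartU * cartUᴴ = 1 := by
  rw [cartU_conjTranspose]
  have h := rh_pow
  have hI := Complex.I_sq
  ext i j
  fin_cases i <;> fin_cases j <;>
    simp [cartU, Matrix.mul_apply, Fin.sum_univ_three] <;>
    first
      | linear_combination (1 - Complex.I ^ 2) * h - (1 / 2 : ℂ) * hI
      | linear_combination (-1 - Complex.I ^ 2) * h - (1 / 2 : ℂ) * hI

theorem conj_mul_cartU : cartUᴴ * cartU = 1 := by
  exact mul_eq_one_comm.1 cartU_mul_conj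

/-- complex Cartesian spin matrices `I L_a` -/
theorem ILr_eq (a : Fin 3) : Complex.I • (Lr a).map (fun x : ℝ => (x : ℂ)) =
    (![!![0, 0, 0; 0, 0, -Complex.I; 0, Complex.I, 0],
      !![0, 0, Complex.I; 0, 0, 0; -Complex.I, 0, 0],
      !![0, -Complex.I, 0; Complex.I, 0, 0; 0, 0, 0]] : Fin 3 → Matrix (Fin 3) (Fin 3) ℂ) a := by
  fin_cases a <;> ext i j <;> fin_cases i <;> fin_cases j <;> simp [Lr]

theorem spinOp_eq (a : Fin 3) :
    spinOp a = cartU * (Complex.I • (Lr a).map (fun x : ℝ => (x : ℂ))) * cartUᴴ := by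
  rw [cartU_conjTranspose, ILr_eq]
  have h := rh_pow
  have hI := Complex.I_sq
  have h2 := sqrt2_eq
  fin_cases a
  · ext i j
    fin_cases i <;> fin_cases j <;>
      simp [spinOp, spinX, spinMinus, spinPlus, cartU, Matrix.mul_apply, Fin.sum_univ_three,
        Matrix.conjTranspose_apply, h2, rh_star]
    all_goals linear_combination rh * hI
  · ext i j
    fin_cases i <;> fin_cases j <;>
      simp [spinOp, spinY, spinMinus, spinPlus, cartU, Matrix.mul_apply, Fin.sum_univ_three,
        Matrix.conjTranspose_apply, h2, rh_star]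
    all_goals ring
  · ext i j
    fin_cases i <;> fin_cases j <;>
      simp [spinOp, spinZ, magneticNumber, cartU, Matrix.mul_apply, Fin.sum_univ_three]
    all_goals
      first
        | ring1
        | linear_combination 2 * rh ^ 2 * hI - 2 * h
        | linear_combination -(2 * rh ^ 2 * hI) + 2 * h

end Hald
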