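import Crest.Agent.Hald.M8Trace
import Crest.Agent.Hald.M8Bond
import Crest.Agent.Hald.WorldExists

/-!
# Row 347, M8: enclosures of the twisted partition functions of the ring

`shiftMom c n μ`: moments of `A + c` from the moments `μ` of `A`.
`ring_encl`: rational bounds of `exp(-2y/w + 2m u/w) * Zp (tw t).1 (tw t).2 (u/w) m` from the integer
moments of `negH (tw t).2 m` and an upper bound `b` of `negH 1 m` only.
-/

set_option autoImplicit false
set_option linter.unusedSectionVars false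

namespace Hald

open Matrix Finset
open scoped ComplexOrder

/-! ### shift of the moments -/

def shiftRow (c : ℤ) : List ℤ → List ℤ
  | a :: b :: l => (b + c * a) :: shiftRow c (b :: l)
  | _ => []

def shiftMom (c : ℤ) : ℕ → List ℤ → List ℤ
  | 0, _ => []
  | n + 1, l => l.headD 0 :: shiftMom c n (shiftRow c l)

theorem shiftRow_getD (c : ℤ) (l : List ℤ) (k : ℕ) (hk : k + 1 < l.length) :
    (shiftRow c l).getD k 0 = l.getD (k + 1) 0 + c * l.getD k 0 := by
  induction l generalizing k with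
  | nil => simp at hk
  | cons a l ih =>
    cases l with
    | nil => simp at hk
    | cons b l =>
      cases k with
      | zero => simp [shiftRow]
      | succ k =>
        have := ih k (by simpa using hk)
        simpa [shiftRow] using this

theorem shiftRow_length (c : ℤ) (l : List ℤ) : (shiftRow c l).length = l.length - 1 := by
  induction l with
  | nil => simp [shiftRow]
  | cons a l ih =>
    cases l with
    | nil => simp [shiftRow]
    | cons b l =>
      simp only [shiftRow, List.length_cons] at ih ⊢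
      omega

theorem shiftMom_length (c : ℤ) (n : ℕ) (l : List ℤ) : (shiftMom c n l).length = n := by
  induction n generalizing l with
  | zero => rfl
  | succ n ih => simp [shiftMom, ih]

theorem shiftMom_getD (c : ℤ) (f : ℕ → ℕ → ℂ) (hf : ∀ i j, f (i + 1) j = f i (j + 1) + c * f i j)
    (n : ℕ) : ∀ (i : ℕ) (l : List ℤ), n ≤ l.length →
      (∀ j < l.length, f i j = ((l.getD j 0 : ℤ) : ℂ)) →
      ∀ k < n, ((((shiftMom c n l).getD k 0 : ℤ)) : ℂ) = f (i + k) 0 := by
  induction n with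
  | zero => intro i l _ _ k hk; omega
  | succ n ih =>
    intro i l hn hl k hk
    cases k with
    | zero =>
      have h1 := hl 0 (by omega)
      show ((((shiftMom c (n + 1) l).getD 0 0 : ℤ)) : ℂ) = f i 0
      rw [h1]
      simp only [shiftMom, List.getD_cons_zero]
      cases l <;> rfl
    | succ k =>
      simp only [shiftMom, List.getD_cons_succ]
      rw [ih (i + 1) (shiftRow c l) (by rw [shiftRow_length]; omega) ?_ k (by omega)]
      · congr 1; omega
      · intro j hj
        rw [shiftRow_length] at hj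
        rw [hf, hl (j + 1) (by omega), hl j (by omega), shiftRow_getD c l j (by omega)]
        push_cast
        ring

section Cplx

variable {κ : Type*} [Fintype κ] [DecidableEq κ]

theorem cplx_one' : cplx (1 : Matrix κ κ ℝ) = 1 := by
  unfold cplx
  exact Matrix.map_one _ Complex.ofReal_zero Complex.ofReal_one

theorem cplx_smul' (c : ℝ) (A : Matrix κ κ ℝ) : cplx (c • A) = c • cplx A := by
  ext i j; simp [cplx]

theorem cplx_pow' (A : Matrix κ κ ℝ) (k : ℕ) : cplx (A ^ k) = cplx A ^ k := by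
  induction k with
  | zero => rw [pow_zero, pow_zero, cplx_one']
  | succ k ih => rw [pow_succ, pow_succ, cplx_mul, ih]

theorem cplx_exp' (A : Matrix κ κ ℝ) : cplx (NormedSpace.exp A) = NormedSpace.exp (cplx A) :=
  exp_map_ofReal A

theorem cplx_posSemidef {A : Matrix κ κ ℝ} (hA : A.PosSemidef) : (cplx A).PosSemidef := by
  have h1 : A = (hA.isHermitian.eigenvectorUnitary : Matrix κ κ ℝ) *
      Matrix.diagonal (fun i => hA.isHermitian.eigenvalues i) *
        (hA.isHermitian.eigenvectorUnitary : Matrix κ κ ℝ)ᴴ := by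
    have := hA.isHermitian.spectral_theorem
    rw [← Matrix.star_eq_conjTranspose]
    simpa [Unitary.conjStarAlgAut_apply, Function.comp_def] using this
  set U := (hA.isHermitian.eigenvectorUnitary : Matrix κ κ ℝ) with hU
  have h2 : cplx A = cplx U * Matrix.diagonal (fun i => ((hA.isHermitian.eigenvalues i : ℝ) : ℂ)) *
      (cplx U)ᴴ := by
    conv_lhs => rw [h1]
    rw [cplx_mul, cplx_mul, Matrix.conjTranspose_eq_transpose_of_trivial, cplx_conjTranspose]
    congr 2
    unfold cplx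
    rw [Matrix.diagonal_map (by simp)]
  rw [h2]
  refine Matrix.PosSemidef.mul_mul_conjTranspose_same ?_ _
  refine Matrix.PosSemidef.diagonal fun i => ?_
  show (0 : ℂ) ≤ ((hA.isHermitian.eigenvalues i : ℝ) : ℂ)
  exact Complex.zero_le_real.mpr (hA.eigenvalues_nonneg i)

theorem cplx_isHermitian {A : Matrix κ κ ℝ} (hA : Aᵀ = A) : (cplx A).IsHermitian := by
  unfold Matrix.IsHermitian
  rw [cplx_conjTranspose, hA]

/-- eigenvalues are bounded by the logarithm of the trace of the exponential -/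
theorem eig_le_of_trace_exp {A : Matrix κ κ ℂ} (hA : A.IsHermitian) {b C : ℝ}
    (h : ∀ β : ℝ, 1 ≤ β → (NormedSpace.exp (β • A)).trace.re ≤ C * Real.exp (β * b)) (i : κ) :
    hA.eigenvalues i ≤ b := by
  have h1 : ∀ β : ℝ, 1 ≤ β → β * (hA.eigenvalues i - b) ≤ Real.log (max C 1) := by
    intro β hβ
    have h2 := h β hβ
    rw [trace_exp_eq_sum hA β] at h2
    have h3 : Real.exp (β * hA.eigenvalues i) ≤ ∑ j, Real.exp (β * hA.eigenvalues j) :=
      Finset.single_le_sum (f := fun j => Real.exp (β * hA.eigenvalues j))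
        (fun j _ => (Real.exp_pos _).le) (Finset.mem_univ i)
    have h4 : Real.exp (β * hA.eigenvalues i) ≤ C * Real.exp (β * b) := by
      refine h3.trans ?_
      exact le_of_eq_of_le (Complex.ofReal_re _).symm h2
    have h5 : Real.exp (β * hA.eigenvalues i) ≤ max C 1 * Real.exp (β * b) :=
      h4.trans (mul_le_mul_of_nonneg_right (le_max_left _ _) (Real.exp_pos _).le)
    have h6 := Real.log_le_log (Real.exp_pos _) h5
    rw [Real.log_exp, Real.log_mul (by positivity) (Real.exp_pos _).ne', Real.log_exp] at h6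
    linarith
  by_contra hcon
  push Not at hcon
  set δ := hA.eigenvalues i - b with hδ
  have hδ0 : 0 < δ := by linarith
  have h2 := h1 (max 1 ((Real.log (max C 1) + 1) / δ)) (le_max_left _ _)
  have h3 : (Real.log (max C 1) + 1) / δ ≤ max 1 ((Real.log (max C 1) + 1) / δ) := le_max_right _ _
  rw [div_le_iff₀ hδ0] at h3
  linarith

theorem trace_exp_le_of_eig {A : Matrix κ κ ℂ} (hA : A.IsHermitian) {b : ℝ}
    (h : ∀ i, hA.eigenvalues i ≤ b) {β : ℝ} (hβ : 0 ≤ β) :
    (NormedSpace.exp (β • A)).trace.re ≤ Fintype.card κ * Real.exp (β * b) := by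
  rw [trace_exp_eq_sum hA β]
  have : (((∑ j, Real.exp (β * hA.eigenvalues j) : ℝ) : ℂ)).re =
      ∑ j, Real.exp (β * hA.eigenvalues j) := Complex.ofReal_re _
  refine this.le.trans ?_
  calc ∑ j, Real.exp (β * hA.eigenvalues j) ≤ ∑ j : κ, Real.exp (β * b) :=
        Finset.sum_le_sum fun j _ => Real.exp_le_exp.2 (mul_le_mul_of_nonneg_left (h j) hβ)
    _ = _ := by rw [Finset.sum_const, nsmul_eq_mul]; rfl

/-- eigenvalue bound from a form bound -/
theorem eig_le_of_posSemidef {A : Matrix κ κ ℂ} (hA : A.IsHermitian) {b : ℝ}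
    (h : (b • (1 : Matrix κ κ ℂ) - A).PosSemidef) (i : κ) : hA.eigenvalues i ≤ b := by
  have h1 := h.re_dotProduct_nonneg (hA.eigenvectorBasis i)
  have h2 := hA.mulVec_eigenvectorBasis i
  rw [Matrix.sub_mulVec, h2, Matrix.smul_mulVec, Matrix.one_mulVec, ← sub_smul,
    dotProduct_smul] at h1
  have h3 : (star (hA.eigenvectorBasis i : κ → ℂ) ⬝ᵥ (hA.eigenvectorBasis i : κ → ℂ)) = 1 := by
    have h4 := hA.eigenvectorBasis.orthonormal.1 i
    have h5 : (inner ℂ (hA.eigenvectorBasis i) (hA.eigenvectorBasis i) : ℂ) = 1 := by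
      rw [inner_self_eq_norm_sq_to_K, h4]; simp
    rw [← h5, EuclideanSpace.inner_eq_star_dotProduct, dotProduct_comm]
  rw [h3] at h1
  simp at h1
  linarith

end Cplx

/-! ### the ring -/

theorem Zp_one_gx_le {β : ℝ} (hβ : 0 < β) {m : ℕ} (hm : 1 ≤ m) : Zp 1 gx β m ≤ Zp 1 1 β m := by
  have h := (secA_ps hβ 2).nonneg m hm
  have e : secA 2 (fun t => Zp (tw t).1 (tw t).2 β m) = (Zp 1 1 β m - Zp 1 gx β m) / 4 := rfl
  simp only [e] at h
  linarith

theorem Zp_one_gc_le {β : ℝ} (hβ : 0 < β) {m : ℕ} (hm : 1 ≤ m) : Zp 1 gc β m ≤ Zp 1 1 β m := by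
  have h := (secA_ps hβ 2).nonneg m hm
  have h' := (secA_ps hβ 1).nonneg m hm
  have e : secA 2 (fun t => Zp (tw t).1 (tw t).2 β m) = (Zp 1 1 β m - Zp 1 gx β m) / 4 := rfl
  have e' : secA 1 (fun t => Zp (tw t).1 (tw t).2 β m) =
    (Zp 1 1 β m + 3 * Zp 1 gx β m - 4 * Zp 1 gc β m) / 12 := rfl
  simp only [e] at h
  simp only [e'] at h'
  linarith

theorem Zp_one_tw_le {β : ℝ} (hβ : 0 < β) {m : ℕ} (hm : 1 ≤ m) (t : Fin 8) :
    Zp 1 (tw t).2 β m ≤ Zp 1 1 β m := by
  fin_cases t
  · exact le_rfl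
  · exact Zp_one_gx_le hβ hm
  · exact Zp_one_gc_le hβ hm
  · exact le_rfl
  · exact le_rfl
  · exact Zp_one_gx_le hβ hm
  · show Zp 1 gy β m ≤ _
    rw [Zp_one_gy]
    exact Zp_one_gx_le hβ hm
  · exact Zp_one_gc_le hβ hm

/-- shifted Hamiltonian -/
noncomputable def Ash (h : Matrix (Fin 3) (Fin 3) ℝ) (m : ℕ) :
    Matrix (RSite m → Fin 3) (RSite m → Fin 3) ℝ := negH h m + (2 * m : ℝ) • 1

theorem Ash_herm (h : Matrix (Fin 3) (Fin 3) ℝ) (m : ℕ) : (cplx (Ash h m)).IsHermitian := by
  apply cplx_isHermitian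
  unfold Ash
  rw [Matrix.transpose_add, negH_transpose, Matrix.transpose_smul, Matrix.transpose_one]

theorem exp_Ash (h : Matrix (Fin 3) (Fin 3) ℝ) (m : ℕ) (β : ℝ) :
    NormedSpace.exp (β • cplx (Ash h m)) =
      Real.exp (β * (2 * m)) • cplx (NormedSpace.exp (β • negH h m)) := by
  have h1 : β • cplx (Ash h m) = (β * (2 * m)) • (1 : Matrix (RSite m → Fin 3) (RSite m → Fin 3) ℂ) +
      cplx (β • negH h m) := by
    unfold Ash
    rw [cplx_add, cplx_smul', cplx_one', cplx_smul', smul_add, smul_smul, add_comm]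
  have hc : Commute ((β * (2 * m)) • (1 : Matrix (RSite m → Fin 3) (RSite m → Fin 3) ℂ))
      (cplx (β • negH h m)) := (Commute.one_left _).smul_left _
  rw [h1, Matrix.exp_add_of_commute _ _ hc, cplx_exp']
  have h2 : NormedSpace.exp ((β * (2 * m)) • (1 : Matrix (RSite m → Fin 3) (RSite m → Fin 3) ℂ)) =
      Real.exp (β * (2 * m)) • 1 := by
    have h3 : (β * (2 * m)) • (1 : Matrix (RSite m → Fin 3) (RSite m → Fin 3) ℂ) =
        Matrix.diagonal (fun _ => ((β * (2 * m) : ℝ) : ℂ)) := by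
      rw [← Matrix.diagonal_one, ← Matrix.diagonal_smul]
      congr 1
      funext i
      simp
    rw [h3, Matrix.exp_diagonal, ← Matrix.diagonal_one, ← Matrix.diagonal_smul]
    congr 1
    funext i
    rw [Pi.coe_exp, Real.exp_eq_exp_ℝ]
    exact (NormedSpace.algebraMap_exp_comm (𝕂 := ℝ) (𝔸 := ℂ) (β * (2 * m))).symm.trans
      (by simp)
  rw [h2, Matrix.smul_mul, Matrix.one_mul]

theorem trace_exp_Ash (g h : Matrix (Fin 3) (Fin 3) ℝ) (m : ℕ) (β : ℝ) :
    (cplx (tens (κ := fun _ : RSite m => Fin 3) (fun _ => g)) *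
      NormedSpace.exp (β • cplx (Ash h m))).trace =
      ((Real.exp (β * (2 * m)) * Zp g h β m : ℝ) : ℂ) := by
  rw [exp_Ash, Matrix.mul_smul, Matrix.trace_smul, ← cplx_mul, cplx_trace]
  rw [Complex.real_smul]
  unfold Zp
  push_cast
  rfl

theorem Ash_eig_nonneg (t : Fin 8) (m : ℕ) (i : RSite m → Fin 3) :
    0 ≤ (Ash_herm (tw t).2 m).eigenvalues i :=
  (cplx_posSemidef (negH_posSemidef (tw_rot t) m)).eigenvalues_nonneg i

theorem Ash_eig_le {m : ℕ} (hm : 1 ≤ m) {b : ℝ}
    (hb : (b • (1 : Matrix (RSite m → Fin 3) (RSite m → Fin 3) ℝ) - negH 1 m).PosSemidef)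
    (t : Fin 8) (i : RSite m → Fin 3) : (Ash_herm (tw t).2 m).eigenvalues i ≤ b + 2 * m := by
  apply eig_le_of_trace_exp (C := Fintype.card (RSite m → Fin 3))
  intro β hβ
  have hβ0 : 0 < β := by linarith
  have h1 := trace_exp_Ash 1 (tw t).2 m β
  have h2 := trace_exp_Ash 1 1 m β
  have e : cplx (tens (κ := fun _ : RSite m => Fin 3) (fun _ => (1 : Matrix (Fin 3) (Fin 3) ℝ))) =
      1 := by rw [tens_one, cplx_one']
  rw [e, Matrix.one_mul] at h1 h2
  rw [h1, Complex.ofReal_re]
  have h3 : (NormedSpace.exp (β • cplx (Ash 1 m))).trace.re ≤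
      Fintype.card (RSite m → Fin 3) * Real.exp (β * (b + 2 * m)) := by
    apply trace_exp_le_of_eig (Ash_herm 1 m) _ hβ0.le
    apply eig_le_of_posSemidef
    have h4 : (b + 2 * (m : ℝ)) • (1 : Matrix (RSite m → Fin 3) (RSite m → Fin 3) ℂ) -
        cplx (Ash 1 m) = cplx (b • 1 - negH 1 m) := by
      unfold Ash
      ext i j
      simp [cplx, Matrix.one_apply]
      split_ifs <;> simp
    rw [h4]
    exact cplx_posSemidef hb
  rw [h2, Complex.ofReal_re] at h3
  refine le_trans ?_ h3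
  exact mul_le_mul_of_nonneg_left (Zp_one_tw_le hβ0 hm t) (Real.exp_pos _).le

/-- **Enclosures for the ring.** -/
theorem ring_encl (t : Fin 8) (K : ℕ) {u w y s m : ℕ} (hm : 1 ≤ m) (hw : 0 < w)
    (hy : 0 < y) {b : ℝ}
    (hb : (b • (1 : Matrix (RSite m → Fin 3) (RSite m → Fin 3) ℝ) - negH 1 m).PosSemidef)
    (hby : u * (b + 2 * m) ≤ 2 * y) (μ : List ℤ) (hlen : μ.length = K + 1)
    (hμ : ∀ k ≤ K, (tens (κ := fun _ : RSite m => Fin 3) (fun _ => (tw t).1) *
      (negH (tw t).2 m) ^ k).trace = ((μ.getD k 0 : ℤ) : ℝ))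
    {τ : List ℕ} (hτ : τ = chebL K) {lo hi : ℤ} {dim : ℕ} (hdim : 3 ^ (m * 2) = dim)
    (hok : m8Ok K dim u w y s (shiftMom (2 * m) (K + 1) μ) τ lo hi = true) :
    (lo : ℝ) / 2 ^ s ≤ Real.exp (-(2 * (y : ℝ)) / w + (u / w : ℝ) * (2 * m)) *
        Zp (tw t).1 (tw t).2 (u / w) m ∧
      Real.exp (-(2 * (y : ℝ)) / w + (u / w : ℝ) * (2 * m)) *
        Zp (tw t).1 (tw t).2 (u / w) m ≤ (hi : ℝ) / 2 ^ s := by
  have hgt : ∀ t : Fin 8, IsRot (tw t).1 := by
    intro t
    fin_cases t
    · exact isRot_one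
    · exact isRot_one
    · exact isRot_one
    · exact isRot_gx
    · exact isRot_gc
    · exact isRot_gx
    · exact isRot_gx
    · exact isRot_gc
  set W := cplx (tens (κ := fun _ : RSite m => Fin 3) (fun _ => (tw t).1)) with hWd
  have hW : W * Wᴴ = 1 := by
    rw [hWd, cplx_conjTranspose, ← cplx_mul, tens_transpose,
      tens_mul_eq_one fun _ => (hgt t).orth, cplx_one']
  have hspec : ∀ i, 0 ≤ (Ash_herm (tw t).2 m).eigenvalues i ∧
      u * (Ash_herm (tw t).2 m).eigenvalues i ≤ 2 * y := by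
    intro i
    refine ⟨Ash_eig_nonneg t m i, le_trans ?_ hby⟩
    exact mul_le_mul_of_nonneg_left (Ash_eig_le hm hb t i) (Nat.cast_nonneg u)
  have hmom : ∀ k ≤ K, (W * (cplx (Ash (tw t).2 m)) ^ k).trace =
      (((shiftMom (2 * m) (K + 1) μ).getD k 0 : ℤ) : ℂ) := by
    intro k hk
    set N := cplx (negH (tw t).2 m) with hN
    have hA : cplx (Ash (tw t).2 m) = N + ((2 * m : ℤ) : ℂ) • 1 := by
      unfold Ash
      rw [cplx_add, cplx_smul', cplx_one']
      congr 1
      ext i j
      simp [Matrix.one_apply]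
    have h1 := shiftMom_getD (2 * m)
      (fun i j => (W * (cplx (Ash (tw t).2 m) ^ i * N ^ j)).trace) (by
        intro i j
        have hc : Commute (cplx (Ash (tw t).2 m)) N := by
          rw [hA]
          exact (Commute.refl N).add_left ((Commute.one_left N).smul_left _)
        have e : cplx (Ash (tw t).2 m) ^ (i + 1) * N ^ j =
            cplx (Ash (tw t).2 m) ^ i * N ^ (j + 1) +
              ((2 * m : ℤ) : ℂ) • (cplx (Ash (tw t).2 m) ^ i * N ^ j) := by
          rw [pow_succ, Matrix.mul_assoc]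
          conv_lhs => rw [hA]
          rw [Matrix.add_mul, Matrix.mul_add, ← pow_succ', Matrix.smul_mul, Matrix.one_mul,
            Matrix.mul_smul, ← hA]
        show (W * (cplx (Ash (tw t).2 m) ^ (i + 1) * N ^ j)).trace = _
        rw [e, Matrix.mul_add, Matrix.trace_add, Matrix.mul_smul, Matrix.trace_smul, smul_eq_mul])
      (K + 1) 0 μ (by omega) (by
        intro j hj
        have h2 := hμ j (by omega)
        show (W * (cplx (Ash (tw t).2 m) ^ 0 * N ^ j)).trace = _
        rw [pow_zero, Matrix.one_mul, hN, ← cplx_pow', hWd, ← cplx_mul, cplx_trace, h2]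
        push_cast
        rfl) k (by omega)
    rw [h1]
    show _ = (W * (cplx (Ash (tw t).2 m) ^ (0 + k) * N ^ 0)).trace
    rw [zero_add, pow_zero, Matrix.mul_one]
  have hcard : Fintype.card (RSite m → Fin 3) = dim := by
    rw [← hdim]
    simp
  have key := m8_bounds K (s := s) hw hy (Ash_herm (tw t).2 m) hW hspec (shiftMom (2 * m) (K + 1) μ)
    (shiftMom_length _ _ _) hmom hτ hcard hok
    (Z := Real.exp ((u / w : ℝ) * (2 * m)) * Zp (tw t).1 (tw t).2 (u / w) m)
    (trace_exp_Ash _ _ _ _)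
  rw [Real.exp_add, mul_assoc]
  exact key

end Hald
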