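import Crest.Agent.Hald.M8Ring

/-!
# Row 347, M8: spectral bound from a moment

`eig_le_of_moment`: `λ^k ≤ Tr A^k` for even `k`.
-/

set_option autoImplicit false
set_option linter.unusedSectionVars false

namespace Hald

open Matrix Finset
open scoped ComplexOrder

variable {κ : Type*} [Fintype κ] [DecidableEq κ]

theorem pow_conj_diag {U A : Matrix κ κ ℂ} (h1 : U * Uᴴ = 1) (h2 : Uᴴ * U = 1) (ev : κ → ℝ)
    (h0 : A = U * Matrix.diagonal (fun i => ((ev i : ℝ) : ℂ)) * Uᴴ) (k : ℕ) :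
    A ^ k = U * Matrix.diagonal (fun i => (((ev i) ^ k : ℝ) : ℂ)) * Uᴴ := by
  induction k with
  | zero => simp [h1]
  | succ k ih =>
    rw [pow_succ, ih]
    conv_lhs => rw [h0]
    calc U * Matrix.diagonal (fun i => (((ev i) ^ k : ℝ) : ℂ)) * Uᴴ *
          (U * Matrix.diagonal (fun i => ((ev i : ℝ) : ℂ)) * Uᴴ)
        = U * (Matrix.diagonal (fun i => (((ev i) ^ k : ℝ) : ℂ)) * (Uᴴ * U) *
            Matrix.diagonal (fun i => ((ev i : ℝ) : ℂ))) * Uᴴ := by
          simp only [Matrix.mul_assoc]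
      _ = _ := by
          rw [h2, Matrix.mul_one, Matrix.diagonal_mul_diagonal]
          congr 3
          funext i
          push_cast
          ring

theorem trace_pow_eq_sum {A : Matrix κ κ ℂ} (hA : A.IsHermitian) (k : ℕ) :
    (A ^ k).trace = ((∑ i, hA.eigenvalues i ^ k : ℝ) : ℂ) := by
  obtain ⟨U, h1, h2, hd⟩ := herm_decomp hA
  rw [pow_conj_diag h1 h2 _ hd k, Matrix.mul_assoc, Matrix.trace_mul_comm, Matrix.mul_assoc, h2,
    Matrix.mul_one, Matrix.trace_diagonal]
  push_cast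
  rfl

/-- `λ^k ≤ Tr A^k` for even `k` -/
theorem eig_le_of_moment {A : Matrix κ κ ℂ} (hA : A.IsHermitian) {k : ℕ} (hk : Even k)
    (hk0 : 0 < k) {b : ℝ} (hb : 0 ≤ b) (h : (A ^ k).trace.re ≤ b ^ k) (i : κ) :
    hA.eigenvalues i ≤ b := by
  rw [trace_pow_eq_sum hA, Complex.ofReal_re] at h
  have h1 : hA.eigenvalues i ^ k ≤ b ^ k :=
    (Finset.single_le_sum (f := fun j => hA.eigenvalues j ^ k)
      (fun j _ => hk.pow_nonneg _) (Finset.mem_univ i)).trans h
  have h2 : |hA.eigenvalues i| ≤ b := by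
    rw [← hk.pow_abs] at h1
    exact le_of_pow_le_pow_left₀ hk0.ne' hb h1
  exact (le_abs_self _).trans h2

/-- real version: form bound from a moment -/
theorem posSemidef_of_moment {A : Matrix κ κ ℝ} (hA : A.IsHermitian) {k : ℕ} (hk : Even k)
    (hk0 : 0 < k) {b : ℝ} (hb : 0 ≤ b) (h : (A ^ k).trace ≤ b ^ k) :
    (b • (1 : Matrix κ κ ℝ) - A).PosSemidef := by
  have h1 : A = (hA.eigenvectorUnitary : Matrix κ κ ℝ) *
      Matrix.diagonal (fun i => hA.eigenvalues i) *
        (hA.eigenvectorUnitary : Matrix κ κ ℝ)ᴴ := by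
    have := hA.spectral_theorem
    rw [← Matrix.star_eq_conjTranspose]
    simpa [Unitary.conjStarAlgAut_apply, Function.comp_def] using this
  have hU1 : (hA.eigenvectorUnitary : Matrix κ κ ℝ)ᴴ * (hA.eigenvectorUnitary : Matrix κ κ ℝ) = 1 := by
    rw [← Matrix.star_eq_conjTranspose]
    exact Unitary.coe_star_mul_self _
  have hU2 : (hA.eigenvectorUnitary : Matrix κ κ ℝ) * (hA.eigenvectorUnitary : Matrix κ κ ℝ)ᴴ = 1 := by
    rw [← Matrix.star_eq_conjTranspose]
    exact Unitary.coe_mul_star_self _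
  generalize hA.eigenvalues = ev at h1
  generalize (hA.eigenvectorUnitary : Matrix κ κ ℝ) = U at h1 hU1 hU2
  have h3 : ∀ j : ℕ, A ^ j = U * Matrix.diagonal (fun i => ev i ^ j) * Uᴴ := by
    intro j
    induction j with
    | zero =>
      rw [pow_zero]
      have : Matrix.diagonal (fun i => ev i ^ 0) = (1 : Matrix κ κ ℝ) := by
        simp only [pow_zero]
        exact Matrix.diagonal_one
      rw [this, Matrix.mul_one, hU2]
    | succ j ih =>
      rw [pow_succ, ih]
      conv_lhs => rw [h1]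
      calc U * Matrix.diagonal (fun i => ev i ^ j) * Uᴴ * (U * Matrix.diagonal (fun i => ev i) * Uᴴ)
          = U * (Matrix.diagonal (fun i => ev i ^ j) * (Uᴴ * U) * Matrix.diagonal (fun i => ev i)) *
              Uᴴ := by simp only [Matrix.mul_assoc]
        _ = _ := by
            rw [hU1, Matrix.mul_one, Matrix.diagonal_mul_diagonal]
            rfl
  have h4 : (A ^ k).trace = ∑ i, ev i ^ k := by
    rw [h3 k, Matrix.mul_assoc, Matrix.trace_mul_comm, Matrix.mul_assoc, hU1, Matrix.mul_one,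
      Matrix.trace_diagonal]
  rw [h4] at h
  have h5 : ∀ i, ev i ≤ b := by
    intro i
    have h6 : ev i ^ k ≤ b ^ k :=
      (Finset.single_le_sum (f := fun j => ev j ^ k) (fun j _ => hk.pow_nonneg _)
        (Finset.mem_univ i)).trans h
    have h7 : |ev i| ≤ b := by
      rw [← hk.pow_abs] at h6
      exact le_of_pow_le_pow_left₀ hk0.ne' hb h6
    exact (le_abs_self _).trans h7
  have h8 : b • (1 : Matrix κ κ ℝ) - A = U * Matrix.diagonal (fun i => b - ev i) * Uᴴ := by
    have h9 : Matrix.diagonal (fun i => b - ev i) = b • (1 : Matrix κ κ ℝ) - Matrix.diagonal ev := by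
      ext i j
      by_cases hij : i = j <;> simp [hij]
    rw [h9, Matrix.mul_sub, Matrix.sub_mul, ← h1, Matrix.mul_smul, Matrix.mul_one,
      Matrix.smul_mul, hU2]
  rw [h8]
  exact (Matrix.PosSemidef.diagonal fun i => sub_nonneg.2 (h5 i)).mul_mul_conjTranspose_same U

/-- the ring: form bound of `negH 1 m` from an (untwisted, unshifted) list of moments -/
theorem ring_bound {m k : ℕ} (hk : Even k) (hk0 : 0 < k) (μ : List ℤ) (hlen : μ.length = k + 1)
    (hμ : ∀ j ≤ k, ((negH 1 m) ^ j).trace = ((μ.getD j 0 : ℤ) : ℝ)) {b : ℚ}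
    (hb0 : 0 ≤ b + 2 * m)
    (hb : (((shiftMom (2 * m) (k + 1) μ).getD k 0 : ℤ) : ℚ) ≤ (b + 2 * m) ^ k) :
    ((b : ℝ) • (1 : Matrix (RSite m → Fin 3) (RSite m → Fin 3) ℝ) - negH 1 m).PosSemidef := by
  have hH : (Ash 1 m).IsHermitian := by
    unfold Matrix.IsHermitian Ash
    rw [Matrix.conjTranspose_eq_transpose_of_trivial, Matrix.transpose_add, negH_transpose,
      Matrix.transpose_smul, Matrix.transpose_one]
  have hA : Ash 1 m = negH 1 m + ((2 * m : ℤ) : ℝ) • 1 := by
    unfold Ash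
    push_cast
    rfl
  have h1 := shiftMom_getD (2 * m)
      (fun i j => (((Ash 1 m ^ i * negH 1 m ^ j).trace : ℝ) : ℂ)) (by
        intro i j
        have e : Ash 1 m ^ (i + 1) * negH 1 m ^ j =
            Ash 1 m ^ i * negH 1 m ^ (j + 1) + ((2 * m : ℤ) : ℝ) • (Ash 1 m ^ i * negH 1 m ^ j) := by
          rw [pow_succ, Matrix.mul_assoc]
          conv_lhs => rw [hA]
          rw [Matrix.add_mul, Matrix.mul_add, ← pow_succ', Matrix.smul_mul, Matrix.one_mul,
            Matrix.mul_smul, ← hA]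
        show ((((Ash 1 m ^ (i + 1) * negH 1 m ^ j).trace : ℝ)) : ℂ) = _
        rw [e, Matrix.trace_add, Matrix.trace_smul, smul_eq_mul]
        push_cast
        rfl)
      (k + 1) 0 μ (by omega) (by
        intro j hj
        have h2 := hμ j (by omega)
        show ((((Ash 1 m ^ 0 * negH 1 m ^ j).trace : ℝ)) : ℂ) = _
        rw [pow_zero, Matrix.one_mul, h2]
        push_cast
        rfl) k (by omega)
  have h2 : (Ash 1 m ^ k).trace = (((shiftMom (2 * m) (k + 1) μ).getD k 0 : ℤ) : ℝ) := by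
    have h3 : ((((Ash 1 m ^ (0 + k) * negH 1 m ^ 0).trace : ℝ)) : ℂ) =
        ((((shiftMom (2 * m) (k + 1) μ).getD k 0 : ℤ) : ℝ) : ℂ) := by
      rw [← h1]; push_cast; rfl
    rw [zero_add, pow_zero, Matrix.mul_one] at h3
    exact_mod_cast h3
  have h4 := posSemidef_of_moment hH hk hk0 (b := ((b + 2 * m : ℚ) : ℝ)) (by exact_mod_cast hb0) (by
    rw [h2]
    exact_mod_cast hb)
  have e : ((b : ℝ) • (1 : Matrix (RSite m → Fin 3) (RSite m → Fin 3) ℝ) - negH 1 m) =
      ((b + 2 * m : ℚ) : ℝ) • 1 - Ash 1 m := by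
    rw [hA]
    push_cast
    rw [add_smul]
    abel
  rw [e]
  exact h4

end Hald
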