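import Crest.Agent.Hald.Spectral

/-!
# Row 347, M8: enclosures of traces of exponentials from moments (tau method)

`tau_real`: if `w p' = p - Θ` and `|Θ| ≤ M` on `[a,b]` then `|p(s) - p(b) e^{(s-b)/w}| ≤ M` on `[a,b]`.
`chebL K`: coefficients of `T_K(1+z)` (natural numbers);  `tauE w i`: polynomial `E_i` with
`w E_i' = E_i - X^i`.
`tau_trace`: `|Σ_i φ_i Tr(U E_i(R)) - D e^{-2y/w} Tr(U e^{R/w})| ≤ dim y^K` for a Hermitian matrix
`0 ≤ R ≤ 2y`.
-/

set_option autoImplicit false
set_option linter.unusedSectionVars false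

namespace Hald

open Matrix Finset Polynomial

/-! ### real analysis -/

theorem tau_real {p Θ : ℝ[X]} {w a b M : ℝ} (hw : 0 < w)
    (hp : C w * derivative p = p - Θ) (hΘ : ∀ s ∈ Set.Icc a b, |Θ.eval s| ≤ M) :
    ∀ s ∈ Set.Icc a b, |p.eval s - p.eval b * Real.exp ((s - b) / w)| ≤ M := by
  intro s hs
  have hM : 0 ≤ M := (abs_nonneg _).trans (hΘ s hs)
  have hpe : ∀ x : ℝ, w * (derivative p).eval x = p.eval x - Θ.eval x := by
    intro x
    have := congrArg (fun q => q.eval x) hp
    simpa using this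
  -- derivative of `e^{-x/w} p(x)`
  have hg : ∀ x : ℝ, HasDerivAt (fun x => Real.exp (-x / w) * p.eval x)
      (-(Real.exp (-x / w) * Θ.eval x / w)) x := by
    intro x
    have h1 : HasDerivAt (fun x : ℝ => Real.exp (-x / w)) (Real.exp (-x / w) * (-1 / w)) x :=
      ((hasDerivAt_neg x).div_const w).exp
    have h2 := h1.mul (p.hasDerivAt x)
    refine h2.congr_deriv ?_
    have h3 : (derivative p).eval x = (p.eval x - Θ.eval x) / w := by
      rw [← hpe x]; field_simp
    rw [h3]
    field_simp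
    ring
  have hB : ∀ x : ℝ, HasDerivAt (fun x => -(M * Real.exp (-x / w)))
      (M * Real.exp (-x / w) / w) x := by
    intro x
    have h1 : HasDerivAt (fun x : ℝ => Real.exp (-x / w)) (Real.exp (-x / w) * (-1 / w)) x :=
      ((hasDerivAt_neg x).div_const w).exp
    refine ((h1.const_mul M).neg).congr_deriv ?_
    ring
  have mono : ∀ σ : ℝ, |σ| ≤ 1 → MonotoneOn
      (fun x => -(M * Real.exp (-x / w)) + σ * (Real.exp (-x / w) * p.eval x)) (Set.Icc a b) := by
    intro σ hσ
    have hd : ∀ x : ℝ, HasDerivAt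
        (fun x => -(M * Real.exp (-x / w)) + σ * (Real.exp (-x / w) * p.eval x))
        (M * Real.exp (-x / w) / w + σ * (-(Real.exp (-x / w) * Θ.eval x / w))) x :=
      fun x => (hB x).add ((hg x).const_mul σ)
    refine monotoneOn_of_deriv_nonneg (convex_Icc a b) ?_ ?_ ?_
    · exact fun x _ => (hd x).continuousAt.continuousWithinAt
    · exact fun x _ => (hd x).differentiableAt.differentiableWithinAt
    · intro x hx
      rw [(hd x).deriv]
      have hx' : x ∈ Set.Icc a b := interior_subset hx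
      have h1 := hΘ x hx'
      have h2 : σ * Θ.eval x ≤ M := by
        calc σ * Θ.eval x ≤ |σ * Θ.eval x| := le_abs_self _
          _ = |σ| * |Θ.eval x| := abs_mul _ _
          _ ≤ 1 * M := mul_le_mul hσ h1 (abs_nonneg _) (by norm_num)
          _ = M := one_mul M
      have h3 : 0 < Real.exp (-x / w) := Real.exp_pos _
      have e : M * Real.exp (-x / w) / w + σ * (-(Real.exp (-x / w) * Θ.eval x / w)) =
          Real.exp (-x / w) * (M - σ * Θ.eval x) / w := by ring
      rw [e]
      exact div_nonneg (mul_nonneg h3.le (by linarith)) hw.le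
  have hb : b ∈ Set.Icc a b := ⟨hs.1.trans hs.2, le_rfl⟩
  have m1 := mono 1 (by norm_num) hs hb hs.2
  have m2 := mono (-1) (by norm_num) hs hb hs.2
  simp only at m1 m2
  set X := Real.exp (-s / w) with hX
  set Y := Real.exp (-b / w) with hY
  have hX0 : 0 < X := Real.exp_pos _
  have hY0 : 0 < Y := Real.exp_pos _
  have hE : Real.exp ((s - b) / w) = Y / X := by
    rw [hX, hY, ← Real.exp_sub]
    congr 1
    ring
  rw [hE]
  have e : p.eval s - p.eval b * (Y / X) = (X * p.eval s - Y * p.eval b) / X := by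
    field_simp
  rw [e, abs_div, abs_of_pos hX0, div_le_iff₀ hX0, abs_le]
  constructor <;> nlinarith [mul_nonneg hM hY0.le]

/-! ### Chebyshev polynomials expanded at 1 -/

/-- sum of coefficient lists -/
def addL : List ℕ → List ℕ → List ℕ
  | [], l => l
  | l, [] => l
  | a :: l, b :: m => (a + b) :: addL l m

/-- `(P_n, D_n)`, `P_n(z) = T_n(1+z)`, `D_n = P_{n+1} - P_n` -/
def chebPair : ℕ → List ℕ × List ℕ
  | 0 => ([1], [0, 1])
  | n + 1 =>
    let q := chebPair n
    let P := addL q.1 q.2
    (P, addL q.2 (0 :: P.map (2 * ·)))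

/-- coefficients of `T_n(1+z)` -/
def chebL (n : ℕ) : List ℕ := (chebPair n).1

/-- evaluation of a coefficient list -/
noncomputable def evN (z : ℝ) : List ℕ → ℝ
  | [] => 0
  | a :: l => a + z * evN z l

theorem evN_addL (z : ℝ) (l m : List ℕ) : evN z (addL l m) = evN z l + evN z m := by
  induction l generalizing m with
  | nil => simp [addL, evN]
  | cons a l ih =>
    cases m with
    | nil => simp [addL, evN]
    | cons b m =>
      simp only [addL, evN, ih, Nat.cast_add]
      ring

theorem evN_map (z : ℝ) (l : List ℕ) : evN z (l.map (2 * ·)) = 2 * evN z l := by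
  induction l with
  | nil => simp [evN]
  | cons a l ih =>
    simp only [List.map_cons, evN, ih, Nat.cast_mul, Nat.cast_ofNat]
    ring

theorem chebPair_eval (θ : ℝ) (n : ℕ) :
    evN (Real.cos θ - 1) (chebPair n).1 = Real.cos (n * θ) ∧
      evN (Real.cos θ - 1) (chebPair n).2 = Real.cos ((n + 1 : ℕ) * θ) - Real.cos (n * θ) := by
  induction n with
  | zero => simp [chebPair, evN]
  | succ n ih =>
    obtain ⟨h1, h2⟩ := ih
    have h3 : evN (Real.cos θ - 1) (chebPair (n + 1)).1 = Real.cos ((n + 1 : ℕ) * θ) := by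
      simp only [chebPair, evN_addL, h1, h2]
      ring
    refine ⟨h3, ?_⟩
    have h4 : evN (Real.cos θ - 1) (chebPair (n + 1)).2 =
        evN (Real.cos θ - 1) (chebPair n).2 + (Real.cos θ - 1) * (2 *
          evN (Real.cos θ - 1) (chebPair (n + 1)).1) := by
      simp only [chebPair, evN_addL, evN, evN_map, Nat.cast_zero, zero_add]
    rw [h4, h3, h2]
    have h5 : Real.cos ((n + 1 + 1 : ℕ) * θ) =
        2 * Real.cos θ * Real.cos ((n + 1 : ℕ) * θ) - Real.cos (n * θ) := by
      have e1 : ((n + 1 + 1 : ℕ) : ℝ) * θ = (n + 1 : ℕ) * θ + θ := by push_cast; ring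
      have e2 : ((n : ℕ) : ℝ) * θ = (n + 1 : ℕ) * θ - θ := by push_cast; ring
      rw [e1, e2, Real.cos_add, Real.cos_sub]
      ring
    rw [h5]
    ring

theorem chebL_bound (K : ℕ) {t : ℝ} (h0 : 0 ≤ t) (h2 : t ≤ 2) : |evN (-t) (chebL K)| ≤ 1 := by
  have h := (chebPair_eval (Real.arccos (1 - t)) K).1
  rw [Real.cos_arccos (by linarith) (by linarith)] at h
  have e : (1 : ℝ) - t - 1 = -t := by ring
  rw [e] at h
  unfold chebL
  rw [h]
  exact Real.abs_cos_le_one _

/-! ### the polynomials `E_i` -/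

/-- `E_0 = 1`, `E_{i+1} = X^{i+1} + w (i+1) E_i` -/
noncomputable def tauE (w : ℝ) : ℕ → ℝ[X]
  | 0 => 1
  | i + 1 => X ^ (i + 1) + C (w * (i + 1)) * tauE w i

theorem tauE_deriv (w : ℝ) (i : ℕ) : C w * derivative (tauE w i) = tauE w i - X ^ i := by
  have key : ∀ i : ℕ, derivative (tauE w (i + 1)) = C ((i : ℝ) + 1) * tauE w i := by
    intro i
    induction i with
    | zero =>
      simp only [tauE, zero_add, pow_one, derivative_add, derivative_X, derivative_mul,
        derivative_C, derivative_one, mul_zero, add_zero, zero_mul, Nat.cast_zero, mul_one, C_1]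
    | succ i ih =>
      have h1 : tauE w (i + 1 + 1) = X ^ (i + 1 + 1) + C (w * ((i + 1 : ℕ) + 1)) * tauE w (i + 1) :=
        rfl
      rw [h1, derivative_add, derivative_X_pow, derivative_C_mul, ih]
      have h2 : tauE w (i + 1) = X ^ (i + 1) + C (w * ((i : ℝ) + 1)) * tauE w i := rfl
      conv_rhs => rw [h2]
      simp only [Nat.add_sub_cancel, C_mul, C_add, Nat.cast_add, Nat.cast_one]
      ring
  cases i with
  | zero => simp [tauE]
  | succ i =>
    rw [key]
    have h2 : tauE w (i + 1) = X ^ (i + 1) + C (w * ((i : ℝ) + 1)) * tauE w i := rfl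
    rw [h2, C_mul]
    ring

/-- `Θ = Σ φ_i X^i` and `p = Σ φ_i E_i` for a coefficient list, starting at index `i` -/
noncomputable def thetaP (y : ℝ) : List ℕ → ℕ → ℝ[X]
  | [], _ => 0
  | a :: l, i => C ((a : ℝ) * (-y) ^ l.length) * X ^ i + thetaP y l (i + 1)

noncomputable def tauP (w y : ℝ) : List ℕ → ℕ → ℝ[X]
  | [], _ => 0
  | a :: l, i => C ((a : ℝ) * (-y) ^ l.length) * tauE w i + tauP w y l (i + 1)

theorem tauP_deriv (w y : ℝ) (l : List ℕ) (i : ℕ) :
    C w * derivative (tauP w y l i) = tauP w y l i - thetaP y l i := by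
  induction l generalizing i with
  | nil => simp [tauP, thetaP]
  | cons a l ih =>
    simp only [tauP, thetaP]
    rw [derivative_add, derivative_C_mul, mul_add, ih]
    have h := tauE_deriv w i
    have e : C w * (C ((a : ℝ) * (-y) ^ l.length) * derivative (tauE w i)) =
        C ((a : ℝ) * (-y) ^ l.length) * (C w * derivative (tauE w i)) := by ring
    rw [e, h]
    ring

theorem thetaP_eval {y : ℝ} (hy : y ≠ 0) (l : List ℕ) (i : ℕ) (r : ℝ) :
    (thetaP y l i).eval r * (-y) = (-y) ^ l.length * r ^ i * evN (-(r / y)) l := by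
  induction l generalizing i with
  | nil => simp [thetaP, evN]
  | cons a l ih =>
    simp only [thetaP, evN, eval_add, eval_mul, eval_C, eval_pow, eval_X, List.length_cons]
    rw [add_mul, ih]
    have e : r ^ (i + 1) = r ^ i * r := pow_succ r i
    rw [e, pow_succ]
    field_simp
    ring

theorem chebPair_length (n : ℕ) :
    (chebPair n).1.length = n + 1 ∧ (chebPair n).2.length = n + 2 := by
  have hadd : ∀ l m : List ℕ, (addL l m).length = max l.length m.length := by
    intro l
    induction l with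
    | nil => intro m; simp [addL]
    | cons a l ih =>
      intro m
      cases m with
      | nil => simp [addL]
      | cons b m => simp [addL, ih]
  induction n with
  | zero => simp [chebPair]
  | succ n ih =>
    obtain ⟨h1, h2⟩ := ih
    simp only [chebPair, hadd, List.length_cons, List.length_map, h1, h2]
    omega

theorem chebL_length (K : ℕ) : (chebL K).length = K + 1 := (chebPair_length K).1

theorem theta_bound (K : ℕ) {y : ℝ} (hy : 0 < y) :
    ∀ r ∈ Set.Icc (0 : ℝ) (2 * y), |(thetaP y (chebL K) 0).eval r| ≤ y ^ K := by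
  intro r hr
  have h1 := thetaP_eval hy.ne' (chebL K) 0 r
  rw [pow_zero, mul_one, chebL_length, pow_succ] at h1
  have h2 : (thetaP y (chebL K) 0).eval r = (-y) ^ K * evN (-(r / y)) (chebL K) := by
    have h3 : -y ≠ 0 := by simpa using hy.ne'
    apply mul_right_cancel₀ h3
    rw [h1]
    ring
  have h4 : |evN (-(r / y)) (chebL K)| ≤ 1 :=
    chebL_bound K (div_nonneg hr.1 hy.le) (by rw [div_le_iff₀ hy]; exact hr.2)
  rw [h2, abs_mul, abs_pow, abs_neg, abs_of_pos hy]
  calc y ^ K * |evN (-(r / y)) (chebL K)| ≤ y ^ K * 1 :=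
        mul_le_mul_of_nonneg_left h4 (pow_nonneg hy.le _)
    _ = y ^ K := mul_one _

/-- scalar estimate -/
theorem tau_scalar (K : ℕ) {w y : ℝ} (hw : 0 < w) (hy : 0 < y) :
    ∀ r ∈ Set.Icc (0 : ℝ) (2 * y),
      |(tauP w y (chebL K) 0).eval r - (tauP w y (chebL K) 0).eval (2 * y) *
        Real.exp ((r - 2 * y) / w)| ≤ y ^ K :=
  tau_real hw (tauP_deriv w y _ 0) (theta_bound K hy)

end Hald
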