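import Crest.Agent.Hald.M8Tau

/-!
# Row 347, M8: traces of exponentials from integer moments

`m8_trace`: for a Hermitian matrix `A` with spectrum in `[0, 2y/u]`, a unitary `W` and integer moments
`μ_k = Tr (W A^k)`, `k ≤ K`:
`‖F - D e^{-2y/w} Tr (W e^{(u/w) A})‖ ≤ dim y^K`, `F = m8F u w y μ (chebL K)`, `D = m8D w y (chebL K)`.
`m8_bounds`: the resulting rational bounds.
-/

set_option autoImplicit false
set_option linter.unusedSectionVars false

namespace Hald

open Matrix Finset Polynomial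

/-! ### the integer recursion -/

/-- `acc ↦ acc (-y) + τ_j ν_j`, `ν_j = up_j μ_j + w j ν_{j-1}`, `up_j = u^j` -/
def goF (u w y : ℤ) : List ℤ → List ℕ → ℕ → ℤ → ℤ → ℤ → ℤ
  | m :: ms, t :: ts, j, up, ν, acc =>
      goF u w y ms ts (j + 1) (up * u) (up * m + w * j * ν)
        (acc * (-y) + t * (up * m + w * j * ν))
  | _, _, _, _, _, acc => acc

def m8F (u w y : ℤ) (μ : List ℤ) (τ : List ℕ) : ℤ := goF u w y μ τ 0 1 0 0

def m8D (w y : ℤ) (τ : List ℕ) : ℤ := goF (2 * y) w y (τ.map fun _ => 1) τ 0 1 0 0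

theorem goF_eq (L : ℝ[X] →ₗ[ℝ] ℂ) (u w y : ℤ) (ts : List ℕ) : ∀ (ms : List ℤ) (j : ℕ)
    (up ν acc : ℤ), ms.length = ts.length →
    (∀ k, k < ms.length → L (X ^ (j + k)) = ((up * u ^ k * ms.getD k 0 : ℤ) : ℂ)) →
    (∀ i, j = i + 1 → L (tauE w i) = (ν : ℂ)) →
    ((goF u w y ms ts j up ν acc : ℤ) : ℂ) =
      (acc : ℂ) * (-(y : ℂ)) ^ ts.length + L (tauP w y ts j) := by
  induction ts with
  | nil =>
    intro ms j up ν acc hlen _ _
    cases ms with
    | nil => simp [goF, tauP]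
    | cons m ms => simp at hlen
  | cons t ts ih =>
    intro ms j up ν acc hlen hX hν
    cases ms with
    | nil => simp at hlen
    | cons m ms =>
      have h0 : L (X ^ j) = ((up * m : ℤ) : ℂ) := by
        have := hX 0 (by simp)
        simpa using this
      have hE : L (tauE w j) = ((up * m + w * j * ν : ℤ) : ℂ) := by
        cases j with
        | zero =>
          have h1 : tauE (w : ℝ) 0 = X ^ 0 := by simp [tauE]
          rw [h1, h0]
          push_cast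
          ring
        | succ i =>
          have h2 : tauE (w : ℝ) (i + 1) = X ^ (i + 1) + ((w : ℝ) * ((i : ℝ) + 1)) • tauE (w : ℝ) i := by
            rw [smul_eq_C_mul]; rfl
          rw [h2, map_add, h0, LinearMap.map_smul, hν i rfl, Complex.real_smul]
          push_cast
          ring
      have h3 := ih ms (j + 1) (up * u) (up * m + w * j * ν)
        (acc * (-y) + t * (up * m + w * j * ν)) (by simpa using hlen) (by
          intro k hk
          have h4 := hX (k + 1) (by simpa using hk)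
          have e : j + (k + 1) = j + 1 + k := by ring
          rw [e] at h4
          rw [h4]
          push_cast
          simp only [List.getD_cons_succ]
          ring) (by
          intro i hi
          obtain rfl : i = j := by omega
          exact hE)
      show ((goF u w y ms ts (j + 1) (up * u) (up * m + w * j * ν)
        (acc * (-y) + t * (up * m + w * j * ν)) : ℤ) : ℂ) = _
      rw [h3]
      have h5 : tauP (w : ℝ) y (t :: ts) j =
          ((t : ℝ) * (-(y : ℝ)) ^ ts.length) • tauE (w : ℝ) j + tauP (w : ℝ) y ts (j + 1) := by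
        rw [smul_eq_C_mul]; rfl
      rw [h5, map_add, LinearMap.map_smul, hE, Complex.real_smul, List.length_cons, pow_succ]
      push_cast
      ring

/-! ### matrices -/

variable {κ : Type*} [Fintype κ] [DecidableEq κ]

theorem aeval_real_conj_diag {U : Matrix κ κ ℂ} (h1 : U * Uᴴ = 1) (h2 : Uᴴ * U = 1) (d : κ → ℝ)
    (q : ℝ[X]) : Polynomial.aeval (U * Matrix.diagonal (fun i => (d i : ℂ)) * Uᴴ) q =
      U * Matrix.diagonal (fun i => ((q.eval (d i) : ℝ) : ℂ)) * Uᴴ := by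
  have h := aeval_conj_diag h1 h2 (fun i => (d i : ℂ)) (q.map (algebraMap ℝ ℂ))
  have h3 : Polynomial.aeval (U * Matrix.diagonal (fun i => (d i : ℂ)) * Uᴴ) (q.map (algebraMap ℝ ℂ)) =
      Polynomial.aeval (U * Matrix.diagonal (fun i => (d i : ℂ)) * Uᴴ) q := by
    rw [Polynomial.aeval_map_algebraMap]
  rw [← h3, h]
  congr 3
  funext i
  rw [Polynomial.eval_map, Polynomial.eval₂_eq_eval_map, Polynomial.eval_map]
  exact (Polynomial.hom_eval₂ q (RingHom.id ℝ) (algebraMap ℝ ℂ) (d i)).symm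

theorem trace_conj_diag_mul {U W : Matrix κ κ ℂ} (g : κ → ℂ) :
    (W * (U * Matrix.diagonal g * Uᴴ)).trace = ∑ i, g i * (Uᴴ * W * U) i i := by
  rw [← Matrix.mul_assoc, Matrix.trace_mul_comm, ← Matrix.mul_assoc, ← Matrix.mul_assoc,
    Matrix.trace]
  refine Finset.sum_congr rfl fun i _ => ?_
  rw [Matrix.diag_apply, Matrix.mul_diagonal, mul_comm]

theorem entry_le {U W : Matrix κ κ ℂ} (h1 : U * Uᴴ = 1) (h2 : Uᴴ * U = 1) (hW : W * Wᴴ = 1)
    (i : κ) : ‖(Uᴴ * W * U) i i‖ ≤ 1 := by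
  have h : Uᴴ * W * U ∈ Matrix.unitaryGroup κ ℂ := by
    rw [Matrix.mem_unitaryGroup_iff, Matrix.star_eq_conjTranspose, Matrix.conjTranspose_mul,
      Matrix.conjTranspose_mul, Matrix.conjTranspose_conjTranspose]
    calc Uᴴ * W * U * (Uᴴ * (Wᴴ * U)) = Uᴴ * W * (U * Uᴴ) * Wᴴ * U := by
          simp only [Matrix.mul_assoc]
      _ = Uᴴ * (W * Wᴴ) * U := by rw [h1, Matrix.mul_one]; simp only [Matrix.mul_assoc]
      _ = 1 := by rw [hW, Matrix.mul_one, h2]
  exact entry_norm_bound_of_unitary h i i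

/-- the enclosure for the exact matrix polynomial -/
theorem tau_matrix (K : ℕ) {u w y : ℝ} (hw : 0 < w) (hy : 0 < y) {A W : Matrix κ κ ℂ}
    (hA : A.IsHermitian) (hW : W * Wᴴ = 1)
    (hspec : ∀ i, u * hA.eigenvalues i ∈ Set.Icc (0 : ℝ) (2 * y)) :
    ‖(W * Polynomial.aeval (u • A) (tauP w y (chebL K) 0)).trace -
      (((tauP w y (chebL K) 0).eval (2 * y) : ℝ) : ℂ) *
        ((Real.exp (-(2 * y) / w) : ℝ) * (W * NormedSpace.exp ((u / w) • A)).trace)‖ ≤
      Fintype.card κ * y ^ K := by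
  obtain ⟨U, h1, h2, hd⟩ := herm_decomp hA
  set f := tauP w y (chebL K) 0 with hf
  have e1 : u • A = U * Matrix.diagonal (fun i => ((u * hA.eigenvalues i : ℝ) : ℂ)) * Uᴴ := by
    conv_lhs => rw [hd]
    rw [← Matrix.smul_mul, ← Matrix.mul_smul, ← Matrix.diagonal_smul]
    congr 3
    funext i
    simp
  have e2 := aeval_real_conj_diag h1 h2 (fun i => u * hA.eigenvalues i) f
  rw [← e1] at e2
  have e3 := exp_herm hA h1 hd (u / w)
  rw [e2, e3, trace_conj_diag_mul, trace_conj_diag_mul, Finset.mul_sum, Finset.mul_sum,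
    ← Finset.sum_sub_distrib]
  refine (norm_sum_le _ _).trans ?_
  have hb : ∀ i ∈ (Finset.univ : Finset κ),
      ‖((f.eval (u * hA.eigenvalues i) : ℝ) : ℂ) * (Uᴴ * W * U) i i -
        ((f.eval (2 * y) : ℝ) : ℂ) * ((Real.exp (-(2 * y) / w) : ℝ) *
          (((Real.exp (u / w * hA.eigenvalues i) : ℝ) : ℂ) * (Uᴴ * W * U) i i))‖ ≤ y ^ K := by
    intro i _
    have h3 := tau_scalar K hw hy _ (hspec i)
    rw [← hf] at h3
    have e4 : ((f.eval (u * hA.eigenvalues i) : ℝ) : ℂ) * (Uᴴ * W * U) i i -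
        ((f.eval (2 * y) : ℝ) : ℂ) * ((Real.exp (-(2 * y) / w) : ℝ) *
          (((Real.exp (u / w * hA.eigenvalues i) : ℝ) : ℂ) * (Uᴴ * W * U) i i)) =
        ((f.eval (u * hA.eigenvalues i) - f.eval (2 * y) *
          Real.exp ((u * hA.eigenvalues i - 2 * y) / w) : ℝ) : ℂ) * (Uᴴ * W * U) i i := by
      have e5 : Real.exp ((u * hA.eigenvalues i - 2 * y) / w) =
          Real.exp (-(2 * y) / w) * Real.exp (u / w * hA.eigenvalues i) := by
        rw [← Real.exp_add]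
        congr 1
        ring
      rw [e5]
      push_cast
      ring
    rw [e4, norm_mul, Complex.norm_real, Real.norm_eq_abs]
    calc |f.eval (u * hA.eigenvalues i) - f.eval (2 * y) *
          Real.exp ((u * hA.eigenvalues i - 2 * y) / w)| * ‖(Uᴴ * W * U) i i‖ ≤ y ^ K * 1 :=
          mul_le_mul h3 (entry_le h1 h2 hW i) (norm_nonneg _) (pow_nonneg hy.le _)
      _ = y ^ K := mul_one _
  calc _ ≤ ∑ i : κ, y ^ K := Finset.sum_le_sum hb
    _ = Fintype.card κ * y ^ K := by rw [Finset.sum_const, nsmul_eq_mul]; rfl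

/-- the trace functional -/
noncomputable def trL (W R : Matrix κ κ ℂ) : ℝ[X] →ₗ[ℝ] ℂ where
  toFun q := (W * Polynomial.aeval R q).trace
  map_add' p q := by rw [map_add, Matrix.mul_add, Matrix.trace_add]
  map_smul' c q := by
    rw [map_smul, Matrix.mul_smul, Matrix.trace_smul]
    rfl

/-- the evaluation functional -/
noncomputable def evL (r : ℝ) : ℝ[X] →ₗ[ℝ] ℂ where
  toFun q := ((q.eval r : ℝ) : ℂ)
  map_add' p q := by rw [eval_add, Complex.ofReal_add]
  map_smul' c q := by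
    rw [eval_smul, smul_eq_mul, Complex.ofReal_mul]
    rfl

theorem m8D_eq (K : ℕ) (w y : ℤ) :
    ((m8D w y (chebL K) : ℤ) : ℂ) = (((tauP w y (chebL K) 0).eval (2 * (y : ℝ)) : ℝ) : ℂ) := by
  unfold m8D
  rw [goF_eq (evL (2 * (y : ℝ))) (2 * y) w y (chebL K) _ 0 1 0 0 (by simp) ?_ (by
    intro i hi; omega)]
  · simp [evL]
  · intro k hk
    rw [List.length_map] at hk
    have h1 : ((chebL K).map fun _ => (1 : ℤ)).getD k 0 = 1 := by
      rw [List.getD_eq_getElem _ _ (by simpa using hk)]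
      simp
    rw [h1]
    simp [evL]

theorem m8F_eq (K : ℕ) (u w y : ℤ) {A W : Matrix κ κ ℂ} (μ : List ℤ) (hlen : μ.length = K + 1)
    (hμ : ∀ k ≤ K, (W * A ^ k).trace = ((μ.getD k 0 : ℤ) : ℂ)) :
    ((m8F u w y μ (chebL K) : ℤ) : ℂ) =
      (W * Polynomial.aeval ((u : ℝ) • A) (tauP w y (chebL K) 0)).trace := by
  unfold m8F
  rw [goF_eq (trL W ((u : ℝ) • A)) u w y (chebL K) μ 0 1 0 0 (by rw [hlen, chebL_length]) ?_ (by
    intro i hi; omega)]
  · simp [trL]
  · intro k hk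
    have h1 := hμ k (by omega)
    show (W * Polynomial.aeval ((u : ℝ) • A) (X ^ (0 + k))).trace = _
    rw [zero_add, map_pow, aeval_X, _root_.smul_pow, Matrix.mul_smul, Matrix.trace_smul, h1,
      Complex.real_smul]
    push_cast
    ring

/-- **main enclosure** -/
theorem m8_trace (K : ℕ) {u w y : ℕ} (hw : 0 < w) (hy : 0 < y) {A W : Matrix κ κ ℂ}
    (hA : A.IsHermitian) (hW : W * Wᴴ = 1)
    (hspec : ∀ i, 0 ≤ hA.eigenvalues i ∧ u * hA.eigenvalues i ≤ 2 * y)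
    (μ : List ℤ) (hlen : μ.length = K + 1)
    (hμ : ∀ k ≤ K, (W * A ^ k).trace = ((μ.getD k 0 : ℤ) : ℂ)) :
    ‖((m8F u w y μ (chebL K) : ℤ) : ℂ) - ((m8D w y (chebL K) : ℤ) : ℂ) *
      ((Real.exp (-(2 * (y : ℝ)) / w) : ℝ) *
        (W * NormedSpace.exp (((u : ℝ) / (w : ℝ)) • A)).trace)‖ ≤ Fintype.card κ * (y : ℝ) ^ K := by
  rw [m8D_eq, m8F_eq K u w y μ hlen hμ]
  have h := tau_matrix K (u := (u : ℝ)) (w := (w : ℝ)) (y := (y : ℝ)) (by exact_mod_cast hw)
    (by exact_mod_cast hy) hA hW (fun i => ⟨mul_nonneg (Nat.cast_nonneg _) (hspec i).1, (hspec i).2⟩)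
  simpa using h

/-- Boolean check of the rational bounds `lo / 2^s ≤ e^{-2y/w} Z ≤ hi / 2^s` -/
def m8Ok (K dim u w y s : ℕ) (μ : List ℤ) (τ : List ℕ) (lo hi : ℤ) : Bool :=
  let F := m8F u w y μ τ
  let D := m8D w y τ
  let E : ℤ := dim * y ^ K
  decide (0 < D) && decide (lo * D ≤ (F - E) * 2 ^ s) && decide ((F + E) * 2 ^ s ≤ hi * D)

theorem m8_bounds (K : ℕ) {u w y s : ℕ} (hw : 0 < w) (hy : 0 < y) {A W : Matrix κ κ ℂ}
    (hA : A.IsHermitian) (hW : W * Wᴴ = 1)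
    (hspec : ∀ i, 0 ≤ hA.eigenvalues i ∧ u * hA.eigenvalues i ≤ 2 * y)
    (μ : List ℤ) (hlen : μ.length = K + 1)
    (hμ : ∀ k ≤ K, (W * A ^ k).trace = ((μ.getD k 0 : ℤ) : ℂ)) {τ : List ℕ} (hτ : τ = chebL K)
    {lo hi : ℤ} {dim : ℕ} (hdim : Fintype.card κ = dim)
    (hok : m8Ok K dim u w y s μ τ lo hi = true) {Z : ℝ}
    (hZ : (W * NormedSpace.exp (((u : ℝ) / (w : ℝ)) • A)).trace = (Z : ℂ)) :
    (lo : ℝ) / 2 ^ s ≤ Real.exp (-(2 * (y : ℝ)) / w) * Z ∧
      Real.exp (-(2 * (y : ℝ)) / w) * Z ≤ (hi : ℝ) / 2 ^ s := by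
  subst hτ
  subst hdim
  unfold m8Ok at hok
  simp only [Bool.and_eq_true, decide_eq_true_eq] at hok
  obtain ⟨⟨hD, hl⟩, hh⟩ := hok
  have h := m8_trace K hw hy hA hW hspec μ hlen hμ
  rw [hZ] at h
  set F := m8F u w y μ (chebL K)
  set D := m8D w y (chebL K)
  set z := Real.exp (-(2 * (y : ℝ)) / w) * Z with hz
  have e : ((F : ℤ) : ℂ) - ((D : ℤ) : ℂ) * (((Real.exp (-(2 * (y : ℝ)) / w) : ℝ) : ℂ) * (Z : ℂ)) =
      (((F : ℝ) - (D : ℝ) * z : ℝ) : ℂ) := by
    rw [hz]; push_cast; ring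
  rw [e, Complex.norm_real, Real.norm_eq_abs, abs_le] at h
  have hD' : (0 : ℝ) < D := by exact_mod_cast hD
  have hl' : (lo : ℝ) * D ≤ ((F : ℝ) - Fintype.card κ * (y : ℝ) ^ K) * 2 ^ s := by exact_mod_cast hl
  have hh' : ((F : ℝ) + Fintype.card κ * (y : ℝ) ^ K) * 2 ^ s ≤ (hi : ℝ) * D := by exact_mod_cast hh
  have h2s : (0 : ℝ) < 2 ^ s := by positivity
  constructor
  · rw [div_le_iff₀ h2s]
    have h3 : ((F : ℝ) - Fintype.card κ * (y : ℝ) ^ K) * 2 ^ s ≤ (D * z) * 2 ^ s :=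
      mul_le_mul_of_nonneg_right (by linarith [h.2]) h2s.le
    have h4 : (lo : ℝ) * D ≤ (z * 2 ^ s) * D := by linarith
    exact le_of_mul_le_mul_right h4 hD'
  · rw [le_div_iff₀ h2s]
    have h3 : (D * z) * 2 ^ s ≤ ((F : ℝ) + Fintype.card κ * (y : ℝ) ^ K) * 2 ^ s :=
      mul_le_mul_of_nonneg_right (by linarith [h.1]) h2s.le
    have h4 : (z * 2 ^ s) * D ≤ (hi : ℝ) * D := by linarith
    exact le_of_mul_le_mul_right h4 hD'

end Hald
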