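import Crest.Agent.Hald.CwEnergies
import Crest.Agent.Hald.NumInput

/-!
# Row 347: the energy fields of `NumInput` (helper90)
-/

set_option autoImplicit false

open Matrix

namespace Hald.Cw

theorem chD220 : chD 2 2 0 = fun _ => 2 := by
  funext i
  fin_cases i <;> simp [chD]

theorem chB1 : chB 1 = [(0, 1)] := rfl

theorem H2_eq : Hch 1 (fun _ : Fin 2 => 2) 0 0 =
    (Wb (fun _ : Fin 2 => 2) (0, 1)).map (fun x : ℝ => (x : ℂ)) +
      Matrix.diagonal (fun σ : Fin 2 → Fin 2 =>
        (((1 / 2 - ((σ 0).val : ℝ)) * (1 / 2 - ((σ 1).val : ℝ)) : ℝ) : ℂ)) := by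
  rw [Hch_eq_Hgen 1 (fun _ => 2) 0 0 [] (by simp), chB1,
    Hgen_eq (fun _ : Fin 2 => 2) (fun _ => Or.inl rfl) [(0, 1)] (by simp) []]
  congr 1
  · simp [Wgen]
  · congr 1
    funext σ
    simp [Dgen, mag]

theorem W2 (U : (Fin 2 → Fin 2) → ℝ) (σ : Fin 2 → Fin 2) :
    (Wb (fun _ : Fin 2 => 2) (0, 1) *ᵥ U) σ =
      if σ 0 ≠ σ 1 then 1 / 2 * U (fun i => σ (1 - i)) else 0 := by
  obtain ⟨a, b, rfl⟩ : ∃ a b : Fin 2, σ = ![a, b] := ⟨σ 0, σ 1, by
    funext i; fin_cases i <;> rfl⟩
  have h := Wb_mulVec (fun _ : Fin 2 => 2) (0, 1) (by simp) U ![a, b]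
  rw [h]
  fin_cases a <;> fin_cases b <;> simp [amp]
  · congr 1
    funext i; fin_cases i <;> simp [Function.update]
  · congr 1
    funext i; fin_cases i <;> simp [Function.update]

theorem E2 : Ech 1 (fun _ : Fin 2 => 2) 0 0 = -(3 / 4) := by
  have : Nonempty (∀ i : Fin 2, Fin ((fun _ : Fin 2 => 2) i)) := ⟨fun _ => (0 : Fin 2)⟩
  refine le_antisymm ?_ ?_
  · obtain ⟨j, hj⟩ := exists_eig_le (Hch_isHermitian 1 (fun _ : Fin 2 => 2) 0 0)
      (Wb (fun _ : Fin 2 => 2) (0, 1))
      (fun σ => (1 / 2 - ((σ 0).val : ℝ)) * (1 / 2 - ((σ 1).val : ℝ))) H2_eq msign msign_sq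
      (fun σ τ h => Wb_sign (fun _ : Fin 2 => 2) (0, 1) (by simp) σ τ h)
      (fun σ => if σ 0 ≠ σ 1 then 1 else 0) (fun σ => by split_ifs <;> norm_num)
      (![0, 1] : Fin 2 → Fin 2) (by simp) (3 / 4) (by
        intro σ
        rw [W2]
        obtain ⟨a, b, rfl⟩ : ∃ a b : Fin 2, σ = ![a, b] := ⟨σ 0, σ 1, by
          funext i; fin_cases i <;> rfl⟩
        fin_cases a <;> fin_cases b <;> norm_num)
    exact (lowE_le _ j).trans hj
  · obtain ⟨j, hj⟩ := exists_lowE (Hch_isHermitian 1 (fun _ : Fin 2 => 2) 0 0)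
    rw [Ech, ← hj]
    refine eig_ge (Hch_isHermitian 1 (fun _ : Fin 2 => 2) 0 0) (Wb (fun _ : Fin 2 => 2) (0, 1))
      (fun σ => (1 / 2 - ((σ 0).val : ℝ)) * (1 / 2 - ((σ 1).val : ℝ))) H2_eq ?_ (fun _ => 1)
      (fun _ => one_pos) (3 / 4) ?_ j
    · intro σ τ
      exact Wb_nonneg (fun _ : Fin 2 => 2) (0, 1) (by simp) σ τ
    · intro σ
      rw [W2]
      obtain ⟨a, b, rfl⟩ : ∃ a b : Fin 2, σ = ![a, b] := ⟨σ 0, σ 1, by
        funext i; fin_cases i <;> rfl⟩
      fin_cases a <;> fin_cases b <;> norm_num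


theorem enS_ok : Pc.InL (fun M => Ech (M + 1) (chD 2 2 M) 0 0) ES := by
  intro k hk
  have hk' : k < 11 := hk
  interval_cases k
  · have h : Ech (0 + 1) (chD 2 2 0) 0 0 = -(3 / 4) := by rw [chD220]; exact E2
    simp only [ES, List.getElem_cons_zero, List.getElem_cons_succ]
    rw [h]
    constructor <;> norm_num
  · simp only [ES, List.getElem_cons_zero, List.getElem_cons_succ]
    exact ⟨le_trans (by norm_num) Data.stripE1_ge, le_trans Data.stripE1_le (by norm_num)⟩
  · simp only [ES, List.getElem_cons_zero, List.getElem_cons_succ]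
    exact ⟨le_trans (by norm_num) Data.stripE2_ge, le_trans Data.stripE2_le (by norm_num)⟩
  · simp only [ES, List.getElem_cons_zero, List.getElem_cons_succ]
    exact ⟨le_trans (by norm_num) Data.stripE3_ge, le_trans Data.stripE3_le (by norm_num)⟩
  · simp only [ES, List.getElem_cons_zero, List.getElem_cons_succ]
    exact ⟨le_trans (by norm_num) Data.stripE4_ge, le_trans Data.stripE4_le (by norm_num)⟩
  · simp only [ES, List.getElem_cons_zero, List.getElem_cons_succ]
    exact ⟨le_trans (by norm_num) Data.stripE5_ge, le_trans Data.stripE5_le (by norm_num)⟩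
  · simp only [ES, List.getElem_cons_zero, List.getElem_cons_succ]
    exact ⟨le_trans (by norm_num) Data.stripE6_ge, le_trans Data.stripE6_le (by norm_num)⟩
  · simp only [ES, List.getElem_cons_zero, List.getElem_cons_succ]
    exact ⟨le_trans (by norm_num) Data.stripE7_ge, le_trans Data.stripE7_le (by norm_num)⟩
  · simp only [ES, List.getElem_cons_zero, List.getElem_cons_succ]
    exact ⟨le_trans (by norm_num) Data.stripE8_ge, le_trans Data.stripE8_le (by norm_num)⟩
  · simp only [ES, List.getElem_cons_zero, List.getElem_cons_succ]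
    exact ⟨le_trans (by norm_num) Data.stripE9_ge, le_trans Data.stripE9_le (by norm_num)⟩
  · simp only [ES, List.getElem_cons_zero, List.getElem_cons_succ]
    exact ⟨le_trans (by norm_num) Data.stripE10_ge, le_trans Data.stripE10_le (by norm_num)⟩

theorem enX_ok : Pc.InL (fun k => Ech (k + 1) (chD 2 3 k) 0 hF) EX := by
  intro k hk
  have hk' : k < 10 := hk
  interval_cases k
  · simp only [EX, List.getElem_cons_zero, List.getElem_cons_succ]
    exact ⟨le_trans (by norm_num) Data.mixedE1_ge, le_trans Data.mixedE1_le (by norm_num)⟩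
  · simp only [EX, List.getElem_cons_zero, List.getElem_cons_succ]
    exact ⟨le_trans (by norm_num) Data.mixedE2_ge, le_trans Data.mixedE2_le (by norm_num)⟩
  · simp only [EX, List.getElem_cons_zero, List.getElem_cons_succ]
    exact ⟨le_trans (by norm_num) Data.mixedE3_ge, le_trans Data.mixedE3_le (by norm_num)⟩
  · simp only [EX, List.getElem_cons_zero, List.getElem_cons_succ]
    exact ⟨le_trans (by norm_num) Data.mixedE4_ge, le_trans Data.mixedE4_le (by norm_num)⟩
  · simp only [EX, List.getElem_cons_zero, List.getElem_cons_succ]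
    exact ⟨le_trans (by norm_num) Data.mixedE5_ge, le_trans Data.mixedE5_le (by norm_num)⟩
  · simp only [EX, List.getElem_cons_zero, List.getElem_cons_succ]
    exact ⟨le_trans (by norm_num) Data.mixedE6_ge, le_trans Data.mixedE6_le (by norm_num)⟩
  · simp only [EX, List.getElem_cons_zero, List.getElem_cons_succ]
    exact ⟨le_trans (by norm_num) Data.mixedE7_ge, le_trans Data.mixedE7_le (by norm_num)⟩
  · simp only [EX, List.getElem_cons_zero, List.getElem_cons_succ]
    exact ⟨le_trans (by norm_num) Data.mixedE8_ge, le_trans Data.mixedE8_le (by norm_num)⟩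
  · simp only [EX, List.getElem_cons_zero, List.getElem_cons_succ]
    exact ⟨le_trans (by norm_num) Data.mixedE9_ge, le_trans Data.mixedE9_le (by norm_num)⟩
  · simp only [EX, List.getElem_cons_zero, List.getElem_cons_succ]
    exact ⟨le_trans (by norm_num) Data.mixedE10_ge, le_trans Data.mixedE10_le (by norm_num)⟩

theorem enP_ok : Pc.InL (fun k => Ech (k + 1) (fun _ => 3) hF hF) EP := by
  intro k hk
  have hk' : k < 9 := hk
  interval_cases k
  · simp only [EP, List.getElem_cons_zero, List.getElem_cons_succ]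
    exact ⟨le_trans (by norm_num) Data.openpE2_ge, le_trans Data.openpE2_le (by norm_num)⟩
  · simp only [EP, List.getElem_cons_zero, List.getElem_cons_succ]
    exact ⟨le_trans (by norm_num) Data.openpE3_ge, le_trans Data.openpE3_le (by norm_num)⟩
  · simp only [EP, List.getElem_cons_zero, List.getElem_cons_succ]
    exact ⟨le_trans (by norm_num) Data.openpE4_ge, le_trans Data.openpE4_le (by norm_num)⟩
  · simp only [EP, List.getElem_cons_zero, List.getElem_cons_succ]
    exact ⟨le_trans (by norm_num) Data.openpE5_ge, le_trans Data.openpE5_le (by norm_num)⟩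
  · simp only [EP, List.getElem_cons_zero, List.getElem_cons_succ]
    exact ⟨le_trans (by norm_num) Data.openpE6_ge, le_trans Data.openpE6_le (by norm_num)⟩
  · simp only [EP, List.getElem_cons_zero, List.getElem_cons_succ]
    exact ⟨le_trans (by norm_num) Data.openpE7_ge, le_trans Data.openpE7_le (by norm_num)⟩
  · simp only [EP, List.getElem_cons_zero, List.getElem_cons_succ]
    exact ⟨le_trans (by norm_num) Data.openpE8_ge, le_trans Data.openpE8_le (by norm_num)⟩
  · simp only [EP, List.getElem_cons_zero, List.getElem_cons_succ]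
    exact ⟨le_trans (by norm_num) Data.openpE9_ge, le_trans Data.openpE9_le (by norm_num)⟩
  · simp only [EP, List.getElem_cons_zero, List.getElem_cons_succ]
    exact ⟨le_trans (by norm_num) Data.openpE10_ge, le_trans Data.openpE10_le (by norm_num)⟩

theorem enM_ok : Pc.InL (fun k => Ech (k + 1) (fun _ => 3) hF (-hF)) EM := by
  intro k hk
  have hk' : k < 9 := hk
  interval_cases k
  · simp only [EM, List.getElem_cons_zero, List.getElem_cons_succ]
    exact ⟨le_trans (by norm_num) Data.openmE2_ge, le_trans Data.openmE2_le (by norm_num)⟩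
  · simp only [EM, List.getElem_cons_zero, List.getElem_cons_succ]
    exact ⟨le_trans (by norm_num) Data.openmE3_ge, le_trans Data.openmE3_le (by norm_num)⟩
  · simp only [EM, List.getElem_cons_zero, List.getElem_cons_succ]
    exact ⟨le_trans (by norm_num) Data.openmE4_ge, le_trans Data.openmE4_le (by norm_num)⟩
  · simp only [EM, List.getElem_cons_zero, List.getElem_cons_succ]
    exact ⟨le_trans (by norm_num) Data.openmE5_ge, le_trans Data.openmE5_le (by norm_num)⟩
  · simp only [EM, List.getElem_cons_zero, List.getElem_cons_succ]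
    exact ⟨le_trans (by norm_num) Data.openmE6_ge, le_trans Data.openmE6_le (by norm_num)⟩
  · simp only [EM, List.getElem_cons_zero, List.getElem_cons_succ]
    exact ⟨le_trans (by norm_num) Data.openmE7_ge, le_trans Data.openmE7_le (by norm_num)⟩
  · simp only [EM, List.getElem_cons_zero, List.getElem_cons_succ]
    exact ⟨le_trans (by norm_num) Data.openmE8_ge, le_trans Data.openmE8_le (by norm_num)⟩
  · simp only [EM, List.getElem_cons_zero, List.getElem_cons_succ]
    exact ⟨le_trans (by norm_num) Data.openmE9_ge, le_trans Data.openmE9_le (by norm_num)⟩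
  · simp only [EM, List.getElem_cons_zero, List.getElem_cons_succ]
    exact ⟨le_trans (by norm_num) Data.openmE10_ge, le_trans Data.openmE10_le (by norm_num)⟩

end Hald.Cw
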