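import Crest.Agent.Hald.OpenEncl
import Crest.Agent.Hald.OpM3

/-! # Row 347, M8: numbers of the open chain with 3 spins 1 (generated) -/

set_option autoImplicit false
set_option Elab.async false
set_option maxRecDepth 100000

namespace Hald

theorem opTauM3 : ([1, 900, 134850, 8055040, 256322880, 5035320576, 66756144000, 633816576000, 4494815884800, 24559909017600, 105866134133760, 366635962368000, 1034816719872000, 2407142892994560, 4655083213701120, 7533743867691008, 10252574819942400, 11769444178329600, 11414492687237120, 9352415060951040, 6462758612631552, 3753053782016000, 1820984868864000, 731912758886400, 240726625484800, 63669736046592, 13204507852800, 2066953011200, 229512314880, 16106127360, 536870912] : List ℕ) = chebL 30 := by decide +kernel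

theorem opNM3_6 : ((8250808 : ℤ) : ℝ) / 2 ^ 30 ≤ aOpen hF (-hF) ehat 6 1 ∧
    aOpen hF (-hF) ehat 6 1 ≤ ((8250809 : ℤ) : ℝ) / 2 ^ 30 :=
  openM_num (N := 1) (fun k hk => opMomM3 k hk) opTauM3 (dim := 27) (by norm_num) (cn := 32)
    (by norm_num) (M' := 3) (by norm_num)
    (u := 48) (w := 80) (y := 1594) (s := 40) (lo := 820675429597) (hi := 820675452330) (en := 28029) (ed := 20000) (n := 22) (j := 3) (t := 50) (el := 635444918161858) (eh := 635444918161859) (A := 8250808) (B := 8250809) (a := 30)
    (by decide +kernel) ehat_eq (by norm_num)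

theorem opNM3_8 : ((1261381 : ℤ) : ℝ) / 2 ^ 30 ≤ aOpen hF (-hF) ehat 8 1 ∧
    aOpen hF (-hF) ehat 8 1 ≤ ((1261386 : ℤ) : ℝ) / 2 ^ 30 :=
  openM_num (N := 1) (fun k hk => opMomM3 k hk) opTauM3 (dim := 27) (by norm_num) (cn := 32)
    (by norm_num) (M' := 3) (by norm_num)
    (u := 64) (w := 80) (y := 2125) (s := 40) (lo := 581565828922) (hi := 581567519909) (en := 28029) (ed := 20000) (n := 22) (j := 3) (t := 50) (el := 524587852836652) (eh := 524587852836653) (A := 1261381) (B := 1261386) (a := 30)
    (by decide +kernel) ehat_eq (by norm_num)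

end Hald
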