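import Crest.Agent.Hald.OpenEncl
import Crest.Agent.Hald.OpM5

/-! # Row 347, M8: numbers of the open chain with 5 spins 1 (generated) -/

set_option autoImplicit false
set_option Elab.async false
set_option maxRecDepth 100000

namespace Hald

theorem opTauM5 : ([1, 1444, 347282, 33339072, 1708627440, 54220444096, 1165739548064, 18036937183232, 209679394755072, 1891225913477120, 13567057474049024, 78935607121739776, 378376116746600448, 1513504466986401792, 5105074591025561600, 14646282964597473280, 35995602689202257920, 76225982165369487360, 139747633969844060160, 222642034205156966400, 309129901338698711040, 374833469219049308160, 397418572544087162880, 368620125258283745280, 299013665435575910400, 211872540080065216512, 130862451225922633728, 70232258938859945984, 32607834507327832064, 13019462053742510080, 4435443852207194112, 1275981732205559808, 305703956674248704, 59858117390761984, 9328196520509440, 1112430889402368, 95313914232832, 5222680231936, 137438953472] : List ℕ) = chebL 38 := by decide +kernel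

theorem opNM5_6 : ((23617646 : ℤ) : ℝ) / 2 ^ 30 ≤ aOpen hF (-hF) ehat 6 3 ∧
    aOpen hF (-hF) ehat 6 3 ≤ ((23617666 : ℤ) : ℝ) / 2 ^ 30 :=
  openM_num (N := 3) (fun k hk => opMomM5 k hk) opTauM5 (dim := 243) (by norm_num) (cn := 52)
    (by norm_num) (M' := 5) (by norm_num)
    (u := 48) (w := 80) (y := 2806) (s := 40) (lo := 533367512534) (hi := 533367943217) (en := 28029) (ed := 20000) (n := 22) (j := 2) (t := 50) (el := 519549927143540) (eh := 519549927143541) (A := 23617646) (B := 23617666) (a := 30)
    (by decide +kernel) ehat_eq (by norm_num)

theorem opNM5_8 : ((5575938 : ℤ) : ℝ) / 2 ^ 30 ≤ aOpen hF (-hF) ehat 8 3 ∧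
    aOpen hF (-hF) ehat 8 3 ≤ ((5576491 : ℤ) : ℝ) / 2 ^ 30 :=
  openM_num (N := 3) (fun k hk => opMomM5 k hk) opTauM5 (dim := 243) (by norm_num) (cn := 52)
    (by norm_num) (M' := 5) (by norm_num)
    (u := 64) (w := 80) (y := 3741) (s := 40) (lo := 356087770336) (hi := 356122991242) (en := 28029) (ed := 20000) (n := 22) (j := 3) (t := 50) (el := 671633572017829) (eh := 671633572017830) (A := 5575938) (B := 5576491) (a := 30)
    (by decide +kernel) ehat_eq (by norm_num)

end Hald
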