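import Crest.Agent.Hald.OpenEncl
import Crest.Agent.Hald.OpM6

/-! # Row 347, M8: numbers of the open chain with 6 spins 1 (generated) -/

set_option autoImplicit false
set_option Elab.async false
set_option maxRecDepth 100000

namespace Hald

theorem opTauM6 : ([1, 1936, 624360, 80417568, 5534451912, 236136614912, 6837228349952, 142755317196800, 2244827362919680, 27466123028664320, 268156095885117440, 2131318580281712640, 14015736315983001600, 77280613779204734976, 361256202507552292864, 1445024810030209171456, 4984752923309854621696, 14927602337184591380480, 39025017538639717466112, 89485530970536592539648, 180691937536660427243520, 322349379856341946859520, 509421060132379715174400, 714666066968324006215680, 891431876085489252433920, 989671307327563578212352, 978475930547840008323072, 861551133815708183429120, 675254687347766089220096, 470594918224214479601664, 291130754494641161109504, 159498393260945659920384, 77138359836022826598400, 32797288657553761239040, 12194602060117662760960, 3938629236808189214720, 1095604611647348408320, 259602721752796364800, 51647278327661592576, 8461691953782718464, 1111266506588553216, 112431661009862656,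 8224346975764480, 387028092977152, 8796093022208] : List ℕ) = chebL 44 := by decide +kernel

theorem opNM6_6 : ((184699077 : ℤ) : ℝ) / 2 ^ 30 ≤ aOpen hF (-hF) ehat 6 4 ∧
    aOpen hF (-hF) ehat 6 4 ≤ ((184699120 : ℤ) : ℝ) / 2 ^ 30 :=
  openM_num (N := 4) (fun k hk => opMomM6 k hk) opTauM6 (dim := 729) (by norm_num) (cn := 62)
    (by norm_num) (M' := 6) (by norm_num)
    (u := 48) (w := 80) (y := 3448) (s := 40) (lo := 808066548375) (hi := 808066733144) (en := 28029) (ed := 20000) (n := 22) (j := 1) (t := 50) (el := 544701485768825) (eh := 544701485768826) (A := 184699077) (B := 184699120) (a := 30)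
    (by decide +kernel) ehat_eq (by norm_num)

theorem opNM6_8 : ((101023583 : ℤ) : ℝ) / 2 ^ 30 ≤ aOpen hF (-hF) ehat 8 4 ∧
    aOpen hF (-hF) ehat 8 4 ≤ ((101027068 : ℤ) : ℝ) / 2 ^ 30 :=
  openM_num (N := 4) (fun k hk => opMomM6 k hk) opTauM6 (dim := 729) (by norm_num) (cn := 62)
    (by norm_num) (M' := 6) (by norm_num)
    (u := 64) (w := 80) (y := 4598) (s := 40) (lo := 705333340695) (hi := 705357668121) (en := 28029) (ed := 20000) (n := 22) (j := 1) (t := 50) (el := 431185293085568) (eh := 431185293085569) (A := 101023583) (B := 101027068) (a := 30)
    (by decide +kernel) ehat_eq (by norm_num)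

end Hald
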