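import Crest.Agent.Hald.OpenEncl
import Crest.Agent.Hald.OpP4

/-! # Row 347, M8: numbers of the open chain with 4 spins 1 (generated) -/

set_option autoImplicit false
set_option Elab.async false
set_option maxRecDepth 100000

namespace Hald

theorem opTauP4 : ([1, 1156, 222530, 17090304, 700092096, 17735666432, 303924829312, 3740613283840, 34507157543424, 246286379329536, 1393462409364480, 6370113871380480, 23887927017676800, 74383329667350528, 194223138575859712, 428630374788104192, 804546126870413312, 1290715711556812800, 1776270669713899520, 2102215074255994880, 2142642287222456320, 1881344447317278720, 1421946384600268800, 923234754059304960, 513181020208496640, 242975503445655552, 97300145044979712, 32637365214248960, 9049451263950848, 2036537126551552, 362434573369344, 49065706389504, 4745938862080, 292057776128, 8589934592] : List ℕ) = chebL 34 := by decide +kernel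

theorem opNP4_6 : ((16321333 : ℤ) : ℝ) / 2 ^ 30 ≤ aOpen hF hF ehat 6 2 ∧
    aOpen hF hF ehat 6 2 ≤ ((16321337 : ℤ) : ℝ) / 2 ^ 30 :=
  openP_num (N := 2) (fun k hk => opMomP4 k hk) opTauP4 (dim := 81) (by norm_num) (cn := 42)
    (by norm_num) (M' := 4) (by norm_num)
    (u := 48) (w := 80) (y := 2206) (s := 40) (lo := 665800160952) (hi := 665800307745) (en := 28029) (ed := 20000) (n := 22) (j := 2) (t := 50) (el := 448154443100040) (eh := 448154443100041) (A := 16321333) (B := 16321337) (a := 30)
    (by decide +kernel) ehat_eq (by norm_num)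

theorem opNP4_8 : ((3191565 : ℤ) : ℝ) / 2 ^ 30 ≤ aOpen hF hF ehat 8 2 ∧
    aOpen hF hF ehat 8 2 ≤ ((3191643 : ℤ) : ℝ) / 2 ^ 30 :=
  openP_num (N := 2) (fun k hk => opMomP4 k hk) opTauP4 (dim := 81) (by norm_num) (cn := 42)
    (by norm_num) (M' := 4) (by norm_num)
    (u := 64) (w := 80) (y := 2941) (s := 40) (lo := 448374098321) (hi := 448385008309) (en := 28029) (ed := 20000) (n := 22) (j := 3) (t := 50) (el := 608601019165971) (eh := 608601019165972) (A := 3191565) (B := 3191643) (a := 30)
    (by decide +kernel) ehat_eq (by norm_num)

end Hald
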