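import Crest.Agent.Hald.OpenEncl
import Crest.Agent.Hald.OpP5

/-! # Row 347, M8: numbers of the open chain with 5 spins 1 (generated) -/

set_option autoImplicit false
set_option Elab.async false
set_option maxRecDepth 100000

namespace Hald

theorem opTauP5 : ([1, 1444, 347282, 33339072, 1708627440, 54220444096, 1165739548064, 18036937183232, 209679394755072, 1891225913477120, 13567057474049024, 78935607121739776, 378376116746600448, 1513504466986401792, 5105074591025561600, 14646282964597473280, 35995602689202257920, 76225982165369487360, 139747633969844060160, 222642034205156966400, 309129901338698711040, 374833469219049308160, 397418572544087162880, 368620125258283745280, 299013665435575910400, 211872540080065216512, 130862451225922633728, 70232258938859945984, 32607834507327832064, 13019462053742510080, 4435443852207194112, 1275981732205559808, 305703956674248704, 59858117390761984, 9328196520509440, 1112430889402368, 95313914232832, 5222680231936, 137438953472] : List ℕ) = chebL 38 := by decide +kernel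

theorem opNP5_6 : ((200895915 : ℤ) : ℝ) / 2 ^ 30 ≤ aOpen hF hF ehat 6 3 ∧
    aOpen hF hF ehat 6 3 ≤ ((200896063 : ℤ) : ℝ) / 2 ^ 30 :=
  openP_num (N := 3) (fun k hk => opMomP5 k hk) opTauP5 (dim := 243) (by norm_num) (cn := 52)
    (by norm_num) (M' := 5) (by norm_num)
    (u := 48) (w := 80) (y := 2872) (s := 40) (lo := 871314915277) (hi := 871315550896) (en := 28029) (ed := 20000) (n := 22) (j := 1) (t := 50) (el := 547076098269643) (eh := 547076098269644) (A := 200895915) (B := 200896063) (a := 30)
    (by decide +kernel) ehat_eq (by norm_num)

theorem opNP5_8 : ((113123057 : ℤ) : ℝ) / 2 ^ 30 ≤ aOpen hF hF ehat 8 3 ∧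
    aOpen hF hF ehat 8 3 ≤ ((113129899 : ℤ) : ℝ) / 2 ^ 30 :=
  openP_num (N := 3) (fun k hk => opMomP5 k hk) opTauP5 (dim := 243) (by norm_num) (cn := 52)
    (by norm_num) (M' := 5) (by norm_num)
    (u := 64) (w := 80) (y := 3829) (s := 40) (lo := 800464961157) (hi := 800513367675) (en := 28029) (ed := 20000) (n := 22) (j := 1) (t := 50) (el := 428306007997856) (eh := 428306007997857) (A := 113123057) (B := 113129899) (a := 30)
    (by decide +kernel) ehat_eq (by norm_num)

end Hald
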