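import Crest.Agent.Hald.OpNP2
import Crest.Agent.Hald.OpNP3
import Crest.Agent.Hald.OpNP4
import Crest.Agent.Hald.OpNP5
import Crest.Agent.Hald.OpNP6
import Crest.Agent.Hald.OpNM2
import Crest.Agent.Hald.OpNM3
import Crest.Agent.Hald.OpNM4
import Crest.Agent.Hald.OpNM5
import Crest.Agent.Hald.OpNM6

/-! # Row 347: interval lists of the open chains (generated) -/

set_option autoImplicit false
set_option Elab.async false
set_option maxRecDepth 100000

namespace Hald

theorem numOpenP6 : Pc.InL (fun k => aOpen hF hF ehat 6 k) TP6 :=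
  inL_of 30 [(9494305, 9494306),
    (258872095, 258872116),
    (16321333, 16321337),
    (200895915, 200896063),
    (32754011, 32754022)]
    (by decide +kernel) (by
    exact ⟨opNP2_6, opNP3_6, opNP4_6, opNP5_6, opNP6_6, trivial⟩)

theorem numOpenP8 : Pc.InL (fun k => aOpen hF hF ehat 8 k) TP8 :=
  inL_of 30 [(1814814, 1814817),
    (160058971, 160059693),
    (3191565, 3191643),
    (113123057, 113129899),
    (8660539, 8661076)]
    (by decide +kernel) (by
    exact ⟨opNP2_8, opNP3_8, opNP4_8, opNP5_8, opNP6_8, trivial⟩)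

theorem numOpenM6 : Pc.InL (fun k => aOpen hF (-hF) ehat 6 k) TM6 :=
  inL_of 30 [(398379567, 398379616),
    (8250808, 8250809),
    (239012970, 239013038),
    (23617646, 23617666),
    (184699077, 184699120)]
    (by decide +kernel) (by
    exact ⟨opNM2_6, opNM3_6, opNM4_6, opNM5_6, opNM6_6, trivial⟩)

theorem numOpenM8 : Pc.InL (fun k => aOpen hF (-hF) ehat 8 k) TM8 :=
  inL_of 30 [(286151479, 286152802),
    (1261381, 1261386),
    (144096558, 144099303),
    (5575938, 5576491),
    (101023583, 101027068)]
    (by decide +kernel) (by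
    exact ⟨opNM2_8, opNM3_8, opNM4_8, opNM5_8, opNM6_8, trivial⟩)

end Hald
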