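import Crest.Agent.Hald.NumSt
import Crest.Agent.Hald.NumOp
import Crest.Agent.Hald.NumEn
import Crest.Agent.Hald.NumRing

/-!
# Row 347: the numerical input (helper24)
-/

set_option autoImplicit false

namespace Hald

theorem theNumInput : NumInput where
  ring4 := numRing4
  ring6 := numRing6
  ring8 := numRing8
  strip4 := strip4_ok
  strip6 := strip6_ok
  strip8 := strip8_ok
  stripz4 := stripz4_ok
  stripz6 := stripz6_ok
  stripz8 := stripz8_ok
  openP6 := numOpenP6
  openP8 := numOpenP8
  openM6 := numOpenM6
  openM8 := numOpenM8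
  enS := Cw.enS_ok
  enX := Cw.enX_ok
  enP := Cw.enP_ok
  enM := Cw.enM_ok

end Hald
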