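import Crest.Agent.Hald.ChWrap

/-! # Row 347, M7: moments of the strip with 0 spins 1, machine generated -/

set_option autoImplicit false
set_option Elab.async false
set_option maxRecDepth 100000
set_option exponentiation.threshold 1000000

namespace Hald

def stR0_0 : List (List (ℕ × ℕ)) :=
   [[(0, 2), (1, 2)]]

theorem stRun0_0 : runsN 23 (27 + 27) 27 (ChData.fullS (chD 2 2 0)) (cStrip 0).op
    [2, 2] 20 stR0_0 =
    14584622987088188886304801760852049716351407336674551700422333150160911928150624625484555402654201137097393289702275742353131558217656911141883221244367050221048408342081956630656082684762286166367797181367322649504008953455376110397127969585254466220885490393137364852234481827616374690976179135997855895129555300618796954856907585555005440 := by decide +kernel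

def stRs0 : List (List (ℕ × ℕ)) := stR0_0

def stT0 : ℕ := 14584622987088188886304801760852049716351407336674551700422333150160911928150624625484555402654201137097393289702275742353131558217656911141883221244367050221048408342081956630656082684762286166367797181367322649504008953455376110397127969585254466220885490393137364852234481827616374690976179135997855895129555300618796954856907585555005440

/-- moments `Tr A^k`, `A = 2(-H) + c` -/
def stMu0 : List ℤ :=
   [4,
    2,
    4,
    8,
    16,
    32,
    64,
    128,
    256,
    512,
    1024,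
    2048,
    4096,
    8192,
    16384,
    32768,
    65536,
    131072,
    262144,
    524288,
    1048576]

/-- moments `Tr (G_z A^k)` -/
def stMz0 : List ℤ :=
   [0,
    2,
    4,
    8,
    16,
    32,
    64,
    128,
    256,
    512,
    1024,
    2048,
    4096,
    8192,
    16384,
    32768,
    65536,
    131072,
    262144,
    524288,
    1048576]

theorem stTot0 : runsN 23 (27 + 27) 27 (ChData.fullS (chD 2 2 0)) (cStrip 0).op
    [2, 2] 20 stRs0 = stT0 := by
  unfold stRs0
  rw [stRun0_0]
  rfl

theorem stParts0 (k : ℕ) (hk : k ≤ 20) :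
    (cStrip 0).tE k + (cStrip 0).tO k = stMu0.getD k 0 ∧
      (cStrip 0).tE k - (cStrip 0).tO k = ((stMz0.map ((-1 : ℤ) * ·))).getD k 0 :=
  strip_wrap 0 (w := 23) (Q := 27) (R := 2) (KK := 20) (S := 2) (s := 16) (nE := 2) (nO := 2)
    (D1 := 3) [2, 2] (by decide +kernel) (by decide +kernel)
    (fun _ => 2) (by decide +kernel) (by decide +kernel)
    (by decide +kernel) stRs0 (by decide +kernel) (by decide +kernel)
    [(2, 2), (2, 1)]
    (by decide +kernel) (by decide +kernel) (by decide +kernel) (by decide +kernel) stTot0 stMu0
    (stMz0.map ((-1 : ℤ) * ·)) (by decide +kernel) k hk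

theorem stMu0_length : stMu0.length = 20 + 1 := by decide +kernel
theorem stMz0_length : stMz0.length = 20 + 1 := by decide +kernel

/-- untwisted moments -/
theorem stMom0 (k : ℕ) (hk : k ≤ 20) :
    ((Msh (0 + 1) (chD 2 2 0) 0 0 2 (chC (cStrip 0) 0 0)) ^ k).trace = ((stMu0.getD k 0 : ℤ) : ℂ) := by
  rw [strip_msh, (stParts0 k hk).1]

/-- moments with the twist `G_z` -/
theorem stMomz0 (k : ℕ) (hk : k ≤ 20) :
    (Hald.tens (κ := fun i => Fin (chD 2 2 0 i)) (fun i => Gz (chD 2 2 0 i)) *
      (Msh (0 + 1) (chD 2 2 0) 0 0 2 (chC (cStrip 0) 0 0)) ^ k).trace =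
      ((stMz0.getD k 0 : ℤ) : ℂ) := by
  rw [strip_msh_z, (stParts0 k hk).2]
  congr 1
  have h : k < stMz0.length := by rw [stMz0_length]; omega
  rw [List.getD_eq_getElem _ _ (by simpa using h), List.getD_eq_getElem _ _ h, List.getElem_map]
  norm_num

end Hald
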