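import Crest.Agent.Hald.StripEncl
import Crest.Agent.Hald.St0

/-! # Row 347, M8: numbers of the strip with 0 spins 1 (generated) -/

set_option autoImplicit false
set_option maxRecDepth 100000

namespace Hald

theorem stTau0 : ([1, 400, 26600, 702240, 9806280, 83680256, 475456000, 1901824000, 5562835200, 12216422400, 20510730240, 26637312000, 26926848000, 21210071040, 12961710080, 6078595072, 2144665600, 550502400, 96993280, 10485760, 524288] : List ℕ) = chebL 20 := by decide +kernel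

theorem stN0_4 : ((22751703678 : ℤ) : ℝ) / 2 ^ 30 ≤ aStrip G1 (-(((28029 : ℕ) : ℝ) / ((20000 : ℕ) : ℝ))) 4 0 ∧
    aStrip G1 (-(((28029 : ℕ) : ℝ) / ((20000 : ℕ) : ℝ))) 4 0 ≤ ((22751703679 : ℤ) : ℝ) / 2 ^ 30 :=
  strip_numM (fun k hk => stMom0 k hk) stTau0 (dim := 4) (by norm_num) (Or.inl ⟨rfl, rfl, rfl⟩)
    (u := 32) (w := 16) (y := 32) (s := 40) (lo := 1159926401560) (hi := 1159926401561) (en := 28029) (ed := 20000) (n := 22) (j := 2) (t := 50) (el := 2383530121490043) (eh := 2383530121490044) (A := 22751703678) (B := 22751703679) (a := 30)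
    (by decide +kernel) (by norm_num) (by norm_num)

theorem stNz0_4 : ((21171673509 : ℤ) : ℝ) / 2 ^ 30 ≤ aStrip Gz (-(((28029 : ℕ) : ℝ) / ((20000 : ℕ) : ℝ))) 4 0 ∧
    aStrip Gz (-(((28029 : ℕ) : ℝ) / ((20000 : ℕ) : ℝ))) 4 0 ≤ ((21171673510 : ℤ) : ℝ) / 2 ^ 30 :=
  strip_numMz (fun k hk => stMom0 k hk) (fun k hk => stMomz0 k hk) stTau0 (dim := 4)
    (by norm_num) (Or.inl ⟨rfl, rfl, rfl⟩)
    (u := 32) (w := 16) (y := 32) (s := 40) (lo := 1079373369847) (hi := 1079373369848) (en := 28029) (ed := 20000) (n := 22) (j := 2) (t := 50) (el := 2383530121490043) (eh := 2383530121490044) (A := 21171673509) (B := 21171673510) (a := 30)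
    (by decide +kernel) (by norm_num) (by norm_num)

theorem stN0_6 : ((97373911309 : ℤ) : ℝ) / 2 ^ 30 ≤ aStrip G1 (-(((28029 : ℕ) : ℝ) / ((20000 : ℕ) : ℝ))) 6 0 ∧
    aStrip G1 (-(((28029 : ℕ) : ℝ) / ((20000 : ℕ) : ℝ))) 6 0 ≤ ((97373911310 : ℤ) : ℝ) / 2 ^ 30 :=
  strip_numM (fun k hk => stMom0 k hk) stTau0 (dim := 4) (by norm_num) (Or.inl ⟨rfl, rfl, rfl⟩)
    (u := 48) (w := 16) (y := 48) (s := 40) (lo := 1107687878297) (hi := 1107687878298) (en := 28029) (ed := 20000) (n := 22) (j := 3) (t := 50) (el := 1976015874775313) (eh := 1976015874775314) (A := 97373911309) (B := 97373911310) (a := 30)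
    (by decide +kernel) (by norm_num) (by norm_num)

theorem stNz0_6 : ((96415574568 : ℤ) : ℝ) / 2 ^ 30 ≤ aStrip Gz (-(((28029 : ℕ) : ℝ) / ((20000 : ℕ) : ℝ))) 6 0 ∧
    aStrip Gz (-(((28029 : ℕ) : ℝ) / ((20000 : ℕ) : ℝ))) 6 0 ≤ ((96415574569 : ℤ) : ℝ) / 2 ^ 30 :=
  strip_numMz (fun k hk => stMom0 k hk) (fun k hk => stMomz0 k hk) stTau0 (dim := 4)
    (by norm_num) (Or.inl ⟨rfl, rfl, rfl⟩)
    (u := 48) (w := 16) (y := 48) (s := 40) (lo := 1096786210935) (hi := 1096786210936) (en := 28029) (ed := 20000) (n := 22) (j := 3) (t := 50) (el := 1976015874775313) (eh := 1976015874775314) (A := 96415574568) (B := 96415574569) (a := 30)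
    (by decide +kernel) (by norm_num) (by norm_num)

theorem stN0_8 : ((433614314040 : ℤ) : ℝ) / 2 ^ 30 ≤ aStrip G1 (-(((28029 : ℕ) : ℝ) / ((20000 : ℕ) : ℝ))) 8 0 ∧
    aStrip G1 (-(((28029 : ℕ) : ℝ) / ((20000 : ℕ) : ℝ))) 8 0 ≤ ((433614314041 : ℤ) : ℝ) / 2 ^ 30 :=
  strip_numM (fun k hk => stMom0 k hk) stTau0 (dim := 4) (by norm_num) (Or.inl ⟨rfl, rfl, rfl⟩)
    (u := 64) (w := 16) (y := 64) (s := 40) (lo := 1100618162956) (hi := 1100618162957) (en := 28029) (ed := 20000) (n := 22) (j := 3) (t := 50) (el := 2383530121490043) (eh := 2383530121490044) (A := 433614314040) (B := 433614314041) (a := 30)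
    (by decide +kernel) (by norm_num) (by norm_num)

theorem stNz0_8 : ((433033053424 : ℤ) : ℝ) / 2 ^ 30 ≤ aStrip Gz (-(((28029 : ℕ) : ℝ) / ((20000 : ℕ) : ℝ))) 8 0 ∧
    aStrip Gz (-(((28029 : ℕ) : ℝ) / ((20000 : ℕ) : ℝ))) 8 0 ≤ ((433033053426 : ℤ) : ℝ) / 2 ^ 30 :=
  strip_numMz (fun k hk => stMom0 k hk) (fun k hk => stMomz0 k hk) stTau0 (dim := 4)
    (by norm_num) (Or.inl ⟨rfl, rfl, rfl⟩)
    (u := 64) (w := 16) (y := 64) (s := 40) (lo := 1099142782715) (hi := 1099142782717) (en := 28029) (ed := 20000) (n := 22) (j := 3) (t := 50) (el := 2383530121490043) (eh := 2383530121490044) (A := 433033053424) (B := 433033053426) (a := 30)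
    (by decide +kernel) (by norm_num) (by norm_num)

end Hald
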