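import Crest.Agent.Hald.StripEncl
import Crest.Agent.Hald.St1

/-! # Row 347, M8: numbers of the strip with 1 spins 1 (generated) -/

set_option autoImplicit false
set_option maxRecDepth 100000

namespace Hald

theorem stTau1 : ([1, 576, 55200, 2104960, 42625440, 530449920, 4428453120, 26278732800, 115407434880, 386200043520, 1006152744960, 2073284444160, 3417914572800, 4543197216768, 4891749384192, 4273252335616, 3024015261696, 1724928491520, 785800757248, 281681068032, 77642858496, 15871246336, 2264924160, 201326592, 8388608] : List ℕ) = chebL 24 := by decide +kernel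

theorem stN1_4 : ((12426392495 : ℤ) : ℝ) / 2 ^ 30 ≤ aStrip G1 (-(((28029 : ℕ) : ℝ) / ((20000 : ℕ) : ℝ))) 4 1 ∧
    aStrip G1 (-(((28029 : ℕ) : ℝ) / ((20000 : ℕ) : ℝ))) 4 1 ≤ ((12426392496 : ℤ) : ℝ) / 2 ^ 30 :=
  strip_numM (fun k hk => stMom1 k hk) stTau1 (dim := 12) (by norm_num) (Or.inr ⟨by norm_num, rfl, rfl⟩)
    (u := 32) (w := 16) (y := 97) (s := 40) (lo := 1024637779598) (hi := 1024637779599) (en := 28029) (ed := 20000) (n := 22) (j := 2) (t := 50) (el := 2113578818242406) (eh := 2113578818242407) (A := 12426392495) (B := 12426392496) (a := 30)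
    (by decide +kernel) (by norm_num) (by norm_num)

theorem stNz1_4 : ((11548188838 : ℤ) : ℝ) / 2 ^ 30 ≤ aStrip Gz (-(((28029 : ℕ) : ℝ) / ((20000 : ℕ) : ℝ))) 4 1 ∧
    aStrip Gz (-(((28029 : ℕ) : ℝ) / ((20000 : ℕ) : ℝ))) 4 1 ≤ ((11548188839 : ℤ) : ℝ) / 2 ^ 30 :=
  strip_numMz (fun k hk => stMom1 k hk) (fun k hk => stMomz1 k hk) stTau1 (dim := 12)
    (by norm_num) (Or.inr ⟨by norm_num, rfl, rfl⟩)
    (u := 32) (w := 16) (y := 97) (s := 40) (lo := 952224112824) (hi := 952224112826) (en := 28029) (ed := 20000) (n := 22) (j := 2) (t := 50) (el := 2113578818242406) (eh := 2113578818242407) (A := 11548188838) (B := 11548188839) (a := 30)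
    (by decide +kernel) (by norm_num) (by norm_num)

theorem stN1_6 : ((39247066228 : ℤ) : ℝ) / 2 ^ 30 ≤ aStrip G1 (-(((28029 : ℕ) : ℝ) / ((20000 : ℕ) : ℝ))) 6 1 ∧
    aStrip G1 (-(((28029 : ℕ) : ℝ) / ((20000 : ℕ) : ℝ))) 6 1 ≤ ((39247066234 : ℤ) : ℝ) / 2 ^ 30 :=
  strip_numM (fun k hk => stMom1 k hk) stTau1 (dim := 12) (by norm_num) (Or.inr ⟨by norm_num, rfl, rfl⟩)
    (u := 48) (w := 16) (y := 145) (s := 40) (lo := 977549080924) (hi := 977549081058) (en := 28029) (ed := 20000) (n := 22) (j := 2) (t := 50) (el := 2850965284029250) (eh := 2850965284029251) (A := 39247066228) (B := 39247066234) (a := 30)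
    (by decide +kernel) (by norm_num) (by norm_num)

theorem stNz1_6 : ((38859850864 : ℤ) : ℝ) / 2 ^ 30 ≤ aStrip Gz (-(((28029 : ℕ) : ℝ) / ((20000 : ℕ) : ℝ))) 6 1 ∧
    aStrip Gz (-(((28029 : ℕ) : ℝ) / ((20000 : ℕ) : ℝ))) 6 1 ≤ ((38859850871 : ℤ) : ℝ) / 2 ^ 30 :=
  strip_numMz (fun k hk => stMom1 k hk) (fun k hk => stMomz1 k hk) stTau1 (dim := 12)
    (by norm_num) (Or.inr ⟨by norm_num, rfl, rfl⟩)
    (u := 48) (w := 16) (y := 145) (s := 40) (lo := 967904486834) (hi := 967904486968) (en := 28029) (ed := 20000) (n := 22) (j := 2) (t := 50) (el := 2850965284029250) (eh := 2850965284029251) (A := 38859850864) (B := 38859850871) (a := 30)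
    (by decide +kernel) (by norm_num) (by norm_num)

theorem stN1_8 : ((129095932735 : ℤ) : ℝ) / 2 ^ 30 ≤ aStrip G1 (-(((28029 : ℕ) : ℝ) / ((20000 : ℕ) : ℝ))) 8 1 ∧
    aStrip G1 (-(((28029 : ℕ) : ℝ) / ((20000 : ℕ) : ℝ))) 8 1 ≤ ((129095934353 : ℤ) : ℝ) / 2 ^ 30 :=
  strip_numM (fun k hk => stMom1 k hk) stTau1 (dim := 12) (by norm_num) (Or.inr ⟨by norm_num, rfl, rfl⟩)
    (u := 64) (w := 16) (y := 193) (s := 40) (lo := 971292441165) (hi := 971292453332) (en := 28029) (ed := 20000) (n := 22) (j := 3) (t := 50) (el := 2080810815889750) (eh := 2080810815889751) (A := 129095932735) (B := 129095934353) (a := 30)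
    (by decide +kernel) (by norm_num) (by norm_num)

theorem stNz1_8 : ((128922821471 : ℤ) : ℝ) / 2 ^ 30 ≤ aStrip Gz (-(((28029 : ℕ) : ℝ) / ((20000 : ℕ) : ℝ))) 8 1 ∧
    aStrip Gz (-(((28029 : ℕ) : ℝ) / ((20000 : ℕ) : ℝ))) 8 1 ≤ ((128922823089 : ℤ) : ℝ) / 2 ^ 30 :=
  strip_numMz (fun k hk => stMom1 k hk) (fun k hk => stMomz1 k hk) stTau1 (dim := 12)
    (by norm_num) (Or.inr ⟨by norm_num, rfl, rfl⟩)
    (u := 64) (w := 16) (y := 193) (s := 40) (lo := 969989986016) (hi := 969989998184) (en := 28029) (ed := 20000) (n := 22) (j := 3) (t := 50) (el := 2080810815889750) (eh := 2080810815889751) (A := 128922821471) (B := 128922823089) (a := 30)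
    (by decide +kernel) (by norm_num) (by norm_num)

end Hald
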