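import Crest.Agent.Hald.StripEncl
import Crest.Agent.Hald.St2

/-! # Row 347, M8: numbers of the strip with 2 spins 1 (generated) -/

set_option autoImplicit false
set_option maxRecDepth 100000

namespace Hald

theorem stTau2 : ([1, 784, 102312, 5320224, 147256200, 2513172480, 28901483520, 237563842560, 1455078535680, 6847428403200, 25335485091840, 75019358453760, 180209545850880, 354874182598656, 577374662164480, 780451267477504, 879581166370816, 827841097760768, 650446576812032, 425612269322240, 230812807593984, 102940903735296, 37324238880768, 10818619965440, 2445698662400, 415269650432, 49794777088, 3758096384, 134217728] : List ℕ) = chebL 28 := by decide +kernel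

theorem stN2_4 : ((13681948170 : ℤ) : ℝ) / 2 ^ 30 ≤ aStrip G1 (-(((28029 : ℕ) : ℝ) / ((20000 : ℕ) : ℝ))) 4 2 ∧
    aStrip G1 (-(((28029 : ℕ) : ℝ) / ((20000 : ℕ) : ℝ))) 4 2 ≤ ((13681948171 : ℤ) : ℝ) / 2 ^ 30 :=
  strip_numM (fun k hk => stMom2 k hk) stTau2 (dim := 36) (by norm_num) (Or.inr ⟨by norm_num, rfl, rfl⟩)
    (u := 32) (w := 16) (y := 174) (s := 40) (lo := 1106712422216) (hi := 1106712422228) (en := 28029) (ed := 20000) (n := 22) (j := 2) (t := 50) (el := 2123748384002234) (eh := 2123748384002235) (A := 13681948170) (B := 13681948171) (a := 30)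
    (by decide +kernel) (by norm_num) (by norm_num)

theorem stNz2_4 : ((11952412227 : ℤ) : ℝ) / 2 ^ 30 ≤ aStrip Gz (-(((28029 : ℕ) : ℝ) / ((20000 : ℕ) : ℝ))) 4 2 ∧
    aStrip Gz (-(((28029 : ℕ) : ℝ) / ((20000 : ℕ) : ℝ))) 4 2 ≤ ((11952412228 : ℤ) : ℝ) / 2 ^ 30 :=
  strip_numMz (fun k hk => stMom2 k hk) (fun k hk => stMomz2 k hk) stTau2 (dim := 36)
    (by norm_num) (Or.inr ⟨by norm_num, rfl, rfl⟩)
    (u := 32) (w := 16) (y := 174) (s := 40) (lo := 966812834183) (hi := 966812834195) (en := 28029) (ed := 20000) (n := 22) (j := 2) (t := 50) (el := 2123748384002234) (eh := 2123748384002235) (A := 11952412227) (B := 11952412228) (a := 30)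
    (by decide +kernel) (by norm_num) (by norm_num)

theorem stN2_6 : ((42858430161 : ℤ) : ℝ) / 2 ^ 30 ≤ aStrip G1 (-(((28029 : ℕ) : ℝ) / ((20000 : ℕ) : ℝ))) 6 2 ∧
    aStrip G1 (-(((28029 : ℕ) : ℝ) / ((20000 : ℕ) : ℝ))) 6 2 ≤ ((42858430824 : ℤ) : ℝ) / 2 ^ 30 :=
  strip_numM (fun k hk => stMom2 k hk) stTau2 (dim := 36) (by norm_num) (Or.inr ⟨by norm_num, rfl, rfl⟩)
    (u := 48) (w := 16) (y := 261) (s := 40) (lo := 974353493859) (hi := 974353508915) (en := 28029) (ed := 20000) (n := 22) (j := 2) (t := 50) (el := 2916786898184774) (eh := 2916786898184775) (A := 42858430161) (B := 42858430824) (a := 30)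
    (by decide +kernel) (by norm_num) (by norm_num)

theorem stNz2_6 : ((41790160697 : ℤ) : ℝ) / 2 ^ 30 ≤ aStrip Gz (-(((28029 : ℕ) : ℝ) / ((20000 : ℕ) : ℝ))) 6 2 ∧
    aStrip Gz (-(((28029 : ℕ) : ℝ) / ((20000 : ℕ) : ℝ))) 6 2 ≤ ((41790161361 : ℤ) : ℝ) / 2 ^ 30 :=
  strip_numMz (fun k hk => stMom2 k hk) (fun k hk => stMomz2 k hk) stTau2 (dim := 36)
    (by norm_num) (Or.inr ⟨by norm_num, rfl, rfl⟩)
    (u := 48) (w := 16) (y := 261) (s := 40) (lo := 950067208061) (hi := 950067223118) (en := 28029) (ed := 20000) (n := 22) (j := 2) (t := 50) (el := 2916786898184774) (eh := 2916786898184775) (A := 41790160697) (B := 41790161361) (a := 30)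
    (by decide +kernel) (by norm_num) (by norm_num)

theorem stN2_8 : ((143332983523 : ℤ) : ℝ) / 2 ^ 30 ≤ aStrip G1 (-(((28029 : ℕ) : ℝ) / ((20000 : ℕ) : ℝ))) 8 2 ∧
    aStrip G1 (-(((28029 : ℕ) : ℝ) / ((20000 : ℕ) : ℝ))) 8 2 ≤ ((143333135862 : ℤ) : ℝ) / 2 ^ 30 :=
  strip_numM (fun k hk => stMom2 k hk) stTau2 (dim := 36) (by norm_num) (Or.inr ⟨by norm_num, rfl, rfl⟩)
    (u := 64) (w := 16) (y := 347) (s := 40) (lo := 1037783310388) (hi := 1037784413372) (en := 28029) (ed := 20000) (n := 22) (j := 3) (t := 50) (el := 2090822717146193) (eh := 2090822717146194) (A := 143332983523) (B := 143333135862) (a := 30)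
    (by decide +kernel) (by norm_num) (by norm_num)

theorem stNz2_8 : ((142662803964 : ℤ) : ℝ) / 2 ^ 30 ≤ aStrip Gz (-(((28029 : ℕ) : ℝ) / ((20000 : ℕ) : ℝ))) 8 2 ∧
    aStrip Gz (-(((28029 : ℕ) : ℝ) / ((20000 : ℕ) : ℝ))) 8 2 ≤ ((142662956304 : ℤ) : ℝ) / 2 ^ 30 :=
  strip_numMz (fun k hk => stMom2 k hk) (fun k hk => stMomz2 k hk) stTau2 (dim := 36)
    (by norm_num) (Or.inr ⟨by norm_num, rfl, rfl⟩)
    (u := 64) (w := 16) (y := 347) (s := 40) (lo := 1032930964866) (hi := 1032932067850) (en := 28029) (ed := 20000) (n := 22) (j := 3) (t := 50) (el := 2090822717146193) (eh := 2090822717146194) (A := 142662803964) (B := 142662956304) (a := 30)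
    (by decide +kernel) (by norm_num) (by norm_num)

end Hald
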