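import Crest.Agent.Hald.StripEncl
import Crest.Agent.Hald.St3

/-! # Row 347, M8: numbers of the strip with 3 spins 1 (generated) -/

set_option autoImplicit false
set_option maxRecDepth 100000

namespace Hald

theorem stTau3 : ([1, 1156, 222530, 17090304, 700092096, 17735666432, 303924829312, 3740613283840, 34507157543424, 246286379329536, 1393462409364480, 6370113871380480, 23887927017676800, 74383329667350528, 194223138575859712, 428630374788104192, 804546126870413312, 1290715711556812800, 1776270669713899520, 2102215074255994880, 2142642287222456320, 1881344447317278720, 1421946384600268800, 923234754059304960, 513181020208496640, 242975503445655552, 97300145044979712, 32637365214248960, 9049451263950848, 2036537126551552, 362434573369344, 49065706389504, 4745938862080, 292057776128, 8589934592] : List ℕ) = chebL 34 := by decide +kernel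

theorem stN3_4 : ((13846269733 : ℤ) : ℝ) / 2 ^ 30 ≤ aStrip G1 (-(((28029 : ℕ) : ℝ) / ((20000 : ℕ) : ℝ))) 4 3 ∧
    aStrip G1 (-(((28029 : ℕ) : ℝ) / ((20000 : ℕ) : ℝ))) 4 3 ≤ ((13846269734 : ℤ) : ℝ) / 2 ^ 30 :=
  strip_numM (fun k hk => stMom3 k hk) stTau3 (dim := 108) (by norm_num) (Or.inr ⟨by norm_num, rfl, rfl⟩)
    (u := 32) (w := 16) (y := 251) (s := 40) (lo := 1098705193456) (hi := 1098705193461) (en := 28029) (ed := 20000) (n := 22) (j := 2) (t := 50) (el := 2133966881018778) (eh := 2133966881018779) (A := 13846269733) (B := 13846269734) (a := 30)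
    (by decide +kernel) (by norm_num) (by norm_num)

theorem stNz3_4 : ((11644047712 : ℤ) : ℝ) / 2 ^ 30 ≤ aStrip Gz (-(((28029 : ℕ) : ℝ) / ((20000 : ℕ) : ℝ))) 4 3 ∧
    aStrip Gz (-(((28029 : ℕ) : ℝ) / ((20000 : ℕ) : ℝ))) 4 3 ≤ ((11644047713 : ℤ) : ℝ) / 2 ^ 30 :=
  strip_numMz (fun k hk => stMom3 k hk) (fun k hk => stMomz3 k hk) stTau3 (dim := 108)
    (by norm_num) (Or.inr ⟨by norm_num, rfl, rfl⟩)
    (u := 32) (w := 16) (y := 251) (s := 40) (lo := 923958289188) (hi := 923958289193) (en := 28029) (ed := 20000) (n := 22) (j := 2) (t := 50) (el := 2133966881018778) (eh := 2133966881018779) (A := 11644047712) (B := 11644047713) (a := 30)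
    (by decide +kernel) (by norm_num) (by norm_num)

theorem stN3_6 : ((42181087660 : ℤ) : ℝ) / 2 ^ 30 ≤ aStrip G1 (-(((28029 : ℕ) : ℝ) / ((20000 : ℕ) : ℝ))) 6 3 ∧
    aStrip G1 (-(((28029 : ℕ) : ℝ) / ((20000 : ℕ) : ℝ))) 6 3 ≤ ((42181088193 : ℤ) : ℝ) / 2 ^ 30 :=
  strip_numM (fun k hk => stMom3 k hk) stTau3 (dim := 108) (by norm_num) (Or.inr ⟨by norm_num, rfl, rfl⟩)
    (u := 48) (w := 16) (y := 376) (s := 40) (lo := 991822109867) (hi := 991822122376) (en := 28029) (ed := 20000) (n := 22) (j := 2) (t := 50) (el := 2892316196145215) (eh := 2892316196145216) (A := 42181087660) (B := 42181088193) (a := 30)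
    (by decide +kernel) (by norm_num) (by norm_num)

theorem stNz3_6 : ((40710647626 : ℤ) : ℝ) / 2 ^ 30 ≤ aStrip Gz (-(((28029 : ℕ) : ℝ) / ((20000 : ℕ) : ℝ))) 6 3 ∧
    aStrip Gz (-(((28029 : ℕ) : ℝ) / ((20000 : ℕ) : ℝ))) 6 3 ≤ ((40710648159 : ℤ) : ℝ) / 2 ^ 30 :=
  strip_numMz (fun k hk => stMom3 k hk) (fun k hk => stMomz3 k hk) stTau3 (dim := 108)
    (by norm_num) (Or.inr ⟨by norm_num, rfl, rfl⟩)
    (u := 48) (w := 16) (y := 376) (s := 40) (lo := 957247019057) (hi := 957247031566) (en := 28029) (ed := 20000) (n := 22) (j := 2) (t := 50) (el := 2892316196145215) (eh := 2892316196145216) (A := 40710647626) (B := 40710648159) (a := 30)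
    (by decide +kernel) (by norm_num) (by norm_num)

theorem stN3_8 : ((139176751517 : ℤ) : ℝ) / 2 ^ 30 ≤ aStrip G1 (-(((28029 : ℕ) : ℝ) / ((20000 : ℕ) : ℝ))) 8 3 ∧
    aStrip G1 (-(((28029 : ℕ) : ℝ) / ((20000 : ℕ) : ℝ))) 8 3 ≤ ((139176995023 : ℤ) : ℝ) / 2 ^ 30 :=
  strip_numM (fun k hk => stMom3 k hk) stTau3 (dim := 108) (by norm_num) (Or.inr ⟨by norm_num, rfl, rfl⟩)
    (u := 64) (w := 16) (y := 502) (s := 40) (lo := 855782730651) (hi := 855784227937) (en := 28029) (ed := 20000) (n := 22) (j := 3) (t := 50) (el := 2133966881018778) (eh := 2133966881018779) (A := 139176751517) (B := 139176995023) (a := 30)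
    (by decide +kernel) (by norm_num) (by norm_num)

theorem stNz3_8 : ((138159953786 : ℤ) : ℝ) / 2 ^ 30 ≤ aStrip Gz (-(((28029 : ℕ) : ℝ) / ((20000 : ℕ) : ℝ))) 8 3 ∧
    aStrip Gz (-(((28029 : ℕ) : ℝ) / ((20000 : ℕ) : ℝ))) 8 3 ≤ ((138160197292 : ℤ) : ℝ) / 2 ^ 30 :=
  strip_numMz (fun k hk => stMom3 k hk) (fun k hk => stMomz3 k hk) stTau3 (dim := 108)
    (by norm_num) (Or.inr ⟨by norm_num, rfl, rfl⟩)
    (u := 64) (w := 16) (y := 502) (s := 40) (lo := 849530551826) (hi := 849532049112) (en := 28029) (ed := 20000) (n := 22) (j := 3) (t := 50) (el := 2133966881018778) (eh := 2133966881018779) (A := 138159953786) (B := 138160197292) (a := 30)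
    (by decide +kernel) (by norm_num) (by norm_num)

end Hald
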