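import Crest.Agent.Hald.StripEncl
import Crest.Agent.Hald.St4

/-! # Row 347, M8: numbers of the strip with 4 spins 1 (generated) -/

set_option autoImplicit false
set_option maxRecDepth 100000

namespace Hald

theorem stTau4 : ([1, 1600, 426400, 45368960, 2577929120, 90743105024, 2165460460800, 37217364403200, 481034434911360, 4829208444600320, 38608250670252032, 250702926430208000, 1343440681848832000, 6018614254682767360, 22784753964156190720, 73539757622242050048, 203865255505207296000, 488404462386806784000, 1016346428871593164800, 1844748283414157721600, 2930311696346335150080, 4084058113374683136000, 5003618766808940544000, 5395206322472248934400, 5122576215751576780800, 4282055546881318060032, 3148570255059792691200, 2033039074545945804800, 1149855216837349867520, 567623627912448573440, 243404708240422862848, 90102218809252249600, 28559185426146918400, 7669040002545745920, 1720315821466583040, 316281666555346944, 46402826665984000, 5222680231936000, 423311976693760,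 21990232555520, 549755813888] : List ℕ) = chebL 40 := by decide +kernel

theorem stN4_4 : ((14376782281 : ℤ) : ℝ) / 2 ^ 30 ≤ aStrip G1 (-(((28029 : ℕ) : ℝ) / ((20000 : ℕ) : ℝ))) 4 4 ∧
    aStrip G1 (-(((28029 : ℕ) : ℝ) / ((20000 : ℕ) : ℝ))) 4 4 ≤ ((14376782282 : ℤ) : ℝ) / 2 ^ 30 :=
  strip_numM (fun k hk => stMom4 k hk) stTau4 (dim := 324) (by norm_num) (Or.inr ⟨by norm_num, rfl, rfl⟩)
    (u := 32) (w := 16) (y := 329) (s := 40) (lo := 987608505171) (hi := 987608505173) (en := 28029) (ed := 20000) (n := 22) (j := 2) (t := 50) (el := 2212299855653571) (eh := 2212299855653572) (A := 14376782281) (B := 14376782282) (a := 30)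
    (by decide +kernel) (by norm_num) (by norm_num)

theorem stNz4_4 : ((11500151084 : ℤ) : ℝ) / 2 ^ 30 ≤ aStrip Gz (-(((28029 : ℕ) : ℝ) / ((20000 : ℕ) : ℝ))) 4 4 ∧
    aStrip Gz (-(((28029 : ℕ) : ℝ) / ((20000 : ℕ) : ℝ))) 4 4 ≤ ((11500151085 : ℤ) : ℝ) / 2 ^ 30 :=
  strip_numMz (fun k hk => stMom4 k hk) (fun k hk => stMomz4 k hk) stTau4 (dim := 324)
    (by norm_num) (Or.inr ⟨by norm_num, rfl, rfl⟩)
    (u := 32) (w := 16) (y := 329) (s := 40) (lo := 789999236254) (hi := 789999236256) (en := 28029) (ed := 20000) (n := 22) (j := 2) (t := 50) (el := 2212299855653571) (eh := 2212299855653572) (A := 11500151084) (B := 11500151085) (a := 30)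
    (by decide +kernel) (by norm_num) (by norm_num)

theorem stN4_6 : ((42789186626 : ℤ) : ℝ) / 2 ^ 30 ≤ aStrip G1 (-(((28029 : ℕ) : ℝ) / ((20000 : ℕ) : ℝ))) 6 4 ∧
    aStrip G1 (-(((28029 : ℕ) : ℝ) / ((20000 : ℕ) : ℝ))) 6 4 ≤ ((42789186988 : ℤ) : ℝ) / 2 ^ 30 :=
  strip_numM (fun k hk => stMom4 k hk) stTau4 (dim := 324) (by norm_num) (Or.inr ⟨by norm_num, rfl, rfl⟩)
    (u := 48) (w := 16) (y := 493) (s := 40) (lo := 810423724330) (hi := 810423731179) (en := 28029) (ed := 20000) (n := 22) (j := 2) (t := 50) (el := 3053024177821947) (eh := 3053024177821948) (A := 42789186626) (B := 42789186988) (a := 30)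
    (by decide +kernel) (by norm_num) (by norm_num)

theorem stNz4_6 : ((40644125233 : ℤ) : ℝ) / 2 ^ 30 ≤ aStrip Gz (-(((28029 : ℕ) : ℝ) / ((20000 : ℕ) : ℝ))) 6 4 ∧
    aStrip Gz (-(((28029 : ℕ) : ℝ) / ((20000 : ℕ) : ℝ))) 6 4 ≤ ((40644125595 : ℤ) : ℝ) / 2 ^ 30 :=
  strip_numMz (fun k hk => stMom4 k hk) (fun k hk => stMomz4 k hk) stTau4 (dim := 324)
    (by norm_num) (Or.inr ⟨by norm_num, rfl, rfl⟩)
    (u := 48) (w := 16) (y := 493) (s := 40) (lo := 769796435519) (hi := 769796442367) (en := 28029) (ed := 20000) (n := 22) (j := 2) (t := 50) (el := 3053024177821947) (eh := 3053024177821948) (A := 40644125233) (B := 40644125595) (a := 30)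
    (by decide +kernel) (by norm_num) (by norm_num)

theorem stN4_8 : ((140128780116 : ℤ) : ℝ) / 2 ^ 30 ≤ aStrip G1 (-(((28029 : ℕ) : ℝ) / ((20000 : ℕ) : ℝ))) 8 4 ∧
    aStrip G1 (-(((28029 : ℕ) : ℝ) / ((20000 : ℕ) : ℝ))) 8 4 ≤ ((140129023153 : ℤ) : ℝ) / 2 ^ 30 :=
  strip_numM (fun k hk => stMom4 k hk) stTau4 (dim := 324) (by norm_num) (Or.inr ⟨by norm_num, rfl, rfl⟩)
    (u := 64) (w := 16) (y := 657) (s := 40) (lo := 731746149397) (hi := 731747418522) (en := 28029) (ed := 20000) (n := 22) (j := 3) (t := 50) (el := 2178001325478520) (eh := 2178001325478521) (A := 140128780116) (B := 140129023153) (a := 30)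
    (by decide +kernel) (by norm_num) (by norm_num)

theorem stNz4_8 : ((138453013621 : ℤ) : ℝ) / 2 ^ 30 ≤ aStrip Gz (-(((28029 : ℕ) : ℝ) / ((20000 : ℕ) : ℝ))) 8 4 ∧
    aStrip Gz (-(((28029 : ℕ) : ℝ) / ((20000 : ℕ) : ℝ))) 8 4 ≤ ((138453256659 : ℤ) : ℝ) / 2 ^ 30 :=
  strip_numMz (fun k hk => stMom4 k hk) (fun k hk => stMomz4 k hk) stTau4 (dim := 324)
    (by norm_num) (Or.inr ⟨by norm_num, rfl, rfl⟩)
    (u := 64) (w := 16) (y := 657) (s := 40) (lo := 722995372585) (hi := 722996641709) (en := 28029) (ed := 20000) (n := 22) (j := 3) (t := 50) (el := 2178001325478520) (eh := 2178001325478521) (A := 138453013621) (B := 138453256659) (a := 30)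
    (by decide +kernel) (by norm_num) (by norm_num)

end Hald
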