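import Crest.Agent.Hald.StripEncl
import Crest.Agent.Hald.St5

/-! # Row 347, M8: numbers of the strip with 5 spins 1 (generated) -/

set_option autoImplicit false
set_option maxRecDepth 100000

namespace Hald

theorem stTau5 : ([1, 1936, 624360, 80417568, 5534451912, 236136614912, 6837228349952, 142755317196800, 2244827362919680, 27466123028664320, 268156095885117440, 2131318580281712640, 14015736315983001600, 77280613779204734976, 361256202507552292864, 1445024810030209171456, 4984752923309854621696, 14927602337184591380480, 39025017538639717466112, 89485530970536592539648, 180691937536660427243520, 322349379856341946859520, 509421060132379715174400, 714666066968324006215680, 891431876085489252433920, 989671307327563578212352, 978475930547840008323072, 861551133815708183429120, 675254687347766089220096, 470594918224214479601664, 291130754494641161109504, 159498393260945659920384, 77138359836022826598400, 32797288657553761239040, 12194602060117662760960, 3938629236808189214720, 1095604611647348408320,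 259602721752796364800, 51647278327661592576, 8461691953782718464, 1111266506588553216, 112431661009862656, 8224346975764480, 387028092977152, 8796093022208] : List ℕ) = chebL 44 := by decide +kernel

theorem stN5_4 : ((14821911443 : ℤ) : ℝ) / 2 ^ 30 ≤ aStrip G1 (-(((28029 : ℕ) : ℝ) / ((20000 : ℕ) : ℝ))) 4 5 ∧
    aStrip G1 (-(((28029 : ℕ) : ℝ) / ((20000 : ℕ) : ℝ))) 4 5 ≤ ((14821911444 : ℤ) : ℝ) / 2 ^ 30 :=
  strip_numM (fun k hk => stMom5 k hk) stTau5 (dim := 972) (by norm_num) (Or.inr ⟨by norm_num, rfl, rfl⟩)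
    (u := 32) (w := 16) (y := 407) (s := 40) (lo := 881458916556) (hi := 881458916560) (en := 28029) (ed := 20000) (n := 22) (j := 2) (t := 50) (el := 2293508252100069) (eh := 2293508252100070) (A := 14821911443) (B := 14821911444) (a := 30)
    (by decide +kernel) (by norm_num) (by norm_num)

theorem stNz5_4 : ((11332311428 : ℤ) : ℝ) / 2 ^ 30 ≤ aStrip Gz (-(((28029 : ℕ) : ℝ) / ((20000 : ℕ) : ℝ))) 4 5 ∧
    aStrip Gz (-(((28029 : ℕ) : ℝ) / ((20000 : ℕ) : ℝ))) 4 5 ≤ ((11332311430 : ℤ) : ℝ) / 2 ^ 30 :=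
  strip_numMz (fun k hk => stMom5 k hk) (fun k hk => stMomz5 k hk) stTau5 (dim := 972)
    (by norm_num) (Or.inr ⟨by norm_num, rfl, rfl⟩)
    (u := 32) (w := 16) (y := 407) (s := 40) (lo := 673932440640) (hi := 673932440643) (en := 28029) (ed := 20000) (n := 22) (j := 2) (t := 50) (el := 2293508252100069) (eh := 2293508252100070) (A := 11332311428) (B := 11332311430) (a := 30)
    (by decide +kernel) (by norm_num) (by norm_num)

theorem stN5_6 : ((43120600287 : ℤ) : ℝ) / 2 ^ 30 ≤ aStrip G1 (-(((28029 : ℕ) : ℝ) / ((20000 : ℕ) : ℝ))) 6 5 ∧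
    aStrip G1 (-(((28029 : ℕ) : ℝ) / ((20000 : ℕ) : ℝ))) 6 5 ≤ ((43120601761 : ℤ) : ℝ) / 2 ^ 30 :=
  strip_numM (fun k hk => stMom5 k hk) stTau5 (dim := 972) (by norm_num) (Or.inr ⟨by norm_num, rfl, rfl⟩)
    (u := 48) (w := 16) (y := 610) (s := 40) (lo := 657847178891) (hi := 657847201365) (en := 28029) (ed := 20000) (n := 22) (j := 3) (t := 50) (el := 1904834509376223) (eh := 1904834509376224) (A := 43120600287) (B := 43120601761) (a := 30)
    (by decide +kernel) (by norm_num) (by norm_num)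

theorem stNz5_6 : ((40377340337 : ℤ) : ℝ) / 2 ^ 30 ≤ aStrip Gz (-(((28029 : ℕ) : ℝ) / ((20000 : ℕ) : ℝ))) 6 5 ∧
    aStrip Gz (-(((28029 : ℕ) : ℝ) / ((20000 : ℕ) : ℝ))) 6 5 ≤ ((40377341811 : ℤ) : ℝ) / 2 ^ 30 :=
  strip_numMz (fun k hk => stMom5 k hk) (fun k hk => stMomz5 k hk) stTau5 (dim := 972)
    (by norm_num) (Or.inr ⟨by norm_num, rfl, rfl⟩)
    (u := 48) (w := 16) (y := 610) (s := 40) (lo := 615996049568) (hi := 615996072042) (en := 28029) (ed := 20000) (n := 22) (j := 3) (t := 50) (el := 1904834509376223) (eh := 1904834509376224) (A := 40377340337) (B := 40377341811) (a := 30)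
    (by decide +kernel) (by norm_num) (by norm_num)

theorem stN5_8 : ((140062646954 : ℤ) : ℝ) / 2 ^ 30 ≤ aStrip G1 (-(((28029 : ℕ) : ℝ) / ((20000 : ℕ) : ℝ))) 8 5 ∧
    aStrip G1 (-(((28029 : ℕ) : ℝ) / ((20000 : ℕ) : ℝ))) 8 5 ≤ ((140063808155 : ℤ) : ℝ) / 2 ^ 30 :=
  strip_numM (fun k hk => stMom5 k hk) stTau5 (dim := 972) (by norm_num) (Or.inr ⟨by norm_num, rfl, rfl⟩)
    (u := 64) (w := 16) (y := 813) (s := 40) (lo := 548156925504) (hi := 548161470044) (en := 28029) (ed := 20000) (n := 22) (j := 3) (t := 50) (el := 2257950702435020) (eh := 2257950702435021) (A := 140062646954) (B := 140063808155) (a := 30)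
    (by decide +kernel) (by norm_num) (by norm_num)

theorem stNz5_8 : ((137767166801 : ℤ) : ℝ) / 2 ^ 30 ≤ aStrip Gz (-(((28029 : ℕ) : ℝ) / ((20000 : ℕ) : ℝ))) 8 5 ∧
    aStrip Gz (-(((28029 : ℕ) : ℝ) / ((20000 : ℕ) : ℝ))) 8 5 ≤ ((137768328003 : ℤ) : ℝ) / 2 ^ 30 :=
  strip_numMz (fun k hk => stMom5 k hk) (fun k hk => stMomz5 k hk) stTau5 (dim := 972)
    (by norm_num) (Or.inr ⟨by norm_num, rfl, rfl⟩)
    (u := 64) (w := 16) (y := 813) (s := 40) (lo := 539173207358) (hi := 539177751897) (en := 28029) (ed := 20000) (n := 22) (j := 3) (t := 50) (el := 2257950702435020) (eh := 2257950702435021) (A := 137767166801) (B := 137768328003) (a := 30)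
    (by decide +kernel) (by norm_num) (by norm_num)

end Hald
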