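import Crest.Agent.Hald.StripEncl
import Crest.Agent.Hald.St6

/-! # Row 347, M8: numbers of the strip with 6 spins 1 (generated) -/

set_option autoImplicit false
set_option maxRecDepth 100000

namespace Hald

theorem stTau6 : ([1, 2500, 1041250, 173264000, 15414308000, 850869801600, 31907617560000, 863960106240000, 17646385169952000, 280958132509824000, 3577040644954022400, 37164058648872960000, 320338027266915840000, 2322204283818011443200, 14320259750211070566400, 75847996470083463413760, 347891516067419111424000, 1391566064269676445696000, 4883734235079769240371200, 15116651060502955714150400, 41454508485148490093035520, 101108557280849975836672000, 220066088204302431551488000, 428650467458815171022028800, 748998290213940338727321600, 1176385886017649968743972864, 1663441580907310476165120000, 2120277738347263667732480000, 2438319399099353217892352000, 2531249902513303159046144000, 2372510501847214655851724800, 2007412375968029322772480000, 1532444269154165241937920000, 1054493119473915103543296000,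 653156185942798161149952000, 363495616524687672292147200, 181321170214779648737280000, 80825875208661494661120000, 32075110477542508933939200, 11279159728366596548198400, 3494397903186993044520960, 946991301676691881984000, 222485908225246887936000, 44801539932635214643200, 7619070662524954214400, 1072947778692652728320, 121751121566892032000, 10696049115004928000, 682576818523340800, 28147497671065600, 562949953421312] : List ℕ) = chebL 50 := by decide +kernel

theorem stN6_4 : ((15327510337 : ℤ) : ℝ) / 2 ^ 30 ≤ aStrip G1 (-(((28029 : ℕ) : ℝ) / ((20000 : ℕ) : ℝ))) 4 6 ∧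
    aStrip G1 (-(((28029 : ℕ) : ℝ) / ((20000 : ℕ) : ℝ))) 4 6 ≤ ((15327510338 : ℤ) : ℝ) / 2 ^ 30 :=
  strip_numM (fun k hk => stMom6 k hk) stTau6 (dim := 2916) (by norm_num) (Or.inr ⟨by norm_num, rfl, rfl⟩)
    (u := 32) (w := 16) (y := 484) (s := 40) (lo := 894192503882) (hi := 894192503883) (en := 28029) (ed := 20000) (n := 22) (j := 2) (t := 50) (el := 2304543555249935) (eh := 2304543555249936) (A := 15327510337) (B := 15327510338) (a := 30)
    (by decide +kernel) (by norm_num) (by norm_num)

theorem stNz6_4 : ((11178929307 : ℤ) : ℝ) / 2 ^ 30 ≤ aStrip Gz (-(((28029 : ℕ) : ℝ) / ((20000 : ℕ) : ℝ))) 4 6 ∧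
    aStrip Gz (-(((28029 : ℕ) : ℝ) / ((20000 : ℕ) : ℝ))) 4 6 ≤ ((11178929308 : ℤ) : ℝ) / 2 ^ 30 :=
  strip_numMz (fun k hk => stMom6 k hk) (fun k hk => stMomz6 k hk) stTau6 (dim := 2916)
    (by norm_num) (Or.inr ⟨by norm_num, rfl, rfl⟩)
    (u := 32) (w := 16) (y := 484) (s := 40) (lo := 652168197447) (hi := 652168197448) (en := 28029) (ed := 20000) (n := 22) (j := 2) (t := 50) (el := 2304543555249935) (eh := 2304543555249936) (A := 11178929307) (B := 11178929308) (a := 30)
    (by decide +kernel) (by norm_num) (by norm_num)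

theorem stN6_6 : ((43629205903 : ℤ) : ℝ) / 2 ^ 30 ≤ aStrip G1 (-(((28029 : ℕ) : ℝ) / ((20000 : ℕ) : ℝ))) 6 6 ∧
    aStrip G1 (-(((28029 : ℕ) : ℝ) / ((20000 : ℕ) : ℝ))) 6 6 ≤ ((43629206446 : ℤ) : ℝ) / 2 ^ 30 :=
  strip_numM (fun k hk => stMom6 k hk) stTau6 (dim := 2916) (by norm_num) (Or.inr ⟨by norm_num, rfl, rfl⟩)
    (u := 48) (w := 16) (y := 726) (s := 40) (lo := 607528198778) (hi := 607528206319) (en := 28029) (ed := 20000) (n := 22) (j := 3) (t := 50) (el := 1926697954196350) (eh := 1926697954196351) (A := 43629205903) (B := 43629206446) (a := 30)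
    (by decide +kernel) (by norm_num) (by norm_num)

theorem stNz6_6 : ((40204477892 : ℤ) : ℝ) / 2 ^ 30 ≤ aStrip Gz (-(((28029 : ℕ) : ℝ) / ((20000 : ℕ) : ℝ))) 6 6 ∧
    aStrip Gz (-(((28029 : ℕ) : ℝ) / ((20000 : ℕ) : ℝ))) 6 6 ≤ ((40204478434 : ℤ) : ℝ) / 2 ^ 30 :=
  strip_numMz (fun k hk => stMom6 k hk) (fun k hk => stMomz6 k hk) stTau6 (dim := 2916)
    (by norm_num) (Or.inr ⟨by norm_num, rfl, rfl⟩)
    (u := 48) (w := 16) (y := 726) (s := 40) (lo := 559839527916) (hi := 559839535457) (en := 28029) (ed := 20000) (n := 22) (j := 3) (t := 50) (el := 1926697954196350) (eh := 1926697954196351) (A := 40204477892) (B := 40204478434) (a := 30)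
    (by decide +kernel) (by norm_num) (by norm_num)

theorem stN6_8 : ((140613429521 : ℤ) : ℝ) / 2 ^ 30 ≤ aStrip G1 (-(((28029 : ℕ) : ℝ) / ((20000 : ℕ) : ℝ))) 8 6 ∧
    aStrip G1 (-(((28029 : ℕ) : ℝ) / ((20000 : ℕ) : ℝ))) 8 6 ≤ ((140614210300 : ℤ) : ℝ) / 2 ^ 30 :=
  strip_numM (fun k hk => stMom6 k hk) stTau6 (dim := 2916) (by norm_num) (Or.inr ⟨by norm_num, rfl, rfl⟩)
    (u := 64) (w := 16) (y := 968) (s := 40) (lo := 467353670854) (hi := 467356265911) (en := 28029) (ed := 20000) (n := 22) (j := 3) (t := 50) (el := 2304543555249935) (eh := 2304543555249936) (A := 140613429521) (B := 140614210300) (a := 30)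
    (by decide +kernel) (by norm_num) (by norm_num)

theorem stNz6_8 : ((137561078166 : ℤ) : ℝ) / 2 ^ 30 ≤ aStrip Gz (-(((28029 : ℕ) : ℝ) / ((20000 : ℕ) : ℝ))) 8 6 ∧
    aStrip Gz (-(((28029 : ℕ) : ℝ) / ((20000 : ℕ) : ℝ))) 8 6 ≤ ((137561858945 : ℤ) : ℝ) / 2 ^ 30 :=
  strip_numMz (fun k hk => stMom6 k hk) (fun k hk => stMomz6 k hk) stTau6 (dim := 2916)
    (by norm_num) (Or.inr ⟨by norm_num, rfl, rfl⟩)
    (u := 64) (w := 16) (y := 968) (s := 40) (lo := 457208639791) (hi := 457211234847) (en := 28029) (ed := 20000) (n := 22) (j := 3) (t := 50) (el := 2304543555249935) (eh := 2304543555249936) (A := 137561078166) (B := 137561858945) (a := 30)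
    (by decide +kernel) (by norm_num) (by norm_num)

end Hald
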