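import Crest.Agent.Hald.NumInput
import Crest.Agent.Hald.StN0
import Crest.Agent.Hald.StN1
import Crest.Agent.Hald.StN2
import Crest.Agent.Hald.StN3
import Crest.Agent.Hald.StN4
import Crest.Agent.Hald.StN5
import Crest.Agent.Hald.StN6
import Crest.Agent.Hald.StN7

/-!
# Row 347: the strip fields of `NumInput` (helper24)
-/

set_option autoImplicit false

namespace Hald

theorem ehat_eqN : ehat = -(((28029 : ℕ) : ℝ) / ((20000 : ℕ) : ℝ)) := by
  unfold ehat; norm_num

theorem strip4_ok : Pc.InL (fun k => aStrip G1 ehat 4 k) TS4 := by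
  intro k hk
  have hk' : k < 8 := hk
  rw [ehat_eqN]
  interval_cases k
  · simp only [TS4, List.getElem_cons_zero, List.getElem_cons_succ]
    exact ⟨le_trans (by norm_num) stN0_4.1, le_trans stN0_4.2 (by norm_num)⟩
  · simp only [TS4, List.getElem_cons_zero, List.getElem_cons_succ]
    exact ⟨le_trans (by norm_num) stN1_4.1, le_trans stN1_4.2 (by norm_num)⟩
  · simp only [TS4, List.getElem_cons_zero, List.getElem_cons_succ]
    exact ⟨le_trans (by norm_num) stN2_4.1, le_trans stN2_4.2 (by norm_num)⟩
  · simp only [TS4, List.getElem_cons_zero, List.getElem_cons_succ]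
    exact ⟨le_trans (by norm_num) stN3_4.1, le_trans stN3_4.2 (by norm_num)⟩
  · simp only [TS4, List.getElem_cons_zero, List.getElem_cons_succ]
    exact ⟨le_trans (by norm_num) stN4_4.1, le_trans stN4_4.2 (by norm_num)⟩
  · simp only [TS4, List.getElem_cons_zero, List.getElem_cons_succ]
    exact ⟨le_trans (by norm_num) stN5_4.1, le_trans stN5_4.2 (by norm_num)⟩
  · simp only [TS4, List.getElem_cons_zero, List.getElem_cons_succ]
    exact ⟨le_trans (by norm_num) stN6_4.1, le_trans stN6_4.2 (by norm_num)⟩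
  · simp only [TS4, List.getElem_cons_zero, List.getElem_cons_succ]
    exact ⟨le_trans (by norm_num) stN7_4.1, le_trans stN7_4.2 (by norm_num)⟩

theorem strip6_ok : Pc.InL (fun k => aStrip G1 ehat 6 k) TS6 := by
  intro k hk
  have hk' : k < 8 := hk
  rw [ehat_eqN]
  interval_cases k
  · simp only [TS6, List.getElem_cons_zero, List.getElem_cons_succ]
    exact ⟨le_trans (by norm_num) stN0_6.1, le_trans stN0_6.2 (by norm_num)⟩
  · simp only [TS6, List.getElem_cons_zero, List.getElem_cons_succ]
    exact ⟨le_trans (by norm_num) stN1_6.1, le_trans stN1_6.2 (by norm_num)⟩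
  · simp only [TS6, List.getElem_cons_zero, List.getElem_cons_succ]
    exact ⟨le_trans (by norm_num) stN2_6.1, le_trans stN2_6.2 (by norm_num)⟩
  · simp only [TS6, List.getElem_cons_zero, List.getElem_cons_succ]
    exact ⟨le_trans (by norm_num) stN3_6.1, le_trans stN3_6.2 (by norm_num)⟩
  · simp only [TS6, List.getElem_cons_zero, List.getElem_cons_succ]
    exact ⟨le_trans (by norm_num) stN4_6.1, le_trans stN4_6.2 (by norm_num)⟩
  · simp only [TS6, List.getElem_cons_zero, List.getElem_cons_succ]
    exact ⟨le_trans (by norm_num) stN5_6.1, le_trans stN5_6.2 (by norm_num)⟩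
  · simp only [TS6, List.getElem_cons_zero, List.getElem_cons_succ]
    exact ⟨le_trans (by norm_num) stN6_6.1, le_trans stN6_6.2 (by norm_num)⟩
  · simp only [TS6, List.getElem_cons_zero, List.getElem_cons_succ]
    exact ⟨le_trans (by norm_num) stN7_6.1, le_trans stN7_6.2 (by norm_num)⟩

theorem strip8_ok : Pc.InL (fun k => aStrip G1 ehat 8 k) TS8 := by
  intro k hk
  have hk' : k < 8 := hk
  rw [ehat_eqN]
  interval_cases k
  · simp only [TS8, List.getElem_cons_zero, List.getElem_cons_succ]
    exact ⟨le_trans (by norm_num) stN0_8.1, le_trans stN0_8.2 (by norm_num)⟩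
  · simp only [TS8, List.getElem_cons_zero, List.getElem_cons_succ]
    exact ⟨le_trans (by norm_num) stN1_8.1, le_trans stN1_8.2 (by norm_num)⟩
  · simp only [TS8, List.getElem_cons_zero, List.getElem_cons_succ]
    exact ⟨le_trans (by norm_num) stN2_8.1, le_trans stN2_8.2 (by norm_num)⟩
  · simp only [TS8, List.getElem_cons_zero, List.getElem_cons_succ]
    exact ⟨le_trans (by norm_num) stN3_8.1, le_trans stN3_8.2 (by norm_num)⟩
  · simp only [TS8, List.getElem_cons_zero, List.getElem_cons_succ]
    exact ⟨le_trans (by norm_num) stN4_8.1, le_trans stN4_8.2 (by norm_num)⟩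
  · simp only [TS8, List.getElem_cons_zero, List.getElem_cons_succ]
    exact ⟨le_trans (by norm_num) stN5_8.1, le_trans stN5_8.2 (by norm_num)⟩
  · simp only [TS8, List.getElem_cons_zero, List.getElem_cons_succ]
    exact ⟨le_trans (by norm_num) stN6_8.1, le_trans stN6_8.2 (by norm_num)⟩
  · simp only [TS8, List.getElem_cons_zero, List.getElem_cons_succ]
    exact ⟨le_trans (by norm_num) stN7_8.1, le_trans stN7_8.2 (by norm_num)⟩

theorem stripz4_ok : Pc.InL (fun k => aStrip Gz ehat 4 k) TZ4 := by
  intro k hk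
  have hk' : k < 8 := hk
  rw [ehat_eqN]
  interval_cases k
  · simp only [TZ4, List.getElem_cons_zero, List.getElem_cons_succ]
    exact ⟨le_trans (by norm_num) stNz0_4.1, le_trans stNz0_4.2 (by norm_num)⟩
  · simp only [TZ4, List.getElem_cons_zero, List.getElem_cons_succ]
    exact ⟨le_trans (by norm_num) stNz1_4.1, le_trans stNz1_4.2 (by norm_num)⟩
  · simp only [TZ4, List.getElem_cons_zero, List.getElem_cons_succ]
    exact ⟨le_trans (by norm_num) stNz2_4.1, le_trans stNz2_4.2 (by norm_num)⟩
  · simp only [TZ4, List.getElem_cons_zero, List.getElem_cons_succ]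
    exact ⟨le_trans (by norm_num) stNz3_4.1, le_trans stNz3_4.2 (by norm_num)⟩
  · simp only [TZ4, List.getElem_cons_zero, List.getElem_cons_succ]
    exact ⟨le_trans (by norm_num) stNz4_4.1, le_trans stNz4_4.2 (by norm_num)⟩
  · simp only [TZ4, List.getElem_cons_zero, List.getElem_cons_succ]
    exact ⟨le_trans (by norm_num) stNz5_4.1, le_trans stNz5_4.2 (by norm_num)⟩
  · simp only [TZ4, List.getElem_cons_zero, List.getElem_cons_succ]
    exact ⟨le_trans (by norm_num) stNz6_4.1, le_trans stNz6_4.2 (by norm_num)⟩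
  · simp only [TZ4, List.getElem_cons_zero, List.getElem_cons_succ]
    exact ⟨le_trans (by norm_num) stNz7_4.1, le_trans stNz7_4.2 (by norm_num)⟩

theorem stripz6_ok : Pc.InL (fun k => aStrip Gz ehat 6 k) TZ6 := by
  intro k hk
  have hk' : k < 8 := hk
  rw [ehat_eqN]
  interval_cases k
  · simp only [TZ6, List.getElem_cons_zero, List.getElem_cons_succ]
    exact ⟨le_trans (by norm_num) stNz0_6.1, le_trans stNz0_6.2 (by norm_num)⟩
  · simp only [TZ6, List.getElem_cons_zero, List.getElem_cons_succ]
    exact ⟨le_trans (by norm_num) stNz1_6.1, le_trans stNz1_6.2 (by norm_num)⟩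
  · simp only [TZ6, List.getElem_cons_zero, List.getElem_cons_succ]
    exact ⟨le_trans (by norm_num) stNz2_6.1, le_trans stNz2_6.2 (by norm_num)⟩
  · simp only [TZ6, List.getElem_cons_zero, List.getElem_cons_succ]
    exact ⟨le_trans (by norm_num) stNz3_6.1, le_trans stNz3_6.2 (by norm_num)⟩
  · simp only [TZ6, List.getElem_cons_zero, List.getElem_cons_succ]
    exact ⟨le_trans (by norm_num) stNz4_6.1, le_trans stNz4_6.2 (by norm_num)⟩
  · simp only [TZ6, List.getElem_cons_zero, List.getElem_cons_succ]
    exact ⟨le_trans (by norm_num) stNz5_6.1, le_trans stNz5_6.2 (by norm_num)⟩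
  · simp only [TZ6, List.getElem_cons_zero, List.getElem_cons_succ]
    exact ⟨le_trans (by norm_num) stNz6_6.1, le_trans stNz6_6.2 (by norm_num)⟩
  · simp only [TZ6, List.getElem_cons_zero, List.getElem_cons_succ]
    exact ⟨le_trans (by norm_num) stNz7_6.1, le_trans stNz7_6.2 (by norm_num)⟩

theorem stripz8_ok : Pc.InL (fun k => aStrip Gz ehat 8 k) TZ8 := by
  intro k hk
  have hk' : k < 8 := hk
  rw [ehat_eqN]
  interval_cases k
  · simp only [TZ8, List.getElem_cons_zero, List.getElem_cons_succ]
    exact ⟨le_trans (by norm_num) stNz0_8.1, le_trans stNz0_8.2 (by norm_num)⟩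
  · simp only [TZ8, List.getElem_cons_zero, List.getElem_cons_succ]
    exact ⟨le_trans (by norm_num) stNz1_8.1, le_trans stNz1_8.2 (by norm_num)⟩
  · simp only [TZ8, List.getElem_cons_zero, List.getElem_cons_succ]
    exact ⟨le_trans (by norm_num) stNz2_8.1, le_trans stNz2_8.2 (by norm_num)⟩
  · simp only [TZ8, List.getElem_cons_zero, List.getElem_cons_succ]
    exact ⟨le_trans (by norm_num) stNz3_8.1, le_trans stNz3_8.2 (by norm_num)⟩
  · simp only [TZ8, List.getElem_cons_zero, List.getElem_cons_succ]
    exact ⟨le_trans (by norm_num) stNz4_8.1, le_trans stNz4_8.2 (by norm_num)⟩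
  · simp only [TZ8, List.getElem_cons_zero, List.getElem_cons_succ]
    exact ⟨le_trans (by norm_num) stNz5_8.1, le_trans stNz5_8.2 (by norm_num)⟩
  · simp only [TZ8, List.getElem_cons_zero, List.getElem_cons_succ]
    exact ⟨le_trans (by norm_num) stNz6_8.1, le_trans stNz6_8.2 (by norm_num)⟩
  · simp only [TZ8, List.getElem_cons_zero, List.getElem_cons_succ]
    exact ⟨le_trans (by norm_num) stNz7_8.1, le_trans stNz7_8.2 (by norm_num)⟩

end Hald
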