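import Crest.Agent.Hald.OpenEncl
import Crest.Agent.Hald.OpP2

/-! # Row 347, M8: numbers of the open chain with 2 spins 1 (generated) -/

set_option autoImplicit false
set_option Elab.async false
set_option maxRecDepth 100000

namespace Hald

theorem opTauP2 : ([1, 576, 55200, 2104960, 42625440, 530449920, 4428453120, 26278732800, 115407434880, 386200043520, 1006152744960, 2073284444160, 3417914572800, 4543197216768, 4891749384192, 4273252335616, 3024015261696, 1724928491520, 785800757248, 281681068032, 77642858496, 15871246336, 2264924160, 201326592, 8388608] : List ℕ) = chebL 24 := by decide +kernel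

theorem opNP2_6 : ((9494305 : ℤ) : ℝ) / 2 ^ 30 ≤ aOpen hF hF ehat 6 0 ∧
    aOpen hF hF ehat 6 0 ≤ ((9494306 : ℤ) : ℝ) / 2 ^ 30 :=
  openP_num (N := 0) (fun k hk => opMomP2 k hk) opTauP2 (dim := 9) (by norm_num) (cn := 22)
    (by norm_num) (M' := 2) (by norm_num)
    (u := 48) (w := 80) (y := 1012) (s := 40) (lo := 1087686969442) (hi := 1087686987843) (en := 28029) (ed := 20000) (n := 22) (j := 3) (t := 50) (el := 624319909245087) (eh := 624319909245088) (A := 9494305) (B := 9494306) (a := 30)
    (by decide +kernel) ehat_eq (by norm_num)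

theorem opNP2_8 : ((1814814 : ℤ) : ℝ) / 2 ^ 30 ≤ aOpen hF hF ehat 8 0 ∧
    aOpen hF hF ehat 8 0 ≤ ((1814817 : ℤ) : ℝ) / 2 ^ 30 :=
  openP_num (N := 0) (fun k hk => opMomP2 k hk) opTauP2 (dim := 9) (by norm_num) (cn := 22)
    (by norm_num) (M' := 2) (by norm_num)
    (u := 64) (w := 80) (y := 1349) (s := 40) (lo := 1010196051187) (hi := 1010196974698) (en := 28029) (ed := 20000) (n := 22) (j := 3) (t := 50) (el := 512378142530641) (eh := 512378142530642) (A := 1814814) (B := 1814817) (a := 30)
    (by decide +kernel) ehat_eq (by norm_num)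

end Hald
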