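import Crest.Agent.Hald.SzColC

/-!
# Row 347, M7c: run tables (start representatives, generated) and run definitions

`runTab`: 59 runs; entries `(index, orbit size, class)`, class = (M mod 2) + (0 if 3 ∣ M else 2).
`flipTab`: the flipped index of the `M = 0` start of each run, class 4.
-/

set_option autoImplicit false

namespace Hald

def runTab : List (List (ℕ × ℕ × ℕ)) := [
  [(80, 8, 0), (53, 32, 3), (6489, 32, 3), (26, 16, 2), (6516, 32, 2), (17, 32, 1), (6537, 16, 1), (8, 16, 2), (6546, 32, 2), (5, 32, 3), (6549, 32, 3), (2, 16, 0), (6556, 16, 0), (1, 16, 3), (0, 2, 2)],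
  [(134, 16, 0), (107, 32, 3), (6435, 32, 3), (50, 32, 2), (6508, 16, 2), (35, 32, 1), (6519, 32, 1), (16, 16, 2), (6540, 16, 2), (13, 16, 3), (6531, 32, 3), (10, 16, 0), (6532, 16, 0)],
  [(152, 32, 0), (131, 32, 3), (6427, 32, 3), (62, 32, 2), (6492, 16, 2), (43, 32, 1), (6513, 32, 1), (32, 32, 2), (6526, 32, 2), (31, 32, 3), (6477, 16, 3), (82, 8, 0)],
  [(158, 32, 0), (143, 32, 3), (6411, 32, 3), (98, 32, 2), (6456, 32, 2), (59, 32, 1), (6471, 32, 1), (38, 32, 2), (6520, 16, 2), (85, 32, 3), (6469, 16, 3)],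
  [(160, 8, 0), (151, 16, 3), (6405, 32, 3), (106, 32, 2), (6444, 32, 2), (95, 32, 1), (6463, 32, 1), (56, 16, 2), (6474, 32, 2), (253, 16, 3)],
  [(188, 16, 0), (179, 32, 3), (6375, 32, 3), (122, 32, 2), (6436, 32, 2), (101, 32, 1), (6457, 32, 1), (88, 32, 2), (6468, 32, 2)],
  [(206, 32, 0), (197, 32, 3), (6357, 16, 3), (128, 32, 2), (6430, 16, 2), (113, 32, 1), (6445, 32, 1), (94, 32, 2), (6460, 16, 2)],
  [(212, 16, 0), (6327, 16, 3), (6273, 32, 3), (140, 32, 2), (6418, 16, 2), (119, 32, 1), (6439, 16, 1), (110, 32, 2), (6448, 16, 2)],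
  [(224, 16, 0), (293, 32, 3), (6265, 32, 3), (146, 32, 2), (6390, 32, 2), (137, 32, 1), (6393, 32, 1), (164, 8, 2), (6306, 32, 2)],
  [(314, 16, 0), (305, 32, 3), (6249, 32, 3), (176, 32, 2), (6378, 16, 2), (173, 16, 1), (6303, 32, 1), (256, 16, 2), (6288, 16, 2)],
  [(320, 16, 0), (313, 32, 3), (6243, 32, 3), (194, 16, 2), (6300, 32, 2), (259, 16, 1), (6297, 16, 1), (274, 32, 2), (6280, 16, 2)],
  [(368, 16, 0), (319, 32, 3), (6219, 32, 3), (266, 16, 2), (6282, 32, 2), (275, 32, 1), (6283, 32, 1), (328, 8, 2), (5740, 4, 2)],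
  [(374, 32, 0), (347, 32, 3), (6211, 32, 3), (284, 32, 2), (6274, 32, 2), (281, 32, 1), (6277, 32, 1)],
  [(376, 16, 0), (359, 32, 3), (6195, 32, 3), (290, 32, 2), (6268, 32, 2), (289, 32, 1), (6261, 32, 1)],
  [(386, 32, 0), (367, 32, 3), (6189, 32, 3), (302, 32, 2), (6256, 32, 2), (301, 32, 1), (6231, 32, 1)],
  [(392, 32, 0), (373, 32, 3), (6177, 32, 3), (308, 32, 2), (6250, 32, 2), (335, 32, 1), (6223, 32, 1)],
  [(394, 32, 0), (385, 32, 3), (6171, 32, 3), (316, 16, 2), (6228, 16, 2), (353, 16, 1), (5739, 16, 1)],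
  [(398, 16, 0), (413, 32, 3), (6141, 32, 3), (338, 32, 2), (6220, 32, 2), (823, 16, 1), (5719, 16, 1)],
  [(400, 8, 0), (421, 32, 3), (6135, 32, 3), (344, 32, 2), (6214, 32, 2)],
  [(422, 16, 0), (437, 32, 3), (6117, 32, 3), (356, 32, 2), (6202, 32, 2)],
  [(428, 32, 0), (6105, 32, 3), (6099, 32, 3), (362, 32, 2), (6196, 16, 2)],
  [(430, 32, 0), (509, 16, 3), (6039, 32, 3), (380, 32, 2), (6150, 16, 2)],
  [(440, 32, 0), (527, 32, 3), (6027, 32, 3), (412, 16, 2), (6144, 32, 2)],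
  [(446, 32, 0), (545, 32, 3), (5979, 32, 3), (434, 16, 2), (6054, 16, 2)],
  [(448, 16, 0), (5943, 32, 3), (5727, 16, 3), (518, 32, 2), (6036, 16, 2)],
  [(452, 32, 0), (851, 32, 3), (5707, 32, 3), (824, 32, 2), (5734, 16, 2)],
  [(464, 16, 0), (857, 32, 3), (5701, 16, 3), (830, 16, 2), (5718, 32, 2)],
  [(536, 32, 0), (869, 32, 3), (5689, 16, 3), (844, 32, 2), (5712, 32, 2)],
  [(548, 16, 0), (875, 32, 3), (5655, 32, 3), (850, 16, 2), (5658, 8, 2)],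
  [(554, 32, 0), (911, 16, 3), (5637, 16, 3), (1010, 16, 2), (5548, 16, 2)],
  [(560, 8, 0), (1013, 32, 3), (5545, 32, 3), (1066, 8, 2)],
  [(590, 32, 0), (1019, 32, 3), (5529, 32, 3)],
  [(602, 16, 0), (1067, 32, 3), (5491, 16, 3)],
  [(608, 16, 0), (1073, 16, 3), (5475, 32, 3)],
  [(656, 4, 0), (1091, 16, 3), (5467, 16, 3)],
  [(860, 16, 0)],
  [(878, 32, 0)],
  [(880, 8, 0)],
  [(914, 16, 0)],
  [(932, 16, 0)],
  [(1040, 8, 0)],
  [(1094, 16, 0)],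
  [(1096, 16, 0)],
  [(1100, 16, 0)],
  [(1102, 16, 0)],
  [(1112, 16, 0)],
  [(1114, 32, 0)],
  [(1120, 8, 0)],
  [(1148, 8, 0)],
  [(1150, 32, 0)],
  [(1154, 16, 0)],
  [(1156, 16, 0)],
  [(1168, 16, 0)],
  [(1262, 16, 0)],
  [(1276, 16, 0)],
  [(1280, 8, 0)],
  [(1312, 4, 0)],
  [(1640, 2, 0)],
  [(3280, 1, 0)]]

def flipTab : List (List (ℕ × ℕ × ℕ)) := [
  [(6480, 8, 4)],
  [(6426, 16, 4)],
  [(6408, 32, 4)],
  [(6402, 32, 4)],
  [(6400, 8, 4)],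
  [(6372, 16, 4)],
  [(6354, 32, 4)],
  [(6348, 16, 4)],
  [(6336, 16, 4)],
  [(6246, 16, 4)],
  [(6240, 16, 4)],
  [(6192, 16, 4)],
  [(6186, 32, 4)],
  [(6184, 16, 4)],
  [(6174, 32, 4)],
  [(6168, 32, 4)],
  [(6166, 32, 4)],
  [(6162, 16, 4)],
  [(6160, 8, 4)],
  [(6138, 16, 4)],
  [(6132, 32, 4)],
  [(6130, 32, 4)],
  [(6120, 32, 4)],
  [(6114, 32, 4)],
  [(6112, 16, 4)],
  [(6108, 32, 4)],
  [(6096, 16, 4)],
  [(6024, 32, 4)],
  [(6012, 16, 4)],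
  [(6006, 32, 4)],
  [(6000, 8, 4)],
  [(5970, 32, 4)],
  [(5958, 16, 4)],
  [(5952, 16, 4)],
  [(5904, 4, 4)],
  [(5700, 16, 4)],
  [(5682, 32, 4)],
  [(5680, 8, 4)],
  [(5646, 16, 4)],
  [(5628, 16, 4)],
  [(5520, 8, 4)],
  [(5466, 16, 4)],
  [(5464, 16, 4)],
  [(5460, 16, 4)],
  [(5458, 16, 4)],
  [(5448, 16, 4)],
  [(5446, 32, 4)],
  [(5440, 8, 4)],
  [(5412, 8, 4)],
  [(5410, 32, 4)],
  [(5406, 16, 4)],
  [(5404, 16, 4)],
  [(5392, 16, 4)],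
  [(5298, 16, 4)],
  [(5284, 16, 4)],
  [(5280, 8, 4)],
  [(5248, 4, 4)],
  [(4920, 2, 4)],
  [(3280, 1, 4)]]

/-- reads in bit positions -/
def rds (w : ℕ) (l : List (ℕ × ℕ × ℕ)) : List (ℕ × ℕ × ℕ) := l.map fun p => (w * p.1, p.2.1, 280 * p.2.2)

/-- untwisted ring -/
noncomputable def runP (l : List (ℕ × ℕ × ℕ)) : ℕ :=
  runN 262 1120 (full3 8) op1 (l.map fun p => p.1) (rds 262 l) 64

/-- seam sign `-1`, with the flipped reads `f` -/
noncomputable def runM (l f : List (ℕ × ℕ × ℕ)) : ℕ :=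
  runN 262 1400 (full3 8) opm (l.map fun p => p.1) (rds 262 (l ++ f)) 64

/-- three-fold twist -/
noncomputable def runC (l : List (ℕ × ℕ × ℕ)) : ℕ :=
  runN 267 1120 (full3 8 ++ [[true, true]]) opc (l.map fun p => p.1) (rds 267 l) 64

end Hald
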