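import Crest.Agent.Hald.SzOrb
import Crest.Agent.Hald.SzData

/-!
# Row 347, M7c: the orbit certificate for `runTab`, `flipTab`
-/

set_option autoImplicit false

namespace Hald

open Finset

/-- configuration with a given index -/
noncomputable def cfOf (i : ℕ) : Cf := e8.symm ⟨i % 6561, Nat.mod_lt _ (by norm_num)⟩

/-- class of a magnetization -/
def clsZ (m : ℤ) : ℕ := (if m % 2 = 0 then 0 else 1) + (if m % 3 = 0 then 0 else 2)

theorem ixN_cfOf {i : ℕ} (hi : i < 6561) : ixN (cfOf i) = i := by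
  unfold cfOf
  rw [← e8_val, Equiv.apply_symm_apply]
  exact Nat.mod_eq_of_lt hi

theorem cfOf_ixN (σ : Cf) : cfOf (ixN σ) = σ := by
  have h := ixN_cfOf (ixN_lt σ)
  rw [← e8_val, ← e8_val σ] at h
  exact e8.injective (Fin.ext h)

theorem cfOf_eq {i : ℕ} (hi : i < 6561) : cfOf i = decC i := by
  obtain ⟨σ, rfl⟩ := exists_cf hi
  rw [cfOf_ixN, decC_ixN]

/-- digit sum -/
def dsN (n : ℕ) : ℕ := n % 3 + n / 3 % 3 + n / 9 % 3 + n / 27 % 3 + n / 81 % 3 + n / 243 % 3 +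
  n / 729 % 3 + n / 2187 % 3

theorem Mz_decC (n : ℕ) : Mz (decC n) = 8 - (dsN n : ℤ) := by
  unfold Mz
  rw [Fin.sum_univ_eight]
  have h : ∀ j : Fin 8, mz (decC n j) = 1 - ((n / 3 ^ j.val % 3 : ℕ) : ℤ) := fun j => rfl
  simp only [h]
  have e0 : 3 ^ (0 : Fin 8).val = 1 := rfl
  have e1 : 3 ^ (1 : Fin 8).val = 3 := rfl
  have e2 : 3 ^ (2 : Fin 8).val = 9 := rfl
  have e3 : 3 ^ (3 : Fin 8).val = 27 := rfl
  have e4 : 3 ^ (4 : Fin 8).val = 81 := rfl
  have e5 : 3 ^ (5 : Fin 8).val = 243 := rfl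
  have e6 : 3 ^ (6 : Fin 8).val = 729 := rfl
  have e7 : 3 ^ (7 : Fin 8).val = 2187 := rfl
  rw [e0, e1, e2, e3, e4, e5, e6, e7, Nat.div_one]
  unfold dsN
  push_cast
  ring

theorem Mz_cfOf {i : ℕ} (hi : i < 6561) : Mz (cfOf i) = 8 - (dsN i : ℤ) := by
  rw [cfOf_eq hi, Mz_decC]

theorem clsZ_eq (d : ℕ) : clsZ (8 - (d : ℤ)) =
    (if d % 2 = 0 then 0 else 1) + (if (d + 1) % 3 = 0 then 0 else 2) := by
  unfold clsZ
  have h1 : ((8 : ℤ) - d) % 2 = 0 ↔ d % 2 = 0 := by omega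
  have h2 : ((8 : ℤ) - d) % 3 = 0 ↔ (d + 1) % 3 = 0 := by omega
  simp only [h1, h2]

theorem orbOK_runTab : orbOK 6561 (runTab.flatten.map fun p => (p.1, p.2.1)) = true := by
  decide +kernel

theorem orb_sum3 {T : List (List (ℕ × ℕ × ℕ))} {N : ℕ} (hN : N = 6561)
    (hok : orbOK N (T.flatten.map fun p => (p.1, p.2.1)) = true) (f : Cf → ℤ) :
    ((T.flatten.map fun p => (p.1, p.2.1)).map fun p => (p.2 : ℤ) * f (decC p.1)).sum =
      ((T.flatten).map fun p => (p.2.1 : ℤ) * f (cfOf p.1)).sum := by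
  rw [List.map_map]
  refine congrArg List.sum (List.map_congr_left fun p hp => ?_)
  unfold orbOK at hok
  rw [Bool.and_eq_true, List.all_eq_true] at hok
  have h1 := hok.1 (p.1, p.2.1) (List.mem_map.mpr ⟨p, hp, rfl⟩)
  rw [Bool.and_eq_true, Nat.blt_eq] at h1
  show (p.2.1 : ℤ) * f (decC p.1) = _
  rw [cfOf_eq (hN ▸ h1.1)]

/-- **(1)** -/
theorem orb_sum (f : Cf → ℤ) (hT : ∀ σ, f (trC σ) = f σ) (hR : ∀ σ, f (rfC σ) = f σ)
    (hF : ∀ σ, f (flipC σ) = f σ) :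
    ∑ σ, f σ = ((runTab.flatten).map fun p => (p.2.1 : ℤ) * f (cfOf p.1)).sum :=
  (orb_sum_tab hT hR hF orbOK_runTab).trans (orb_sum3 rfl orbOK_runTab f)

/-- boolean form of the class check -/
def clsOK (tab : List (List (ℕ × ℕ × ℕ))) : Bool :=
  tab.all fun l => l.all fun p => Nat.blt p.1 6561 &&
    Nat.beq p.2.2 ((if dsN p.1 % 2 = 0 then 0 else 1) + (if (dsN p.1 + 1) % 3 = 0 then 0 else 2))

theorem clsOK_runTab : clsOK runTab = true := by decide +kernel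

/-- **(2)** -/
theorem tab_cls : ∀ l ∈ runTab, ∀ p ∈ l, p.1 < 6561 ∧ p.2.2 = clsZ (Mz (cfOf p.1)) := by
  intro l hl p hp
  have h := clsOK_runTab
  unfold clsOK at h
  rw [List.all_eq_true] at h
  have h1 := h l hl
  rw [List.all_eq_true] at h1
  have h2 := h1 p hp
  rw [Bool.and_eq_true, Nat.blt_eq] at h2
  refine ⟨h2.1, ?_⟩
  rw [Mz_cfOf h2.1, clsZ_eq]
  exact Nat.eq_of_beq_eq_true h2.2

/-- boolean form of the injectivity check -/
def injOK (tab : List (List (ℕ × ℕ × ℕ))) : Bool :=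
  tab.all fun l => decide ((l.map fun p => dsN p.1).Nodup)

theorem injOK_runTab : injOK runTab = true := by decide +kernel

theorem nodup_ds {l : List (ℕ × ℕ × ℕ)} (hl : l ∈ runTab) : (l.map fun p => dsN p.1).Nodup := by
  have h := injOK_runTab
  unfold injOK at h
  rw [List.all_eq_true] at h
  exact of_decide_eq_true (h l hl)

/-- **(3)** -/
theorem tab_inj : ∀ l ∈ runTab, ∀ p ∈ l, ∀ p' ∈ l,
    Mz (cfOf p.1) = Mz (cfOf p'.1) → p = p' := by
  intro l hl p hp p' hp' h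
  rw [Mz_cfOf (tab_cls l hl p hp).1, Mz_cfOf (tab_cls l hl p' hp').1] at h
  have h1 : dsN p.1 = dsN p'.1 := by omega
  exact List.inj_on_of_nodup_map (nodup_ds hl) hp hp' h1

theorem tab_nodup : ∀ l ∈ runTab, l.Nodup := fun _ hl => List.Nodup.of_map _ (nodup_ds hl)

/-- boolean form of the flip check -/
def flipOK (tab ftab : List (List (ℕ × ℕ × ℕ))) : Bool :=
  (tab.zip ftab).all fun lf => lf.1.any fun p =>
    Nat.beq (dsN p.1) 8 && decide (lf.2 = [(6560 - p.1, p.2.1, 4)])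

theorem flipOK_runTab : flipOK runTab flipTab = true := by decide +kernel

/-- **(4)** -/
theorem tab_flip : ∀ lf ∈ runTab.zip flipTab, ∃ p ∈ lf.1, Mz (cfOf p.1) = 0 ∧
    lf.2 = [(6560 - p.1, p.2.1, 4)] := by
  intro lf hlf
  have h := flipOK_runTab
  unfold flipOK at h
  rw [List.all_eq_true] at h
  have h1 := h lf hlf
  rw [List.any_eq_true] at h1
  obtain ⟨p, hp, h2⟩ := h1
  rw [Bool.and_eq_true] at h2
  have h3 := Nat.eq_of_beq_eq_true h2.1
  have hlt := (tab_cls lf.1 (List.of_mem_zip hlf).1 p hp).1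
  refine ⟨p, hp, ?_, of_decide_eq_true h2.2⟩
  rw [Mz_cfOf hlt, h3]
  norm_num

theorem cfOf_flip {i : ℕ} (hi : i < 6561) : cfOf (6560 - i) = flipC (cfOf i) := by
  obtain ⟨σ, rfl⟩ := exists_cf hi
  have h := fN_ixN σ
  unfold fN at h
  rw [h, cfOf_ixN, cfOf_ixN]

end Hald
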