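import Crest.Agent.Hald.Pack

/-!
# Row 347, M7a: masked shifts, bit planes, the packed step (kernel friendly definitions and semantics)

Programs are written with `Nat.land`, `Nat.shiftLeft`, ... directly (GMP accelerated in the kernel) and
`force`d at each step.  NEVER evaluate them with the interpreter (`force` loops there).
-/

set_option autoImplicit false

namespace Hald

open Finset

/-- evaluate `n` to a literal before continuing (kernel only) -/
noncomputable def force {α : Type} (n : ℕ) (k : ℕ → α) : α :=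
  Nat.rec (motive := fun _ => α) (k 0) (fun m _ => k (Nat.succ m)) n

theorem force_eq {α : Type} (n : ℕ) (k : ℕ → α) : force n k = k n := by
  cases n <;> rfl

/-- evaluate all entries of a list of pairs -/
noncomputable def forceL {α : Type} (l : List (ℕ × ℕ)) : (List (ℕ × ℕ) → α) → α :=
  List.rec (motive := fun _ => (List (ℕ × ℕ) → α) → α) (fun k => k [])
    (fun p _ ih k => force p.1 fun a => force p.2 fun b => ih fun l' => k ((a, b) :: l')) l

theorem forceL_eq {α : Type} (l : List (ℕ × ℕ)) (k : List (ℕ × ℕ) → α) : forceL l k = k l := by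
  induction l generalizing k with
  | nil => rfl
  | cons p l ih =>
    show force p.1 (fun a => force p.2 fun b => forceL l fun l' => k ((a, b) :: l')) = _
    rw [force_eq, force_eq, ih]

/-- `∑ (v & mask) << bits` -/
noncomputable def sumL (v : ℕ) (l : List (ℕ × ℕ)) : ℕ :=
  List.rec (motive := fun _ => ℕ) 0 (fun p _ ih => Nat.add (Nat.shiftLeft (Nat.land v p.1) p.2) ih) l

/-- `∑ (v & mask) >> bits` -/
noncomputable def sumR (v : ℕ) (l : List (ℕ × ℕ)) : ℕ :=
  List.rec (motive := fun _ => ℕ) 0 (fun p _ ih => Nat.add (Nat.shiftRight (Nat.land v p.1) p.2) ih) l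

@[simp] theorem sumL_nil (v : ℕ) : sumL v [] = 0 := rfl
@[simp] theorem sumR_nil (v : ℕ) : sumR v [] = 0 := rfl
@[simp] theorem sumL_cons (v : ℕ) (p : ℕ × ℕ) (l : List (ℕ × ℕ)) :
    sumL v (p :: l) = (v &&& p.1) <<< p.2 + sumL v l := rfl
@[simp] theorem sumR_cons (v : ℕ) (p : ℕ × ℕ) (l : List (ℕ × ℕ)) :
    sumR v (p :: l) = (v &&& p.1) >>> p.2 + sumR v l := rfl

/-- A masked shift: sources allowed by `spec`, shift by `s` fields, coefficient `2^c`. -/
structure Hop where
  spec : List (List Bool)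
  s : ℕ
  c : ℕ

/-- An operator on vectors of length `D`, all specifications have `dimL = D`.
`N = up hops + down hops + diag - (negative hops)` (a negative multiple of the identity is a negative up
hop with `s = 0`). -/
structure OpData where
  D : ℕ
  up : List Hop
  dn : List Hop
  /-- diagonal part: sum of `val` over the specifications containing the index -/
  dg : List (List (List Bool) × ℕ)
  /-- number of bit planes of the diagonal part -/
  np : ℕ
  nup : List Hop
  ndn : List Hop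

/-- diagonal value at an index -/
def dgVal (dg : List (List (List Bool) × ℕ)) (i : ℕ) : ℕ :=
  (dg.map fun p => if memb p.1 i then p.2 else 0).sum

/-- column generating function of the positive / negative part: `∑_{i'} N i' i X^{i'}`, `X = 2^w` -/
def posCol (w : ℕ) (o : OpData) (i : ℕ) : ℤ :=
  (o.up.map fun h => if memb h.spec i then (2 : ℤ) ^ h.c * 2 ^ (w * (i + h.s)) else 0).sum +
  (o.dn.map fun h => if memb h.spec i then (2 : ℤ) ^ h.c * 2 ^ (w * (i - h.s)) else 0).sum +
  dgVal o.dg i * 2 ^ (w * i)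

def negCol (w : ℕ) (o : OpData) (i : ℕ) : ℤ :=
  (o.nup.map fun h => if memb h.spec i then (2 : ℤ) ^ h.c * 2 ^ (w * (i + h.s)) else 0).sum +
  (o.ndn.map fun h => if memb h.spec i then (2 : ℤ) ^ h.c * 2 ^ (w * (i - h.s)) else 0).sum

/-- side conditions (all decidable, checked by kernel evaluation) -/
structure OpData.Good (w : ℕ) (fs : List (List Bool)) (o : OpData) : Prop where
  wpos : 0 < w
  up : ∀ h ∈ o.up, dimL h.spec = o.D
  dn : ∀ h ∈ o.dn, dimL h.spec = o.D ∧ h.c ≤ w * h.s
  nup : ∀ h ∈ o.nup, dimL h.spec = o.D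
  ndn : ∀ h ∈ o.ndn, dimL h.spec = o.D ∧ h.c ≤ w * h.s
  dns : ∀ h ∈ o.dn, ∀ i < o.D, memb h.spec i = true → h.s ≤ i
  ndns : ∀ h ∈ o.ndn, ∀ i < o.D, memb h.spec i = true → h.s ≤ i
  dg : ∀ p ∈ o.dg, dimL p.1 = o.D
  np : ∀ i < o.D, dgVal o.dg i < 2 ^ o.np
  npw : o.np ≤ w
  full : ∀ i < o.D, memb fs i = true
  fullD : dimL fs = o.D

/-- precomputed masks -/
def hopsL (w : ℕ) (l : List Hop) : List (ℕ × ℕ) := l.map fun h => (msk w h.spec, w * h.s + h.c)
def hopsR (w : ℕ) (l : List Hop) : List (ℕ × ℕ) := l.map fun h => (msk w h.spec, w * h.s - h.c)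

/-- packed diagonal vector -/
def dgPk (w : ℕ) (dg : List (List (List Bool) × ℕ)) : ℕ := (dg.map fun p => rep w p.1 * p.2).sum

/-- bit planes of a packed vector `d`, `full` = repunit: list of (mask, bit) -/
def planes (w full d : ℕ) : ℕ → List (ℕ × ℕ)
  | 0 => []
  | b + 1 => (Nat.mul (Nat.land (Nat.shiftRight d b) full) (2 ^ w - 1), b) :: planes w full d b

theorem testBit_pk {w : ℕ} (hw : 0 < w) {f : ℕ → ℕ} {D : ℕ} (hf : ∀ i < D, f i < 2 ^ w) (n : ℕ) :
    (pk w f D).testBit n = (decide (n / w < D) && (f (n / w)).testBit (n % w)) := by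
  induction D with
  | zero => simp [pk]
  | succ D ih =>
    have hlt := pk_lt (w := w) (f := f) (D := D) (fun j hj => hf j (by omega))
    rw [pk_succ, add_comm, mul_comm, Nat.testBit_two_pow_mul_add _ hlt, ih fun i hi => hf i (by omega)]
    by_cases h : n < w * D
    · have h1 : n / w < D := Nat.div_lt_of_lt_mul h
      simp [h, h1, Nat.lt_succ_of_lt h1]
    · rw [if_neg h]
      have h2 : D ≤ n / w := (Nat.le_div_iff_mul_le hw).mpr (by rw [mul_comm]; omega)
      by_cases h3 : n / w = D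
      · have e : n - w * D = n % w := by
          have := Nat.div_add_mod n w
          rw [h3] at this
          omega
        rw [e, h3]
        simp
      · have h4 : ¬ (n / w < D + 1) := by omega
        have h5 : w ≤ n - w * D := by
          have : D + 1 ≤ n / w := by omega
          have := (Nat.le_div_iff_mul_le hw).mp this
          rw [Nat.succ_mul, mul_comm] at this
          omega
        rw [Nat.testBit_lt_two_pow (lt_of_lt_of_le (hf D (by omega)) (Nat.pow_le_pow_right (by norm_num) h5))]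
        simp [h4]

theorem sum_map_mul_range {α : Type*} (l : List α) (D : ℕ) (f : ℕ → ℤ) (g : α → ℕ → ℤ) :
    (l.map fun a => ∑ i ∈ range D, f i * g a i).sum = ∑ i ∈ range D, f i * (l.map fun a => g a i).sum := by
  induction l with
  | nil => simp
  | cons a l ih => simp [ih, mul_add, sum_add_distrib]

theorem hop_up_val {w : ℕ} {f : ℕ → ℕ} {D : ℕ} {h : Hop} (hD : dimL h.spec = D) (hf : ∀ i < D, f i < 2 ^ w) :
    (((pk w f D &&& msk w h.spec) <<< (w * h.s + h.c) : ℕ) : ℤ) =
      ∑ i ∈ range D, (f i : ℤ) * (if memb h.spec i then (2 : ℤ) ^ h.c * 2 ^ (w * (i + h.s)) else 0) := by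
  subst hD
  rw [and_msk hf, Nat.shiftLeft_eq, pk]
  push_cast
  rw [sum_mul]
  apply sum_congr rfl
  intro i _
  by_cases hm : memb h.spec i = true
  · simp only [hm, if_true]
    rw [mul_add, pow_add, pow_add]; ring
  · simp [hm]

theorem hop_dn_val {w : ℕ} {f : ℕ → ℕ} {D : ℕ} {h : Hop} (hD : dimL h.spec = D) (hc : h.c ≤ w * h.s)
    (hs : ∀ i < D, memb h.spec i = true → h.s ≤ i) (hf : ∀ i < D, f i < 2 ^ w) :
    (((pk w f D &&& msk w h.spec) >>> (w * h.s - h.c) : ℕ) : ℤ) =
      ∑ i ∈ range D, (f i : ℤ) * (if memb h.spec i then (2 : ℤ) ^ h.c * 2 ^ (w * (i - h.s)) else 0) := by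
  subst hD
  rw [and_msk hf, Nat.shiftRight_eq_div_pow]
  have e : pk w (fun i => if memb h.spec i then f i else 0) (dimL h.spec) =
      (∑ i ∈ range (dimL h.spec), f i * (if memb h.spec i then 2 ^ h.c * 2 ^ (w * (i - h.s)) else 0)) *
        2 ^ (w * h.s - h.c) := by
    rw [pk, sum_mul]
    apply sum_congr rfl
    intro i hi
    rw [mem_range] at hi
    by_cases hm : memb h.spec i = true
    · simp only [hm, if_true]
      have h1 := hs i hi hm
      have e1 : w * i = h.c + w * (i - h.s) + (w * h.s - h.c) := by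
        have : w * i = w * (i - h.s) + w * h.s := by rw [← mul_add]; congr 1; omega
        omega
      rw [e1, pow_add, pow_add]; ring
    · simp [hm]
  rw [e, Nat.mul_div_cancel _ (by positivity)]
  push_cast
  apply sum_congr rfl
  intro i _
  by_cases hm : memb h.spec i = true <;> simp [hm]

theorem sumL_hops {w : ℕ} {f : ℕ → ℕ} {D : ℕ} (l : List Hop) (hD : ∀ h ∈ l, dimL h.spec = D)
    (hf : ∀ i < D, f i < 2 ^ w) :
    ((sumL (pk w f D) (hopsL w l) : ℕ) : ℤ) = ∑ i ∈ range D, (f i : ℤ) *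
      (l.map fun h => if memb h.spec i then (2 : ℤ) ^ h.c * 2 ^ (w * (i + h.s)) else 0).sum := by
  induction l with
  | nil => simp [hopsL]
  | cons h l ih =>
    have ih' := ih (fun h hh => hD h (List.mem_cons_of_mem _ hh))
    rw [hopsL, List.map_cons, sumL_cons, Nat.cast_add]
    rw [← hopsL, ih', hop_up_val (hD h List.mem_cons_self) hf, ← sum_add_distrib]
    apply sum_congr rfl
    intro i _
    rw [List.map_cons, List.sum_cons]
    ring

theorem sumR_hops {w : ℕ} {f : ℕ → ℕ} {D : ℕ} (l : List Hop)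
    (hD : ∀ h ∈ l, dimL h.spec = D ∧ h.c ≤ w * h.s)
    (hs : ∀ h ∈ l, ∀ i < D, memb h.spec i = true → h.s ≤ i) (hf : ∀ i < D, f i < 2 ^ w) :
    ((sumR (pk w f D) (hopsR w l) : ℕ) : ℤ) = ∑ i ∈ range D, (f i : ℤ) *
      (l.map fun h => if memb h.spec i then (2 : ℤ) ^ h.c * 2 ^ (w * (i - h.s)) else 0).sum := by
  induction l with
  | nil => simp [hopsR]
  | cons h l ih =>
    have ih' := ih (fun h hh => hD h (List.mem_cons_of_mem _ hh))
      (fun h hh => hs h (List.mem_cons_of_mem _ hh))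
    rw [hopsR, List.map_cons, sumR_cons, Nat.cast_add]
    rw [← hopsR, ih', hop_dn_val (hD h List.mem_cons_self).1 (hD h List.mem_cons_self).2
      (hs h List.mem_cons_self) hf, ← sum_add_distrib]
    apply sum_congr rfl
    intro i _
    rw [List.map_cons, List.sum_cons, mul_add]

theorem shiftRight_and_pk {w : ℕ} (hw : 0 < w) {d : ℕ → ℕ} {D : ℕ} (hd : ∀ i < D, d i < 2 ^ w) {b : ℕ}
    (hb : b < w) :
    (pk w d D >>> b) &&& pk w (fun _ => 1) D = pk w (fun i => ((d i).testBit b).toNat) D := by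
  have h1 : ∀ i < D, (1 : ℕ) < 2 ^ w := fun i _ => Nat.one_lt_two_pow (by omega)
  have h2 : ∀ i < D, ((d i).testBit b).toNat < 2 ^ w := fun i hi =>
    lt_of_le_of_lt (Bool.toNat_le _) (h1 i hi)
  apply Nat.eq_of_testBit_eq
  intro n
  rw [Nat.testBit_and, Nat.testBit_shiftRight, testBit_pk hw hd, testBit_pk hw (by simpa using h1),
    testBit_pk hw h2]
  have hmod : n % w < w := Nat.mod_lt _ hw
  by_cases h0 : n % w = 0
  · have hn : n = w * (n / w) := by have := Nat.div_add_mod n w; omega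
    have e1 : (b + n) / w = n / w := by
      rw [hn, Nat.add_mul_div_left _ _ hw, Nat.div_eq_of_lt hb, zero_add, Nat.mul_div_cancel_left _ hw]
    have e2 : (b + n) % w = b := by
      rw [hn, Nat.add_mul_mod_self_left, Nat.mod_eq_of_lt hb]
    rw [e1, e2, h0]
    by_cases h3 : n / w < D
    · cases (d (n / w)).testBit b <;> simp [h3]
    · simp [h3]
  · have t1 : Nat.testBit 1 (n % w) = false := by
      have := Nat.testBit_two_pow (n := 0) (m := n % w)
      rw [pow_zero] at this
      rw [this]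
      simp
      omega
    have t2 : ∀ x : Bool, Nat.testBit x.toNat (n % w) = false := by
      intro x
      cases x
      · simp
      · exact t1
    rw [t1, t2]
    simp

theorem testBit_sum (x : ℕ) : ∀ n : ℕ, x % 2 ^ n = ∑ b ∈ range n, (x.testBit b).toNat * 2 ^ b := by
  intro n
  induction n with
  | zero => simp [Nat.mod_one]
  | succ n ih =>
    rw [sum_range_succ, ← ih, Nat.testBit_eq_decide_div_mod_eq, pow_succ, Nat.mod_mul]
    rcases Nat.mod_two_eq_zero_or_one (x / 2 ^ n) with h | h <;> simp [h, mul_comm]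

theorem sumL_planes {w : ℕ} (hw : 0 < w) {f d : ℕ → ℕ} {D : ℕ} (hf : ∀ i < D, f i < 2 ^ w)
    (hd : ∀ i < D, d i < 2 ^ w) : ∀ n : ℕ, n ≤ w →
    ((sumL (pk w f D) (planes w (pk w (fun _ => 1) D) (pk w d D) n) : ℕ) : ℤ) =
      ∑ i ∈ range D, (f i : ℤ) * (((d i % 2 ^ n : ℕ) : ℤ) * 2 ^ (w * i)) := by
  intro n
  induction n with
  | zero => intro _; simp [planes, Nat.mod_one]
  | succ n ih =>
    intro hn
    rw [planes, sumL_cons, Nat.cast_add, ih (by omega)]
    have e1 : Nat.mul (Nat.land (Nat.shiftRight (pk w d D) n) (pk w (fun _ => 1) D)) (2 ^ w - 1) =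
        pk w (fun i => ((d i).testBit n).toNat * (2 ^ w - 1)) D := by
      show ((pk w d D >>> n) &&& pk w (fun _ => 1) D) * (2 ^ w - 1) = _
      rw [shiftRight_and_pk hw hd (by omega), pk, pk, sum_mul]
      apply sum_congr rfl
      intro i _
      ring
    have hpos : 0 < 2 ^ w := by positivity
    have e2 : pk w f D &&& pk w (fun i => ((d i).testBit n).toNat * (2 ^ w - 1)) D =
        pk w (fun i => f i * ((d i).testBit n).toNat) D := by
      rw [and_pk hf]
      · apply sum_congr rfl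
        intro i hi
        rw [mem_range] at hi
        rcases Bool.eq_false_or_eq_true ((d i).testBit n) with hb | hb
        · simp only [hb, Bool.toNat_true, one_mul, mul_one]
          rw [Nat.and_two_pow_sub_one_eq_mod, Nat.mod_eq_of_lt (hf i hi)]
        · simp [hb]
      · intro i _
        rcases Bool.eq_false_or_eq_true ((d i).testBit n) with hb | hb <;> simp [hb]
    simp only [e1]
    rw [e2, Nat.shiftLeft_eq, pk]
    have e3 : ∀ i, ((d i % 2 ^ (n + 1) : ℕ) : ℤ) =
        ((d i % 2 ^ n : ℕ) : ℤ) + (((d i).testBit n).toNat : ℤ) * 2 ^ n := by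
      intro i
      rw [testBit_sum (d i) (n + 1), sum_range_succ, ← testBit_sum]
      push_cast
      ring
    simp only [e3]
    rw [Nat.cast_mul, Nat.cast_sum, sum_mul, ← sum_add_distrib]
    apply sum_congr rfl
    intro i _
    rw [Nat.cast_mul, Nat.cast_mul]
    push_cast
    ring

theorem sumL_append (v : ℕ) (l m : List (ℕ × ℕ)) : sumL v (l ++ m) = sumL v l + sumL v m := by
  induction l with
  | nil => simp
  | cons p l ih => rw [List.cons_append, sumL_cons, sumL_cons, ih, add_assoc]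

theorem dgPk_eq (w : ℕ) (dg : List (List (List Bool) × ℕ)) (D : ℕ) (h : ∀ p ∈ dg, dimL p.1 = D) :
    dgPk w dg = pk w (dgVal dg) D := by
  induction dg with
  | nil => simp [dgPk, dgVal, pk]
  | cons p l ih =>
    have ih' := ih fun p hp => h p (List.mem_cons_of_mem _ hp)
    rw [dgPk, List.map_cons, List.sum_cons, ← dgPk, ih', rep_eq, h p List.mem_cons_self, pk, pk, pk,
      sum_mul, ← sum_add_distrib]
    apply sum_congr rfl
    intro i _
    rw [dgVal, dgVal, List.map_cons, List.sum_cons, add_mul]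
    by_cases hm : memb p.1 i = true
    · simp only [hm, if_true]; ring
    · simp [hm]

/-- encoding of a signed vector -/
def enc (w : ℕ) (f : ℕ → ℤ) (D : ℕ) : ℕ := pk w (fun i => (f i + 2 ^ (w - 1)).toNat) D

/-- signed range -/
def InR (w : ℕ) (f : ℕ → ℤ) (D : ℕ) : Prop := ∀ i < D, -2 ^ (w - 1) ≤ f i ∧ f i < 2 ^ (w - 1)

/-- the packed step -/
noncomputable def stepN (pL pR nL nR : List (ℕ × ℕ)) (o1 o2 v : ℕ) : ℕ :=
  Nat.sub (Nat.add (sumL v pL) (Nat.add (sumR v pR) o1)) (Nat.add (sumL v nL) (Nat.add (sumR v nR) o2))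

/-- positive part on unsigned vectors -/
theorem pos_val {w : ℕ} {fs : List (List Bool)} {o : OpData} (g : o.Good w fs) {f : ℕ → ℕ}
    (hf : ∀ i < o.D, f i < 2 ^ w) :
    ((sumL (pk w f o.D) (hopsL w o.up ++ planes w (rep w fs) (dgPk w o.dg) o.np) +
      sumR (pk w f o.D) (hopsR w o.dn) : ℕ) : ℤ) = ∑ i ∈ range o.D, (f i : ℤ) * posCol w o i := by
  have hrep : rep w fs = pk w (fun _ => 1) o.D := by
    rw [rep_eq, g.fullD]
    exact pk_congr fun i hi => by simp [g.full i hi]
  have hdw : ∀ i < o.D, dgVal o.dg i < 2 ^ w := fun i hi =>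
    lt_of_lt_of_le (g.np i hi) (Nat.pow_le_pow_right (by norm_num) g.npw)
  rw [sumL_append, hrep, dgPk_eq w o.dg o.D g.dg, Nat.cast_add, Nat.cast_add, sumL_hops o.up g.up hf,
    sumR_hops o.dn g.dn g.dns hf, sumL_planes g.wpos hf hdw o.np g.npw, ← sum_add_distrib,
    ← sum_add_distrib]
  apply sum_congr rfl
  intro i hi
  rw [posCol, Nat.mod_eq_of_lt (g.np i (mem_range.mp hi))]
  ring

theorem neg_val {w : ℕ} {fs : List (List Bool)} {o : OpData} (g : o.Good w fs) {f : ℕ → ℕ}
    (hf : ∀ i < o.D, f i < 2 ^ w) :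
    ((sumL (pk w f o.D) (hopsL w o.nup) + sumR (pk w f o.D) (hopsR w o.ndn) : ℕ) : ℤ) =
      ∑ i ∈ range o.D, (f i : ℤ) * negCol w o i := by
  rw [Nat.cast_add, sumL_hops o.nup g.nup hf, sumR_hops o.ndn g.ndn g.ndns hf, ← sum_add_distrib]
  apply sum_congr rfl
  intro i _
  rw [negCol]
  ring

theorem stepN_eq {w : ℕ} {fs : List (List Bool)} {o : OpData} (g : o.Good w fs) {f f' : ℕ → ℤ}
    (hf : InR w f o.D) (hf' : InR w f' o.D)
    (heq : pkz w f' o.D = ∑ i ∈ range o.D, f i * (posCol w o i - negCol w o i)) {H o1 o2 : ℕ}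
    (hH : H = rep w fs * 2 ^ (w - 1))
    (ho1 : o1 = sumL H (hopsL w o.nup) + sumR H (hopsR w o.ndn) + H)
    (ho2 : o2 = sumL H (hopsL w o.up ++ planes w (rep w fs) (dgPk w o.dg) o.np) + sumR H (hopsR w o.dn)) :
    stepN (hopsL w o.up ++ planes w (rep w fs) (dgPk w o.dg) o.np) (hopsR w o.dn) (hopsL w o.nup)
      (hopsR w o.ndn) o1 o2 (enc w f o.D) = enc w f' o.D := by
  have hw := g.wpos
  have h2w : (2 : ℤ) ^ w = 2 ^ (w - 1) + 2 ^ (w - 1) := by
    obtain ⟨k, rfl⟩ : ∃ k, w = k + 1 := ⟨w - 1, by omega⟩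
    simp [pow_succ]; ring
  have tn : ∀ (F : ℕ → ℤ), InR w F o.D → ∀ i < o.D, (((F i + 2 ^ (w - 1)).toNat : ℕ) : ℤ) = F i + 2 ^ (w - 1) :=
    fun F hF i hi => Int.toNat_of_nonneg (by have := (hF i hi).1; linarith)
  have tb : ∀ (F : ℕ → ℤ), InR w F o.D → ∀ i < o.D, (F i + 2 ^ (w - 1)).toNat < 2 ^ w := by
    intro F hF i hi
    have h1 := tn F hF i hi
    have h2 := (hF i hi).2
    have : ((((F i + 2 ^ (w - 1)).toNat : ℕ)) : ℤ) < ((2 ^ w : ℕ) : ℤ) := by
      rw [h1]; push_cast; rw [h2w]; linarith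
    exact_mod_cast this
  have hHpk : H = pk w (fun _ => 2 ^ (w - 1)) o.D := by
    rw [hH, rep_eq, g.fullD, pk, pk, sum_mul]
    apply sum_congr rfl
    intro i hi
    rw [if_pos (g.full i (mem_range.mp hi))]
    ring
  have hHb : ∀ i < o.D, 2 ^ (w - 1) < 2 ^ w := fun i _ => Nat.pow_lt_pow_right (by norm_num) (by omega)
  have P1 := pos_val g (tb f hf)
  have N1 := neg_val g (tb f hf)
  have P2 := pos_val g hHb
  have N2 := neg_val g hHb
  rw [← hHpk] at P2 N2
  have key : ((enc w f' o.D : ℕ) : ℤ) = pkz w f' o.D + H := by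
    rw [enc, pk_cast, hHpk, pk_cast, ← pkz_add]
    apply pkz_congr
    intro i hi
    rw [tn f' hf' i hi]
    push_cast
    ring
  have e1 : ∀ (c : ℕ → ℤ), ∑ i ∈ range o.D, (((f i + 2 ^ (w - 1)).toNat : ℕ) : ℤ) * c i =
      ∑ i ∈ range o.D, f i * c i + ∑ i ∈ range o.D, (((2 ^ (w - 1) : ℕ)) : ℤ) * c i := by
    intro c
    rw [← sum_add_distrib]
    apply sum_congr rfl
    intro i hi
    rw [tn f hf i (mem_range.mp hi)]
    push_cast
    ring
  rw [e1] at P1 N1
  unfold stepN
  simp only [enc] at key ⊢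
  set A := sumL (pk w (fun i => (f i + 2 ^ (w - 1)).toNat) o.D)
    (hopsL w o.up ++ planes w (rep w fs) (dgPk w o.dg) o.np) with hA
  set B := sumR (pk w (fun i => (f i + 2 ^ (w - 1)).toNat) o.D) (hopsR w o.dn) with hB
  set C := sumL (pk w (fun i => (f i + 2 ^ (w - 1)).toNat) o.D) (hopsL w o.nup) with hC
  set E := sumR (pk w (fun i => (f i + 2 ^ (w - 1)).toNat) o.D) (hopsR w o.ndn) with hE
  have heq' : pkz w f' o.D = ∑ i ∈ range o.D, f i * posCol w o i - ∑ i ∈ range o.D, f i * negCol w o i := by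
    rw [heq, ← sum_sub_distrib]
    apply sum_congr rfl
    intro i _
    ring
  show (A + (B + o1)) - (C + (E + o2)) = _
  have hfin : ((A + (B + o1) : ℕ) : ℤ) - ((C + (E + o2) : ℕ) : ℤ) =
      ((pk w (fun i => (f' i + 2 ^ (w - 1)).toNat) o.D : ℕ) : ℤ) := by
    rw [key, heq', ho1, ho2]
    push_cast at P1 N1 P2 N2 ⊢
    linarith
  omega

end Hald
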