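import Crest.Agent.Hald.PackOp

/-!
# Row 347, M7a: the packed run (power iteration with reading of entries) and its semantics
-/

set_option autoImplicit false

namespace Hald

open Finset

/-- one output: `∑ wt * field(v, bit position p) << q` over the reads `(p, wt, q)`; `w2 = 2^w` -/
noncomputable def rdOut (w2 v : ℕ) (reads : List (ℕ × ℕ × ℕ)) : ℕ :=
  List.rec (motive := fun _ => ℕ) 0 (fun p _ ih =>
    Nat.add (Nat.shiftLeft (Nat.mul p.2.1 (Nat.mod (Nat.shiftRight v p.1) w2)) p.2.2) ih) reads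

/-- the loop: `n` more steps; outputs are accumulated in Horner form with `wo` bits per step -/
noncomputable def loopN (pL pR nL nR : List (ℕ × ℕ)) (o1 o2 w2 wo : ℕ) (reads : List (ℕ × ℕ × ℕ)) (n : ℕ) :
    ℕ → ℕ → ℕ :=
  Nat.rec (motive := fun _ => ℕ → ℕ → ℕ)
    (fun v acc => Nat.add (Nat.shiftLeft acc wo) (rdOut w2 v reads))
    (fun _ ih v acc => force (Nat.add (Nat.shiftLeft acc wo) (rdOut w2 v reads)) fun acc' =>
      force (stepN pL pR nL nR o1 o2 v) fun v' => ih v' acc') n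

/-- start vector `∑ 2^{w i}` -/
def startPk (w : ℕ) : List ℕ → ℕ
  | [] => 0
  | i :: l => 2 ^ (w * i) + startPk w l

/-- the complete run -/
noncomputable def runN (w wo : ℕ) (fs : List (List Bool)) (o : OpData) (starts : List ℕ)
    (reads : List (ℕ × ℕ × ℕ)) (K : ℕ) : ℕ :=
  force (rep w fs) fun full =>
  force (Nat.mul full (2 ^ (w - 1))) fun H =>
  force (dgPk w o.dg) fun d =>
  forceL (hopsL w o.up ++ planes w full d o.np) fun pL =>
  forceL (hopsR w o.dn) fun pR =>
  forceL (hopsL w o.nup) fun nL =>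
  forceL (hopsR w o.ndn) fun nR =>
  force (Nat.add (Nat.add (sumL H nL) (sumR H nR)) H) fun o1 =>
  force (Nat.add (sumL H pL) (sumR H pR)) fun o2 =>
  force (2 ^ w) fun w2 =>
  force (Nat.add H (startPk w starts)) fun v0 =>
  loopN pL pR nL nR o1 o2 w2 wo reads K v0 0

theorem rdOut_cons (w2 v : ℕ) (p : ℕ × ℕ × ℕ) (l : List (ℕ × ℕ × ℕ)) :
    rdOut w2 v (p :: l) = (p.2.1 * ((v >>> p.1) % w2)) <<< p.2.2 + rdOut w2 v l := rfl

theorem loopN_zero (pL pR nL nR : List (ℕ × ℕ)) (o1 o2 w2 wo : ℕ) (reads : List (ℕ × ℕ × ℕ)) (v acc : ℕ) :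
    loopN pL pR nL nR o1 o2 w2 wo reads 0 v acc = acc <<< wo + rdOut w2 v reads := rfl

theorem loopN_succ (pL pR nL nR : List (ℕ × ℕ)) (o1 o2 w2 wo : ℕ) (reads : List (ℕ × ℕ × ℕ)) (n v acc : ℕ) :
    loopN pL pR nL nR o1 o2 w2 wo reads (n + 1) v acc =
      loopN pL pR nL nR o1 o2 w2 wo reads n (stepN pL pR nL nR o1 o2 v) (acc <<< wo + rdOut w2 v reads) := by
  show force (Nat.add (Nat.shiftLeft acc wo) (rdOut w2 v reads)) (fun acc' =>
      force (stepN pL pR nL nR o1 o2 v) fun v' => loopN pL pR nL nR o1 o2 w2 wo reads n v' acc') = _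
  rw [force_eq, force_eq]
  rfl

/-- Horner form of the loop -/
theorem loopN_eq (pL pR nL nR : List (ℕ × ℕ)) (o1 o2 w2 wo : ℕ) (reads : List (ℕ × ℕ × ℕ)) (vs : ℕ → ℕ)
    (n : ℕ) : ∀ (k acc : ℕ), (∀ j < n, stepN pL pR nL nR o1 o2 (vs (k + j)) = vs (k + j + 1)) →
    loopN pL pR nL nR o1 o2 w2 wo reads n (vs k) acc =
      acc * 2 ^ (wo * (n + 1)) + ∑ j ∈ range (n + 1), rdOut w2 (vs (k + j)) reads * 2 ^ (wo * (n - j)) := by
  induction n with
  | zero =>
    intro k acc _
    rw [loopN_zero, Nat.shiftLeft_eq]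
    simp
  | succ n ih =>
    intro k acc hvs
    rw [loopN_succ]
    have h0 := hvs 0 (by omega)
    rw [add_zero] at h0
    rw [h0, ih (k + 1) _ (fun j hj => by
      have := hvs (j + 1) (by omega)
      rw [show k + (j + 1) = k + 1 + j by ring] at this
      exact this)]
    rw [sum_range_succ' _ (n + 1), Nat.shiftLeft_eq, add_zero, Nat.sub_zero]
    have e1 : ∀ j ∈ range (n + 1), rdOut w2 (vs (k + 1 + j)) reads * 2 ^ (wo * (n - j)) =
        rdOut w2 (vs (k + (j + 1))) reads * 2 ^ (wo * (n + 1 - (j + 1))) := by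
      intro j _
      rw [show k + (j + 1) = k + 1 + j by ring, show n + 1 - (j + 1) = n - j by omega]
    rw [sum_congr rfl e1]
    have e2 : 2 ^ (wo * (n + 1 + 1)) = 2 ^ wo * 2 ^ (wo * (n + 1)) := by rw [← pow_add]; ring_nf
    rw [e2]
    ring

/-- extension of a vector on `ι ≃ Fin D` by zero -/
noncomputable def ext {ι : Type*} {D : ℕ} (e : ι ≃ Fin D) (f : ι → ℤ) (i : ℕ) : ℤ :=
  if h : i < D then f (e.symm ⟨i, h⟩) else 0

theorem ext_apply {ι : Type*} {D : ℕ} (e : ι ≃ Fin D) (f : ι → ℤ) (σ : ι) : ext e f (e σ : ℕ) = f σ := by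
  simp [ext]

variable {ι : Type*} [Fintype ι]

theorem sum_ext {D : ℕ} (e : ι ≃ Fin D) (f : ι → ℤ) (c : ℕ → ℤ) :
    ∑ i ∈ range D, ext e f i * c i = ∑ σ, f σ * c (e σ) := by
  rw [← Fin.sum_univ_eq_sum_range (fun i => ext e f i * c i) D]
  rw [← Equiv.sum_comp e]
  apply sum_congr rfl
  intro σ _
  rw [ext_apply]

theorem pkz_ext {D : ℕ} (e : ι ≃ Fin D) (w : ℕ) (f : ι → ℤ) :
    pkz w (ext e f) D = ∑ σ, f σ * 2 ^ (w * (e σ : ℕ)) := by
  rw [pkz, sum_ext e f (fun i => 2 ^ (w * i))]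

/-- column sums `≤ R` ⇒ `ℓ¹` bound ⇒ entries of `N^k f0` -/
theorem abs_pow_mulVec_le [DecidableEq ι] (N : Matrix ι ι ℤ) (R : ℤ) (hR0 : 0 ≤ R)
    (hR : ∀ σ, ∑ τ, |N τ σ| ≤ R) (f : ι → ℤ) (k : ℕ) :
    ∑ σ, |((N ^ k).mulVec f) σ| ≤ R ^ k * ∑ σ, |f σ| := by
  induction k with
  | zero => simp
  | succ k ih =>
    rw [pow_succ', ← Matrix.mulVec_mulVec]
    set g := (N ^ k).mulVec f with hg
    calc ∑ τ, |(N.mulVec g) τ| ≤ ∑ τ, ∑ σ, |N τ σ| * |g σ| := by
          apply sum_le_sum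
          intro τ _
          rw [Matrix.mulVec, dotProduct]
          refine (abs_sum_le_sum_abs _ _).trans (le_of_eq ?_)
          apply sum_congr rfl
          intro σ _
          rw [abs_mul]
      _ = ∑ σ, (∑ τ, |N τ σ|) * |g σ| := by
          rw [sum_comm]
          apply sum_congr rfl
          intro σ _
          rw [sum_mul]
      _ ≤ ∑ σ, R * |g σ| := by
          apply sum_le_sum
          intro σ _
          exact mul_le_mul_of_nonneg_right (hR σ) (abs_nonneg _)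
      _ = R * ∑ σ, |g σ| := by rw [mul_sum]
      _ ≤ R * (R ^ k * ∑ σ, |f σ|) := mul_le_mul_of_nonneg_left ih hR0
      _ = R ^ (k + 1) * ∑ σ, |f σ| := by ring

theorem startPk_eq (w D : ℕ) (starts : List ℕ) (h : ∀ i ∈ starts, i < D) :
    startPk w starts = pk w (fun i => starts.count i) D := by
  induction starts with
  | nil => simp [startPk, pk]
  | cons a l ih =>
    rw [startPk, ih fun i hi => h i (List.mem_cons_of_mem _ hi), pk, pk]
    have ha : a ∈ range D := mem_range.mpr (h a List.mem_cons_self)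
    have : ∀ i ∈ range D, (a :: l).count i * 2 ^ (w * i) =
        l.count i * 2 ^ (w * i) + (if i = a then 2 ^ (w * a) else 0) := by
      intro i _
      rw [List.count_cons]
      by_cases hi : i = a
      · subst hi; simp [add_mul]
      · have hi' : ¬ (a == i) = true := by simpa using fun h => hi h.symm
        simp [hi, hi']
    rw [sum_congr rfl this, sum_add_distrib, sum_ite_eq' _ _ _, if_pos ha]
    ring

theorem sum_count (D : ℕ) (starts : List ℕ) (h : ∀ i ∈ starts, i < D) :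
    ∑ i ∈ range D, starts.count i = starts.length := by
  have h1 := startPk_eq 0 D starts h
  have h2 : startPk 0 starts = starts.length := by
    clear h1 h
    induction starts with
    | nil => rfl
    | cons a l ih => rw [startPk, ih]; simp; ring
  rw [h2] at h1
  rw [h1, pk]
  simp

theorem rdOut_val {w : ℕ} {f : ℕ → ℤ} {D : ℕ} (hf : InR w f D)
    (htb : ∀ i < D, (f i + 2 ^ (w - 1)).toNat < 2 ^ w) (hw : 0 < w)
    (reads : List (ℕ × ℕ × ℕ)) (hrd : ∀ p ∈ reads, ∃ i < D, p.1 = w * i) :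
    ((rdOut (2 ^ w) (enc w f D) reads : ℕ) : ℤ) =
      (reads.map fun p => (p.2.1 : ℤ) * (2 ^ (w - 1) + f (p.1 / w)) * 2 ^ p.2.2).sum := by
  induction reads with
  | nil => rfl
  | cons p l ih =>
    have ih' := ih fun q hq => hrd q (List.mem_cons_of_mem _ hq)
    obtain ⟨i, hi, hp⟩ := hrd p List.mem_cons_self
    rw [rdOut_cons, Nat.cast_add, ih', List.map_cons, List.sum_cons]
    congr 1
    rw [Nat.shiftLeft_eq, hp, enc, read_pk htb hi, Nat.mul_div_cancel_left _ hw]
    rw [Nat.cast_mul, Nat.cast_mul, Int.toNat_of_nonneg (by have := (hf i hi).1; linarith)]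
    push_cast
    ring

/-- Main semantic theorem of the run. `starts` = indices `< D`;
`f0 σ = number of occurrences of e σ in starts`. -/
theorem runN_eq [DecidableEq ι] {D : ℕ} (e : ι ≃ Fin D) (N : Matrix ι ι ℤ) {w wo : ℕ}
    {fs : List (List Bool)} {o : OpData}
    (g : o.Good w fs) (hD : o.D = D)
    (hcol : ∀ σ, ∑ τ, N τ σ * 2 ^ (w * (e τ : ℕ)) = posCol w o (e σ) - negCol w o (e σ))
    {R : ℕ} (hR : ∀ σ, ∑ τ, |N τ σ| ≤ R) {K : ℕ} {starts : List ℕ} (hst : ∀ i ∈ starts, i < D)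
    (hR1 : 1 ≤ R) (hb : R ^ K * starts.length < 2 ^ (w - 1))
    {reads : List (ℕ × ℕ × ℕ)} (hrd : ∀ p ∈ reads, ∃ i < D, p.1 = w * i) :
    ((runN w wo fs o starts reads K : ℕ) : ℤ) =
      ∑ k ∈ range (K + 1), (reads.map fun p => (p.2.1 : ℤ) *
        (2 ^ (w - 1) + ext e ((N ^ k).mulVec fun σ => (starts.count (e σ : ℕ) : ℤ)) (p.1 / w)) *
          2 ^ p.2.2).sum * 2 ^ (wo * (K - k)) := by
  subst hD
  have hw := g.wpos
  set f0 : ι → ℤ := fun σ => (starts.count (e σ : ℕ) : ℤ) with hf0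
  set vf : ℕ → ℕ → ℤ := fun k => ext e ((N ^ k).mulVec f0) with hvf
  -- the starting ℓ¹ norm
  have hl1 : ∑ σ, |f0 σ| = starts.length := by
    have h1 : ∑ σ, |f0 σ| = ∑ σ, f0 σ * 1 := by
      apply sum_congr rfl
      intro σ _
      rw [hf0, abs_of_nonneg (by positivity), mul_one]
    have h3 : ∀ i ∈ range o.D, ext e f0 i * 1 = ((starts.count i : ℕ) : ℤ) := by
      intro i hi
      rw [mem_range] at hi
      rw [ext, dif_pos hi, hf0]
      simp
    rw [h1, ← sum_ext e f0 (fun _ => 1), sum_congr rfl h3, ← Nat.cast_sum, sum_count _ _ hst]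
  have hRz : (1 : ℤ) ≤ R := by exact_mod_cast hR1
  -- range of the vectors
  have hin : ∀ k ≤ K, InR w (vf k) o.D := by
    intro k hk i hi
    have h1 := abs_pow_mulVec_le N R (by linarith) hR f0 k
    rw [hl1] at h1
    have h2 : |vf k i| ≤ ∑ σ, |((N ^ k).mulVec f0) σ| := by
      rw [hvf]
      simp only [ext, dif_pos hi]
      exact single_le_sum (f := fun σ => |((N ^ k).mulVec f0) σ|) (fun σ _ => abs_nonneg _) (mem_univ _)
    have h3 : (R : ℤ) ^ k * starts.length ≤ (R : ℤ) ^ K * starts.length :=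
      mul_le_mul_of_nonneg_right (pow_le_pow_right₀ hRz hk) (by positivity)
    have h4 : (R : ℤ) ^ K * starts.length < 2 ^ (w - 1) := by exact_mod_cast hb
    have h5 : |vf k i| < 2 ^ (w - 1) := by linarith
    rw [abs_lt] at h5
    exact ⟨le_of_lt h5.1, h5.2⟩
  have h2w : (2 : ℤ) ^ w = 2 ^ (w - 1) + 2 ^ (w - 1) := by
    obtain ⟨k, rfl⟩ : ∃ k, w = k + 1 := ⟨w - 1, by omega⟩
    simp [pow_succ]; ring
  have htb : ∀ k ≤ K, ∀ i < o.D, (vf k i + 2 ^ (w - 1)).toNat < 2 ^ w := by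
    intro k hk i hi
    have h1 := hin k hk i hi
    have : ((((vf k i + 2 ^ (w - 1)).toNat : ℕ)) : ℤ) < ((2 ^ w : ℕ) : ℤ) := by
      rw [Int.toNat_of_nonneg (by linarith [h1.1])]; push_cast; rw [h2w]; linarith [h1.2]
    exact_mod_cast this
  set H := rep w fs * 2 ^ (w - 1) with hH
  set o1 := sumL H (hopsL w o.nup) + sumR H (hopsR w o.ndn) + H with ho1
  set o2 := sumL H (hopsL w o.up ++ planes w (rep w fs) (dgPk w o.dg) o.np) + sumR H (hopsR w o.dn) with ho2
  have hstep : ∀ k < K, stepN (hopsL w o.up ++ planes w (rep w fs) (dgPk w o.dg) o.np) (hopsR w o.dn)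
      (hopsL w o.nup) (hopsR w o.ndn) o1 o2 (enc w (vf k) o.D) = enc w (vf (k + 1)) o.D := by
    intro k hk
    apply stepN_eq g (hin k (by omega)) (hin (k + 1) (by omega)) _ hH ho1 ho2
    rw [hvf]
    simp only
    rw [pkz_ext, sum_ext e _ (fun i => posCol w o i - negCol w o i), pow_succ', ← Matrix.mulVec_mulVec]
    set gk := (N ^ k).mulVec f0
    calc ∑ τ, (N.mulVec gk) τ * 2 ^ (w * (e τ : ℕ))
        = ∑ τ, ∑ σ, gk σ * (N τ σ * 2 ^ (w * (e τ : ℕ))) := by
          apply sum_congr rfl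
          intro τ _
          rw [Matrix.mulVec, dotProduct, sum_mul]
          apply sum_congr rfl
          intro σ _
          ring
      _ = ∑ σ, gk σ * (posCol w o (e σ) - negCol w o (e σ)) := by
          rw [sum_comm]
          apply sum_congr rfl
          intro σ _
          rw [← mul_sum, hcol]
  have hstart : H + startPk w starts = enc w (vf 0) o.D := by
    rw [startPk_eq w o.D starts hst, hH, rep_eq, g.fullD, enc, pk, pk, pk, sum_mul, ← sum_add_distrib]
    apply sum_congr rfl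
    intro i hi
    rw [mem_range] at hi
    rw [if_pos (g.full i hi)]
    have e1 : vf 0 i = ((starts.count i : ℕ) : ℤ) := by
      rw [hvf]
      simp only [pow_zero, Matrix.one_mulVec, ext, dif_pos hi, hf0]
      simp
    have e2 : (vf 0 i + 2 ^ (w - 1)).toNat = starts.count i + 2 ^ (w - 1) := by
      rw [e1]
      have : ((starts.count i : ℕ) : ℤ) + 2 ^ (w - 1) = ((starts.count i + 2 ^ (w - 1) : ℕ) : ℤ) := by
        push_cast; ring
      rw [this, Int.toNat_natCast]
    rw [e2]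
    ring
  have hrun : runN w wo fs o starts reads K =
      loopN (hopsL w o.up ++ planes w (rep w fs) (dgPk w o.dg) o.np) (hopsR w o.dn)
        (hopsL w o.nup) (hopsR w o.ndn) o1 o2 (2 ^ w) wo reads K (enc w (vf 0) o.D) 0 := by
    unfold runN
    simp only [force_eq, forceL_eq]
    rw [← hstart]
    rfl
  have hl := loopN_eq (hopsL w o.up ++ planes w (rep w fs) (dgPk w o.dg) o.np) (hopsR w o.dn)
        (hopsL w o.nup) (hopsR w o.ndn) o1 o2 (2 ^ w) wo reads (fun k => enc w (vf k) o.D) K 0 0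
        (fun j hj => by simpa using hstep j hj)
  simp only [zero_mul, zero_add] at hl
  rw [hrun, hl]
  push_cast
  apply sum_congr rfl
  intro k hk
  rw [mem_range] at hk
  rw [rdOut_val (hin k (by omega)) (htb k (by omega)) hw reads hrd]

end Hald
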