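import Crest.Agent.Hald.JointLimit

/-!
# Row 347, M9c chunk A: rational checker for the α–ω Cauchy–Schwarz bounds

`EJ V κ α ω S X B`: abstract facts at one inverse temperature.  All sequences are scaled; intervals for
`S k (k<11), X k (k<10), B k (k<9)` are given as lists of pairs of rationals.
A piece = an interval `[va, vb]` of possible values of `V` together with polynomials `q, p1, p2` (lists of
rational coefficients, constant term first) and a rational lower bound `a` of `α` on the piece.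

PROOF of `chkLo_sound`: `l := κ vb ≥ κ V`.  `f = (C l - X) q²` is ≥ 0 on `[-l,l]`, so
`α² (l - V) q(V)² ≤ mom S f`, i.e. `N ≤ -mom S f ≤ α² (V-l) q(V)² ≤ α² (vb-l) qU²`, and `a² (vb-l) qU² ≤ N`
gives `a ≤ α`  (if `N > 0`; then `(vb-l) qU² > 0`).  Put `x = α p1(V) ≥ xlo = a·evL p1`, `y = ω p2(V)`.
`x² ≤ s`, `y² ≤ b` and `(m' - x y)² ≤ (s' - x²)(b' - y²)` with `s' ≤ s, b' ≤ b, m ≤ m'`.
If `s < xlo²`: contradiction.  Otherwise suppose `ω < w`; then `0 ≤ y < y₀ = w·evU p2`;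
`x y ≤ m x²/s ≤ m` (from `s y₀ ≤ m xlo`), so `(m - xy)² ≤ (s-x²)(b-y²)`, i.e. `F(x,y) ≤ 0` for
`F(x,y) = b x² - 2 m x y + s y² - (s b - m²)`; but
`F(x,y) - F(xlo,y) = (x-xlo)(b(x+xlo) - 2my) ≥ 0`, `F(xlo,y) - F(xlo,y₀) = (y₀-y)(2 m xlo - s(y+y₀)) ≥ 0`.
`chkUp_sound`: similarly with `m' ≤ m`: suppose `ω > w`, `y > y₁ = w·evL p2`, `m ≤ xlo y₁` so
`(xy - m)² ≤ (s-x²)(b-y²)`; `F(x,y) - F(xlo,y) = (x-xlo)(b(x+xlo)-2my) ≥ 0` because `y ≤ √b`,
`m² ≤ xlo² b`; `F(xlo,y) - F(xlo,y₁) = (y-y₁)(s(y+y₁) - 2 m xlo) ≥ 0`.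
-/

set_option autoImplicit false

namespace Hald

/-- abstract facts (one inverse temperature) -/
structure EJ (V κ α ω : ℝ) (S X B : ℕ → ℝ) : Prop where
  one_le_V : 1 ≤ V
  α_nonneg : 0 ≤ α
  ω_nonneg : 0 ≤ ω
  strip : ∀ (f : Polynomial ℝ) (l : ℝ), κ * V ≤ l → (∀ x : ℝ, |x| ≤ l → 0 ≤ f.eval x) →
    α ^ 2 * f.eval V ≤ mom S f
  stripV : ∀ f : Polynomial ℝ, (∀ x : ℝ, |x| ≤ V → 0 ≤ f.eval x) → α ^ 2 * f.eval V ≤ mom S f
  open_ : ∀ f : Polynomial ℝ, (∀ x : ℝ, |x| ≤ V → 0 ≤ f.eval x) → ω ^ 2 * f.eval V ≤ mom B f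
  cs : ∀ p₁ p₂ : Polynomial ℝ, (mom X (p₁ * p₂) - α * ω * p₁.eval V * p₂.eval V) ^ 2 ≤
    (mom S (p₁ * p₁) - α ^ 2 * p₁.eval V ^ 2) * (mom B (p₂ * p₂) - ω ^ 2 * p₂.eval V ^ 2)

namespace Pc

/-- sum of list polynomials -/
def addL : List ℚ → List ℚ → List ℚ
  | [], q => q
  | a :: p, [] => a :: p
  | a :: p, b :: q => (a + b) :: addL p q

/-- product of list polynomials -/
def mulL : List ℚ → List ℚ → List ℚ
  | [], _ => []
  | a :: p, q => addL (q.map (a * ·)) (0 :: mulL p q)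

/-- upper bound of `∑ c_k m_k` for `m_k ∈ [lo_k, hi_k]`; the polynomial must not be longer than the list -/
def upL : List ℚ → List (ℚ × ℚ) → ℚ
  | c :: p, d :: ds => (if 0 ≤ c then c * d.2 else c * d.1) + upL p ds
  | _, _ => 0

/-- lower bound of `∑ c_k m_k` -/
def loL : List ℚ → List (ℚ × ℚ) → ℚ
  | c :: p, d :: ds => (if 0 ≤ c then c * d.1 else c * d.2) + loL p ds
  | _, _ => 0

/-- upper bound of `p(v)` for `0 ≤ a ≤ v ≤ b`; `pa, pb` = current powers -/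
def evU (a b : ℚ) : List ℚ → ℚ → ℚ → ℚ
  | [], _, _ => 0
  | c :: p, pa, pb => (if 0 ≤ c then c * pb else c * pa) + evU a b p (pa * a) (pb * b)

/-- lower bound of `p(v)` -/
def evL (a b : ℚ) : List ℚ → ℚ → ℚ → ℚ
  | [], _, _ => 0
  | c :: p, pa, pb => (if 0 ≤ c then c * pa else c * pb) + evL a b p (pa * a) (pb * b)

/-- common part: `a` is a lower bound of `α` on the piece `[va, vb]` -/
def chkA (κ : ℚ) (S : List (ℚ × ℚ)) (va vb a : ℚ) (q : List ℚ) : Bool :=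
  let l := κ * vb
  let N := loL (mulL [-l, 1] (mulL q q)) S
  let qU := evU va vb q 1 1
  decide (0 < κ) && decide (κ < 1) && decide (1 ≤ va) && decide (va ≤ vb) && decide (0 ≤ a) && decide (0 < N) &&
  decide (0 ≤ evL va vb q 1 1) && decide (a ^ 2 * ((vb - l) * qU ^ 2) ≤ N) &&
  Nat.ble (mulL [-l, 1] (mulL q q)).length S.length

/-- lower bound `w ≤ ω` on the piece -/
def chkLo (κ w : ℚ) (S X B : List (ℚ × ℚ)) (va vb a : ℚ) (q p1 p2 : List ℚ) : Bool :=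
  let s := upL (mulL p1 p1) S
  let b := upL (mulL p2 p2) B
  let m := loL (mulL p1 p2) X
  let xlo := a * evL va vb p1 1 1
  let y := w * evU va vb p2 1 1
  chkA κ S va vb a q && decide (0 < xlo) && decide (0 ≤ w) && decide (0 ≤ evL va vb p2 1 1) &&
  Nat.ble (mulL p1 p1).length S.length && Nat.ble (mulL p2 p2).length B.length &&
  Nat.ble (mulL p1 p2).length X.length &&
  (decide (s < xlo ^ 2) || (decide (0 < m) && decide (s * y ≤ m * xlo) && decide (m * y ≤ b * xlo) &&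
    decide (0 < b * xlo ^ 2 - 2 * m * xlo * y + s * y ^ 2 - (s * b - m ^ 2))))

/-- upper bound `ω ≤ w` on the piece -/
def chkUp (κ w : ℚ) (S X B : List (ℚ × ℚ)) (va vb a : ℚ) (q p1 p2 : List ℚ) : Bool :=
  let s := upL (mulL p1 p1) S
  let b := upL (mulL p2 p2) B
  let m := upL (mulL p1 p2) X
  let xlo := a * evL va vb p1 1 1
  let y := w * evL va vb p2 1 1
  chkA κ S va vb a q && decide (0 < xlo) && decide (0 ≤ w) && decide (0 < evL va vb p2 1 1) &&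
  Nat.ble (mulL p1 p1).length S.length && Nat.ble (mulL p2 p2).length B.length &&
  Nat.ble (mulL p1 p2).length X.length &&
  (decide (s < xlo ^ 2) || decide (b < y ^ 2) ||
    (decide (0 < m) && decide (m ≤ xlo * y) && decide (m ^ 2 ≤ xlo ^ 2 * b) && decide (m * xlo ≤ s * y) &&
    decide (m * y ≤ b * xlo) && decide (0 < b * xlo ^ 2 - 2 * m * xlo * y + s * y ^ 2 - (s * b - m ^ 2))))

/-- exclusion of `va < V ≤ vb`: `P = (va - x)(l - x) q²`, `l = κ vb` (`l ≤ va`) -/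
def chkV (κ : ℚ) (S : List (ℚ × ℚ)) (va vb : ℚ) (q : List ℚ) : Bool :=
  let l := κ * vb
  decide (0 < κ) && decide (l ≤ va) &&
  Nat.ble (mulL (mulL [va, -1] [l, -1]) (mulL q q)).length S.length &&
  decide (upL (mulL (mulL [va, -1] [l, -1]) (mulL q q)) S < 0)

/-- the real sequence `m` lies in the intervals -/
def InL (m : ℕ → ℝ) (L : List (ℚ × ℚ)) : Prop :=
  ∀ k (h : k < L.length), ((L[k].1 : ℚ) : ℝ) ≤ m k ∧ m k ≤ ((L[k].2 : ℚ) : ℝ)

/-! ### semantics of list polynomials -/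

/-- the real polynomial of a list of rational coefficients -/
noncomputable def toP : List ℚ → Polynomial ℝ
  | [] => 0
  | c :: p => Polynomial.C (c : ℝ) + Polynomial.X * toP p

theorem toP_addL : ∀ p q : List ℚ, toP (addL p q) = toP p + toP q
  | [], q => by simp [addL, toP]
  | a :: p, [] => by simp [addL, toP]
  | a :: p, b :: q => by
      simp only [addL, toP, toP_addL p q, Rat.cast_add, Polynomial.C_add]
      ring

theorem toP_map (a : ℚ) : ∀ q : List ℚ, toP (q.map (a * ·)) = Polynomial.C (a : ℝ) * toP q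
  | [] => by simp [toP]
  | b :: q => by
      simp only [List.map_cons, toP, toP_map a q, Rat.cast_mul, Polynomial.C_mul]
      ring

theorem toP_mulL : ∀ p q : List ℚ, toP (mulL p q) = toP p * toP q
  | [], q => by simp [mulL, toP]
  | a :: p, q => by
      simp only [mulL, toP_addL, toP_map, toP, toP_mulL p q, Rat.cast_zero, Polynomial.C_0]
      ring

theorem mom_X_mul (m : ℕ → ℝ) (f : Polynomial ℝ) :
    mom m (Polynomial.X * f) = mom (fun k => m (k + 1)) f := by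
  induction f using Polynomial.induction_on' with
  | add p q hp hq => rw [mul_add, map_add, map_add, hp, hq]
  | monomial k c =>
    rw [mom_monomial, Polynomial.X_mul_monomial, mom_monomial]

theorem mom_cons (m : ℕ → ℝ) (c : ℚ) (p : List ℚ) :
    mom m (toP (c :: p)) = (c : ℝ) * m 0 + mom (fun k => m (k + 1)) (toP p) := by
  rw [toP, map_add, mom_X_mul]
  congr 1
  have := mom_C_mul_X_pow m 0 (c : ℝ)
  rwa [pow_zero, mul_one] at this

theorem InL.tail {m : ℕ → ℝ} {d : ℚ × ℚ} {L : List (ℚ × ℚ)} (h : InL m (d :: L)) :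
    InL (fun k => m (k + 1)) L := by
  intro k hk
  have := h (k + 1) (by simpa using hk)
  simpa using this

theorem InL.head {m : ℕ → ℝ} {d : ℚ × ℚ} {L : List (ℚ × ℚ)} (h : InL m (d :: L)) :
    ((d.1 : ℚ) : ℝ) ≤ m 0 ∧ m 0 ≤ ((d.2 : ℚ) : ℝ) := by
  have := h 0 (by simp)
  simpa using this

theorem mom_le_upL : ∀ (p : List ℚ) (L : List (ℚ × ℚ)) (m : ℕ → ℝ), InL m L →
    p.length ≤ L.length → mom m (toP p) ≤ ((upL p L : ℚ) : ℝ)
  | [], L, m, _, _ => by simp [toP, upL]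
  | c :: p, [], m, _, h => by simp at h
  | c :: p, d :: L, m, hm, h => by
      have ih := mom_le_upL p L _ hm.tail (by simpa using h)
      obtain ⟨h1, h2⟩ := hm.head
      rw [mom_cons, upL, Rat.cast_add]
      refine add_le_add ?_ ih
      split_ifs with hc
      · rw [Rat.cast_mul]
        exact mul_le_mul_of_nonneg_left h2 (by exact_mod_cast hc)
      · rw [Rat.cast_mul]
        have hc' : (c : ℝ) ≤ 0 := by exact_mod_cast (not_le.1 hc).le
        exact mul_le_mul_of_nonpos_left h1 hc'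

theorem loL_le_mom : ∀ (p : List ℚ) (L : List (ℚ × ℚ)) (m : ℕ → ℝ), InL m L →
    p.length ≤ L.length → ((loL p L : ℚ) : ℝ) ≤ mom m (toP p)
  | [], L, m, _, _ => by simp [toP, loL]
  | c :: p, [], m, _, h => by simp at h
  | c :: p, d :: L, m, hm, h => by
      have ih := loL_le_mom p L _ hm.tail (by simpa using h)
      obtain ⟨h1, h2⟩ := hm.head
      rw [mom_cons, loL, Rat.cast_add]
      refine add_le_add ?_ ih
      split_ifs with hc
      · rw [Rat.cast_mul]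
        exact mul_le_mul_of_nonneg_left h1 (by exact_mod_cast hc)
      · rw [Rat.cast_mul]
        have hc' : (c : ℝ) ≤ 0 := by exact_mod_cast (not_le.1 hc).le
        exact mul_le_mul_of_nonpos_left h2 hc'

theorem evU_ge {a b : ℚ} {V : ℝ} (ha : 0 ≤ a) (h1 : (a : ℝ) ≤ V) (h2 : V ≤ b) :
    ∀ (p : List ℚ) (pa pb : ℚ) (z : ℝ), 0 ≤ pa → (pa : ℝ) ≤ z → z ≤ pb →
      z * (toP p).eval V ≤ ((evU a b p pa pb : ℚ) : ℝ)
  | [], pa, pb, z, _, _, _ => by simp [toP, evU]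
  | c :: p, pa, pb, z, h0, hz1, hz2 => by
      have ha' : (0 : ℝ) ≤ a := by exact_mod_cast ha
      have h0' : (0 : ℝ) ≤ pa := by exact_mod_cast h0
      have hz0 : 0 ≤ z := le_trans h0' hz1
      have hV0 : 0 ≤ V := le_trans ha' h1
      have ih := evU_ge ha h1 h2 p (pa * a) (pb * b) (z * V) (mul_nonneg h0 ha)
        (by rw [Rat.cast_mul]; exact mul_le_mul hz1 h1 ha' hz0)
        (by rw [Rat.cast_mul]; exact mul_le_mul hz2 h2 hV0 (le_trans hz0 hz2))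
      rw [toP, evU, Rat.cast_add, Polynomial.eval_add, Polynomial.eval_mul, Polynomial.eval_X,
        Polynomial.eval_C]
      have e : z * ((c : ℝ) + V * (toP p).eval V) = z * c + z * V * (toP p).eval V := by ring
      rw [e]
      refine add_le_add ?_ ih
      split_ifs with hc
      · rw [Rat.cast_mul, mul_comm]
        exact mul_le_mul_of_nonneg_left hz2 (by exact_mod_cast hc)
      · rw [Rat.cast_mul, mul_comm]
        have hc' : (c : ℝ) ≤ 0 := by exact_mod_cast (not_le.1 hc).le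
        exact mul_le_mul_of_nonpos_left hz1 hc'

theorem evL_le {a b : ℚ} {V : ℝ} (ha : 0 ≤ a) (h1 : (a : ℝ) ≤ V) (h2 : V ≤ b) :
    ∀ (p : List ℚ) (pa pb : ℚ) (z : ℝ), 0 ≤ pa → (pa : ℝ) ≤ z → z ≤ pb →
      ((evL a b p pa pb : ℚ) : ℝ) ≤ z * (toP p).eval V
  | [], pa, pb, z, _, _, _ => by simp [toP, evL]
  | c :: p, pa, pb, z, h0, hz1, hz2 => by
      have ha' : (0 : ℝ) ≤ a := by exact_mod_cast ha
      have h0' : (0 : ℝ) ≤ pa := by exact_mod_cast h0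
      have hz0 : 0 ≤ z := le_trans h0' hz1
      have hV0 : 0 ≤ V := le_trans ha' h1
      have ih := evL_le ha h1 h2 p (pa * a) (pb * b) (z * V) (mul_nonneg h0 ha)
        (by rw [Rat.cast_mul]; exact mul_le_mul hz1 h1 ha' hz0)
        (by rw [Rat.cast_mul]; exact mul_le_mul hz2 h2 hV0 (le_trans hz0 hz2))
      rw [toP, evL, Rat.cast_add, Polynomial.eval_add, Polynomial.eval_mul, Polynomial.eval_X,
        Polynomial.eval_C]
      have e : z * ((c : ℝ) + V * (toP p).eval V) = z * c + z * V * (toP p).eval V := by ring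
      rw [e]
      refine add_le_add ?_ ih
      split_ifs with hc
      · rw [Rat.cast_mul, mul_comm z]
        exact mul_le_mul_of_nonneg_left hz1 (by exact_mod_cast hc)
      · rw [Rat.cast_mul, mul_comm z]
        have hc' : (c : ℝ) ≤ 0 := by exact_mod_cast (not_le.1 hc).le
        exact mul_le_mul_of_nonpos_left hz2 hc'

theorem evU_ge1 {a b : ℚ} {V : ℝ} (ha : 0 ≤ a) (h1 : (a : ℝ) ≤ V) (h2 : V ≤ b) (p : List ℚ) :
    (toP p).eval V ≤ ((evU a b p 1 1 : ℚ) : ℝ) := by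
  have := evU_ge ha h1 h2 p 1 1 1 zero_le_one (by simp) (by simp)
  rwa [one_mul] at this

theorem evL_le1 {a b : ℚ} {V : ℝ} (ha : 0 ≤ a) (h1 : (a : ℝ) ≤ V) (h2 : V ≤ b) (p : List ℚ) :
    ((evL a b p 1 1 : ℚ) : ℝ) ≤ (toP p).eval V := by
  have := evL_le ha h1 h2 p 1 1 1 zero_le_one (by simp) (by simp)
  rwa [one_mul] at this

/-! ### the real inequalities -/

theorem F_pos_lo {s b m x y x0 y0 s' b' m' : ℝ} (hx : x ^ 2 ≤ s') (hs : s' ≤ s) (hy : y ^ 2 ≤ b')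
    (hb : b' ≤ b) (hm : m ≤ m') (hc : (m' - x * y) ^ 2 ≤ (s' - x ^ 2) * (b' - y ^ 2))
    (hx0 : 0 < x0) (hxx : x0 ≤ x) (hy0 : 0 ≤ y) (hyy : y ≤ y0)
    (h1 : 0 < m) (h2 : s * y0 ≤ m * x0) (h3 : m * y0 ≤ b * x0)
    (h4 : 0 < b * x0 ^ 2 - 2 * m * x0 * y0 + s * y0 ^ 2 - (s * b - m ^ 2)) : False := by
  have hx1 : 0 < x := hx0.trans_le hxx
  have hs0 : 0 ≤ s := (sq_nonneg x).trans (hx.trans hs)
  have hb0 : 0 ≤ b := (sq_nonneg y).trans (hy.trans hb)
  have hsy : s * y ≤ s * y0 := mul_le_mul_of_nonneg_left hyy hs0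
  have hmx : m * x0 ≤ m * x := mul_le_mul_of_nonneg_left hxx h1.le
  -- x y ≤ m
  have hxy : x * y ≤ m := by
    have e1 : x ^ 2 * y ≤ s * y := mul_le_mul_of_nonneg_right (hx.trans hs) hy0
    have e2 : x * (x * y) ≤ x * m := by nlinarith
    exact le_of_mul_le_mul_left e2 hx1
  have hc1 : (m - x * y) ^ 2 ≤ (m' - x * y) ^ 2 := by
    apply pow_le_pow_left₀ (by linarith) (by linarith)
  have hc2 : (s' - x ^ 2) * (b' - y ^ 2) ≤ (s - x ^ 2) * (b - y ^ 2) :=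
    mul_le_mul (by linarith) (by linarith) (by linarith) (by linarith)
  have hF : b * x ^ 2 - 2 * m * x * y + s * y ^ 2 - (s * b - m ^ 2) ≤ 0 := by
    nlinarith
  have hbx : b * x0 ≤ b * x := mul_le_mul_of_nonneg_left hxx hb0
  have hmy : m * y ≤ m * y0 := mul_le_mul_of_nonneg_left hyy h1.le
  have d1 : 0 ≤ (x - x0) * (b * (x + x0) - 2 * m * y) := by
    apply mul_nonneg (by linarith)
    nlinarith
  have d2 : 0 ≤ (y0 - y) * (2 * m * x0 - s * (y + y0)) := by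
    apply mul_nonneg (by linarith)
    nlinarith
  nlinarith

theorem F_pos_up {s b m x y x0 y0 s' b' m' : ℝ} (hx : x ^ 2 ≤ s') (hs : s' ≤ s) (hy : y ^ 2 ≤ b')
    (hb : b' ≤ b) (hm : m' ≤ m) (hc : (m' - x * y) ^ 2 ≤ (s' - x ^ 2) * (b' - y ^ 2))
    (hx0 : 0 < x0) (hxx : x0 ≤ x) (hy0 : 0 ≤ y0) (hyy : y0 ≤ y)
    (h1 : 0 < m) (h2 : m ≤ x0 * y0) (h3 : m ^ 2 ≤ x0 ^ 2 * b) (h4 : m * x0 ≤ s * y0)
    (h5 : 0 < b * x0 ^ 2 - 2 * m * x0 * y0 + s * y0 ^ 2 - (s * b - m ^ 2)) : False := by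
  have hx1 : 0 < x := hx0.trans_le hxx
  have hy1 : 0 ≤ y := hy0.trans hyy
  have hs0 : 0 ≤ s := (sq_nonneg x).trans (hx.trans hs)
  have hb0 : 0 ≤ b := (sq_nonneg y).trans (hy.trans hb)
  have hxy : m ≤ x * y := h2.trans (mul_le_mul hxx hyy hy0 hx1.le)
  have hc1 : (x * y - m) ^ 2 ≤ (x * y - m') ^ 2 := by
    apply pow_le_pow_left₀ (by linarith) (by linarith)
  have hc3 : (x * y - m') ^ 2 = (m' - x * y) ^ 2 := by ring
  have hc2 : (s' - x ^ 2) * (b' - y ^ 2) ≤ (s - x ^ 2) * (b - y ^ 2) :=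
    mul_le_mul (by linarith) (by linarith) (by linarith) (by linarith)
  have hF : b * x ^ 2 - 2 * m * x * y + s * y ^ 2 - (s * b - m ^ 2) ≤ 0 := by
    nlinarith
  -- m y ≤ b x0
  have hmy : m * y ≤ b * x0 := by
    have e1 : (m * y) ^ 2 ≤ (b * x0) ^ 2 := by
      have : m ^ 2 * y ^ 2 ≤ (x0 ^ 2 * b) * b :=
        mul_le_mul h3 (hy.trans hb) (sq_nonneg _) (by positivity)
      nlinarith
    exact abs_le_of_sq_le_sq' e1 (by positivity) |>.2
  have hbx : b * x0 ≤ b * x := mul_le_mul_of_nonneg_left hxx hb0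
  have hsy : s * y0 ≤ s * y := mul_le_mul_of_nonneg_left hyy hs0
  have d1 : 0 ≤ (x - x0) * (b * (x + x0) - 2 * m * y) := by
    apply mul_nonneg (by linarith)
    nlinarith
  have d2 : 0 ≤ (y - y0) * (s * (y + y0) - 2 * m * x0) := by
    apply mul_nonneg (by linarith)
    nlinarith
  nlinarith

section

variable {V α ω : ℝ} {κ : ℚ} {S X B : ℕ → ℝ} {LS LX LB : List (ℚ × ℚ)}

theorem chkA_sound (E : EJ V κ α ω S X B) (hS : InL S LS) {va vb a : ℚ} {q : List ℚ}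
    (h : chkA κ LS va vb a q = true) (h1 : (va : ℝ) ≤ V) (h2 : V ≤ vb) :
    (a : ℝ) ≤ α ∧ (0 : ℚ) ≤ va ∧ (0 : ℚ) ≤ a := by
  simp only [chkA, Bool.and_eq_true, decide_eq_true_eq, Nat.ble_eq] at h
  obtain ⟨⟨⟨⟨⟨⟨⟨⟨hk0, hk1⟩, hva⟩, hvv⟩, ha⟩, hN⟩, hq0⟩, hT⟩, hlen⟩ := h
  have hva0 : (0 : ℚ) ≤ va := zero_le_one.trans hva
  refine ⟨?_, hva0, ha⟩
  have hk0' : (0 : ℝ) < κ := by exact_mod_cast hk0
  have hk1' : (κ : ℝ) < 1 := by exact_mod_cast hk1
  have hvb1 : (1 : ℝ) ≤ vb := by exact_mod_cast hva.trans hvv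
  have ha' : (0 : ℝ) ≤ a := by exact_mod_cast ha
  set l : ℝ := (κ : ℝ) * vb with hl
  -- f = (l - X) q²
  have hf := E.strip ((Polynomial.C l - Polynomial.X) * (toP q * toP q)) l
    (mul_le_mul_of_nonneg_left h2 hk0'.le) (by
      intro x hx
      rw [Polynomial.eval_mul, Polynomial.eval_mul, Polynomial.eval_sub, Polynomial.eval_C,
        Polynomial.eval_X]
      exact mul_nonneg (by linarith [(abs_le.1 hx).2]) (mul_self_nonneg _))
  have e1 : (Polynomial.C l - Polynomial.X) * (toP q * toP q) =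
      - toP (mulL [-(κ * vb), 1] (mulL q q)) := by
    rw [toP_mulL, toP_mulL]
    simp only [toP, hl]
    push_cast
    simp only [Polynomial.C_neg, Polynomial.C_mul, Polynomial.C_1]
    ring
  have hN1 := loL_le_mom _ _ _ hS hlen
  have e2 : mom S ((Polynomial.C l - Polynomial.X) * (toP q * toP q)) =
      - mom S (toP (mulL [-(κ * vb), 1] (mulL q q))) := by
    rw [e1, map_neg]
  rw [e2, Polynomial.eval_mul, Polynomial.eval_mul, Polynomial.eval_sub, Polynomial.eval_C,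
    Polynomial.eval_X] at hf
  have hqU := evU_ge1 hva0 h1 h2 q
  have hqL := evL_le1 hva0 h1 h2 q
  have hq0' : (0 : ℝ) ≤ ((evL va vb q 1 1 : ℚ) : ℝ) := by exact_mod_cast hq0
  have hN' : (0 : ℝ) < ((loL (mulL [-(κ * vb), 1] (mulL q q)) LS : ℚ) : ℝ) := by exact_mod_cast hN
  have hT' : (a : ℝ) ^ 2 * (((vb : ℝ) - l) * ((evU va vb q 1 1 : ℚ) : ℝ) ^ 2) ≤
      ((loL (mulL [-(κ * vb), 1] (mulL q q)) LS : ℚ) : ℝ) := by
    rw [hl]; exact_mod_cast hT
  set N : ℝ := ((loL (mulL [-(κ * vb), 1] (mulL q q)) LS : ℚ) : ℝ)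
  set qU : ℝ := ((evU va vb q 1 1 : ℚ) : ℝ)
  set Q : ℝ := (toP q).eval V
  have hQ0 : 0 ≤ Q := hq0'.trans hqL
  have hvl : 0 ≤ (vb : ℝ) - l := by rw [hl]; nlinarith
  -- N ≤ α² (vb - l) qU²
  have hQ2 : Q * Q ≤ qU ^ 2 := by nlinarith
  have hα := E.α_nonneg
  have g1 : N ≤ α ^ 2 * ((V - l) * (Q * Q)) := by nlinarith
  have g2 : (V - l) * (Q * Q) ≤ ((vb : ℝ) - l) * qU ^ 2 := by
    calc (V - l) * (Q * Q) ≤ ((vb : ℝ) - l) * (Q * Q) :=
          mul_le_mul_of_nonneg_right (by linarith) (mul_self_nonneg _)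
      _ ≤ _ := mul_le_mul_of_nonneg_left hQ2 hvl
  have g3 : N ≤ α ^ 2 * (((vb : ℝ) - l) * qU ^ 2) :=
    g1.trans (mul_le_mul_of_nonneg_left g2 (sq_nonneg _))
  have hT0 : 0 ≤ ((vb : ℝ) - l) * qU ^ 2 := mul_nonneg hvl (sq_nonneg _)
  have hTpos : 0 < ((vb : ℝ) - l) * qU ^ 2 := by
    rcases hT0.lt_or_eq with h | h
    · exact h
    · rw [← h, mul_zero] at g3
      linarith
  have g4 : (a : ℝ) ^ 2 ≤ α ^ 2 := le_of_mul_le_mul_right (hT'.trans g3) hTpos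
  exact abs_le_of_sq_le_sq' g4 hα |>.2

/-- common data of the two checks: everything in terms of `x = α p1(V)`, `y = ω p2(V)` -/
theorem base_facts (E : EJ V κ α ω S X B) (hS : InL S LS) (hB : InL B LB)
    {p1 p2 : List ℚ} (hl1 : (mulL p1 p1).length ≤ LS.length) (hl2 : (mulL p2 p2).length ≤ LB.length) :
    (α * (toP p1).eval V) ^ 2 ≤ mom S (toP (mulL p1 p1)) ∧
    mom S (toP (mulL p1 p1)) ≤ ((upL (mulL p1 p1) LS : ℚ) : ℝ) ∧
    (ω * (toP p2).eval V) ^ 2 ≤ mom B (toP (mulL p2 p2)) ∧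
    mom B (toP (mulL p2 p2)) ≤ ((upL (mulL p2 p2) LB : ℚ) : ℝ) ∧
    (mom X (toP (mulL p1 p2)) - (α * (toP p1).eval V) * (ω * (toP p2).eval V)) ^ 2 ≤
      (mom S (toP (mulL p1 p1)) - (α * (toP p1).eval V) ^ 2) *
        (mom B (toP (mulL p2 p2)) - (ω * (toP p2).eval V) ^ 2) := by
  refine ⟨?_, mom_le_upL _ _ _ hS hl1, ?_, mom_le_upL _ _ _ hB hl2, ?_⟩
  · have := E.stripV (toP p1 * toP p1) (fun x _ => by
      rw [Polynomial.eval_mul]; exact mul_self_nonneg _)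
    rw [Polynomial.eval_mul] at this
    rw [toP_mulL]
    nlinarith
  · have := E.open_ (toP p2 * toP p2) (fun x _ => by
      rw [Polynomial.eval_mul]; exact mul_self_nonneg _)
    rw [Polynomial.eval_mul] at this
    rw [toP_mulL]
    nlinarith
  · have := E.cs (toP p1) (toP p2)
    rw [toP_mulL, toP_mulL, toP_mulL]
    rw [mul_pow, mul_pow]
    have e : mom X (toP p1 * toP p2) - (α * (toP p1).eval V) * (ω * (toP p2).eval V) =
      mom X (toP p1 * toP p2) - α * ω * (toP p1).eval V * (toP p2).eval V := by ring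
    rw [e]
    exact this

theorem chkLo_sound (E : EJ V κ α ω S X B) (hS : InL S LS) (hX : InL X LX) (hB : InL B LB)
    {w va vb a : ℚ} {q p1 p2 : List ℚ} (h : chkLo κ w LS LX LB va vb a q p1 p2 = true)
    (h1 : (va : ℝ) ≤ V) (h2 : V ≤ vb) : (w : ℝ) ≤ ω := by
  simp only [chkLo, Bool.and_eq_true, Bool.or_eq_true, decide_eq_true_eq, Nat.ble_eq] at h
  obtain ⟨⟨⟨⟨⟨⟨⟨hA, hx0⟩, hw⟩, hp2⟩, hl1⟩, hl2⟩, hl3⟩, hfin⟩ := h
  obtain ⟨ha, hva0, ha0⟩ := chkA_sound E hS hA h1 h2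
  obtain ⟨f1, f2, f3, f4, f5⟩ := base_facts E hS hB hl1 hl2
  have f6 := loL_le_mom _ _ _ hX hl3
  by_contra hcon
  rw [not_le] at hcon
  have ha0' : (0 : ℝ) ≤ a := by exact_mod_cast ha0
  have hP1 := evL_le1 hva0 h1 h2 p1
  have hP2 := evL_le1 hva0 h1 h2 p2
  have hP2' := evU_ge1 hva0 h1 h2 p2
  have hx0' : (0 : ℝ) < (a : ℝ) * ((evL va vb p1 1 1 : ℚ) : ℝ) := by exact_mod_cast hx0
  have hp2' : (0 : ℝ) ≤ ((evL va vb p2 1 1 : ℚ) : ℝ) := by exact_mod_cast hp2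
  have hw' : (0 : ℝ) ≤ (w : ℝ) := by exact_mod_cast hw
  have hα := E.α_nonneg
  have hω := E.ω_nonneg
  have hP1pos : 0 ≤ ((evL va vb p1 1 1 : ℚ) : ℝ) := by
    by_contra hneg
    rw [not_le] at hneg
    have : (a : ℝ) * ((evL va vb p1 1 1 : ℚ) : ℝ) ≤ 0 := mul_nonpos_of_nonneg_of_nonpos ha0' hneg.le
    linarith
  have hxx : (a : ℝ) * ((evL va vb p1 1 1 : ℚ) : ℝ) ≤ α * (toP p1).eval V :=
    mul_le_mul ha hP1 hP1pos hα
  rcases hfin with hfin | ⟨⟨⟨g1, g2⟩, g3⟩, g4⟩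
  · have hfin' : ((upL (mulL p1 p1) LS : ℚ) : ℝ) < ((a : ℝ) * ((evL va vb p1 1 1 : ℚ) : ℝ)) ^ 2 := by
      exact_mod_cast hfin
    have : ((a : ℝ) * ((evL va vb p1 1 1 : ℚ) : ℝ)) ^ 2 ≤ (α * (toP p1).eval V) ^ 2 :=
      pow_le_pow_left₀ hx0'.le hxx 2
    linarith
  · have hPV0 : 0 ≤ (toP p2).eval V := hp2'.trans hP2
    refine F_pos_lo (x0 := (a : ℝ) * ((evL va vb p1 1 1 : ℚ) : ℝ))
      (y0 := (w : ℝ) * ((evU va vb p2 1 1 : ℚ) : ℝ)) f1 f2 f3 f4 f6 f5 hx0' hxx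
      (mul_nonneg hω hPV0) ?_ ?_ ?_ ?_ ?_
    · exact mul_le_mul hcon.le hP2' hPV0 hw'
    · exact_mod_cast g1
    · exact_mod_cast g2
    · exact_mod_cast g3
    · exact_mod_cast g4

theorem chkUp_sound (E : EJ V κ α ω S X B) (hS : InL S LS) (hX : InL X LX) (hB : InL B LB)
    {w va vb a : ℚ} {q p1 p2 : List ℚ} (h : chkUp κ w LS LX LB va vb a q p1 p2 = true)
    (h1 : (va : ℝ) ≤ V) (h2 : V ≤ vb) : ω ≤ (w : ℝ) := by
  simp only [chkUp, Bool.and_eq_true, Bool.or_eq_true, decide_eq_true_eq, Nat.ble_eq] at h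
  obtain ⟨⟨⟨⟨⟨⟨⟨hA, hx0⟩, hw⟩, hp2⟩, hl1⟩, hl2⟩, hl3⟩, hfin⟩ := h
  obtain ⟨ha, hva0, ha0⟩ := chkA_sound E hS hA h1 h2
  obtain ⟨f1, f2, f3, f4, f5⟩ := base_facts E hS hB hl1 hl2
  have f6 := mom_le_upL _ _ _ hX hl3
  by_contra hcon
  rw [not_le] at hcon
  have ha0' : (0 : ℝ) ≤ a := by exact_mod_cast ha0
  have hP1 := evL_le1 hva0 h1 h2 p1
  have hP2 := evL_le1 hva0 h1 h2 p2
  have hx0' : (0 : ℝ) < (a : ℝ) * ((evL va vb p1 1 1 : ℚ) : ℝ) := by exact_mod_cast hx0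
  have hp2' : (0 : ℝ) < ((evL va vb p2 1 1 : ℚ) : ℝ) := by exact_mod_cast hp2
  have hw' : (0 : ℝ) ≤ (w : ℝ) := by exact_mod_cast hw
  have hα := E.α_nonneg
  have hω := E.ω_nonneg
  have hP1pos : 0 ≤ ((evL va vb p1 1 1 : ℚ) : ℝ) := by
    by_contra hneg
    rw [not_le] at hneg
    have : (a : ℝ) * ((evL va vb p1 1 1 : ℚ) : ℝ) ≤ 0 := mul_nonpos_of_nonneg_of_nonpos ha0' hneg.le
    linarith
  have hxx : (a : ℝ) * ((evL va vb p1 1 1 : ℚ) : ℝ) ≤ α * (toP p1).eval V :=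
    mul_le_mul ha hP1 hP1pos hα
  have hy0 : (0 : ℝ) ≤ (w : ℝ) * ((evL va vb p2 1 1 : ℚ) : ℝ) := mul_nonneg hw' hp2'.le
  have hyy : (w : ℝ) * ((evL va vb p2 1 1 : ℚ) : ℝ) ≤ ω * (toP p2).eval V :=
    mul_le_mul hcon.le hP2 hp2'.le hω
  rcases hfin with (hfin | hfin) | ⟨⟨⟨⟨⟨g1, g2⟩, g3⟩, g4⟩, _⟩, g5⟩
  · have hfin' : ((upL (mulL p1 p1) LS : ℚ) : ℝ) < ((a : ℝ) * ((evL va vb p1 1 1 : ℚ) : ℝ)) ^ 2 := by
      exact_mod_cast hfin
    have : ((a : ℝ) * ((evL va vb p1 1 1 : ℚ) : ℝ)) ^ 2 ≤ (α * (toP p1).eval V) ^ 2 :=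
      pow_le_pow_left₀ hx0'.le hxx 2
    linarith
  · have hfin' : ((upL (mulL p2 p2) LB : ℚ) : ℝ) < ((w : ℝ) * ((evL va vb p2 1 1 : ℚ) : ℝ)) ^ 2 := by
      exact_mod_cast hfin
    have : ((w : ℝ) * ((evL va vb p2 1 1 : ℚ) : ℝ)) ^ 2 ≤ (ω * (toP p2).eval V) ^ 2 :=
      pow_le_pow_left₀ hy0 hyy 2
    linarith
  · refine F_pos_up (x0 := (a : ℝ) * ((evL va vb p1 1 1 : ℚ) : ℝ))
      (y0 := (w : ℝ) * ((evL va vb p2 1 1 : ℚ) : ℝ)) f1 f2 f3 f4 f6 f5 hx0' hxx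
      hy0 hyy ?_ ?_ ?_ ?_ ?_
    · exact_mod_cast g1
    · exact_mod_cast g2
    · exact_mod_cast g3
    · exact_mod_cast g4
    · exact_mod_cast g5

/-- `P ≥ 0` on `[-l,l]` (because `l ≤ va`), `α² P(V) ≤ mom S P < 0`, but `P(V) ≥ 0` for `V > va`. -/
theorem chkV_sound (E : EJ V κ α ω S X B) (hS : InL S LS)
    {va vb : ℚ} {q : List ℚ} (h : chkV κ LS va vb q = true) (h2 : V ≤ vb) : V ≤ va := by
  simp only [chkV, Bool.and_eq_true, decide_eq_true_eq, Nat.ble_eq] at h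
  obtain ⟨⟨⟨hk0, hlv⟩, hlen⟩, hneg⟩ := h
  have hk0' : (0 : ℝ) < κ := by exact_mod_cast hk0
  have hlv' : (κ : ℝ) * vb ≤ va := by exact_mod_cast hlv
  by_contra hcon
  rw [not_le] at hcon
  set l : ℝ := (κ : ℝ) * vb with hl
  have e1 : toP (mulL (mulL [va, -1] [κ * vb, -1]) (mulL q q)) =
      (Polynomial.C (va : ℝ) - Polynomial.X) * (Polynomial.C l - Polynomial.X) *
        (toP q * toP q) := by
    rw [toP_mulL, toP_mulL, toP_mulL]
    simp only [toP, hl]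
    push_cast
    simp only [Polynomial.C_neg, Polynomial.C_mul, Polynomial.C_1]
    ring
  have hf := E.strip ((Polynomial.C (va : ℝ) - Polynomial.X) * (Polynomial.C l - Polynomial.X) *
        (toP q * toP q)) l
    (mul_le_mul_of_nonneg_left h2 hk0'.le) (by
      intro x hx
      rw [Polynomial.eval_mul, Polynomial.eval_mul, Polynomial.eval_mul, Polynomial.eval_sub,
        Polynomial.eval_sub, Polynomial.eval_C, Polynomial.eval_C, Polynomial.eval_X]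
      have := (abs_le.1 hx).2
      exact mul_nonneg (mul_nonneg (by linarith) (by linarith)) (mul_self_nonneg _))
  have hu := mom_le_upL _ _ _ hS hlen
  rw [e1] at hu
  have hneg' : ((upL (mulL (mulL [va, -1] [κ * vb, -1]) (mulL q q)) LS : ℚ) : ℝ) < 0 := by
    exact_mod_cast hneg
  rw [Polynomial.eval_mul, Polynomial.eval_mul, Polynomial.eval_mul, Polynomial.eval_sub,
    Polynomial.eval_sub, Polynomial.eval_C, Polynomial.eval_C, Polynomial.eval_X] at hf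
  have h0 : 0 ≤ α ^ 2 * (((va : ℝ) - V) * (l - V) * ((toP q).eval V * (toP q).eval V)) :=
    mul_nonneg (sq_nonneg _) (mul_nonneg (mul_nonneg_of_nonpos_of_nonpos (by linarith) (by linarith))
      (mul_self_nonneg _))
  linarith

end

/-- a list of pieces covering `[v0, vEnd]`; all pieces in one group share the polynomials.
group = (q, p1, p2, list of (vb, a)); `va` = previous `vb`. -/
def runLo (κ w : ℚ) (S X B : List (ℚ × ℚ)) (q p1 p2 : List ℚ) : ℚ → List (ℚ × ℚ) → Bool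
  | _, [] => true
  | va, (vb, a) :: r => chkLo κ w S X B va vb a q p1 p2 && runLo κ w S X B q p1 p2 vb r

def runUp (κ w : ℚ) (S X B : List (ℚ × ℚ)) (q p1 p2 : List ℚ) : ℚ → List (ℚ × ℚ) → Bool
  | _, [] => true
  | va, (vb, a) :: r => chkUp κ w S X B va vb a q p1 p2 && runUp κ w S X B q p1 p2 vb r

/-- last `vb` of a group -/
def endV : ℚ → List (ℚ × ℚ) → ℚ
  | v, [] => v
  | _, (vb, _) :: r => endV vb r

section

variable {V α ω : ℝ} {κ : ℚ} {S X B : ℕ → ℝ} {LS LX LB : List (ℚ × ℚ)}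

theorem runLo_sound (E : EJ V κ α ω S X B) (hS : InL S LS) (hX : InL X LX) (hB : InL B LB)
    {w va : ℚ} {q p1 p2 : List ℚ} {r : List (ℚ × ℚ)} (h : runLo κ w LS LX LB q p1 p2 va r = true)
    (h1 : (va : ℝ) ≤ V) (h2 : V ≤ endV va r) (hr : r ≠ []) : (w : ℝ) ≤ ω := by
  induction r generalizing va with
  | nil => exact absurd rfl hr
  | cons d r ih =>
    obtain ⟨vb, a⟩ := d
    simp only [runLo, Bool.and_eq_true] at h
    by_cases hV : V ≤ vb
    · exact chkLo_sound E hS hX hB h.1 h1 hV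
    · rw [not_le] at hV
      by_cases hr' : r = []
      · subst hr'
        simp only [endV] at h2
        exact absurd h2 (not_le.2 hV)
      · exact ih h.2 hV.le h2 hr'

theorem runUp_sound (E : EJ V κ α ω S X B) (hS : InL S LS) (hX : InL X LX) (hB : InL B LB)
    {w va : ℚ} {q p1 p2 : List ℚ} {r : List (ℚ × ℚ)} (h : runUp κ w LS LX LB q p1 p2 va r = true)
    (h1 : (va : ℝ) ≤ V) (h2 : V ≤ endV va r) (hr : r ≠ []) : ω ≤ (w : ℝ) := by
  induction r generalizing va with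
  | nil => exact absurd rfl hr
  | cons d r ih =>
    obtain ⟨vb, a⟩ := d
    simp only [runUp, Bool.and_eq_true] at h
    by_cases hV : V ≤ vb
    · exact chkUp_sound E hS hX hB h.1 h1 hV
    · rw [not_le] at hV
      by_cases hr' : r = []
      · subst hr'
        simp only [endV] at h2
        exact absurd h2 (not_le.2 hV)
      · exact ih h.2 hV.le h2 hr'

end

end Pc

end Hald
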