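import Crest.Agent.Hald.EdgeLists

/-!
# Row 347: the pieces: checks of the lower bound of `ω(32)` and of the upper bound of `ω(16)`
(generated by helper24)
-/

set_option autoImplicit false

namespace Hald

open Pc

/-- pieces: `(vb, a)` as integers over `10^5`, `10^6` -/
def mkP (l : List (ℤ × ℤ)) : List (ℚ × ℚ) := l.map fun x => (mkRat x.1 100000, mkRat x.2 1000000)

/-- value of κ at β = 32 -/
def kap32 : ℚ := mkRat (939) 1000
/-- the bound of ω -/
def wb32 : ℚ := mkRat (889) 1000

def q32_0 : List ℚ := [mkRat (1) 10000, mkRat (-9) 250, mkRat (-213) 625, mkRat (-113) 1250, mkRat (2933) 2000]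
def p132_0 : List ℚ := [mkRat (0) 1, mkRat (0) 1, mkRat (-97) 1250, mkRat (63) 250, mkRat (673) 2000, mkRat (977) 2000]
def p232_0 : List ℚ := [mkRat (0) 1, mkRat (1101) 10000, mkRat (-949) 2500, mkRat (-1117) 1000, mkRat (23859) 10000]
def pc32_0 : List (ℤ × ℤ) := [(100002, 1012723), (100004, 1012460), (100006, 1012197), (100008, 1011934), (100010, 1011672), (100012, 1011409)]
theorem chk32_0 : runLo kap32 wb32 LS32 LX32 LB32 q32_0 p132_0 p232_0 (mkRat (1) 1) (mkP pc32_0) = true := by
  decide +kernel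

def q32_1 : List ℚ := [mkRat (1) 10000, mkRat (-181) 5000, mkRat (-1689) 5000, mkRat (-209) 2500, mkRat (3641) 2500]
def p132_1 : List ℚ := [mkRat (0) 1, mkRat (0) 1, mkRat (-97) 1250, mkRat (2519) 10000, mkRat (3363) 10000, mkRat (4883) 10000]
def p232_1 : List ℚ := [mkRat (0) 1, mkRat (11) 100, mkRat (-1897) 5000, mkRat (-2791) 2500, mkRat (4769) 2000]
def pc32_1 : List (ℤ × ℤ) := [(100014, 1011146), (100016, 1010884), (100018, 1010621), (100020, 1010359), (100022, 1010096), (100024, 1009834)]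
theorem chk32_1 : runLo kap32 wb32 LS32 LX32 LB32 q32_1 p132_1 p232_1 (mkRat (25003) 25000) (mkP pc32_1) = true := by
  decide +kernel

def q32_2 : List ℚ := [mkRat (1) 10000, mkRat (-91) 2500, mkRat (-837) 2500, mkRat (-769) 10000, mkRat (14463) 10000]
def p132_2 : List ℚ := [mkRat (0) 1, mkRat (0) 1, mkRat (-31) 400, mkRat (1259) 5000, mkRat (1681) 5000, mkRat (61) 125]
def p232_2 : List ℚ := [mkRat (0) 1, mkRat (11) 100, mkRat (-237) 625, mkRat (-5579) 5000, mkRat (23831) 10000]
def pc32_2 : List (ℤ × ℤ) := [(100026, 1009571), (100028, 1009309), (100030, 1009047), (100032, 1008785), (100034, 1008523), (100036, 1008261)]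
theorem chk32_2 : runLo kap32 wb32 LS32 LX32 LB32 q32_2 p132_2 p232_2 (mkRat (12503) 12500) (mkP pc32_2) = true := by
  decide +kernel

def q32_3 : List ℚ := [mkRat (1) 10000, mkRat (-183) 5000, mkRat (-3319) 10000, mkRat (-351) 5000, mkRat (7181) 5000]
def p132_3 : List ℚ := [mkRat (0) 1, mkRat (0) 1, mkRat (-31) 400, mkRat (629) 2500, mkRat (42) 125, mkRat (2439) 5000]
def p232_3 : List ℚ := [mkRat (0) 1, mkRat (1099) 10000, mkRat (-3789) 10000, mkRat (-11153) 10000, mkRat (2977) 1250]
def pc32_3 : List (ℤ × ℤ) := [(100038, 1007999), (100040, 1007737), (100042, 1007476), (100044, 1007214), (100046, 1006952), (100048, 1006691)]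
theorem chk32_3 : runLo kap32 wb32 LS32 LX32 LB32 q32_3 p132_3 p232_3 (mkRat (25009) 25000) (mkP pc32_3) = true := by
  decide +kernel

def q32_4 : List ℚ := [mkRat (1) 10000, mkRat (-367) 10000, mkRat (-3289) 10000, mkRat (-127) 2000, mkRat (14263) 10000]
def p132_4 : List ℚ := [mkRat (0) 1, mkRat (0) 1, mkRat (-387) 5000, mkRat (503) 2000, mkRat (1679) 5000, mkRat (39) 80]
def p232_4 : List ℚ := [mkRat (0) 1, mkRat (1099) 10000, mkRat (-3787) 10000, mkRat (-11147) 10000, mkRat (11901) 5000]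
def pc32_4 : List (ℤ × ℤ) := [(100050, 1006429), (100052, 1006168), (100054, 1005906), (100056, 1005645), (100058, 1005384), (100060, 1005122)]
theorem chk32_4 : runLo kap32 wb32 LS32 LX32 LB32 q32_4 p132_4 p232_4 (mkRat (6253) 6250) (mkP pc32_4) = true := by
  decide +kernel

def q32_5 : List ℚ := [mkRat (1) 10000, mkRat (-369) 10000, mkRat (-163) 500, mkRat (-569) 10000, mkRat (14163) 10000]
def p132_5 : List ℚ := [mkRat (0) 1, mkRat (0) 1, mkRat (-761) 10000, mkRat (1081) 5000, mkRat (236) 625, mkRat (4791) 10000]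
def p232_5 : List ℚ := [mkRat (0) 1, mkRat (549) 5000, mkRat (-1893) 5000, mkRat (-2783) 2500, mkRat (23781) 10000]
def pc32_5 : List (ℤ × ℤ) := [(100062, 1004861), (100064, 1004600), (100066, 1004339), (100068, 1004078), (100070, 1003817), (100072, 1003557)]
theorem chk32_5 : runLo kap32 wb32 LS32 LX32 LB32 q32_5 p132_5 p232_5 (mkRat (5003) 5000) (mkP pc32_5) = true := by
  decide +kernel

def q32_6 : List ℚ := [mkRat (1) 10000, mkRat (-371) 10000, mkRat (-3231) 10000, mkRat (-503) 10000, mkRat (2813) 2000]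
def p132_6 : List ℚ := [mkRat (0) 1, mkRat (0) 1, mkRat (-671) 5000, mkRat (-1429) 5000, mkRat (217) 625, mkRat (267) 250]
def p232_6 : List ℚ := [mkRat (0) 1, mkRat (551) 5000, mkRat (-943) 2500, mkRat (-11151) 10000, mkRat (951) 400]
def pc32_6 : List (ℤ × ℤ) := [(100074, 1003296), (100076, 1003035), (100078, 1002774), (100080, 1002514), (100082, 1002253), (100084, 1001993)]
theorem chk32_6 : runLo kap32 wb32 LS32 LX32 LB32 q32_6 p132_6 p232_6 (mkRat (12509) 12500) (mkP pc32_6) = true := by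
  decide +kernel

def q32_7 : List ℚ := [mkRat (1) 10000, mkRat (-373) 10000, mkRat (-1601) 5000, mkRat (-219) 5000, mkRat (13967) 10000]
def p132_7 : List ℚ := [mkRat (0) 1, mkRat (0) 1, mkRat (-39) 400, mkRat (-3529) 10000, mkRat (-1) 2000, mkRat (14451) 10000]
def p232_7 : List ℚ := [mkRat (0) 1, mkRat (11) 100, mkRat (-941) 2500, mkRat (-11139) 10000, mkRat (19) 8]
def pc32_7 : List (ℤ × ℤ) := [(100086, 1001732), (100088, 1001472), (100090, 1001212), (100092, 1000952), (100094, 1000691), (100096, 1000431)]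
theorem chk32_7 : runLo kap32 wb32 LS32 LX32 LB32 q32_7 p132_7 p232_7 (mkRat (25021) 25000) (mkP pc32_7) = true := by
  decide +kernel

def q32_8 : List ℚ := [mkRat (1) 10000, mkRat (-3) 80, mkRat (-1587) 5000, mkRat (-373) 10000, mkRat (13869) 10000]
def p132_8 : List ℚ := [mkRat (0) 1, mkRat (0) 1, mkRat (-1) 500, mkRat (-4131) 10000, mkRat (-6697) 10000, mkRat (20779) 10000]
def p232_8 : List ℚ := [mkRat (0) 1, mkRat (1099) 10000, mkRat (-3753) 10000, mkRat (-696) 625, mkRat (23731) 10000]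
def pc32_8 : List (ℤ × ℤ) := [(100098, 1000171), (100100, 999911), (100102, 999651), (100104, 999392), (100106, 999132), (100108, 998872)]
theorem chk32_8 : runLo kap32 wb32 LS32 LX32 LB32 q32_8 p132_8 p232_8 (mkRat (3128) 3125) (mkP pc32_8) = true := by
  decide +kernel

def q32_9 : List ℚ := [mkRat (1) 10000, mkRat (-377) 10000, mkRat (-629) 2000, mkRat (-77) 2500, mkRat (3443) 2500]
def p132_9 : List ℚ := [mkRat (0) 1, mkRat (0) 1, mkRat (501) 5000, mkRat (-1173) 2500, mkRat (-13753) 10000, mkRat (27359) 10000]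
def p232_9 : List ℚ := [mkRat (0) 1, mkRat (1097) 10000, mkRat (-1871) 5000, mkRat (-2227) 2000, mkRat (11857) 5000]
def pc32_9 : List (ℤ × ℤ) := [(100110, 998612), (100112, 998353), (100114, 998093), (100116, 997834), (100118, 997574), (100120, 997315)]
theorem chk32_9 : runLo kap32 wb32 LS32 LX32 LB32 q32_9 p132_9 p232_9 (mkRat (25027) 25000) (mkP pc32_9) = true := by
  decide +kernel

def q32_10 : List ℚ := [mkRat (1) 10000, mkRat (-379) 10000, mkRat (-3117) 10000, mkRat (-243) 10000, mkRat (3419) 2500]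
def p132_10 : List ℚ := [mkRat (0) 1, mkRat (0) 1, mkRat (24) 125, mkRat (-5343) 10000, mkRat (-19849) 10000, mkRat (16587) 5000]
def p232_10 : List ℚ := [mkRat (0) 1, mkRat (137) 1250, mkRat (-933) 2500, mkRat (-1113) 1000, mkRat (11847) 5000]
def pc32_10 : List (ℤ × ℤ) := [(100122, 997055), (100124, 996796), (100126, 996537), (100128, 996278), (100130, 996019), (100132, 995760)]
theorem chk32_10 : runLo kap32 wb32 LS32 LX32 LB32 q32_10 p132_10 p232_10 (mkRat (2503) 2500) (mkP pc32_10) = true := by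
  decide +kernel

def q32_11 : List ℚ := [mkRat (1) 10000, mkRat (-381) 10000, mkRat (-3089) 10000, mkRat (-179) 10000, mkRat (679) 500]
def p132_11 : List ℚ := [mkRat (0) 1, mkRat (0) 1, mkRat (733) 2500, mkRat (-5909) 10000, mkRat (-5299) 2000, mkRat (39357) 10000]
def p232_11 : List ℚ := [mkRat (0) 1, mkRat (219) 2000, mkRat (-1861) 5000, mkRat (-1391) 1250, mkRat (5919) 2500]
def pc32_11 : List (ℤ × ℤ) := [(100134, 995501), (100136, 995242), (100138, 994983), (100140, 994724), (100142, 994465), (100144, 994207)]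
theorem chk32_11 : runLo kap32 wb32 LS32 LX32 LB32 q32_11 p132_11 p232_11 (mkRat (25033) 25000) (mkP pc32_11) = true := by
  decide +kernel

def q32_12 : List ℚ := [mkRat (1) 10000, mkRat (-383) 10000, mkRat (-3061) 10000, mkRat (-23) 2000, mkRat (2697) 2000]
def p132_12 : List ℚ := [mkRat (0) 1, mkRat (0) 1, mkRat (3897) 10000, mkRat (-6463) 10000, mkRat (-6569) 2000, mkRat (566) 125]
def p232_12 : List ℚ := [mkRat (0) 1, mkRat (1093) 10000, mkRat (-232) 625, mkRat (-89) 80, mkRat (23659) 10000]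
def pc32_12 : List (ℤ × ℤ) := [(100146, 993948), (100148, 993690), (100150, 993431), (100152, 993173), (100154, 992914), (100156, 992656)]
theorem chk32_12 : runLo kap32 wb32 LS32 LX32 LB32 q32_12 p132_12 p232_12 (mkRat (6259) 6250) (mkP pc32_12) = true := by
  decide +kernel

def q32_13 : List ℚ := [mkRat (1) 10000, mkRat (-24) 625, mkRat (-3033) 10000, mkRat (-13) 2500, mkRat (1339) 1000]
def p132_13 : List ℚ := [mkRat (0) 1, mkRat (0) 1, mkRat (2409) 5000, mkRat (-7051) 10000, mkRat (-19491) 5000, mkRat (25533) 5000]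
def p232_13 : List ℚ := [mkRat (0) 1, mkRat (273) 2500, mkRat (-3703) 10000, mkRat (-11121) 10000, mkRat (591) 250]
def pc32_13 : List (ℤ × ℤ) := [(100158, 992398), (100160, 992140), (100162, 991881), (100164, 991623), (100166, 991365), (100168, 991107)]
theorem chk32_13 : runLo kap32 wb32 LS32 LX32 LB32 q32_13 p132_13 p232_13 (mkRat (25039) 25000) (mkP pc32_13) = true := by
  decide +kernel

def q32_14 : List ℚ := [mkRat (0) 1, mkRat (-193) 5000, mkRat (-601) 2000, mkRat (11) 10000, mkRat (831) 625]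
def p132_14 : List ℚ := [mkRat (0) 1, mkRat (0) 1, mkRat (5663) 10000, mkRat (-937) 1250, mkRat (-22233) 5000, mkRat (56133) 10000]
def p232_14 : List ℚ := [mkRat (0) 1, mkRat (1091) 10000, mkRat (-1847) 5000, mkRat (-11119) 10000, mkRat (23623) 10000]
def pc32_14 : List (ℤ × ℤ) := [(100170, 990849), (100172, 990592), (100174, 990334), (100176, 990076), (100178, 989818), (100180, 989561)]
theorem chk32_14 : runLo kap32 wb32 LS32 LX32 LB32 q32_14 p132_14 p232_14 (mkRat (12521) 12500) (mkP pc32_14) = true := by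
  decide +kernel

def q32_15 : List ℚ := [mkRat (0) 1, mkRat (-97) 2500, mkRat (-1489) 5000, mkRat (37) 5000, mkRat (6601) 5000]
def p132_15 : List ℚ := [mkRat (0) 1, mkRat (0) 1, mkRat (27) 40, mkRat (-4003) 5000, mkRat (-51157) 10000, mkRat (62227) 10000]
def p232_15 : List ℚ := [mkRat (0) 1, mkRat (109) 1000, mkRat (-737) 2000, mkRat (-5559) 5000, mkRat (2951) 1250]
def pc32_15 : List (ℤ × ℤ) := [(100182, 989303), (100184, 989046), (100186, 988788), (100188, 988531), (100190, 988273), (100192, 988016)]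
theorem chk32_15 : runLo kap32 wb32 LS32 LX32 LB32 q32_15 p132_15 p232_15 (mkRat (5009) 5000) (mkP pc32_15) = true := by
  decide +kernel

def q32_16 : List ℚ := [mkRat (0) 1, mkRat (-39) 1000, mkRat (-2951) 10000, mkRat (17) 1250, mkRat (13109) 10000]
def p132_16 : List ℚ := [mkRat (0) 1, mkRat (0) 1, mkRat (7499) 10000, mkRat (-2159) 2500, mkRat (-14021) 2500, mkRat (8377) 1250]
def p232_16 : List ℚ := [mkRat (0) 1, mkRat (68) 625, mkRat (-919) 2500, mkRat (-11111) 10000, mkRat (23587) 10000]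
def pc32_16 : List (ℤ × ℤ) := [(100194, 987759), (100196, 987501), (100198, 987244), (100200, 986987), (100202, 986730), (100204, 986473)]
theorem chk32_16 : runLo kap32 wb32 LS32 LX32 LB32 q32_16 p132_16 p232_16 (mkRat (3131) 3125) (mkP pc32_16) = true := by
  decide +kernel

def q32_17 : List ℚ := [mkRat (0) 1, mkRat (-49) 1250, mkRat (-2923) 10000, mkRat (99) 5000, mkRat (1627) 1250]
def p132_17 : List ℚ := [mkRat (0) 1, mkRat (0) 1, mkRat (2123) 2500, mkRat (-8933) 10000, mkRat (-31257) 5000, mkRat (9091) 1250]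
def p232_17 : List ℚ := [mkRat (0) 1, mkRat (1087) 10000, mkRat (-3667) 10000, mkRat (-5557) 5000, mkRat (943) 400]
def pc32_17 : List (ℤ × ℤ) := [(100206, 986216), (100208, 985959), (100210, 985703), (100212, 985446), (100214, 985189), (100216, 984933)]
theorem chk32_17 : runLo kap32 wb32 LS32 LX32 LB32 q32_17 p132_17 p232_17 (mkRat (25051) 25000) (mkP pc32_17) = true := by
  decide +kernel

def q32_18 : List ℚ := [mkRat (0) 1, mkRat (-393) 10000, mkRat (-181) 625, mkRat (259) 10000, mkRat (3231) 2500]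
def p132_18 : List ℚ := [mkRat (0) 1, mkRat (0) 1, mkRat (582) 625, mkRat (-9543) 10000, mkRat (-16911) 2500, mkRat (19407) 2500]
def p232_18 : List ℚ := [mkRat (0) 1, mkRat (543) 5000, mkRat (-3659) 10000, mkRat (-11107) 10000, mkRat (4711) 2000]
def pc32_18 : List (ℤ × ℤ) := [(100218, 984676), (100220, 984419), (100222, 984163), (100224, 983907), (100226, 983650), (100228, 983394)]
theorem chk32_18 : runLo kap32 wb32 LS32 LX32 LB32 q32_18 p132_18 p232_18 (mkRat (12527) 12500) (mkP pc32_18) = true := by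
  decide +kernel

def q32_19 : List ℚ := [mkRat (0) 1, mkRat (-79) 2000, mkRat (-287) 1000, mkRat (321) 10000, mkRat (12833) 10000]
def p132_19 : List ℚ := [mkRat (0) 1, mkRat (0) 1, mkRat (5033) 5000, mkRat (-403) 400, mkRat (-14553) 2000, mkRat (10313) 1250]
def p232_19 : List ℚ := [mkRat (0) 1, mkRat (271) 2500, mkRat (-73) 200, mkRat (-5551) 5000, mkRat (1471) 625]
def pc32_19 : List (ℤ × ℤ) := [(100230, 983138), (100232, 982881), (100234, 982625), (100236, 982369), (100238, 982113), (100240, 981857)]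
theorem chk32_19 : runLo kap32 wb32 LS32 LX32 LB32 q32_19 p132_19 p232_19 (mkRat (25057) 25000) (mkP pc32_19) = true := by
  decide +kernel

def q32_20 : List ℚ := [mkRat (0) 1, mkRat (-397) 10000, mkRat (-2843) 10000, mkRat (191) 5000, mkRat (6371) 5000]
def p132_20 : List ℚ := [mkRat (0) 1, mkRat (0) 1, mkRat (2721) 2500, mkRat (-10691) 10000, mkRat (-1551) 200, mkRat (17413) 2000]
def p232_20 : List ℚ := [mkRat (0) 1, mkRat (1083) 10000, mkRat (-3643) 10000, mkRat (-5547) 5000, mkRat (5879) 2500]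
def pc32_20 : List (ℤ × ℤ) := [(100242, 981601), (100244, 981345), (100246, 981090), (100248, 980834), (100250, 980578), (100252, 980322)]
theorem chk32_20 : runLo kap32 wb32 LS32 LX32 LB32 q32_20 p132_20 p232_20 (mkRat (1253) 1250) (mkP pc32_20) = true := by
  decide +kernel

def q32_21 : List ℚ := [mkRat (0) 1, mkRat (-399) 10000, mkRat (-176) 625, mkRat (221) 5000, mkRat (12651) 10000]
def p132_21 : List ℚ := [mkRat (0) 1, mkRat (0) 1, mkRat (11793) 10000, mkRat (-5499) 5000, mkRat (-2093) 250, mkRat (5788) 625]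
def p232_21 : List ℚ := [mkRat (0) 1, mkRat (541) 5000, mkRat (-3633) 10000, mkRat (-1387) 1250, mkRat (11751) 5000]
def pc32_21 : List (ℤ × ℤ) := [(100254, 980067), (100256, 979811), (100258, 979556), (100260, 979300), (100262, 979045), (100264, 978790)]
theorem chk32_21 : runLo kap32 wb32 LS32 LX32 LB32 q32_21 p132_21 p232_21 (mkRat (25063) 25000) (mkP pc32_21) = true := by
  decide +kernel

def q32_22 : List ℚ := [mkRat (0) 1, mkRat (-401) 10000, mkRat (-279) 1000, mkRat (251) 5000, mkRat (12561) 10000]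
def p132_22 : List ℚ := [mkRat (0) 1, mkRat (0) 1, mkRat (779) 625, mkRat (-722) 625, mkRat (-88161) 10000, mkRat (96909) 10000]
def p232_22 : List ℚ := [mkRat (0) 1, mkRat (1081) 10000, mkRat (-29) 80, mkRat (-11089) 10000, mkRat (11741) 5000]
def pc32_22 : List (ℤ × ℤ) := [(100266, 978534), (100268, 978279), (100270, 978024), (100272, 977769), (100274, 977514), (100276, 977259)]
theorem chk32_22 : runLo kap32 wb32 LS32 LX32 LB32 q32_22 p132_22 p232_22 (mkRat (12533) 12500) (mkP pc32_22) = true := by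
  decide +kernel

def q32_23 : List ℚ := [mkRat (0) 1, mkRat (-201) 5000, mkRat (-691) 2500, mkRat (281) 5000, mkRat (1559) 1250]
def p132_23 : List ℚ := [mkRat (0) 1, mkRat (0) 1, mkRat (6709) 5000, mkRat (-1489) 1250, mkRat (-93749) 10000, mkRat (50939) 5000]
def p232_23 : List ℚ := [mkRat (0) 1, mkRat (27) 250, mkRat (-3617) 10000, mkRat (-11089) 10000, mkRat (23469) 10000]
def pc32_23 : List (ℤ × ℤ) := [(100278, 977004), (100280, 976749), (100282, 976494), (100284, 976239), (100286, 975984), (100288, 975730)]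
theorem chk32_23 : runLo kap32 wb32 LS32 LX32 LB32 q32_23 p132_23 p232_23 (mkRat (25069) 25000) (mkP pc32_23) = true := by
  decide +kernel

def q32_24 : List ℚ := [mkRat (0) 1, mkRat (-101) 2500, mkRat (-1369) 5000, mkRat (311) 5000, mkRat (12383) 10000]
def p132_24 : List ℚ := [mkRat (0) 1, mkRat (0) 1, mkRat (14009) 10000, mkRat (-2511) 2000, mkRat (-97499) 10000, mkRat (21131) 2000]
def p232_24 : List ℚ := [mkRat (0) 1, mkRat (539) 5000, mkRat (-3611) 10000, mkRat (-5539) 5000, mkRat (11723) 5000]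
def pc32_24 : List (ℤ × ℤ) := [(100290, 975475), (100292, 975220), (100294, 974966), (100296, 974711), (100298, 974457), (100300, 974203)]
theorem chk32_24 : runLo kap32 wb32 LS32 LX32 LB32 q32_24 p132_24 p232_24 (mkRat (3134) 3125) (mkP pc32_24) = true := by
  decide +kernel

def q32_25 : List ℚ := [mkRat (0) 1, mkRat (-203) 5000, mkRat (-339) 1250, mkRat (681) 10000, mkRat (6147) 5000]
def p132_25 : List ℚ := [mkRat (0) 1, mkRat (0) 1, mkRat (3731) 2500, mkRat (-12843) 10000, mkRat (-20669) 2000, mkRat (110847) 10000]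
def p232_25 : List ℚ := [mkRat (0) 1, mkRat (1077) 10000, mkRat (-1801) 5000, mkRat (-277) 250, mkRat (23433) 10000]
def pc32_25 : List (ℤ × ℤ) := [(100302, 973948), (100304, 973694), (100306, 973440), (100308, 973186), (100310, 972931), (100312, 972677)]
theorem chk32_25 : runLo kap32 wb32 LS32 LX32 LB32 q32_25 p132_25 p232_25 (mkRat (1003) 1000) (mkP pc32_25) = true := by
  decide +kernel

def q32_26 : List ℚ := [mkRat (0) 1, mkRat (-51) 1250, mkRat (-1343) 5000, mkRat (37) 500, mkRat (12207) 10000]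
def p132_26 : List ℚ := [mkRat (0) 1, mkRat (0) 1, mkRat (621) 400, mkRat (-1353) 1000, mkRat (-107319) 10000, mkRat (1436) 125]
def p232_26 : List ℚ := [mkRat (0) 1, mkRat (269) 2500, mkRat (-1797) 5000, mkRat (-11069) 10000, mkRat (2341) 1000]
def pc32_26 : List (ℤ × ℤ) := [(100314, 972423), (100316, 972169), (100318, 971915), (100320, 971662), (100322, 971408), (100324, 971154)]
theorem chk32_26 : runLo kap32 wb32 LS32 LX32 LB32 q32_26 p132_26 p232_26 (mkRat (12539) 12500) (mkP pc32_26) = true := by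
  decide +kernel

def q32_27 : List ℚ := [mkRat (0) 1, mkRat (-409) 10000, mkRat (-2661) 10000, mkRat (399) 5000, mkRat (12119) 10000]
def p132_27 : List ℚ := [mkRat (0) 1, mkRat (0) 1, mkRat (8211) 5000, mkRat (-13697) 10000, mkRat (-113187) 10000, mkRat (11999) 1000]
def p232_27 : List ℚ := [mkRat (0) 1, mkRat (43) 400, mkRat (-717) 2000, mkRat (-11073) 10000, mkRat (23399) 10000]
def pc32_27 : List (ℤ × ℤ) := [(100326, 970900), (100328, 970647), (100330, 970393), (100332, 970139), (100334, 969886), (100336, 969632)]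
theorem chk32_27 : runLo kap32 wb32 LS32 LX32 LB32 q32_27 p132_27 p232_27 (mkRat (25081) 25000) (mkP pc32_27) = true := by
  decide +kernel

def q32_28 : List ℚ := [mkRat (0) 1, mkRat (-411) 10000, mkRat (-659) 2500, mkRat (857) 10000, mkRat (752) 625]
def p132_28 : List ℚ := [mkRat (0) 1, mkRat (0) 1, mkRat (8697) 5000, mkRat (-1783) 1250, mkRat (-14809) 1250, mkRat (3121) 250]
def p232_28 : List ℚ := [mkRat (0) 1, mkRat (537) 5000, mkRat (-1789) 5000, mkRat (-2767) 2500, mkRat (11691) 5000]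
def pc32_28 : List (ℤ × ℤ) := [(100338, 969379), (100340, 969126), (100342, 968872), (100344, 968619), (100346, 968366), (100348, 968113)]
theorem chk32_28 : runLo kap32 wb32 LS32 LX32 LB32 q32_28 p132_28 p232_28 (mkRat (6271) 6250) (mkP pc32_28) = true := by
  decide +kernel

def q32_29 : List ℚ := [mkRat (0) 1, mkRat (-413) 10000, mkRat (-261) 1000, mkRat (457) 5000, mkRat (5973) 5000]
def p132_29 : List ℚ := [mkRat (0) 1, mkRat (0) 1, mkRat (17981) 10000, mkRat (-14869) 10000, mkRat (-122761) 10000, mkRat (129117) 10000]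
def p232_29 : List ℚ := [mkRat (0) 1, mkRat (67) 625, mkRat (-357) 1000, mkRat (-11059) 10000, mkRat (292) 125]
def pc32_29 : List (ℤ × ℤ) := [(100350, 967860), (100352, 967606), (100354, 967354), (100356, 967101), (100358, 966848), (100360, 966595)]
theorem chk32_29 : runLo kap32 wb32 LS32 LX32 LB32 q32_29 p132_29 p232_29 (mkRat (25087) 25000) (mkP pc32_29) = true := by
  decide +kernel

def q32_30 : List ℚ := [mkRat (0) 1, mkRat (-83) 2000, mkRat (-517) 2000, mkRat (243) 2500, mkRat (593) 500]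
def p132_30 : List ℚ := [mkRat (0) 1, mkRat (0) 1, mkRat (3787) 2000, mkRat (-15373) 10000, mkRat (-64171) 5000, mkRat (16777) 1250]
def p232_30 : List ℚ := [mkRat (0) 1, mkRat (1071) 10000, mkRat (-1781) 5000, mkRat (-691) 625, mkRat (23343) 10000]
def pc32_30 : List (ℤ × ℤ) := [(100362, 966342), (100364, 966089), (100366, 965836), (100368, 965584), (100370, 965331), (100372, 965078)]
theorem chk32_30 : runLo kap32 wb32 LS32 LX32 LB32 q32_30 p132_30 p232_30 (mkRat (2509) 2500) (mkP pc32_30) = true := by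
  decide +kernel

def q32_31 : List ℚ := [mkRat (0) 1, mkRat (-26) 625, mkRat (-32) 125, mkRat (1029) 10000, mkRat (471) 400]
def p132_31 : List ℚ := [mkRat (0) 1, mkRat (0) 1, mkRat (19321) 10000, mkRat (-3139) 2000, mkRat (-131349) 10000, mkRat (34283) 2500]
def p232_31 : List ℚ := [mkRat (0) 1, mkRat (107) 1000, mkRat (-711) 2000, mkRat (-221) 200, mkRat (933) 400]
def pc32_31 : List (ℤ × ℤ) := [(100374, 964826), (100376, 964574), (100378, 964321), (100380, 964069), (100382, 963816), (100384, 963564)]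
theorem chk32_31 : runLo kap32 wb32 LS32 LX32 LB32 q32_31 p132_31 p232_31 (mkRat (25093) 25000) (mkP pc32_31) = true := by
  decide +kernel

def q32_32 : List ℚ := [mkRat (0) 1, mkRat (-26) 625, mkRat (-1279) 5000, mkRat (517) 5000, mkRat (1471) 1250]
def p132_32 : List ℚ := [mkRat (0) 1, mkRat (0) 1, mkRat (1963) 1000, mkRat (-15787) 10000, mkRat (-33119) 2500, mkRat (138039) 10000]
def p232_32 : List ℚ := [mkRat (0) 1, mkRat (107) 1000, mkRat (-711) 2000, mkRat (-221) 200, mkRat (933) 400]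
def pc32_32 : List (ℤ × ℤ) := [(100385, 963443)]
theorem chk32_32 : runLo kap32 wb32 LS32 LX32 LB32 q32_32 p132_32 p232_32 (mkRat (3137) 3125) (mkP pc32_32) = true := by
  decide +kernel

/-- value of κ at β = 16 -/
def kap16 : ℚ := mkRat (893) 1000
/-- the bound of ω -/
def wb16 : ℚ := mkRat (409) 400

def q16_0 : List ℚ := [mkRat (-3) 5000, mkRat (-337) 5000, mkRat (-449) 2500, mkRat (3989) 10000, mkRat (4239) 5000]
def p116_0 : List ℚ := [mkRat (0) 1, mkRat (0) 1, mkRat (77) 10000, mkRat (4907) 10000, mkRat (4521) 10000, mkRat (61) 1250]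
def p216_0 : List ℚ := [mkRat (0) 1, mkRat (-6) 125, mkRat (-1209) 2000, mkRat (-533) 5000, mkRat (879) 500]
def pc16_0 : List (ℤ × ℤ) := [(100004, 1002211), (100008, 1001856), (100012, 1001502), (100016, 1001147), (100020, 1000793)]
theorem chk16_0 : runUp kap16 wb16 LS16 LX16 LB16 q16_0 p116_0 p216_0 (mkRat (1) 1) (mkP pc16_0) = true := by
  decide +kernel

def q16_1 : List ℚ := [mkRat (-3) 5000, mkRat (-41) 625, mkRat (-1683) 10000, mkRat (809) 2000, mkRat (2071) 2500]
def p116_1 : List ℚ := [mkRat (0) 1, mkRat (0) 1, mkRat (0) 1, mkRat (4327) 10000, mkRat (1297) 2500, mkRat (471) 10000]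
def p216_1 : List ℚ := [mkRat (0) 1, mkRat (-189) 5000, mkRat (-3053) 5000, mkRat (-1503) 10000, mkRat (3593) 2000]
def pc16_1 : List (ℤ × ℤ) := [(100024, 1000431), (100028, 1000079), (100032, 999726), (100036, 999373), (100040, 999021)]
theorem chk16_1 : runUp kap16 wb16 LS16 LX16 LB16 q16_1 p116_1 p216_1 (mkRat (5001) 5000) (mkP pc16_1) = true := by
  decide +kernel

def q16_2 : List ℚ := [mkRat (-3) 5000, mkRat (-319) 5000, mkRat (-393) 2500, mkRat (41) 100, mkRat (8091) 10000]
def p116_2 : List ℚ := [mkRat (0) 1, mkRat (0) 1, mkRat (-79) 10000, mkRat (2613) 10000, mkRat (6281) 10000, mkRat (581) 5000]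
def p216_2 : List ℚ := [mkRat (0) 1, mkRat (-189) 10000, mkRat (-777) 1250, mkRat (-459) 2000, mkRat (9333) 5000]
def pc16_2 : List (ℤ × ℤ) := [(100044, 998664), (100048, 998312), (100052, 997961), (100056, 997610), (100060, 997260)]
theorem chk16_2 : runUp kap16 wb16 LS16 LX16 LB16 q16_2 p116_2 p216_2 (mkRat (2501) 2500) (mkP pc16_2) = true := by
  decide +kernel

def q16_3 : List ℚ := [mkRat (-3) 5000, mkRat (-31) 500, mkRat (-1461) 10000, mkRat (1039) 2500, mkRat (7899) 10000]
def p116_3 : List ℚ := [mkRat (0) 1, mkRat (0) 1, mkRat (-9) 5000, mkRat (221) 1250, mkRat (13) 25, mkRat (377) 1250]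
def p216_3 : List ℚ := [mkRat (0) 1, mkRat (-9) 1250, mkRat (-3129) 5000, mkRat (-1413) 5000, mkRat (19111) 10000]
def pc16_3 : List (ℤ × ℤ) := [(100064, 996907), (100068, 996558), (100072, 996208), (100076, 995859), (100080, 995510)]
theorem chk16_3 : runUp kap16 wb16 LS16 LX16 LB16 q16_3 p116_3 p216_3 (mkRat (5003) 5000) (mkP pc16_3) = true := by
  decide +kernel

def q16_4 : List ℚ := [mkRat (-3) 5000, mkRat (-601) 10000, mkRat (-1351) 10000, mkRat (4211) 10000, mkRat (1927) 2500]
def p116_4 : List ℚ := [mkRat (0) 1, mkRat (0) 1, mkRat (-9) 10000, mkRat (1101) 5000, mkRat (1857) 10000, mkRat (2953) 5000]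
def p216_4 : List ℚ := [mkRat (0) 1, mkRat (-31) 10000, mkRat (-249) 400, mkRat (-194) 625, mkRat (2413) 1250]
def pc16_4 : List (ℤ × ℤ) := [(100084, 995162), (100088, 994814), (100092, 994467), (100096, 994119), (100100, 993772)]
theorem chk16_4 : runUp kap16 wb16 LS16 LX16 LB16 q16_4 p116_4 p216_4 (mkRat (1251) 1250) (mkP pc16_4) = true := by
  decide +kernel

def q16_5 : List ℚ := [mkRat (-3) 5000, mkRat (-73) 1250, mkRat (-621) 5000, mkRat (2133) 5000, mkRat (3759) 5000]
def p116_5 : List ℚ := [mkRat (0) 1, mkRat (0) 1, mkRat (-1) 10000, mkRat (2283) 10000, mkRat (561) 5000, mkRat (6543) 10000]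
def p216_5 : List ℚ := [mkRat (0) 1, mkRat (17) 10000, mkRat (-779) 1250, mkRat (-1673) 5000, mkRat (3899) 2000]
def pc16_5 : List (ℤ × ℤ) := [(100104, 993428), (100108, 993082), (100112, 992736), (100116, 992390), (100120, 992044)]
theorem chk16_5 : runUp kap16 wb16 LS16 LX16 LB16 q16_5 p116_5 p216_5 (mkRat (1001) 1000) (mkP pc16_5) = true := by
  decide +kernel

def q16_6 : List ℚ := [mkRat (-7) 10000, mkRat (-87) 2000, mkRat (-193) 5000, mkRat (277) 625, mkRat (793) 1250]
def p116_6 : List ℚ := [mkRat (0) 1, mkRat (0) 1, mkRat (-51) 1250, mkRat (1183) 5000, mkRat (47) 400, mkRat (1701) 2500]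
def p216_6 : List ℚ := [mkRat (0) 1, mkRat (1) 1000, mkRat (-3099) 5000, mkRat (-669) 2000, mkRat (3891) 2000]
def pc16_6 : List (ℤ × ℤ) := [(100124, 991687), (100128, 991350), (100132, 991014), (100136, 990677), (100140, 990341)]
theorem chk16_6 : runUp kap16 wb16 LS16 LX16 LB16 q16_6 p116_6 p216_6 (mkRat (2503) 2500) (mkP pc16_6) = true := by
  decide +kernel

def q16_7 : List ℚ := [mkRat (-7) 10000, mkRat (-417) 10000, mkRat (-3) 100, mkRat (1113) 2500, mkRat (1553) 2500]
def p116_7 : List ℚ := [mkRat (0) 1, mkRat (0) 1, mkRat (-927) 10000, mkRat (2467) 10000, mkRat (1299) 10000, mkRat (7087) 10000]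
def p216_7 : List ℚ := [mkRat (0) 1, mkRat (27) 5000, mkRat (-3091) 5000, mkRat (-719) 2000, mkRat (9817) 5000]
def pc16_7 : List (ℤ × ℤ) := [(100144, 989993), (100148, 989657), (100152, 989322), (100156, 988987), (100160, 988651)]
theorem chk16_7 : runUp kap16 wb16 LS16 LX16 LB16 q16_7 p116_7 p216_7 (mkRat (5007) 5000) (mkP pc16_7) = true := by
  decide +kernel

def q16_8 : List ℚ := [mkRat (-7) 10000, mkRat (-399) 10000, mkRat (-107) 5000, mkRat (4473) 10000, mkRat (76) 125]
def p116_8 : List ℚ := [mkRat (0) 1, mkRat (0) 1, mkRat (-98) 625, mkRat (2591) 10000, mkRat (289) 2000, mkRat (3723) 5000]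
def p216_8 : List ℚ := [mkRat (0) 1, mkRat (6) 625, mkRat (-6157) 10000, mkRat (-769) 2000, mkRat (3961) 2000]
def pc16_8 : List (ℤ × ℤ) := [(100164, 988307), (100168, 987973), (100172, 987639), (100176, 987305), (100180, 986971)]
theorem chk16_8 : runUp kap16 wb16 LS16 LX16 LB16 q16_8 p116_8 p216_8 (mkRat (626) 625) (mkP pc16_8) = true := by
  decide +kernel

def q16_9 : List ℚ := [mkRat (-7) 10000, mkRat (-381) 10000, mkRat (-8) 625, mkRat (2247) 5000, mkRat (5949) 10000]
def p116_9 : List ℚ := [mkRat (0) 1, mkRat (0) 1, mkRat (-27) 125, mkRat (2713) 10000, mkRat (381) 2500, mkRat (489) 625]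
def p216_9 : List ℚ := [mkRat (0) 1, mkRat (11) 1250, mkRat (-6111) 10000, mkRat (-1923) 5000, mkRat (9879) 5000]
def pc16_9 : List (ℤ × ℤ) := [(100184, 986629), (100188, 986297), (100192, 985964), (100196, 985631), (100200, 985299)]
theorem chk16_9 : runUp kap16 wb16 LS16 LX16 LB16 q16_9 p116_9 p216_9 (mkRat (5009) 5000) (mkP pc16_9) = true := by
  decide +kernel

def q16_10 : List ℚ := [mkRat (-7) 10000, mkRat (-91) 2500, mkRat (-43) 10000, mkRat (903) 2000, mkRat (5819) 10000]
def p116_10 : List ℚ := [mkRat (0) 1, mkRat (0) 1, mkRat (-2631) 10000, mkRat (1813) 10000, mkRat (114) 625, mkRat (111) 125]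
def p216_10 : List ℚ := [mkRat (0) 1, mkRat (71) 5000, mkRat (-6101) 10000, mkRat (-4093) 10000, mkRat (1993) 1000]
def pc16_10 : List (ℤ × ℤ) := [(100204, 984960), (100208, 984629), (100212, 984297), (100216, 983966), (100220, 983635)]
theorem chk16_10 : runUp kap16 wb16 LS16 LX16 LB16 q16_10 p116_10 p216_10 (mkRat (501) 500) (mkP pc16_10) = true := by
  decide +kernel

def q16_11 : List ℚ := [mkRat (-7) 10000, mkRat (-173) 5000, mkRat (41) 10000, mkRat (567) 1250, mkRat (569) 1000]
def p116_11 : List ℚ := [mkRat (0) 1, mkRat (0) 1, mkRat (-1569) 5000, mkRat (2161) 10000, mkRat (927) 5000, mkRat (8997) 10000]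
def p216_11 : List ℚ := [mkRat (0) 1, mkRat (133) 10000, mkRat (-6059) 10000, mkRat (-41) 100, mkRat (19893) 10000]
def pc16_11 : List (ℤ × ℤ) := [(100224, 983299), (100228, 982969), (100232, 982639), (100236, 982309), (100240, 981979)]
theorem chk16_11 : runUp kap16 wb16 LS16 LX16 LB16 q16_11 p116_11 p216_11 (mkRat (5011) 5000) (mkP pc16_11) = true := by
  decide +kernel

def q16_12 : List ℚ := [mkRat (-7) 10000, mkRat (-329) 10000, mkRat (1) 80, mkRat (1139) 2500, mkRat (2781) 5000]
def p116_12 : List ℚ := [mkRat (0) 1, mkRat (0) 1, mkRat (-3571) 10000, mkRat (1529) 10000, mkRat (2151) 10000, mkRat (9747) 10000]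
def p216_12 : List ℚ := [mkRat (0) 1, mkRat (201) 10000, mkRat (-3029) 5000, mkRat (-2213) 5000, mkRat (20139) 10000]
def pc16_12 : List (ℤ × ℤ) := [(100244, 981641), (100248, 981312), (100252, 980983), (100256, 980654), (100260, 980325)]
theorem chk16_12 : runUp kap16 wb16 LS16 LX16 LB16 q16_12 p116_12 p216_12 (mkRat (1253) 1250) (mkP pc16_12) = true := by
  decide +kernel

def q16_13 : List ℚ := [mkRat (-7) 10000, mkRat (-311) 10000, mkRat (13) 625, mkRat (4577) 10000, mkRat (2717) 5000]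
def p116_13 : List ℚ := [mkRat (0) 1, mkRat (0) 1, mkRat (-251) 625, mkRat (-1) 5000, mkRat (2481) 10000, mkRat (2843) 2500]
def p216_13 : List ℚ := [mkRat (0) 1, mkRat (1) 50, mkRat (-753) 1250, mkRat (-1093) 2500, mkRat (501) 250]
def pc16_13 : List (ℤ × ℤ) := [(100264, 979990), (100268, 979662), (100272, 979334), (100276, 979007), (100280, 978679)]
theorem chk16_13 : runUp kap16 wb16 LS16 LX16 LB16 q16_13 p116_13 p216_13 (mkRat (5013) 5000) (mkP pc16_13) = true := by
  decide +kernel

def q16_14 : List ℚ := [mkRat (-7) 10000, mkRat (-303) 10000, mkRat (249) 10000, mkRat (4587) 10000, mkRat (537) 1000]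
def p116_14 : List ℚ := [mkRat (0) 1, mkRat (0) 1, mkRat (-4323) 10000, mkRat (-7) 250, mkRat (1291) 5000, mkRat (2369) 2000]
def p216_14 : List ℚ := [mkRat (0) 1, mkRat (197) 10000, mkRat (-3) 5, mkRat (-4361) 10000, mkRat (5001) 2500]
def pc16_14 : List (ℤ × ℤ) := [(100284, 978350), (100288, 978023), (100290, 977860)]
theorem chk16_14 : runUp kap16 wb16 LS16 LX16 LB16 q16_14 p116_14 p216_14 (mkRat (2507) 2500) (mkP pc16_14) = true := by
  decide +kernel

end Hald
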