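import Crest.Agent.Hald.PowerSum

/-!
# Row 347, (4e): from unnormalised data to the World

`Pre` = all power-sum facts for the unnormalised (or normalised) twisted partition functions;
`Pre.exists_world` : if moreover `1 ≤ Z 0 β m`, the normalisation `e = sup E₀(m)/(2m)` gives a
`World`.
-/

set_option autoImplicit false

namespace Hald

open Filter Topology

section PSlemmas

variable {α : Type*} {S : Set α} {c : α → ℝ}

theorem rw_holder2 {a a' b b' θ η : ℝ} (ha : 0 ≤ a) (ha' : 0 ≤ a') (hb : 0 ≤ b) (hb' : 0 ≤ b')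
    (hθ : 0 < θ) (hη : 0 < η) (h : θ + η = 1) :
    a ^ θ * b ^ η + a' ^ θ * b' ^ η ≤ (a + a') ^ θ * (b + b') ^ η := by
  rcases (add_nonneg ha ha').eq_or_lt with hA | hA
  · have h1 : a = 0 := by linarith
    have h2 : a' = 0 := by linarith
    subst h1; subst h2
    simp [Real.zero_rpow hθ.ne']
  rcases (add_nonneg hb hb').eq_or_lt with hB | hB
  · have h1 : b = 0 := by linarith
    have h2 : b' = 0 := by linarith
    subst h1; subst h2
    simp [Real.zero_rpow hη.ne']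
  set A := a + a' with hAd
  set B := b + b' with hBd
  have h1 := Real.geom_mean_le_arith_mean2_weighted hθ.le hη.le (div_nonneg ha hA.le)
    (div_nonneg hb hB.le) h
  have h2 := Real.geom_mean_le_arith_mean2_weighted hθ.le hη.le (div_nonneg ha' hA.le)
    (div_nonneg hb' hB.le) h
  have hAp : 0 < A ^ θ := Real.rpow_pos_of_pos hA _
  have hBp : 0 < B ^ η := Real.rpow_pos_of_pos hB _
  rw [Real.div_rpow ha hA.le, Real.div_rpow hb hB.le] at h1
  rw [Real.div_rpow ha' hA.le, Real.div_rpow hb' hB.le] at h2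
  have e1 : a ^ θ * b ^ η = A ^ θ * B ^ η * (a ^ θ / A ^ θ * (b ^ η / B ^ η)) := by
    field_simp
  have e2 : a' ^ θ * b' ^ η = A ^ θ * B ^ η * (a' ^ θ / A ^ θ * (b' ^ η / B ^ η)) := by
    field_simp
  have e3 : θ * (a / A) + η * (b / B) + (θ * (a' / A) + η * (b' / B)) = 1 := by
    have : a / A + a' / A = 1 := by rw [← add_div, ← hAd]; exact div_self hA.ne'
    have : b / B + b' / B = 1 := by rw [← add_div, ← hBd]; exact div_self hB.ne'
    nlinarith
  rw [e1, e2, ← mul_add]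
  calc A ^ θ * B ^ η * (a ^ θ / A ^ θ * (b ^ η / B ^ η) + a' ^ θ / A ^ θ * (b' ^ η / B ^ η))
      ≤ A ^ θ * B ^ η * 1 := by
        apply mul_le_mul_of_nonneg_left _ (mul_pos hAp hBp).le
        linarith
    _ = _ := mul_one _

/-- monotonicity in `c` at equality -/
theorem PS.eq_of_eq {μ : ℝ} {f : α → ℝ} (h : PS S c μ f) (hμ : 0 < μ) (hc : ∀ x ∈ S, 0 < c x)
    {x y : α} (hx : x ∈ S) (hy : y ∈ S) (hxy : c x = c y) : f x = f y := by
  have key : ∀ x ∈ S, ∀ y ∈ S, c x = c y → f y ≤ f x := by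
    intro x hx y hy hxy
    have h1 := h.pow x hx y hy hxy.le
    rw [hxy, div_self (hc y hy).ne', Real.rpow_one] at h1
    rwa [div_le_div_iff_of_pos_right hμ] at h1
  exact le_antisymm (key y hy x hx hxy.symm) (key x hx y hy hxy)

theorem PS.add {f g : α → ℝ} (hf : PS S c 1 f) (hg : PS S c 1 g) (hc : ∀ x ∈ S, 0 < c x) :
    PS S c 1 (fun x => f x + g x) := by
  refine ⟨fun x hx => add_nonneg (hf.nonneg x hx) (hg.nonneg x hx), ?_, ?_⟩
  · intro x hx y hy hxy
    have h1 := hf.pow x hx y hy hxy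
    have h2 := hg.pow x hx y hy hxy
    simp only [div_one] at h1 h2 ⊢
    have h3 := Real.add_rpow_le_rpow_add (hf.nonneg x hx) (hg.nonneg x hx)
      (p := c y / c x) (by rw [one_le_div (hc x hx)]; exact hxy)
    linarith
  · intro x hx y hy z hz hxy hyz
    rcases hxy.eq_or_lt with h1 | h1
    · rw [h1, sub_self, Real.rpow_zero, mul_one, hf.eq_of_eq one_pos hc hx hy h1,
        hg.eq_of_eq one_pos hc hx hy h1]
    rcases hyz.eq_or_lt with h2 | h2
    · rw [h2, sub_self, Real.rpow_zero, one_mul, hf.eq_of_eq one_pos hc hy hz h2,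
        hg.eq_of_eq one_pos hc hy hz h2]
    have hD : 0 < c z - c x := by linarith
    set θ := (c z - c y) / (c z - c x) with hθ
    set η := (c y - c x) / (c z - c x) with hη
    have hθ0 : 0 < θ := div_pos (by linarith) hD
    have hη0 : 0 < η := div_pos (by linarith) hD
    have hsum : θ + η = 1 := by
      rw [hθ, hη, ← add_div, div_eq_one_iff_eq hD.ne']
      ring
    have e6 : θ * (c z - c x) = c z - c y := by rw [hθ]; field_simp
    have e7 : η * (c z - c x) = c y - c x := by rw [hη]; field_simp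
    have key : ∀ F : α → ℝ, PS S c 1 F → F y ≤ F x ^ θ * F z ^ η := by
      intro F hF
      have h3 := hF.logc x hx y hy z hz hxy hyz
      have hFx := hF.nonneg x hx
      have hFy := hF.nonneg y hy
      have hFz := hF.nonneg z hz
      rw [← e6, ← e7, Real.rpow_mul hFx, Real.rpow_mul hFz, ← Real.mul_rpow
        (Real.rpow_nonneg hFx _) (Real.rpow_nonneg hFz _)] at h3
      exact (Real.rpow_le_rpow_iff hFy (mul_nonneg (Real.rpow_nonneg hFx _)
        (Real.rpow_nonneg hFz _)) hD).mp h3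
    have h4 := key f hf
    have h5 := key g hg
    have h6 := rw_holder2 (hf.nonneg x hx) (hg.nonneg x hx) (hf.nonneg z hz) (hg.nonneg z hz)
      hθ0 hη0 hsum
    have h7 : f y + g y ≤ (f x + g x) ^ θ * (f z + g z) ^ η := by linarith
    have h8 := Real.rpow_le_rpow (add_nonneg (hf.nonneg y hy) (hg.nonneg y hy)) h7 hD.le
    have hX := add_nonneg (hf.nonneg x hx) (hg.nonneg x hx)
    have hZ := add_nonneg (hf.nonneg z hz) (hg.nonneg z hz)
    rwa [Real.mul_rpow (Real.rpow_nonneg hX _) (Real.rpow_nonneg hZ _), ← Real.rpow_mul hX,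
      ← Real.rpow_mul hZ, e6, e7] at h8

/-- log-convexity plus exponential growth bound gives the ratio property -/
theorem PS.ratio_of_le {μ t C K₀ : ℝ} {f : α → ℝ} (h : PS S c μ f) (hμ : 0 < μ)
    (hc : ∀ x ∈ S, 0 < c x) (hub : ∀ A : ℝ, ∃ x ∈ S, A ≤ c x) (ht : 0 ≤ t) (hC : 0 ≤ C)
    (hle : ∀ x ∈ S, K₀ ≤ c x → f x ≤ C * t ^ c x) :
    ∀ x ∈ S, ∀ y ∈ S, c x ≤ c y → f y ≤ t ^ (c y - c x) * f x := by
  intro x hx y hy hxy
  rcases hxy.eq_or_lt with h1 | h1
  · rw [h1, sub_self, Real.rpow_zero, one_mul, h.eq_of_eq hμ hc hx hy h1]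
  have hcx := hc x hx
  have hcy := hc y hy
  have hfx := h.nonneg x hx
  rcases (h.nonneg y hy).eq_or_lt with h2 | h2
  · rw [← h2]
    exact mul_nonneg (Real.rpow_nonneg ht _) hfx
  have hfx' : 0 < f x := by
    rcases hfx.eq_or_lt with h3 | h3
    · exfalso
      have h4 := h.pow x hx y hy hxy
      rw [← h3, zero_div, Real.zero_rpow (div_pos hcy hcx).ne'] at h4
      have : 0 < f y / μ := div_pos h2 hμ
      linarith
    · exact h3
  have hCt : ∃ z ∈ S, 0 < C * t ^ c z := by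
    obtain ⟨z, hz, hzA⟩ := hub (max (c y) K₀)
    refine ⟨z, hz, lt_of_lt_of_le ?_ (hle z hz (le_trans (le_max_right _ _) hzA))⟩
    rcases (h.nonneg z hz).eq_or_lt with h3 | h3
    · exfalso
      have h4 := h.logc x hx y hy z hz hxy (le_trans (le_max_left _ _) hzA)
      rw [← h3, Real.zero_rpow (by linarith), mul_zero] at h4
      have h5 : 0 < f y ^ (c z - c x) := Real.rpow_pos_of_pos h2 _
      linarith
    · exact h3
  obtain ⟨z₀, hz₀, hCt⟩ := hCt
  have hC0 : 0 < C := by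
    rcases hC.eq_or_lt with h3 | h3
    · rw [← h3, zero_mul] at hCt
      linarith
    · exact h3
  have ht0 : 0 < t := by
    rcases ht.eq_or_lt with h3 | h3
    · rw [← h3, Real.zero_rpow (hc z₀ hz₀).ne', mul_zero] at hCt
      linarith
    · exact h3
  -- logarithms
  have hkey : ∀ z ∈ S, c y ≤ c z → K₀ ≤ c z →
      (c z - c x) * Real.log (f y) ≤ (c z - c y) * Real.log (f x) +
        (c y - c x) * (Real.log C + c z * Real.log t) := by
    intro z hz hyz hKz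
    have h3 := h.logc x hx y hy z hz hxy hyz
    have h4 : f z ^ (c y - c x) ≤ (C * t ^ c z) ^ (c y - c x) :=
      Real.rpow_le_rpow (h.nonneg z hz) (hle z hz hKz) (by linarith)
    have h5 : f y ^ (c z - c x) ≤ f x ^ (c z - c y) * (C * t ^ c z) ^ (c y - c x) :=
      h3.trans (mul_le_mul_of_nonneg_left h4 (Real.rpow_nonneg hfx _))
    have h6 := Real.log_le_log (Real.rpow_pos_of_pos h2 _) h5
    have htz : 0 < t ^ c z := Real.rpow_pos_of_pos ht0 _
    rw [Real.log_rpow h2, Real.log_mul (Real.rpow_pos_of_pos hfx' _).ne'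
      (Real.rpow_pos_of_pos (mul_pos hC0 htz) _).ne', Real.log_rpow hfx',
      Real.log_rpow (mul_pos hC0 htz), Real.log_mul hC0.ne' htz.ne', Real.log_rpow ht0] at h6
    exact h6
  have hlog : Real.log (f y) ≤ Real.log (f x) + (c y - c x) * Real.log t := by
    by_contra hcon
    push Not at hcon
    set δ := Real.log (f y) - (Real.log (f x) + (c y - c x) * Real.log t) with hδ
    have hδ0 : 0 < δ := by rw [hδ]; linarith
    set K := c x * Real.log (f y) - c y * Real.log (f x) + (c y - c x) * Real.log C with hK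
    obtain ⟨z, hz, hzA⟩ := hub (max (max (c y) K₀) ((K + 1) / δ))
    have hzA' := le_trans (le_max_left _ _) hzA
    have h3 := hkey z hz (le_trans (le_max_left _ _) hzA') (le_trans (le_max_right _ _) hzA')
    have h4 : (K + 1) / δ ≤ c z := le_trans (le_max_right _ _) hzA
    rw [div_le_iff₀ hδ0] at h4
    have h5 : c z * δ ≤ K := by
      rw [hδ, hK]
      nlinarith
    linarith
  have h7 : Real.log (f y) ≤ Real.log (t ^ (c y - c x) * f x) := by
    rw [Real.log_mul (Real.rpow_pos_of_pos ht0 _).ne' hfx'.ne', Real.log_rpow ht0]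
    linarith
  exact (Real.log_le_log_iff h2 (mul_pos (Real.rpow_pos_of_pos ht0 _) hfx')).mp h7

/-- adding to a power sum with top a power sum which is dominated by it -/
theorem PSTop.add {t C K₀ : ℝ} {f g : α → ℝ} (hf : PSTop S c 1 f t) (hg : PS S c 1 g)
    (hc : ∀ x ∈ S, 0 < c x) (hub : ∀ A : ℝ, ∃ x ∈ S, A ≤ c x) (hC : 0 ≤ C)
    (hle : ∀ x ∈ S, K₀ ≤ c x → g x ≤ C * t ^ c x) : PSTop S c 1 (fun x => f x + g x) t := by
  refine ⟨hf.t_nonneg, (hf.rem.add hg hc).congr (fun x _ => by ring), ?_⟩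
  intro x hx y hy hxy
  have h1 := hf.ratio x hx y hy hxy
  have h2 := hg.ratio_of_le one_pos hc hub hf.t_nonneg hC hle x hx y hy hxy
  rw [mul_add]
  exact add_le_add h1 h2

end PSlemmas

/-- upper bound of a power sum by its top -/
theorem PSTop.le_pow {α : Type*} {S : Set α} {c : α → ℝ} {μ t : ℝ} {f : α → ℝ}
    (h : PSTop S c μ f t) (ht : 0 < t) {x₀ : α} (hx₀ : x₀ ∈ S) :
    ∀ x ∈ S, c x₀ ≤ c x → f x ≤ (f x₀ / t ^ c x₀) * t ^ c x := by
  intro x hx hxx
  have h1 := h.ratio x₀ hx₀ x hx hxx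
  have h2 : 0 < t ^ c x₀ := Real.rpow_pos_of_pos ht _
  rw [Real.rpow_sub ht] at h1
  calc f x ≤ t ^ c x / t ^ c x₀ * f x₀ := h1
    _ = _ := by field_simp

theorem secA_sum (z : Fin 8 → ℝ) :
    z 0 = secA 0 z + ((secA 1 z + secA 1 z) + (secA 2 z + (secA 2 z + secA 2 z))) := by
  simp [secA]
  ring

theorem secB_sum (z : Fin 8 → ℝ) :
    z 0 = secB 0 z + ((secB 1 z + secB 1 z) + (secB 2 z + (secB 2 z + secB 2 z))) := by
  simp [secB]
  ring

theorem secA_smul (k : Fin 8) (z : Fin 8 → ℝ) (a : ℝ) :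
    secA k (fun t => z t * a) = secA k z * a := by
  fin_cases k <;> simp [secA] <;> ring

theorem secB_smul (k : Fin 8) (z : Fin 8 → ℝ) (a : ℝ) :
    secB k (fun t => z t * a) = secB k z * a := by
  fin_cases k <;> simp [secB] <;> ring

/-- power-sum facts for the twisted partition functions, without normalisation -/
structure Pre where
  Z : Fin 8 → ℝ → ℕ → ℝ
  V : Fin 2 → ℝ → ℝ
  W : Fin 2 → ℕ → ℝ
  hA : ∀ β : ℝ, 0 < β → ∀ k : Fin 8,
    PS {m : ℕ | 1 ≤ m} (fun m => 2 * (m : ℝ)) (muA k) (fun m => secA k (fun t => Z t β m))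
  hAtop0 : ∀ β : ℝ, 0 < β →
    PSTop {m : ℕ | 1 ≤ m} (fun m => 2 * (m : ℝ)) 1 (fun m => secA 0 (fun t => Z t β m)) (V 0 β)
  hAtop1 : ∀ β : ℝ, 0 < β →
    PSTop {m : ℕ | 1 ≤ m} (fun m => 2 * (m : ℝ)) 1 (fun m => secA 4 (fun t => Z t β m)) (V 1 β)
  hB : ∀ m : ℕ, 1 ≤ m → ∀ k : Fin 8,
    PS {β : ℝ | 0 < β} (fun β => β) (muB k m) (fun β => secB k (fun t => Z t β m))
  hBtop0 : ∀ m : ℕ, 1 ≤ m →
    PSTop {β : ℝ | 0 < β} (fun β => β) 1 (fun β => secB 0 (fun t => Z t β m)) (W 0 m)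
  hBtop1 : ∀ m : ℕ, 1 ≤ m →
    PSTop {β : ℝ | 0 < β} (fun β => β) 1 (fun β => secB 4 (fun t => Z t β m)) (W 1 m)
  pos : ∀ β : ℝ, 0 < β → ∀ m : ℕ, 1 ≤ m → 0 < Z 0 β m
  nonneg : ∀ t : Fin 8, t.val ≤ 4 → ∀ β : ℝ, 0 < β → ∀ m : ℕ, 1 ≤ m → 0 ≤ Z t β m

theorem muA_pos (k : Fin 8) : 0 < muA k := by
  unfold muA; split_ifs <;> norm_num

theorem muB_pos (k : Fin 8) (m : ℕ) : 0 < muB k m := by
  unfold muB; split_ifs <;> norm_num

theorem hcA : ∀ m ∈ {m : ℕ | 1 ≤ m}, (0 : ℝ) < 2 * (m : ℝ) := by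
  intro m hm
  have : (1 : ℝ) ≤ m := by exact_mod_cast hm
  linarith

theorem hubA : ∀ A : ℝ, ∃ m ∈ {m : ℕ | 1 ≤ m}, A ≤ 2 * (m : ℝ) := by
  intro A
  obtain ⟨n, hn⟩ := exists_nat_ge A
  refine ⟨n + 1, Nat.le_add_left 1 n, ?_⟩
  push_cast
  have : (0 : ℝ) ≤ n := Nat.cast_nonneg n
  linarith

theorem hcB : ∀ β ∈ {β : ℝ | 0 < β}, (0 : ℝ) < β := fun _ h => h

theorem hubB : ∀ A : ℝ, ∃ β ∈ {β : ℝ | 0 < β}, A ≤ β := by
  intro A
  exact ⟨max A 1, (lt_of_lt_of_le one_pos (le_max_right A 1) : (0:ℝ) < max A 1), le_max_left _ _⟩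

namespace Pre

variable (r : Pre)

/-- normalisation by `e` -/
noncomputable def scale (e : ℝ) : Pre where
  Z := fun t β m => r.Z t β m * Real.exp (β * (2 * m) * e)
  V := fun i β => r.V i β * Real.exp (β * e)
  W := fun i m => r.W i m * Real.exp (2 * m * e)
  hA := fun β hβ k => (r.hA β hβ k).scale (muA_pos k) (Real.exp_pos (β * e)) hcA (fun m _ => by
    rw [secA_smul, ← Real.exp_mul]
    congr 2
    ring)
  hAtop0 := fun β hβ => (r.hAtop0 β hβ).scale one_pos (Real.exp_pos (β * e)) hcA (fun m _ => by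
    rw [secA_smul, ← Real.exp_mul]
    congr 2
    ring)
  hAtop1 := fun β hβ => (r.hAtop1 β hβ).scale one_pos (Real.exp_pos (β * e)) hcA (fun m _ => by
    rw [secA_smul, ← Real.exp_mul]
    congr 2
    ring)
  hB := fun m hm k => (r.hB m hm k).scale (muB_pos k m) (Real.exp_pos (2 * m * e)) hcB
    (fun β _ => by
      rw [secB_smul, ← Real.exp_mul]
      congr 2
      ring)
  hBtop0 := fun m hm => (r.hBtop0 m hm).scale one_pos (Real.exp_pos (2 * m * e)) hcB
    (fun β _ => by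
      rw [secB_smul, ← Real.exp_mul]
      congr 2
      ring)
  hBtop1 := fun m hm => (r.hBtop1 m hm).scale one_pos (Real.exp_pos (2 * m * e)) hcB
    (fun β _ => by
      rw [secB_smul, ← Real.exp_mul]
      congr 2
      ring)
  pos := fun β hβ m hm => mul_pos (r.pos β hβ m hm) (Real.exp_pos _)
  nonneg := fun t ht β hβ m hm => mul_nonneg (r.nonneg t ht β hβ m hm) (Real.exp_pos _).le

theorem u_le_A {β : ℝ} (hβ : 0 < β) {m : ℕ} (hm : 1 ≤ m) :
    r.Z 0 β m ≤ 12 * secA 0 (fun t => r.Z t β m) := by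
  have h1 := r.nonneg 1 (by decide) β hβ m hm
  have h2 := r.nonneg 2 (by decide) β hβ m hm
  simp only [secA, Matrix.cons_val_zero]
  linarith

theorem u_le_B {β : ℝ} (hβ : 0 < β) {m : ℕ} (hm : 1 ≤ m) :
    r.Z 0 β m ≤ 12 * secB 0 (fun t => r.Z t β m) := by
  have h1 := r.nonneg 3 (by decide) β hβ m hm
  have h2 := r.nonneg 4 (by decide) β hβ m hm
  simp only [secB, Matrix.cons_val_zero]
  linarith

theorem A_pos {β : ℝ} (hβ : 0 < β) {m : ℕ} (hm : 1 ≤ m) :
    0 < secA 0 (fun t => r.Z t β m) := by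
  have h1 := r.u_le_A hβ hm
  have h2 := r.pos β hβ m hm
  linarith

theorem B_pos {β : ℝ} (hβ : 0 < β) {m : ℕ} (hm : 1 ≤ m) :
    0 < secB 0 (fun t => r.Z t β m) := by
  have h1 := r.u_le_B hβ hm
  have h2 := r.pos β hβ m hm
  linarith

theorem V_pos {β : ℝ} (hβ : 0 < β) : 0 < r.V 0 β := by
  have h := r.hAtop0 β hβ
  rcases h.t_nonneg.eq_or_lt with h1 | h1
  · exfalso
    have h2 := h.ratio 1 (le_refl 1) 2 (by show 1 ≤ 2; omega) (by norm_num)
    rw [← h1, Real.zero_rpow (by norm_num), zero_mul] at h2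
    have h3 := r.A_pos hβ (m := 2) (by omega)
    linarith
  · exact h1

theorem W_pos {m : ℕ} (hm : 1 ≤ m) : 0 < r.W 0 m := by
  have h := r.hBtop0 m hm
  rcases h.t_nonneg.eq_or_lt with h1 | h1
  · exfalso
    have h2 := h.ratio 1 (one_pos : (0 : ℝ) < 1) 2 (two_pos : (0 : ℝ) < 2) (by norm_num)
    rw [← h1, Real.zero_rpow (by norm_num), zero_mul] at h2
    have h3 := r.B_pos two_pos hm
    linarith
  · exact h1

theorem Z_topA {β : ℝ} (hβ : 0 < β) :
    PSTop {m : ℕ | 1 ≤ m} (fun m => 2 * (m : ℝ)) 1 (fun m => r.Z 0 β m) (r.V 0 β) := by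
  have h0 := r.hAtop0 β hβ
  have h1 : PS {m : ℕ | 1 ≤ m} (fun m => 2 * (m : ℝ)) 1 (fun m => secA 1 (fun t => r.Z t β m)) :=
    r.hA β hβ 1
  have h2 : PS {m : ℕ | 1 ≤ m} (fun m => 2 * (m : ℝ)) 1 (fun m => secA 2 (fun t => r.Z t β m)) :=
    r.hA β hβ 2
  have h3 := (h1.add h1 hcA).add (h2.add (h2.add h2 hcA) hcA) hcA
  have hV := r.V_pos hβ
  have hA1 := r.A_pos hβ (le_refl 1)
  refine (h0.add h3 hcA hubA (C := 12 * (secA 0 (fun t => r.Z t β 1) /
    r.V 0 β ^ (2 * ((1 : ℕ) : ℝ)))) (K₀ := 0) (by positivity) ?_).congr ?_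
  · intro m hm _
    have h4 := r.u_le_A hβ hm
    have h5 := secA_sum (fun t => r.Z t β m)
    have h6 := h0.le_pow hV (le_refl 1 : 1 ∈ {m : ℕ | 1 ≤ m}) m hm (by
      have : (1 : ℝ) ≤ m := by exact_mod_cast hm
      push_cast
      linarith)
    have h7 := h0.rem.nonneg m hm
    have h8 := r.A_pos hβ hm
    rw [mul_assoc]
    linarith
  · intro m _
    exact (secA_sum (fun t => r.Z t β m)).symm

theorem Z_topB {m : ℕ} (hm : 1 ≤ m) :
    PSTop {β : ℝ | 0 < β} (fun β => β) 1 (fun β => r.Z 0 β m) (r.W 0 m) := by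
  have h0 := r.hBtop0 m hm
  have h1 : PS {β : ℝ | 0 < β} (fun β => β) 1 (fun β => secB 1 (fun t => r.Z t β m)) := by
    have := r.hB m hm 1
    simpa [muB] using this
  have h2 : PS {β : ℝ | 0 < β} (fun β => β) 1 (fun β => secB 2 (fun t => r.Z t β m)) := by
    have := r.hB m hm 2
    simpa [muB] using this
  have h3 := (h1.add h1 hcB).add (h2.add (h2.add h2 hcB) hcB) hcB
  have hW := r.W_pos hm
  have hB1 := r.B_pos one_pos hm
  refine (h0.add h3 hcB hubB (C := 12 * (secB 0 (fun t => r.Z t 1 m) /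
    r.W 0 m ^ (1 : ℝ))) (K₀ := 1) (by positivity) ?_).congr ?_
  · intro β hβ hβ1
    have h4 := r.u_le_B hβ hm
    have h5 := secB_sum (fun t => r.Z t β m)
    have h6 := h0.le_pow hW (by show (0 : ℝ) < 1; exact one_pos : (1 : ℝ) ∈ {β : ℝ | 0 < β}) β hβ hβ1
    have h7 := h0.rem.nonneg β hβ
    have h8 := r.B_pos hβ hm
    rw [mul_assoc]
    linarith
  · intro β _
    exact (secB_sum (fun t => r.Z t β m)).symm

theorem Z_psA {β : ℝ} (hβ : 0 < β) :
    PS {m : ℕ | 1 ≤ m} (fun m => 2 * (m : ℝ)) 1 (fun m => r.Z 0 β m) := by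
  have h0 : PS {m : ℕ | 1 ≤ m} (fun m => 2 * (m : ℝ)) 1 (fun m => secA 0 (fun t => r.Z t β m)) :=
    r.hA β hβ 0
  have h1 : PS {m : ℕ | 1 ≤ m} (fun m => 2 * (m : ℝ)) 1 (fun m => secA 1 (fun t => r.Z t β m)) :=
    r.hA β hβ 1
  have h2 : PS {m : ℕ | 1 ≤ m} (fun m => 2 * (m : ℝ)) 1 (fun m => secA 2 (fun t => r.Z t β m)) :=
    r.hA β hβ 2
  exact (h0.add ((h1.add h1 hcA).add (h2.add (h2.add h2 hcA) hcA) hcA) hcA).congr
    (fun m _ => (secA_sum (fun t => r.Z t β m)).symm)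

theorem Vx_le' {β : ℝ} (hβ : 0 < β) : r.V 1 β ≤ r.V 0 β := by
  refine (r.hAtop1 β hβ).top_mono (r.hAtop0 β hβ) hcA ⟨1, le_refl 1⟩ hubA (C := 12) ?_
    (by norm_num)
  intro m hm
  have h1 := r.u_le_A hβ hm
  have h2 := (r.hA β hβ 3).nonneg m hm
  have h3 := (r.hA β hβ 5).nonneg m hm
  have h4 := (r.hB m hm 2).nonneg β hβ
  have e1 : secA 3 (fun t => r.Z t β m) = (r.Z 3 β m + r.Z 5 β m + 2 * r.Z 6 β m) / 4 := rfl
  have e2 : secA 5 (fun t => r.Z t β m) = (r.Z 3 β m - r.Z 5 β m) / 4 := rfl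
  have e3 : secB 2 (fun t => r.Z t β m) = (r.Z 0 β m - r.Z 3 β m) / 4 := rfl
  have e4 : secA 4 (fun t => r.Z t β m) = (r.Z 3 β m + r.Z 5 β m - 2 * r.Z 6 β m) / 4 := rfl
  simp only [e1, e2, e3, e4] at h2 h3 h4 ⊢
  linarith

theorem Wx_le' {m : ℕ} (hm : 1 ≤ m) : r.W 1 m ≤ r.W 0 m := by
  refine (r.hBtop1 m hm).top_mono (r.hBtop0 m hm) hcB
    ⟨1, (by show (0 : ℝ) < 1; exact one_pos)⟩ hubB (C := 12) ?_ (by norm_num)
  intro β hβ
  have h1 := r.u_le_B hβ hm
  have h2 := (r.hB m hm 3).nonneg β hβ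
  have h3 := (r.hB m hm 5).nonneg β hβ
  have h4 := (r.hA β hβ 2).nonneg m hm
  have e1 : secB 3 (fun t => r.Z t β m) = (r.Z 1 β m + r.Z 5 β m + 2 * r.Z 6 β m) / 4 := rfl
  have e2 : secB 5 (fun t => r.Z t β m) = (r.Z 1 β m - r.Z 5 β m) / 4 := rfl
  have e3 : secA 2 (fun t => r.Z t β m) = (r.Z 0 β m - r.Z 1 β m) / 4 := rfl
  have e4 : secB 4 (fun t => r.Z t β m) = (r.Z 1 β m + r.Z 5 β m - 2 * r.Z 6 β m) / 4 := rfl
  simp only [e1, e2, e3, e4] at h2 h3 h4 ⊢
  linarith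

theorem _root_.Hald.le_zero_of_lin {x y : ℝ} (h : ∀ β : ℝ, 1 ≤ β → β * x ≤ y) : x ≤ 0 := by
  by_contra hx
  push Not at hx
  have h1 := h (max 1 ((y + 1) / x)) (le_max_left _ _)
  have h2 : (y + 1) / x ≤ max 1 ((y + 1) / x) := le_max_right _ _
  rw [div_le_iff₀ hx] at h2
  linarith

/-- `log u(β,m) ≤ C + β log W(m)` for `β ≥ 1` -/
theorem log_u_le_W {m : ℕ} (hm : 1 ≤ m) {β : ℝ} (hβ : 1 ≤ β) :
    Real.log (r.Z 0 β m) ≤ Real.log (r.Z 0 1 m / r.W 0 m) + β * Real.log (r.W 0 m) := by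
  have hβ0 : 0 < β := by linarith
  have hW := r.W_pos hm
  have h1 := (r.Z_topB hm).le_pow hW
    (by show (0 : ℝ) < 1; exact one_pos : (1 : ℝ) ∈ {β : ℝ | 0 < β}) β hβ0 hβ
  rw [Real.rpow_one] at h1
  have h2 := Real.log_le_log (r.pos β hβ0 m hm) h1
  rwa [Real.log_mul (div_pos (r.pos 1 one_pos m hm) hW).ne' (Real.rpow_pos_of_pos hW _).ne',
    Real.log_rpow hW] at h2

theorem W_le_log_u {m : ℕ} (hm : 1 ≤ m) {β : ℝ} (hβ : 0 < β) :
    β * Real.log (r.W 0 m) ≤ Real.log (r.Z 0 β m) := by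
  have hW := r.W_pos hm
  have h1 : r.W 0 m ^ β ≤ r.Z 0 β m := (r.Z_topB hm).rpow_le (x := β) hβ
  have h2 := Real.log_le_log (Real.rpow_pos_of_pos hW _) h1
  rwa [Real.log_rpow hW] at h2

/-- `log u(β,m) ≤ C + 2m log V(β)` -/
theorem log_u_le_V {m : ℕ} (hm : 1 ≤ m) {β : ℝ} (hβ : 0 < β) :
    Real.log (r.Z 0 β m) ≤ (Real.log (r.Z 0 β 1) - 2 * Real.log (r.V 0 β)) +
      (2 * m) * Real.log (r.V 0 β) := by
  have hV := r.V_pos hβ
  have h1 := (r.Z_topA hβ).ratio 1 (le_refl 1) m hm (by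
    have : (1 : ℝ) ≤ m := by exact_mod_cast hm
    push_cast
    linarith)
  have h2 := Real.log_le_log (r.pos β hβ m hm) h1
  rw [Real.log_mul (Real.rpow_pos_of_pos hV _).ne' (r.pos β hβ 1 (le_refl 1)).ne',
    Real.log_rpow hV] at h2
  push_cast at h2
  linarith

theorem V_le_log_u {m : ℕ} (hm : 1 ≤ m) {β : ℝ} (hβ : 0 < β) :
    (2 * m) * Real.log (r.V 0 β) ≤ Real.log (r.Z 0 β m) := by
  have hV := r.V_pos hβ
  have h1 : r.V 0 β ^ (2 * (m : ℝ)) ≤ r.Z 0 β m := (r.Z_topA hβ).rpow_le (x := m) hm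
  have h2 := Real.log_le_log (Real.rpow_pos_of_pos hV _) h1
  rwa [Real.log_rpow hV] at h2

theorem W_pow {m m' : ℕ} (hm : 1 ≤ m) (hmm : m ≤ m') :
    Real.log (r.W 0 m') / (2 * m') ≤ Real.log (r.W 0 m) / (2 * m) := by
  have hm' : 1 ≤ m' := hm.trans hmm
  have hmR : (1 : ℝ) ≤ m := by exact_mod_cast hm
  have hmR' : (1 : ℝ) ≤ m' := by exact_mod_cast hm'
  have hmmR : (m : ℝ) ≤ m' := by exact_mod_cast hmm
  have key : Real.log (r.W 0 m') - (m' / m) * Real.log (r.W 0 m) ≤ 0 := by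
    apply le_zero_of_lin (y := (m' / m) * Real.log (r.Z 0 1 m / r.W 0 m))
    intro β hβ
    have hβ0 : 0 < β := by linarith
    have h1 := r.W_le_log_u hm' hβ0
    have h2 := r.log_u_le_W hm hβ
    have h3 := (r.Z_psA hβ0).pow m hm m' hm' (by simpa using hmmR)
    simp only [div_one] at h3
    have h4 := Real.log_le_log (r.pos β hβ0 m' hm') h3
    have e : (2 * (m' : ℝ)) / (2 * m) = m' / m := by
      field_simp
    rw [Real.log_rpow (r.pos β hβ0 m hm), e] at h4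
    have h5 : (m' / m : ℝ) * Real.log (r.Z 0 β m) ≤
        (m' / m : ℝ) * (Real.log (r.Z 0 1 m / r.W 0 m) + β * Real.log (r.W 0 m)) :=
      mul_le_mul_of_nonneg_left h2 (by positivity)
    nlinarith
  rw [div_le_div_iff₀ (by positivity) (by positivity)]
  have h6 : Real.log (r.W 0 m') ≤ (m' / m) * Real.log (r.W 0 m) := by linarith
  have h7 := mul_le_mul_of_nonneg_left h6 (by positivity : (0 : ℝ) ≤ 2 * m)
  have e : 2 * (m : ℝ) * (m' / m * Real.log (r.W 0 m)) = Real.log (r.W 0 m) * (2 * m') := by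
    field_simp
  rw [e] at h7
  linarith

theorem tendsto_const_div (C : ℝ) : Tendsto (fun m : ℕ => C / (2 * (m : ℝ))) atTop (𝓝 0) := by
  have h := (tendsto_const_nhds (x := C / 2)).div_atTop (tendsto_natCast_atTop_atTop (R := ℝ))
  refine h.congr fun m => ?_
  rw [div_div]

theorem log_V_step {α : ℝ} (h0 : Tendsto (fun m : ℕ => Real.log (r.W 0 m) / (2 * m)) atTop (𝓝 α))
    {β β' : ℝ} (hβ : 0 < β) (hββ : β ≤ β') :
    Real.log (r.V 0 β') ≤ Real.log (r.V 0 β) + (β' - β) * α := by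
  have hβ' : 0 < β' := by linarith
  set C := Real.log (r.Z 0 β 1) - 2 * Real.log (r.V 0 β) with hC
  have h1 : Tendsto (fun m : ℕ => Real.log (r.V 0 β) +
      (β' - β) * (Real.log (r.W 0 m) / (2 * m)) + C / (2 * m)) atTop
      (𝓝 (Real.log (r.V 0 β) + (β' - β) * α + 0)) :=
    ((tendsto_const_nhds (x := Real.log (r.V 0 β))).add (h0.const_mul (β' - β))).add
      (tendsto_const_div C)
  rw [add_zero] at h1
  refine ge_of_tendsto h1 ?_
  filter_upwards [eventually_ge_atTop 1] with m hm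
  have hmR : (1 : ℝ) ≤ m := by exact_mod_cast hm
  have hm0 : (0 : ℝ) < 2 * m := by linarith
  have h2 := r.V_le_log_u hm hβ'
  have h3 := r.log_u_le_V hm hβ
  have hW := r.W_pos hm
  have h4 := (r.Z_topB hm).ratio β hβ β' hβ' hββ
  have h5 := Real.log_le_log (r.pos β' hβ' m hm) h4
  rw [Real.log_mul (Real.rpow_pos_of_pos hW _).ne' (r.pos β hβ m hm).ne', Real.log_rpow hW] at h5
  have h6 : 2 * (m : ℝ) * Real.log (r.V 0 β') ≤
      (β' - β) * Real.log (r.W 0 m) + C + 2 * m * Real.log (r.V 0 β) := by linarith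
  have e : Real.log (r.V 0 β) + (β' - β) * (Real.log (r.W 0 m) / (2 * m)) + C / (2 * m) =
      ((β' - β) * Real.log (r.W 0 m) + C + 2 * m * Real.log (r.V 0 β)) / (2 * m) := by
    field_simp
    ring
  rw [e, le_div_iff₀ hm0]
  linarith

theorem log_V_ge {α : ℝ} (h0 : Tendsto (fun m : ℕ => Real.log (r.W 0 m) / (2 * m)) atTop (𝓝 α))
    {β : ℝ} (hβ : 0 < β) : β * α ≤ Real.log (r.V 0 β) := by
  set C := Real.log (r.Z 0 β 1) - 2 * Real.log (r.V 0 β) with hC
  have h1 : Tendsto (fun m : ℕ => β * (Real.log (r.W 0 m) / (2 * m)) - C / (2 * m)) atTop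
      (𝓝 (β * α - 0)) := (h0.const_mul β).sub (tendsto_const_div C)
  rw [sub_zero] at h1
  refine le_of_tendsto h1 ?_
  filter_upwards [eventually_ge_atTop 1] with m hm
  have hmR : (1 : ℝ) ≤ m := by exact_mod_cast hm
  have hm0 : (0 : ℝ) < 2 * m := by linarith
  have h2 := r.W_le_log_u hm hβ
  have h3 := r.log_u_le_V hm hβ
  have e : β * (Real.log (r.W 0 m) / (2 * m)) - C / (2 * m) =
      (β * Real.log (r.W 0 m) - C) / (2 * m) := by
    field_simp
  rw [e, div_le_iff₀ hm0]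
  linarith

/-- the normalised case -/
theorem exists_world_of_tendsto
    (h0 : Tendsto (fun m : ℕ => Real.log (r.W 0 m) / (2 * m)) atTop (𝓝 0)) :
    ∃ w : World, w.Z = r.Z ∧ w.V = r.V ∧ w.W = r.W := by
  have hWnn : ∀ m : ℕ, 1 ≤ m → 0 ≤ Real.log (r.W 0 m) := by
    intro m hm
    have hmR : (1 : ℝ) ≤ m := by exact_mod_cast hm
    have h1 : 0 ≤ Real.log (r.W 0 m) / (2 * m) := by
      refine le_of_tendsto h0 ?_
      filter_upwards [eventually_ge_atTop m] with m' hm'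
      exact r.W_pow hm hm'
    have h2 := mul_nonneg h1 (by linarith : (0 : ℝ) ≤ 2 * m)
    rwa [div_mul_cancel₀ _ (by positivity)] at h2
  have hVanti : ∀ β β' : ℝ, 0 < β → β ≤ β' → r.V 0 β' ≤ r.V 0 β := by
    intro β β' hβ hββ
    have h1 := r.log_V_step h0 hβ hββ
    rw [mul_zero, add_zero] at h1
    exact (Real.log_le_log_iff (r.V_pos (by linarith)) (r.V_pos hβ)).mp h1
  have hV1 : ∀ β : ℝ, 0 < β → 1 ≤ r.V 0 β := by
    intro β hβ
    have h1 := r.log_V_ge h0 hβ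
    rw [mul_zero] at h1
    rwa [← Real.log_nonneg_iff (r.V_pos hβ)]
  have hWanti : ∀ m m' : ℕ, 1 ≤ m → m ≤ m' → r.W 0 m' ≤ r.W 0 m := by
    intro m m' hm hmm
    have hm' : 1 ≤ m' := hm.trans hmm
    have hmmR : (m : ℝ) ≤ m' := by exact_mod_cast hmm
    have key : Real.log (r.W 0 m') - Real.log (r.W 0 m) ≤ 0 := by
      apply le_zero_of_lin (y := (2 * m' - 2 * m) * Real.log (r.V 0 1) +
        Real.log (r.Z 0 1 m / r.W 0 m))
      intro β hβ
      have hβ0 : 0 < β := by linarith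
      have h1 := r.W_le_log_u hm' hβ0
      have h2 := r.log_u_le_W hm hβ
      have h3 := (r.Z_topA hβ0).ratio m hm m' hm' (by simpa using hmmR)
      have h4 := Real.log_le_log (r.pos β hβ0 m' hm') h3
      rw [Real.log_mul (Real.rpow_pos_of_pos (r.V_pos hβ0) _).ne' (r.pos β hβ0 m hm).ne',
        Real.log_rpow (r.V_pos hβ0)] at h4
      have h5 : Real.log (r.V 0 β) ≤ Real.log (r.V 0 1) :=
        Real.log_le_log (r.V_pos hβ0) (hVanti 1 β one_pos hβ)
      have h6 := mul_le_mul_of_nonneg_left h5 (by linarith : (0 : ℝ) ≤ 2 * m' - 2 * m)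
      linarith
    exact (Real.log_le_log_iff (r.W_pos hm') (r.W_pos hm)).mp (by linarith)
  exact ⟨{ Z := r.Z, V := r.V, W := r.W
           hA := r.hA, hAtop0 := r.hAtop0, hAtop1 := r.hAtop1
           hB := r.hB, hBtop0 := r.hBtop0, hBtop1 := r.hBtop1
           V_anti := hVanti
           one_le_V := hV1
           Vx_le := fun β hβ => r.Vx_le' hβ
           W_anti := hWanti
           one_le_W := fun m hm => by
             rw [← Real.log_nonneg_iff (r.W_pos hm)]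
             exact hWnn m hm
           Wx_le := fun m hm => r.Wx_le' hm
           hZtopA := fun β hβ => r.Z_topA hβ
           hZtopB := fun m hm => r.Z_topB hm }, rfl, rfl, rfl⟩

/-- **(4e)** -/
theorem exists_world (h1 : ∀ β : ℝ, 0 < β → ∀ m : ℕ, 1 ≤ m → 1 ≤ r.Z 0 β m) :
    ∃ (w : World) (e : ℝ),
      (∀ t β m, w.Z t β m = r.Z t β m * Real.exp (β * (2 * m) * e)) ∧
      (∀ i β, w.V i β = r.V i β * Real.exp (β * e)) ∧
      (∀ i m, w.W i m = r.W i m * Real.exp (2 * m * e)) := by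
  have hWnn : ∀ m : ℕ, 1 ≤ m → 0 ≤ Real.log (r.W 0 m) := by
    intro m hm
    have key : - Real.log (r.W 0 m) ≤ 0 := by
      apply le_zero_of_lin (y := Real.log (r.Z 0 1 m / r.W 0 m))
      intro β hβ
      have h2 := r.log_u_le_W hm hβ
      have h3 : 0 ≤ Real.log (r.Z 0 β m) := Real.log_nonneg (h1 β (by linarith) m hm)
      linarith
    linarith
  have hanti : Antitone (fun n : ℕ => Real.log (r.W 0 (n + 1)) / (2 * ((n + 1 : ℕ) : ℝ))) := by
    intro a b hab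
    exact r.W_pow (Nat.le_add_left 1 a) (Nat.add_le_add_right hab 1)
  have hbdd : BddBelow (Set.range
      (fun n : ℕ => Real.log (r.W 0 (n + 1)) / (2 * ((n + 1 : ℕ) : ℝ)))) := by
    refine ⟨0, ?_⟩
    rintro _ ⟨n, rfl⟩
    exact div_nonneg (hWnn _ (Nat.le_add_left 1 n)) (by positivity)
  have hlim := tendsto_atTop_ciInf hanti hbdd
  set α := ⨅ n : ℕ, Real.log (r.W 0 (n + 1)) / (2 * ((n + 1 : ℕ) : ℝ)) with hα
  have hlim' : Tendsto (fun m : ℕ => Real.log (r.W 0 m) / (2 * m)) atTop (𝓝 α) :=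
    (tendsto_add_atTop_iff_nat 1).mp hlim
  have h0 : Tendsto (fun m : ℕ => Real.log ((r.scale (-α)).W 0 m) / (2 * m)) atTop (𝓝 0) := by
    have h2 := hlim'.sub_const α
    rw [sub_self] at h2
    refine h2.congr' ?_
    filter_upwards [eventually_ge_atTop 1] with m hm
    have hmR : (1 : ℝ) ≤ m := by exact_mod_cast hm
    have e : (r.scale (-α)).W 0 m = r.W 0 m * Real.exp (2 * m * (-α)) := rfl
    rw [e, Real.log_mul (r.W_pos hm).ne' (Real.exp_pos _).ne', Real.log_exp]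
    field_simp
    ring
  obtain ⟨w, hZ, hV, hW⟩ := (r.scale (-α)).exists_world_of_tendsto h0
  refine ⟨w, -α, fun t β m => ?_, fun i β => ?_, fun i m => ?_⟩
  · rw [hZ]; rfl
  · rw [hV]; rfl
  · rw [hW]; rfl

end Pre

end Hald
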