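import Crest.Agent.Hald.SectorAlg

/-!
# Row 347, M4 (4c): abstract sectors are power sums (powers and exponentials)
-/

set_option autoImplicit false
set_option linter.unusedSectionVars false

namespace Hald

open Matrix Finset
open scoped ComplexOrder

/-- index set of the space direction -/
abbrev SA : Set ℕ := {m : ℕ | 1 ≤ m}
/-- exponent of the space direction -/
abbrev cA : ℕ → ℝ := fun m => 2 * (m : ℝ)
/-- index set of the time direction -/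
abbrev SB : Set ℝ := {β : ℝ | 0 < β}
/-- exponent of the time direction -/
abbrev cB : ℝ → ℝ := fun β => β

theorem cA_pos : ∀ m ∈ SA, 0 < cA m := by
  intro m hm
  have : (1 : ℝ) ≤ m := by exact_mod_cast hm
  simp only [cA]
  linarith

theorem cB_pos : ∀ β ∈ SB, 0 < cB β := fun _ h => h

theorem SA_nonempty : SA.Nonempty := ⟨1, le_refl 1⟩
theorem SB_nonempty : SB.Nonempty := ⟨1, (one_pos : (0 : ℝ) < 1)⟩

theorem cA_unbounded : ∀ A : ℝ, ∃ m ∈ SA, A ≤ cA m := by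
  intro A
  obtain ⟨n, hn⟩ := exists_nat_ge A
  refine ⟨n + 1, Nat.succ_le_succ (Nat.zero_le n), ?_⟩
  simp only [cA]
  push_cast
  have : (0 : ℝ) ≤ n := Nat.cast_nonneg n
  linarith

theorem cB_unbounded : ∀ A : ℝ, ∃ β ∈ SB, A ≤ cB β := fun A =>
  ⟨max A 1, (lt_of_lt_of_le one_pos (le_max_right _ _) : (0 : ℝ) < max A 1), le_max_left _ _⟩

variable {κ : Type*} [Fintype κ] [DecidableEq κ]

theorem sqrt_rpow_two_mul {l : ℝ} (hl : 0 ≤ l) (m : ℕ) : (Real.sqrt l) ^ (2 * (m : ℝ)) = l ^ m := by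
  have e : (2 : ℝ) * (m : ℝ) = ((2 * m : ℕ) : ℝ) := by push_cast; ring
  rw [e, Real.rpow_natCast, pow_mul, Real.sq_sqrt hl]

theorem pow_sum_eq {P : Matrix κ κ ℂ} {T : Matrix κ κ ℝ} (hP : HProj P) (hT : (cplx T).PosSemidef)
    (hPT : P * cplx T = cplx T * P) {f : ℕ → ℝ}
    (hf : ∀ m, 1 ≤ m → (P * cplx (T ^ m)).trace = (f m : ℂ)) :
    ∃ l : κ → ℝ, (∀ i, 0 ≤ l i) ∧ ∀ m ∈ SA, ∑ i, l i ^ cA m = f m := by
  obtain ⟨l, hl, h⟩ := trace_proj_pow hP hT hPT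
  refine ⟨fun i => Real.sqrt (l i), fun i => Real.sqrt_nonneg _, fun m hm => ?_⟩
  have h1 := h m hm
  rw [← cplx_pow, hf m hm] at h1
  have h2 : f m = ∑ i, l i ^ m := by exact_mod_cast h1
  rw [h2]
  exact Finset.sum_congr rfl fun i _ => sqrt_rpow_two_mul (hl i) m

theorem ps_pow {P : Matrix κ κ ℂ} {T : Matrix κ κ ℝ} (hP : HProj P) (hT : (cplx T).PosSemidef)
    (hPT : P * cplx T = cplx T * P) {f : ℕ → ℝ}
    (hf : ∀ m, 1 ≤ m → (P * cplx (T ^ m)).trace = (f m : ℂ)) : PS SA cA 1 f := by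
  obtain ⟨l, hl, h⟩ := pow_sum_eq hP hT hPT hf
  exact (PS.finsum Finset.univ l (fun i _ => hl i) cA_pos).congr h

theorem pstop_pow [Nonempty κ] {P : Matrix κ κ ℂ} {T : Matrix κ κ ℝ} (hP : HProj P)
    (hT : (cplx T).PosSemidef) (hPT : P * cplx T = cplx T * P) {f : ℕ → ℝ}
    (hf : ∀ m, 1 ≤ m → (P * cplx (T ^ m)).trace = (f m : ℂ)) : ∃ t, PSTop SA cA 1 f t := by
  obtain ⟨l, hl, h⟩ := pow_sum_eq hP hT hPT hf
  obtain ⟨j, -, hj⟩ := Finset.exists_max_image Finset.univ l Finset.univ_nonempty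
  exact ⟨l j, (PSTop.finsum Finset.univ l (fun i _ => hl i) cA_pos (Finset.mem_univ j)
    (fun i hi => hj i hi)).congr h⟩

theorem exp_sum_eq {P : Matrix κ κ ℂ} {N : Matrix κ κ ℝ} (hP : HProj P) (hN : Nᵀ = N)
    (hPN : P * cplx N = cplx N * P) {f : ℝ → ℝ}
    (hf : ∀ β, 0 < β → (P * cplx (NormedSpace.exp (β • N))).trace = (f β : ℂ)) :
    ∃ l : κ → ℝ, (∀ i, 0 ≤ l i) ∧ ∀ β ∈ SB, ∑ i, l i ^ cB β = f β := by
  have hH : (cplx N).IsHermitian := by
    unfold Matrix.IsHermitian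
    rw [cplx_conjTranspose, hN]
  obtain ⟨l, hl, h⟩ := trace_proj_exp hP hH hPN
  refine ⟨l, hl, fun β hβ => ?_⟩
  have h1 := h β hβ
  rw [← cplx_exp, hf β hβ] at h1
  exact_mod_cast h1.symm

theorem ps_exp {P : Matrix κ κ ℂ} {N : Matrix κ κ ℝ} (hP : HProj P) (hN : Nᵀ = N)
    (hPN : P * cplx N = cplx N * P) {f : ℝ → ℝ}
    (hf : ∀ β, 0 < β → (P * cplx (NormedSpace.exp (β • N))).trace = (f β : ℂ)) :
    PS SB cB 1 f := by
  obtain ⟨l, hl, h⟩ := exp_sum_eq hP hN hPN hf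
  exact (PS.finsum Finset.univ l (fun i _ => hl i) cB_pos).congr h

theorem pstop_exp [Nonempty κ] {P : Matrix κ κ ℂ} {N : Matrix κ κ ℝ} (hP : HProj P) (hN : Nᵀ = N)
    (hPN : P * cplx N = cplx N * P) {f : ℝ → ℝ}
    (hf : ∀ β, 0 < β → (P * cplx (NormedSpace.exp (β • N))).trace = (f β : ℂ)) :
    ∃ t, PSTop SB cB 1 f t := by
  obtain ⟨l, hl, h⟩ := exp_sum_eq hP hN hPN hf
  obtain ⟨j, -, hj⟩ := Finset.exists_max_image Finset.univ l Finset.univ_nonempty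
  exact ⟨l j, (PSTop.finsum Finset.univ l (fun i _ => hl i) cB_pos (Finset.mem_univ j)
    (fun i hi => hj i hi)).congr h⟩

theorem transpose_pow_eq {T : Matrix κ κ ℝ} (hT : Tᵀ = T) (m : ℕ) : (T ^ m)ᵀ = T ^ m := by
  rw [Matrix.transpose_pow, hT]

theorem comm_pow {A T : Matrix κ κ ℝ} (h : A * T = T * A) (m : ℕ) : A * T ^ m = T ^ m * A :=
  ((show Commute A T from h).pow_right m).eq

theorem exp_transpose_eq {N : Matrix κ κ ℝ} (hN : Nᵀ = N) (β : ℝ) :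
    (NormedSpace.exp (β • N))ᵀ = NormedSpace.exp (β • N) := by
  rw [← Matrix.exp_transpose, Matrix.transpose_smul, hN]

theorem half_real {x : ℝ} {z : ℂ} (h : ((x : ℝ) : ℂ) = 2 * z) : z = ((x / 2 : ℝ) : ℂ) := by
  push_cast
  rw [h]
  ring

theorem ps_pow_two {P J T : Matrix κ κ ℝ} (hPt : Pᵀ = P) (hPP : P * P = P) (hJt : Jᵀ * J = 1)
    (hJP : J * P = P * J) (hJJ : J * (J * P) = -P) (hT : (cplx T).PosSemidef) (hTt : Tᵀ = T)
    (hPT : P * T = T * P) (hJT : J * T = T * J) {f : ℕ → ℝ}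
    (hf : ∀ m, 1 ≤ m → (P * T ^ m).trace = f m) : PS SA cA 2 f := by
  have h1 : ∀ m, 1 ≤ m → (Pplus P J * cplx (T ^ m)).trace = ((f m / 2 : ℝ) : ℂ) := by
    intro m hm
    apply half_real
    rw [← trace_eq_two_Pplus hPt hJt hJJ (transpose_pow_eq hTt m) (comm_pow hPT m), ← cplx_mul,
      cplx_trace, hf m hm]
  refine PS.two (g := fun m => f m / 2) (ps_pow (Pplus_proj hPt hPP hJt hJP hJJ) hT
    (Pplus_comm hJT hPT) h1) (fun m _ => by ring)

theorem ps_exp_two {P J N : Matrix κ κ ℝ} (hPt : Pᵀ = P) (hPP : P * P = P) (hJt : Jᵀ * J = 1)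
    (hJP : J * P = P * J) (hJJ : J * (J * P) = -P) (hN : Nᵀ = N)
    (hPN : P * N = N * P) (hJN : J * N = N * J) {f : ℝ → ℝ}
    (hf : ∀ β, 0 < β → (P * NormedSpace.exp (β • N)).trace = f β) : PS SB cB 2 f := by
  have h1 : ∀ β, 0 < β → (Pplus P J * cplx (NormedSpace.exp (β • N))).trace =
      ((f β / 2 : ℝ) : ℂ) := by
    intro β hβ
    apply half_real
    rw [← trace_eq_two_Pplus hPt hJt hJJ (exp_transpose_eq hN β) (exp_smul_commute hPN β),
      ← cplx_mul, cplx_trace, hf β hβ]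
  refine PS.two (g := fun β => f β / 2) (ps_exp (Pplus_proj hPt hPP hJt hJP hJJ) hN
    (Pplus_comm hJN hPN) h1) (fun β _ => by ring)

/-- doubling on the sector where `X = -1`, `X = J²` -/
theorem PD_double {X Y J : Matrix κ κ ℝ} (h : D2Act X Y) (hJ : J * J = X) :
    J * (J * PD (-1) 1 X Y) = -PD (-1) 1 X Y := by
  rw [← Matrix.mul_assoc, hJ]
  unfold PD
  rw [Matrix.mul_smul, ← smul_neg]
  congr 1
  simp only [Matrix.mul_add, Matrix.mul_one, Matrix.mul_smul, ← Matrix.mul_assoc, h.XX,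
    Matrix.one_mul]
  ext i j
  simp only [Matrix.add_apply, Matrix.smul_apply, Matrix.neg_apply, smul_eq_mul]
  ring

end Hald
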