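import Mathlib

/-!
# Row 347, M5: the tops converge (pure analysis)
-/

set_option autoImplicit false

namespace Hald

open Filter Topology

/-- PROOF. `C := b 1 / V^2 ≥ 1` (as `b 1 ≥ V^2`).
UPPER BOUND: let `ε > 0`; choose `m ≥ 1` with `2 * C ≤ (1+ε)^(2m)`.  Eventually `a n m ≤ 2 * b m`
(`b m ≥ V^(2m) > 0`), so `v n ^ (2m) ≤ a n m ≤ 2 b m ≤ 2 V^(2(m-1)) b 1 = 2 C V^(2m) ≤ ((1+ε) V)^(2m)`,
so `v n ≤ (1+ε) V`.
LOWER BOUND: choose `m ≥ 2` with `4 * C ≤ (1+ε)^(2(m-1))`.  Eventually `a n m ≥ b m / 2 ≥ V^(2m)/2` and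
`0 < a n 1 ≤ 2 b 1 = 2 C V^2`, so `v n ^ (2(m-1)) ≥ a n m / a n 1 ≥ V^(2(m-1)) / (4 C) ≥ (V/(1+ε))^(2(m-1))`. -/
theorem top_tendsto {a : ℕ → ℕ → ℝ} {b : ℕ → ℝ} {v : ℕ → ℝ} {V : ℝ} (hV : 0 < V)
    (hv : ∀ n, 0 ≤ v n) (hlim : ∀ m, 1 ≤ m → Tendsto (fun n => a n m) atTop (𝓝 (b m)))
    (h1 : ∀ᶠ n in atTop, ∀ m, 1 ≤ m → v n ^ (2 * m) ≤ a n m)
    (h2 : ∀ᶠ n in atTop, ∀ m, 1 ≤ m → a n m ≤ v n ^ (2 * (m - 1)) * a n 1)
    (g1 : ∀ m, 1 ≤ m → V ^ (2 * m) ≤ b m)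
    (g2 : ∀ m, 1 ≤ m → b m ≤ V ^ (2 * (m - 1)) * b 1) :
    Tendsto v atTop (𝓝 V) := by
  have hb1 : 0 < b 1 := lt_of_lt_of_le (by positivity) (g1 1 le_rfl)
  refine tendsto_order.2 ⟨fun c hc => ?_, fun c hc => ?_⟩
  · -- lower bound
    set c' := max c (V / 2) with hc'
    have hc'0 : 0 < c' := lt_of_lt_of_le (by linarith) (le_max_right _ _)
    have hc'V : c' < V := max_lt hc (by linarith)
    have hρ : 1 < (V / c') ^ 2 := by
      apply one_lt_pow₀ _ (by norm_num)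
      rwa [one_lt_div hc'0]
    obtain ⟨k, hk⟩ := pow_unbounded_of_one_lt (4 * b 1 / V ^ 2) hρ
    have hbm : 0 < b (k + 1) := lt_of_lt_of_le (by positivity) (g1 (k + 1) (by omega))
    have e1 : ∀ᶠ n in atTop, b (k + 1) / 2 < a n (k + 1) :=
      (hlim (k + 1) (by omega)).eventually (lt_mem_nhds (by linarith))
    have e2 : ∀ᶠ n in atTop, a n 1 < 2 * b 1 :=
      (hlim 1 le_rfl).eventually (gt_mem_nhds (by linarith))
    filter_upwards [h1, h2, e1, e2] with n hn1 hn2 he1 he2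
    by_contra hcon
    push Not at hcon
    have hvc : v n ≤ c' := hcon.trans (le_max_left _ _)
    have ha1 : 0 ≤ a n 1 := le_trans (pow_nonneg (hv n) _) (hn1 1 le_rfl)
    have h3 := hn2 (k + 1) (by omega)
    rw [Nat.add_sub_cancel] at h3
    have h4 : v n ^ (2 * k) * a n 1 ≤ c' ^ (2 * k) * (2 * b 1) :=
      mul_le_mul (pow_le_pow_left₀ (hv n) hvc _) he2.le ha1 (by positivity)
    have h5 := g1 (k + 1) (by omega)
    have h6 : V ^ (2 * (k + 1)) / 2 < c' ^ (2 * k) * (2 * b 1) := by linarith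
    rw [← pow_mul, div_pow, div_lt_div_iff₀ (by positivity) (by positivity)] at hk
    have h8 : V ^ (2 * (k + 1)) = V ^ (2 * k) * V ^ 2 := by ring
    rw [h8] at h6
    nlinarith
  · -- upper bound
    have hc0 : 0 < c := hV.trans hc
    have hρ : 1 < (c / V) ^ 2 := by
      apply one_lt_pow₀ _ (by norm_num)
      rwa [one_lt_div hV]
    obtain ⟨m, hm⟩ := pow_unbounded_of_one_lt (2 * b 1 / V ^ 2) hρ
    have hm' : 2 * b 1 / V ^ 2 < ((c / V) ^ 2) ^ (m + 1) := by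
      refine hm.trans_le ?_
      exact pow_le_pow_right₀ hρ.le (Nat.le_succ m)
    have hbm : 0 < b (m + 1) := lt_of_lt_of_le (by positivity) (g1 (m + 1) (by omega))
    have e1 : ∀ᶠ n in atTop, a n (m + 1) < 2 * b (m + 1) :=
      (hlim (m + 1) (by omega)).eventually (gt_mem_nhds (by linarith))
    filter_upwards [h1, e1] with n hn1 he1
    have h3 := hn1 (m + 1) (by omega)
    have h4 := g2 (m + 1) (by omega)
    rw [Nat.add_sub_cancel] at h4
    rw [← pow_mul, div_pow, div_lt_div_iff₀ (by positivity) (by positivity)] at hm'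
    have h8 : V ^ (2 * (m + 1)) = V ^ (2 * m) * V ^ 2 := by ring
    rw [h8] at hm'
    have h9 : 2 * b 1 * V ^ (2 * m) < c ^ (2 * (m + 1)) := by
      have hV2 : 0 < V ^ 2 := by positivity
      by_contra hcon
      push Not at hcon
      have := mul_le_mul_of_nonneg_right hcon hV2.le
      nlinarith
    have h10 : v n ^ (2 * (m + 1)) < c ^ (2 * (m + 1)) := by nlinarith
    exact lt_of_pow_lt_pow_left₀ _ hc0.le h10

end Hald
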