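import Crest.Agent.Hald.FinSpec
import Crest.Agent.Hald.TopLimit

/-!
# Row 347, M5 (5d): convergence of the top of a sector, general form
-/

set_option autoImplicit false
set_option linter.unusedSectionVars false

namespace Hald

open Matrix Finset Filter Topology
open scoped ComplexOrder

section

variable {Ω : Type*} [Fintype Ω] [DecidableEq Ω]

/-- facts about the top `v` of the sector `P` of `T` -/
structure IsTopOf (P T : Matrix Ω Ω ℂ) (v : ℝ) : Prop where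
  pos : 0 < v
  vec : ∃ x : Ω → ℂ, star x ⬝ᵥ x = 1 ∧ P *ᵥ x = x ∧ T *ᵥ x = ((v ^ 2 : ℝ) : ℂ) • x
  le_tr : ∀ m, 1 ≤ m → v ^ (2 * m) ≤ (P * T ^ m).trace.re
  tr_le : ∀ m, 1 ≤ m → (P * T ^ m).trace.re ≤ v ^ (2 * (m - 1)) * (P * T).trace.re
  max : ∀ (μ : ℝ) (y : Ω → ℂ), y ≠ 0 → P *ᵥ y = y → T *ᵥ y = (μ : ℂ) • y → μ ≤ v ^ 2

theorem star_dot_pos {y : Ω → ℂ} (hy : y ≠ 0) : ∃ c : ℝ, 0 < c ∧ star y ⬝ᵥ y = (c : ℂ) := by
  refine ⟨∑ i, Complex.normSq (y i), ?_, ?_⟩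
  · obtain ⟨i, hi⟩ := Function.ne_iff.1 hy
    exact Finset.sum_pos' (fun j _ => Complex.normSq_nonneg _)
      ⟨i, Finset.mem_univ i, Complex.normSq_pos.2 hi⟩
  · simp only [dotProduct, Pi.star_apply]
    push_cast
    refine Finset.sum_congr rfl fun i _ => ?_
    rw [Complex.star_def, ← Complex.normSq_eq_conj_mul_self]

/-- normalise an eigenvector -/
theorem exists_unit {P T : Matrix Ω Ω ℂ} {y : Ω → ℂ} {μ : ℝ} (hy : y ≠ 0) (hPy : P *ᵥ y = y)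
    (hTy : T *ᵥ y = (μ : ℂ) • y) :
    ∃ z : Ω → ℂ, star z ⬝ᵥ z = 1 ∧ P *ᵥ z = z ∧ T *ᵥ z = (μ : ℂ) • z := by
  obtain ⟨c, hc, hyy⟩ := star_dot_pos hy
  have hs : Real.sqrt c ≠ 0 := (Real.sqrt_pos.2 hc).ne'
  refine ⟨(((Real.sqrt c)⁻¹ : ℝ) : ℂ) • y, ?_, ?_, ?_⟩
  · rw [star_smul, smul_dotProduct, dotProduct_smul, hyy, smul_eq_mul, smul_eq_mul]
    have h1 : star (((Real.sqrt c)⁻¹ : ℝ) : ℂ) = (((Real.sqrt c)⁻¹ : ℝ) : ℂ) :=
      Complex.conj_ofReal _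
    rw [h1, ← Complex.ofReal_mul, ← Complex.ofReal_mul]
    have h2 : (Real.sqrt c)⁻¹ * ((Real.sqrt c)⁻¹ * c) = 1 := by
      have h3 : Real.sqrt c * Real.sqrt c = c := Real.mul_self_sqrt hc.le
      field_simp
      nlinarith [h3]
    rw [h2, Complex.ofReal_one]
  · rw [Matrix.mulVec_smul, hPy]
  · rw [Matrix.mulVec_smul, hTy, smul_comm]

/-- a second eigenvector in the sector -/
theorem IsTopOf.two {P T : Matrix Ω Ω ℂ} {v : ℝ} (h : IsTopOf P T v) (hP : HProj P)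
    (hT : T.PosSemidef) {y : Ω → ℂ} {μ : ℝ} (hy : y ≠ 0) (hPy : P *ᵥ y = y)
    (hTy : T *ᵥ y = (μ : ℂ) • y) (hne : μ ≠ v ^ 2) (m : ℕ) :
    v ^ (2 * m) + μ ^ m ≤ (P * T ^ m).trace.re := by
  obtain ⟨x, hx, hPx, hTx⟩ := h.vec
  obtain ⟨z, hz, hPz, hTz⟩ := exists_unit hy hPy hTy
  have hxz := eig_orth hT.isHermitian.eq hTx hTz (Ne.symm hne)
  have := trace_ge_two hP hT hx hz hxz hPx hPz hTx hTz m
  rwa [← pow_mul] at this

theorem trace_ge_one' {P T : Matrix Ω Ω ℂ} (hP : HProj P) (hT : T.PosSemidef) {y : Ω → ℂ}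
    (hy : y ≠ 0) (hPy : P *ᵥ y = y) {μ : ℝ} (hTy : T *ᵥ y = (μ : ℂ) • y) (m : ℕ) :
    μ ^ m ≤ (P * T ^ m).trace.re := by
  obtain ⟨z, hz, hPz, hTz⟩ := exists_unit hy hPy hTy
  exact trace_ge_one hP hT hz hPz hTz m

end

/-- **Convergence of the tops.** -/
theorem sector_top {Ω : ℕ → Type*} [∀ n, Fintype (Ω n)] [∀ n, DecidableEq (Ω n)]
    (P T : ∀ n, Matrix (Ω n) (Ω n) ℂ) (hP : ∀ n, HProj (P n))
    (hPT : ∀ n, P n * T n = T n * P n) (hT : ∀ n, (T n).PosSemidef) {b : ℕ → ℝ}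
    (hlim : ∀ m, 1 ≤ m → Tendsto (fun n => (P n * T n ^ m).trace.re) atTop (𝓝 (b m)))
    {V : ℝ} (hV : 0 < V) (g1 : ∀ m, 1 ≤ m → V ^ (2 * m) ≤ b m)
    (g2 : ∀ m, 1 ≤ m → b m ≤ V ^ (2 * (m - 1)) * b 1) :
    ∃ v : ℕ → ℝ, Tendsto v atTop (𝓝 V) ∧ ∀ᶠ n in atTop, IsTopOf (P n) (T n) (v n) := by
  classical
  have hex : ∀ n, 0 < (P n * T n).trace.re → ∃ v, IsTopOf (P n) (T n) v := by
    intro n hn
    obtain ⟨v, x, h1, h2, h3, h4, h5, h6, h7⟩ := exists_top (hP n) (hPT n) (hT n) hn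
    exact ⟨v, h1, ⟨x, h2, h3, h4⟩, h5, h6, h7⟩
  let v : ℕ → ℝ := fun n => if h : 0 < (P n * T n).trace.re then Classical.choose (hex n h) else 0
  have hv : ∀ n, 0 < (P n * T n).trace.re → IsTopOf (P n) (T n) (v n) := by
    intro n hn
    have : v n = Classical.choose (hex n hn) := dif_pos hn
    rw [this]
    exact Classical.choose_spec (hex n hn)
  have hb1 : 0 < b 1 := lt_of_lt_of_le (by positivity) (g1 1 le_rfl)
  have hev : ∀ᶠ n in atTop, 0 < (P n * T n).trace.re := by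
    have h1 := hlim 1 le_rfl
    simp only [pow_one] at h1
    exact h1.eventually (lt_mem_nhds hb1)
  have hev2 : ∀ᶠ n in atTop, IsTopOf (P n) (T n) (v n) := hev.mono fun n hn => hv n hn
  refine ⟨v, ?_, hev2⟩
  refine top_tendsto (a := fun n m => (P n * T n ^ m).trace.re) hV ?_ hlim ?_ ?_ g1 g2
  · intro n
    by_cases hn : 0 < (P n * T n).trace.re
    · exact (hv n hn).pos.le
    · simp only [v, dif_neg hn, le_refl]
  · exact hev2.mono fun n hn m hm => hn.le_tr m hm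
  · refine hev2.mono fun n hn m hm => ?_
    have := hn.tr_le m hm
    simpa only [pow_one] using this

end Hald
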