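/-!
# ROW 347 — SPECIFICATION OF THE MODULES (S0545, S0546).   Author: helper24.

Read `Defs.lean` (ring Hamiltonian, twists), `World.lean` (abstract interface) and `Transfer.lean`
(transfer matrices) first.  Everything lives in `namespace Hald`, files `Crest/Agent/Hald/*.lean`.

## Big picture
Ring of `L=2m` spins 1.  In the Cartesian basis `-S_j·S_k = Σ_a L_a⊗L_a`, `L_a` real antisymmetric.
`Z_{g,h}(β,m) = Tr(U_g e^{-βH_h})` (`Zp g h β m`), `g` = time twist, `h` = seam twist, `gh=hg`, rotations.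
Trotter: `Z_{g,h} = lim_n Tr(ρ(h)(K_g K_gᵀ)^m)` (`Zn g h β n m`), so `Z` is a power sum both in `m`
(A side, eigenvalues of `K_gK_gᵀ`, symmetry group acting by `ρ`) and in `β` (B side).
Twists u,v,tv,w,tw,p,q,r = (1,1),(1,x),(1,c),(x,1),(c,1),(x,x),(x,y),(c,c)  (`tw`).

---------------------------------------------------------------------------------------------------
## M1  `Link*.lean`: prelude ↔ Cartesian ring, and the gap from traces
(1a) `cartU : Matrix (Fin 3) (Fin 3) ℂ = !![-1/√2, I/√2, 0; 0,0,1; 1/√2, I/√2, 0]` is unitary and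
     `spinOp a = cartU * (I • (Lr a).map ofReal) * cartUᴴ`.
(1b) `heisenbergRing (2*m) = - U * ((negH 1 m).map ofReal) * Uᴴ` reindexed by
     `finProdFinEquiv : Fin m × Fin 2 ≃ Fin (m*2)` (site (i,s) ↦ 2i+s), `U = tens cartU` unitary.  (m ≥ 1)
(1c) general lemma: `H` Hermitian on a nonempty Fintype, eigenvalues `E_j`, `E₀` the least one,
     `β > 0`, `c ≥ 0`, `Σ_j exp(-β (E_j - E₀)) < 1 + exp(-β c)`  ⇒  `HasSimpleGroundStateWithGap H c`.
     [E₀ simple and E_j - E₀ > c for the others; expand ψ ⟂ ψ₀ in the eigenbasis.]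
(1d) `ring_gap`: for a `w : World` with `∃ e, ∀ β>0, w.Z 0 β m = Zp 1 1 β m * exp(β*(2*m)*e)`:
     if `w.Z 0 β m < (w.W 0 m)^β * (1 + exp(-β c))` for some β>0 then
     `HasSimpleGroundStateWithGap (heisenbergRing (2*m)) c`.
     [`Zp 1 1 β m = Σ_j exp(-β E_j)`; `hZtopB` forces `W 0 m = exp(-(E₀ - 2me))`: t^x ≤ f(x) and
      f(y) ≤ t^{y-x} f(x) for all x ≤ y, let the exponent → ∞.]
(1e) same for the open chain: `H = openChainEndField n h`; gap from
     `Tr e^{-βH} < e^{-βE₀}(1+e^{-βc})`, and the useful form: if `N := (Tr e^{-βH})^2 / Tr e^{-2βH} `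
     satisfies `N < (1+r)^2/(1+r^2)` with `0<r≤1`, `r = exp(-β c)`... then gap > c.
     [`1+ρ = Tr e^{-βH} e^{βE₀}`, `1+ρ₂` at 2β, ρ₂ ≤ ρ², so N ≥ (1+ρ)²/(1+ρ²), increasing in ρ∈[0,1];
      if ρ>1: N ≥ (1+ρ)²/(1+ρ₂) — use instead the two lowest levels: N ≥ (1+s)²/(1+s²) for
      s = exp(-β(E₁-E₀)) by monotonicity in the other levels; see M9.]

## M2  `Tensor.lean`, `Trotter.lean`
(2a) algebra of `tens`: `tens_mul`, `tens_one`, `trace_tens = ∏ trace`, transpose/map/conjTranspose,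
     multilinearity in one slot, `site j A * site k B` (j ≠ k) `= tens (update (update 1 j A) k B)`,
     `site j A * site j B = site j (A*B)`; reindexing along equivalences of the site set.
(2b) label expansion: for a finite bond set `B` and `G i : (B → Fin 4) → Matrix (κ i) (κ i) R`:
     `trace (tens U * (Σ_{a : B → Fin 4} tens (fun i => G i a))^n)
        = Σ_{ω : B → Fin n → Fin 4} ∏_i trace (U i * (List.ofFn fun t => G i (fun b => ω b t)).prod)`.
(2c) Trotter: `N` a real (or complex) matrix, `A : ℕ → Matrix`, `‖A n - (1 + (β/n) • N)‖ ≤ C/n²`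
     eventually  ⇒  `A n ^ n → exp (β • N)` (any matrix norm; telescoping `‖Xⁿ-Yⁿ‖ ≤ n M^{n-1}‖X-Y‖`).
(2d) polynomial label sums: `A(τ) = Σ_a τ^{|a|} T_a` (|a| = number of non-zero labels) satisfies (2c)
     with `N = Σ_{|a|=1} T_a`; version with an extra factor `exp(τ F)`.

## M3  `RingTransfer*.lean`
(3a) `Zn_tendsto`: `g,h` rotations (gᵀg=1, det=1; same for h), `g*h=h*g`, `β>0`, `m≥1`:
     `Tendsto (fun n => Zn g h β n m) atTop (𝓝 (Zp g h β m))`.
     Proof: τ=β/n.  Even bonds (i,0)-(i,1) carry labels a_i, odd bonds (i,1)-(i+1,0) labels a'_i.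
     `A(τ) = A_e A_o`, `A_e = Σ_a tens((i,s) ↦ X^{a_i})`, `A_o = Σ_{a'} tens((i,1) ↦ X^{a'_i}, (i,0) ↦ X^{a'_{i-1}})`
     where at the seam the site (0,0) carries `h X^{a'} hᵀ = Σ_b (rho4 h)_{b a'} X^b`.
     (2c),(2d): `(A_eA_o)^n → exp(β negH h m)`.  (2b): trace of `tens g * (A_eA_o)^n` is
     `Σ_{ω,ω'} ∏_i K(ω_i, ω'_{i-1}) K(ω_i, ω'_i)` with `K = Kn g β n` and `K ρ(h)` at the seam, i.e.
     `Tr((K Kᵀ)^{m-1} K ρ(h)ᵀ Kᵀ) = Tr(ρ(h)ᵀ (KKᵀ)^m) = Tr(ρ(h)(KKᵀ)^m)`
     (closed path sum = trace of a matrix power; ρ(h) commutes with K when gh=hg).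
(3b) symmetries: `rho` multiplicative, orthogonal, commutes with `Kn g` if `h g = g h`; `negH h m`
     symmetric; `Zp (r g rᵀ) (r h rᵀ) = Zp g h`, `Zp gᵀ h = Zp g h`, `Zp g hᵀ = Zp g h` (limit of Zn,
     transpose) for rotations; hence all conjugates needed: `Zp 1 gy = Zp 1 gz = Zp 1 gx`,
     the 8 three-fold rotations, `Zp gx gz = Zp gx gy = Zp gy gx = Zp gz gx`, etc.
     [rotation by 90° about z conjugates gx ↔ gy;  gc conjugates gx→gy→gz→gx.]
(3c) half time shift: for `g = gx`, `n` even: a real orthogonal `J` on `Om n`, `J*J = rho gx n`,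
     `J` commutes with `Kn gx β n` and with `rho gx, rho gy, rho gz`:
     `(Jω)` = shift by n/2, with `rho4 gx` applied to the wrapped half
     [tr(g A B) = tr(B g A) = tr(g (g⁻¹Bg) A)].
(3d) half space shift for `h = gx`, `m` even: real orthogonal `J'` on `RSite m → Fin 3`, `J'*J' = tens gx`,
     commuting with `negH gx m` and all `tens g`, g ∈ {gx,gy,gz} (translation by m/2 cells, spins crossing
     the seam are rotated by gx).
(3e) time shift invariance: `Kn g β n (shiftOm ω) (shiftOm ω') = Kn g β n ω ω'` for g = 1, and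
     `(Kn 1 β n)ᵀ ω' ω = Kn 1 β n ω' (shiftOm ω)` (or its inverse; cyclicity of the trace), so that on
     shift-invariant vectors `Kᵀ = K`.

## M4  `PowerSum.lean`, `Spectral.lean`, `WorldExists.lean`:   the World
(4a) finite power sums: `f(x) = Σ_j λ_j^{c x}` (λ_j ≥ 0, finite index) satisfies `PS _ c 1 f`; if
     `f = 2 g`, `PS _ c 1 g` then `PS _ c 2 f`; `PSTop` with `t = max λ_j`; `PS`/`PSTop` are closed under
     pointwise limits (along any filter ≠ ⊥, with `t_n → t`), under sums, under `f ↦ f(x) a^{c x}`.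
(4b) `P` Hermitian projection (complex), `T` PSD, `PT=TP`: `trace (P * T^m) = Σ_j λ_j^m`, λ_j = eigenvalues of
     `P*T` (Hermitian PSD, `(PT)^m = P T^m` for m ≥ 1).  If a real orthogonal `J` commutes with `P,T`, and
     `J²P = -P`, then `trace(P T^m) = 2 trace(P₊ T^m)`, `P₊ = (P - iJP)/2` a Hermitian projection.
(4c) A-sectors at finite n: `secA k (Zn …)` = `Tr(P_k T_g^m)`:  k=0: P=(1/12)Σ_{A4}ρ; k=1: ω-isotypic part
     inside D2-trivial; k=2: (1+ρx-ρy-ρz)/4 (all for g=1);  k=3,4,5 for g=gx: D2 characters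
     (+,+,+), (x:+,y:-,z:-), (y:+,x:-,z:-);  k=6,7 for g=gc: Z3 characters.  k=5 has the `J` of (3c) (n even).
     B-sectors: `secB k (Zp …)` = `Tr(P_k e^{β negH_h})`, same groups acting by `tens g`, roles of g,h exchanged;
     k=5 has the `J'` of (3d) (m even).
(4d) limit n→∞ along even n (take ulim of the tops along an ultrafilter, they are bounded by f_n(1)^{1/2}).
(4e) `e := sup_m E₀(m)/(2m)`, all inequalities of `World`:
     • all Z_{g,1} = lim Tr T_g^m ≥ 0 and all Z_{1,h} = Tr e^{-βH_h} ≥ 0, so u ≤ 12·A1, u ≤ 12·B1.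
     • every sector has a top ≤ V (resp. ≤ W):  t^{2m} ≤ sector(m) ≤ u(m) ≤ 12 A1(m) ≤ C V^{2m}.
       (w = Z_{x,1} ≤ u because u-w = 4·BT ≥ 0, v ≤ u because u-v = 4 AT ≥ 0.)
     • E₀(m)/(2m) nondecreasing (pow rule as β→∞), bounded above by 0 (Tr H = 0).
     • log V(β) = lim (1/2m) log Z(β,m) is convex in β and ≤ log 3 (normalised), ≥ 0 ⇒ `V_anti`.
     • `W 0 m = exp(2me - E₀(m))`, `W_anti` from Z(β,m') ≤ V^{2(m'-m)} Z(β,m), β→∞.
(4f) OUTPUT:
     `theorem exists_world : ∃ (w : World) (e : ℝ), (∀ t β m, 0<β → 1≤m → w.Z t β m = Zp (tw t).1 (tw t).2 β m *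
        Real.exp (β*(2*m)*e)) ∧ <strip facts of M5> ∧ <edge facts of M5>` — to make V available to M5 define
     `Vlim g-sector β` EXPLICITLY (ultrafilter limit along even n of the square root of the largest eigenvalue
     of `P * (K Kᵀ)`), and let `w.V 0 = Vlim…`, `w.V 1 = …`.

## M5  `Chains*.lean`: strips, mixed chains, open chains
Site families: `X^a` (spin 1, prelude basis: 1, √τ(-i)S^a), `Y^a` (spin ½: 1, √τ(-i)σ_a/2).
(5a) Hamiltonians (complex matrices, S^z basis; use `spinOp`, `onSite` of the prelude):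
     strip `Hs M`: spin-½ – M spins 1 – spin-½, all couplings 1, index `Fin 2 × (Fin M → Fin 3) × Fin 2`;
     mixed `Hm M h`: spin-½ – M spins 1, field `-h S^z` on the last spin 1; `Ho M h h'`: M spins 1, open,
     field `-h S^z_first - h' S^z_last`.  (`openChainEndField n h = Ho (n+1) h h`.)
     twist of the strip: `Uz` = diag(-i,i)⊗diag(-1,1,-1)^{⊗M}⊗diag(-i,i)  (rotation by π about z).
(5b) with K = Kn 1 β n, Kz = Kn gz β n, τ = β/n:  ws ω = Re tr ∏Y^{ω_t}, wsz ω = Re tr(diag(-i,i)∏Y^{ω_t}),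
     wh ω = tr ∏ (X^{ω_t} e^{τ h S^z}) ∈ ℂ, wr = Re wh, wi = Im wh.   n→∞:
       ws·K^M ws → Tr e^{-βHs M};   wsz·Kz^M wsz → Tr(Uz e^{-βHs M})   (sign: check M=1);
       ws·K^{M-1} wr → Tr e^{-βHm M h};
       for M ≥ 2 and fields (h,h') on the two end sites the limit is wh(h)ᵀ K^{M-2} wh(h') (no conjugation):
         wr·K^{M-2}wr - wi·K^{M-2}wi → Tr e^{-βHo M h h};     wr·K^{M-2}wr + wi·K^{M-2}wi → Tr e^{-βHo M h (-h)}.
     [conj (wh h) = wh (-h) = ρ(gy) (wh h), so wr is ρ(gy)-even, wi is ρ(gy)-odd; K commutes with ρ(gy), and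
      K is symmetric on shift-invariant vectors.]
(5c) all these vectors are shift invariant; ws is invariant under ρ(gx),ρ(gy),ρ(gz),ρ(gc); wsz is in the
     sector (z:+, x:-, y:-) of D2, i.e. `Dx` after relabelling axes (so its top is `V_x`).
(5d) finite-n spectral facts: on the shift-invariant subspace K is symmetric with eigenvalues κ_j, and
     κ_j² are eigenvalues of KKᵀ in the corresponding sector.
(5e) OUTPUT 1 (strips), normalised `as M β := Tr e^{-βHs M}·exp(βMe)` etc.: for every β>0, l>0 with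
     `∃ m≥1, A1(β,m) - V^{2m} < l^{2m}`, every real polynomial P with P ≥ 0 on [-l,l], P(V) ≥ 0, P(-V) ≥ 0:
     `0 ≤ Σ_M P_M as M β` (M ≥ 1 coefficients; P_0 = 0).  Same for (asz, Vx, Dx).   Also
     `as (M+2) β ≤ V² as M β` (M even), `asz (M+2) ≤ Vx² asz M` (M even), as > 0.
(5f) OUTPUT 2 (edges): for every β>0 there are α,ω ≥ 0 and σ = ±1 with, for M even ≥ 2,
     `as M = α²V^M + Rs M`, `b M := (Tr e^{-βHo M h h}+Tr e^{-βHo M h (-h)})/2·norm = wr·K^{M-2}wr·norm = ω²V^{M-2} + Rb M`,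
     Rs, Rb ≥ 0 moment sequences of positive measures on [0,l²] (any l as above), and for polynomials
     p₁,p₂ (even/odd) the Cauchy–Schwarz bound
     `(m[p₁p₂] - σ α ω p₁(V)p₂(V))² ≤ (as[p₁²] - α²p₁(V)²)(b[p₂²] - ω²p₂(V)²)`.
     OUTPUT 3: M even: `Tr e^{-βHo M h (-h)}·norm = ω²V^{M-2} + Ro M`, `0 ≤ Ro (M+2) ≤ q² Ro M`;
     M odd (fields (h,h), = prelude's openChainEndField): `|Tr e^{-βHo M h h}·norm - σ' ω²V^{M-2}| ≤
     sqrt(Ro (M-1) * Ro (M+1))`, σ' = ±1; q as in `EdgeWorld.decay` (file EdgeWorld.lean = the interface to deliver).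
     (Ro M = Σ_{j≥1} (|wr_j|²+|wi_j|²) κ_j^{M-2}; the top eigenvector is ρ-invariant so wi has no component.)

## M6  `Cert*.lean`: reflective RG certificate (helper24 writes checker + data; others prove the rules sound)

## M7  `Packed*.lean`: kernel computation framework
Vectors with N = ∏ dims entries packed into one Nat, field width w bits (entry i at bits [wi,wi+w)).
Mixed radix digits.  Two-site integer operators `Σ coef·shift(select(u, pattern))` implemented with
`Nat.land`, `Nat.shiftLeft/Right`, `+`,`-`, `*` (GMP accelerated in the kernel); masks from repunits.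
(7a) soundness of pack/select/shift/add;  (7b) Perron–Frobenius/Collatz–Wielandt check: S symmetric real with
nonnegative off-diagonal entries (after the Marshall sign change), u>0, (Su)_i ≤ λ u_i ∀i ⇒ S ≤ λ, and Rayleigh
lower bound; packed comparison by guard bits; (7c) trace moments Tr(U_g N^k) for ring m=4 (6561 dim, Cartesian
basis, signed entries by the offset trick, orbit representatives) and for strips M ≤ 6 (S^z basis).

## M8  `ExpPoly*.lean`: enclosures of `Tr(U e^{β(N - x_max)})` from moments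
p'(t) - Y p(t) = -τ T_K(t) (Chebyshev) ⇒ |p(t)/p(1) - e^{Y(t-1)}| ≤ |τ|/(Y|p(1)|) on [-1,1]; so for symmetric N
with spectrum in [x_min,x_max], |Tr(U(p̃(N)) ) - Tr(U e^{β(N-x_max)})| ≤ dim·err for U orthogonal.

## M9  end games (S0545 and S0546), purely from World + edge facts + finitely many numbers.
-/
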