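import Crest.Agent.Hald.LinkRing
import Crest.Agent.Hald.PowerSum

/-!
# Row 347, M4 (4b): traces over sectors are power sums

* `HProj P`: Hermitian projection.
* `trace_proj_pow`: `Tr (P T^m) = ∑ l_i^m` (`T` positive semidefinite, commuting with `P`, `m ≥ 1`).
* `trace_proj_exp`: `Tr (P e^{βH}) = ∑ l_i^β` (`H` Hermitian, commuting with `P`, `β > 0`).
* `Pplus`, `Pplus_proj`, `trace_eq_two_Pplus`: doubling by a half translation `J`, `J² = -1` on the range of `P`.
-/

set_option autoImplicit false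
set_option linter.unusedSectionVars false

namespace Hald

open Matrix Finset Polynomial
open scoped ComplexOrder

section Diag

variable {κ : Type*} [Fintype κ] [DecidableEq κ]

/-- Hermitian projection -/
structure HProj (P : Matrix κ κ ℂ) : Prop where
  herm : Pᴴ = P
  idem : P * P = P

theorem HProj.one : HProj (1 : Matrix κ κ ℂ) := ⟨by simp, by simp⟩

theorem HProj.mul {P Q : Matrix κ κ ℂ} (hP : HProj P) (hQ : HProj Q) (h : P * Q = Q * P) :
    HProj (P * Q) := by
  refine ⟨?_, ?_⟩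
  · rw [Matrix.conjTranspose_mul, hP.herm, hQ.herm, h]
  · calc P * Q * (P * Q) = P * (Q * P) * Q := by simp only [Matrix.mul_assoc]
      _ = P * (P * Q) * Q := by rw [h]
      _ = (P * P) * (Q * Q) := by simp only [Matrix.mul_assoc]
      _ = P * Q := by rw [hP.idem, hQ.idem]

theorem herm_decomp {A : Matrix κ κ ℂ} (hA : A.IsHermitian) :
    ∃ U : Matrix κ κ ℂ, U * Uᴴ = 1 ∧ Uᴴ * U = 1 ∧
      A = U * Matrix.diagonal (fun i => (hA.eigenvalues i : ℂ)) * Uᴴ := by
  refine ⟨(hA.eigenvectorUnitary : Matrix κ κ ℂ), ?_, ?_, ?_⟩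
  · exact Unitary.mul_star_self_of_mem hA.eigenvectorUnitary.2
  · exact Unitary.star_mul_self_of_mem hA.eigenvectorUnitary.2
  · have := hA.spectral_theorem
    rw [← Matrix.star_eq_conjTranspose]
    simpa [Unitary.conjStarAlgAut_apply, Function.comp_def] using this

theorem conj_diag_pow {U : Matrix κ κ ℂ} (h1 : U * Uᴴ = 1) (h2 : Uᴴ * U = 1) (d : κ → ℂ) (n : ℕ) :
    (U * Matrix.diagonal d * Uᴴ) ^ n = U * Matrix.diagonal (fun i => d i ^ n) * Uᴴ := by
  induction n with
  | zero =>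
    simp only [pow_zero]
    have : (Matrix.diagonal fun _ : κ => (1 : ℂ)) = 1 := Matrix.diagonal_one
    rw [this, Matrix.mul_one, h1]
  | succ n ih =>
    rw [pow_succ, ih]
    calc U * Matrix.diagonal (fun i => d i ^ n) * Uᴴ * (U * Matrix.diagonal d * Uᴴ)
        = U * Matrix.diagonal (fun i => d i ^ n) * (Uᴴ * U) * Matrix.diagonal d * Uᴴ := by
          simp only [Matrix.mul_assoc]
      _ = U * (Matrix.diagonal (fun i => d i ^ n) * Matrix.diagonal d) * Uᴴ := by
          rw [h2, Matrix.mul_one]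
          simp only [Matrix.mul_assoc]
      _ = _ := by
          rw [Matrix.diagonal_mul_diagonal]
          rfl

theorem aeval_conj_diag {U : Matrix κ κ ℂ} (h1 : U * Uᴴ = 1) (h2 : Uᴴ * U = 1) (d : κ → ℂ)
    (q : ℂ[X]) : Polynomial.aeval (U * Matrix.diagonal d * Uᴴ) q =
      U * Matrix.diagonal (fun i => q.eval (d i)) * Uᴴ := by
  induction q using Polynomial.induction_on' with
  | add p q hp hq =>
    rw [map_add, hp, hq, ← Matrix.add_mul, ← Matrix.mul_add, Matrix.diagonal_add]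
    simp only [Polynomial.eval_add]
  | monomial n a =>
    rw [Polynomial.aeval_monomial, conj_diag_pow h1 h2]
    simp only [Polynomial.eval_monomial]
    have e : Matrix.diagonal (fun i => a * d i ^ n) = a • Matrix.diagonal (fun i => d i ^ n) := by
      rw [← Matrix.diagonal_smul]
      rfl
    rw [e, Algebra.algebraMap_eq_smul_one, smul_mul_assoc, one_mul, Matrix.mul_smul, Matrix.smul_mul]

theorem trace_conj_diag {U : Matrix κ κ ℂ} (h2 : Uᴴ * U = 1) (d : κ → ℂ) :
    (U * Matrix.diagonal d * Uᴴ).trace = ∑ i, d i := by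
  rw [Matrix.trace_mul_cycle, h2, Matrix.one_mul, Matrix.trace_diagonal]

theorem proj_mul_pow {P T : Matrix κ κ ℂ} (hP : HProj P) (hPT : P * T = T * P) (n : ℕ) :
    P * (P * T) ^ n = P * T ^ n := by
  have hc : Commute P T := hPT
  induction n with
  | zero => simp
  | succ n ih =>
    have h1 : T ^ n * P = P * T ^ n := ((hc.pow_right n).eq).symm
    rw [pow_succ, ← Matrix.mul_assoc, ih, pow_succ, Matrix.mul_assoc P (T ^ n) (P * T),
      ← Matrix.mul_assoc (T ^ n) P T, h1, ← Matrix.mul_assoc, ← Matrix.mul_assoc, hP.idem,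
      Matrix.mul_assoc]

theorem proj_mul_pow' {P T : Matrix κ κ ℂ} (hP : HProj P) (hPT : P * T = T * P) {n : ℕ}
    (hn : 1 ≤ n) : (P * T) ^ n = P * T ^ n := by
  obtain ⟨k, rfl⟩ : ∃ k, n = k + 1 := ⟨n - 1, by omega⟩
  rw [pow_succ', Matrix.mul_assoc]
  calc P * (T * (P * T) ^ k) = T * (P * (P * T) ^ k) := by
        rw [← Matrix.mul_assoc, hPT, Matrix.mul_assoc]
    _ = T * (P * T ^ k) := by rw [proj_mul_pow hP hPT]
    _ = P * T ^ (k + 1) := by
        rw [← Matrix.mul_assoc, ← hPT, Matrix.mul_assoc, ← pow_succ']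

theorem proj_posSemidef {P T : Matrix κ κ ℂ} (hP : HProj P) (hT : T.PosSemidef)
    (hPT : P * T = T * P) : (P * T).PosSemidef := by
  have h := hT.conjTranspose_mul_mul_same P
  rw [hP.herm] at h
  have e : P * T * P = P * T := by
    rw [Matrix.mul_assoc, ← hPT, ← Matrix.mul_assoc, hP.idem]
  rwa [e] at h

/-- (4b), powers -/
theorem trace_proj_pow {P T : Matrix κ κ ℂ} (hP : HProj P) (hT : T.PosSemidef)
    (hPT : P * T = T * P) :
    ∃ l : κ → ℝ, (∀ i, 0 ≤ l i) ∧ ∀ m : ℕ, 1 ≤ m →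
      (P * T ^ m).trace = ((∑ i, l i ^ m : ℝ) : ℂ) := by
  have hA := proj_posSemidef hP hT hPT
  obtain ⟨U, h1, h2, hd⟩ := herm_decomp hA.isHermitian
  refine ⟨hA.isHermitian.eigenvalues, hA.eigenvalues_nonneg, fun m hm => ?_⟩
  rw [← proj_mul_pow' hP hPT hm]
  conv_lhs => rw [hd]
  rw [conj_diag_pow h1 h2, trace_conj_diag h2]
  push_cast
  rfl

theorem exp_herm {H : Matrix κ κ ℂ} (hH : H.IsHermitian) {U : Matrix κ κ ℂ} (h1 : U * Uᴴ = 1)
    (hd : H = U * Matrix.diagonal (fun i => (hH.eigenvalues i : ℂ)) * Uᴴ) (β : ℝ) :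
    NormedSpace.exp (β • H) =
      U * Matrix.diagonal (fun i => ((Real.exp (β * hH.eigenvalues i) : ℝ) : ℂ)) * Uᴴ := by
  have h3 : NormedSpace.exp (β • H) = U *
      NormedSpace.exp (β • Matrix.diagonal (fun i => (hH.eigenvalues i : ℂ))) * Uᴴ := by
    conv_lhs => rw [hd]
    exact exp_conj_smul_of_mul_eq_one h1 _ β
  have h4 : β • Matrix.diagonal (fun i => (hH.eigenvalues i : ℂ)) =
      Matrix.diagonal (fun i => ((β * hH.eigenvalues i : ℝ) : ℂ)) := by
    rw [← Matrix.diagonal_smul]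
    congr 1
    funext i
    simp
  rw [h3, h4, Matrix.exp_diagonal]
  congr 3
  funext i
  rw [Pi.coe_exp, Real.exp_eq_exp_ℝ]
  exact (NormedSpace.algebraMap_exp_comm (𝕂 := ℝ) (𝔸 := ℂ) (β * hH.eigenvalues i)).symm

theorem proj_mul_aeval {P T : Matrix κ κ ℂ} (hP : HProj P) (hPT : P * T = T * P) (q : ℂ[X]) :
    P * Polynomial.aeval (P * T) q = P * Polynomial.aeval T q := by
  induction q using Polynomial.induction_on' with
  | add p q hp hq => rw [map_add, map_add, Matrix.mul_add, Matrix.mul_add, hp, hq]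
  | monomial n a =>
    rw [Polynomial.aeval_monomial, Polynomial.aeval_monomial, Algebra.algebraMap_eq_smul_one,
      smul_mul_assoc, one_mul, smul_mul_assoc, one_mul, Matrix.mul_smul, Matrix.mul_smul,
      proj_mul_pow hP hPT]

/-- interpolation of `x ↦ x^β` on a finite set of reals -/
theorem exists_interp (s : Finset ℝ) (β : ℝ) :
    ∃ q : ℂ[X], ∀ x ∈ s, q.eval (x : ℂ) = ((x ^ β : ℝ) : ℂ) := by
  classical
  refine ⟨Lagrange.interpolate s (fun x : ℝ => (x : ℂ)) (fun x : ℝ => ((x ^ β : ℝ) : ℂ)), ?_⟩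
  intro x hx
  exact Lagrange.eval_interpolate_at_node _ (fun a _ b _ h => Complex.ofReal_injective h) hx

/-- (4b), exponentials -/
theorem trace_proj_exp {P H : Matrix κ κ ℂ} (hP : HProj P) (hH : H.IsHermitian)
    (hPH : P * H = H * P) :
    ∃ l : κ → ℝ, (∀ i, 0 ≤ l i) ∧ ∀ β : ℝ, 0 < β →
      (P * NormedSpace.exp (β • H)).trace = ((∑ i, l i ^ β : ℝ) : ℂ) := by
  classical
  obtain ⟨U, h1, h2, hd⟩ := herm_decomp hH
  set T : Matrix κ κ ℂ := NormedSpace.exp ((1 : ℝ) • H) with hTdef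
  have hTd : T = U * Matrix.diagonal (fun i => ((Real.exp (hH.eigenvalues i) : ℝ) : ℂ)) * Uᴴ := by
    rw [hTdef, exp_herm hH h1 hd]
    simp only [one_mul]
  have hPT : P * T = T * P := exp_smul_commute hPH 1
  have hT : T.PosSemidef := by
    rw [hTd]
    refine Matrix.PosSemidef.mul_mul_conjTranspose_same ?_ U
    refine Matrix.PosSemidef.diagonal fun i => ?_
    show (0 : ℂ) ≤ ((Real.exp (hH.eigenvalues i) : ℝ) : ℂ)
    exact Complex.zero_le_real.mpr (Real.exp_pos _).le
  have hA := proj_posSemidef hP hT hPT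
  obtain ⟨V, k1, k2, hdA⟩ := herm_decomp hA.isHermitian
  set l := hA.isHermitian.eigenvalues with hl
  refine ⟨l, hA.eigenvalues_nonneg, fun β hβ => ?_⟩
  obtain ⟨q, hq⟩ := exists_interp
    (insert 0 (Finset.univ.image (fun i => Real.exp (hH.eigenvalues i)) ∪ Finset.univ.image l)) β
  have hq0 : q.eval 0 = 0 := by
    have := hq 0 (Finset.mem_insert_self _ _)
    rw [Real.zero_rpow hβ.ne'] at this
    simpa using this
  have hqh : ∀ i, q.eval ((Real.exp (hH.eigenvalues i) : ℝ) : ℂ) =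
      ((Real.exp (β * hH.eigenvalues i) : ℝ) : ℂ) := by
    intro i
    rw [hq _ (Finset.mem_insert_of_mem (Finset.mem_union_left _
      (Finset.mem_image_of_mem _ (Finset.mem_univ i)))), ← Real.exp_mul, mul_comm]
  have hql : ∀ i, q.eval ((l i : ℝ) : ℂ) = ((l i ^ β : ℝ) : ℂ) := by
    intro i
    exact hq _ (Finset.mem_insert_of_mem (Finset.mem_union_right _
      (Finset.mem_image_of_mem _ (Finset.mem_univ i))))
  -- `q(T) = e^{βH}`
  have e1 : Polynomial.aeval T q = NormedSpace.exp (β • H) := by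
    rw [hTd, aeval_conj_diag h1 h2, exp_herm hH h1 hd]
    simp only [hqh]
  -- `q(PT) = P q(T)`
  obtain ⟨q₁, hq₁⟩ : (X : ℂ[X]) ∣ q := by
    rw [Polynomial.X_dvd_iff, Polynomial.coeff_zero_eq_eval_zero]
    exact hq0
  have e2 : Polynomial.aeval (P * T) q = P * Polynomial.aeval T q := by
    rw [hq₁, map_mul, map_mul, Polynomial.aeval_X, Polynomial.aeval_X, hPT, Matrix.mul_assoc,
      ← hPT, proj_mul_aeval hP hPT, ← Matrix.mul_assoc, ← hPT, Matrix.mul_assoc]
  have e3 : (Polynomial.aeval (P * T) q).trace = ((∑ i, l i ^ β : ℝ) : ℂ) := by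
    conv_lhs => rw [hdA]
    rw [aeval_conj_diag k1 k2, trace_conj_diag k2]
    simp only [hql]
    push_cast
    rfl
  rw [← e3, e2, e1]

end Diag

section Double

variable {κ : Type*} [Fintype κ] [DecidableEq κ]

/-- the projection on half of the range of `P`, if `J² = -1` there -/
noncomputable def Pplus (P J : Matrix κ κ ℝ) : Matrix κ κ ℂ :=
  (1 / 2 : ℂ) • (cplx P - Complex.I • cplx (J * P))

theorem cplx_neg {κ : Type*} (A : Matrix κ κ ℝ) : cplx (-A) = -cplx A := by
  ext i j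
  simp [cplx]

theorem cplx_trace (A : Matrix κ κ ℝ) : (cplx A).trace = ((A.trace : ℝ) : ℂ) := by
  simp [cplx, Matrix.trace]

theorem Pplus_proj {P J : Matrix κ κ ℝ} (hPt : Pᵀ = P) (hPP : P * P = P) (hJt : Jᵀ * J = 1)
    (hJP : J * P = P * J) (hJJ : J * (J * P) = -P) : HProj (Pplus P J) := by
  have hJtP : Jᵀ * P = -(J * P) := by
    have h1 : Jᵀ * (J * (J * P)) = Jᵀ * (-P) := by rw [hJJ]
    rw [← Matrix.mul_assoc, hJt, Matrix.one_mul, Matrix.mul_neg] at h1
    rw [h1, neg_neg]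
  have hPJt : P * Jᵀ = Jᵀ * P := by
    have h1 : (J * P)ᵀ = (P * J)ᵀ := by rw [hJP]
    rw [Matrix.transpose_mul, Matrix.transpose_mul, hPt] at h1
    exact h1
  have hBt : (J * P)ᵀ = -(J * P) := by
    rw [Matrix.transpose_mul, hPt, hPJt, hJtP]
  refine ⟨?_, ?_⟩
  · unfold Pplus
    rw [Matrix.conjTranspose_smul, Matrix.conjTranspose_sub, Matrix.conjTranspose_smul,
      cplx_conjTranspose, cplx_conjTranspose, hPt, hBt, cplx_neg]
    simp
  · unfold Pplus
    have hAB : cplx P * cplx (J * P) = cplx (J * P) := by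
      rw [← cplx_mul, ← Matrix.mul_assoc, ← hJP, Matrix.mul_assoc, hPP]
    have hBA : cplx (J * P) * cplx P = cplx (J * P) := by
      rw [← cplx_mul, Matrix.mul_assoc, hPP]
    have hBB : cplx (J * P) * cplx (J * P) = -cplx P := by
      rw [← cplx_mul, Matrix.mul_assoc, ← Matrix.mul_assoc P J P, ← hJP, Matrix.mul_assoc J P P,
        hPP, hJJ, cplx_neg]
    have hAA : cplx P * cplx P = cplx P := by rw [← cplx_mul, hPP]
    rw [Matrix.smul_mul, Matrix.mul_smul, Matrix.sub_mul, Matrix.mul_sub, Matrix.mul_sub,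
      Matrix.smul_mul, Matrix.smul_mul, Matrix.mul_smul, Matrix.mul_smul, hAA, hAB, hBA, hBB,
      smul_smul Complex.I Complex.I, Complex.I_mul_I, smul_neg, neg_smul, one_smul, neg_neg,
      smul_smul]
    ext i j
    simp only [Matrix.smul_apply, Matrix.sub_apply, smul_eq_mul]
    ring

theorem trace_eq_two_Pplus {P J M : Matrix κ κ ℝ} (hPt : Pᵀ = P) (hJt : Jᵀ * J = 1)
    (hJJ : J * (J * P) = -P) (hMt : Mᵀ = M) (hPM : P * M = M * P) :
    (cplx P * cplx M).trace = 2 * (Pplus P J * cplx M).trace := by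
  have hJtP : Jᵀ * P = -(J * P) := by
    have h1 : Jᵀ * (J * (J * P)) = Jᵀ * (-P) := by rw [hJJ]
    rw [← Matrix.mul_assoc, hJt, Matrix.one_mul, Matrix.mul_neg] at h1
    rw [h1, neg_neg]
  have h0 : (J * P * M).trace = 0 := by
    have h1 : (J * P * M).trace = -(J * P * M).trace := by
      calc (J * P * M).trace = ((J * P * M)ᵀ).trace := (Matrix.trace_transpose _).symm
        _ = (M * (P * Jᵀ)).trace := by
            rw [Matrix.transpose_mul, Matrix.transpose_mul, hPt, hMt]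
        _ = (Jᵀ * P * M).trace := by
            rw [← Matrix.mul_assoc, Matrix.trace_mul_comm, ← hPM, Matrix.mul_assoc]
        _ = -(J * P * M).trace := by
            rw [hJtP, Matrix.neg_mul, Matrix.trace_neg]
    linarith
  unfold Pplus
  rw [Matrix.smul_mul, Matrix.sub_mul, Matrix.smul_mul, Matrix.trace_smul, Matrix.trace_sub,
    Matrix.trace_smul, ← cplx_mul, ← cplx_mul, cplx_trace, cplx_trace, h0]
  simp

theorem Pplus_comm {P J M : Matrix κ κ ℝ} (hJM : J * M = M * J) (hPM : P * M = M * P) :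
    Pplus P J * cplx M = cplx M * Pplus P J := by
  unfold Pplus
  have h1 : J * P * M = M * (J * P) := by
    rw [Matrix.mul_assoc, hPM, ← Matrix.mul_assoc, hJM, Matrix.mul_assoc]
  rw [Matrix.smul_mul, Matrix.mul_smul, Matrix.sub_mul, Matrix.mul_sub, Matrix.smul_mul,
    Matrix.mul_smul, ← cplx_mul, ← cplx_mul, ← cplx_mul, ← cplx_mul, hPM, h1]

end Double

end Hald
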