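import Crest.Agent.Hald.ChEncl
import Crest.Agent.Hald.ChTr

/-!
# Row 347, M8: bounds of `aStrip` from the moments `stMom*`, `stMomz*` of `Msh`
-/

set_option autoImplicit false
set_option linter.unusedSectionVars false

namespace Hald

open Matrix Finset

theorem chC_strip_c {M cn cd : ℕ} (h : (M = 0 ∧ cn = 1 ∧ cd = 2) ∨ (1 ≤ M ∧ cn = 2 * M ∧ cd = 1)) :
    chC (cStrip M) 0 0 = (cn : ℝ) / cd ∧
      ((2 : ℕ) : ℝ) * cChain (M + 1) (chD 2 2 M) 0 0 ≤ chC (cStrip M) 0 0 := by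
  have h1 := chC_eq (chD22 M) (cStrip M) 0 0
  rw [cStrip_p, abs_zero, mul_zero, zero_mul, zero_mul] at h1
  have h2 := strip_c0 (M := M) (p := 1) (cn := cn) (cd := cd) (by
    rcases h with ⟨a, b, c⟩ | ⟨a, b, c⟩
    · exact Or.inl ⟨a, b, c⟩
    · exact Or.inr ⟨a, by omega, c⟩)
  rw [h1, h2]
  exact ⟨rfl, le_rfl⟩

/-- strips, untwisted -/
theorem strip_numM {M K : ℕ} {μ : List ℤ}
    (hμ : ∀ k ≤ K, ((Msh (M + 1) (chD 2 2 M) 0 0 2 (chC (cStrip M) 0 0)) ^ k).trace =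
      ((μ.getD k 0 : ℤ) : ℂ))
    {τ : List ℕ} (hτ : τ = chebL K) {dim : ℕ} (hdim : 4 * 3 ^ M = dim) {cn cd : ℕ}
    (hcn : (M = 0 ∧ cn = 1 ∧ cd = 2) ∨ (1 ≤ M ∧ cn = 2 * M ∧ cd = 1))
    {u w y s : ℕ} {lo hi : ℤ} {en ed n j t : ℕ} {el eh A B : ℤ} {a : ℕ}
    (hok : chainOk dim 2 K u w y s μ μ τ lo hi cn cd M en ed n j t el eh A B a = true)
    {e' β : ℝ} (he : e' = -((en : ℝ) / ed)) (hβ : β = u * 2 / w) :
    (A : ℝ) / 2 ^ a ≤ aStrip G1 e' β M ∧ aStrip G1 e' β M ≤ (B : ℝ) / 2 ^ a := by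
  obtain ⟨h1, h2⟩ := chC_strip_c hcn
  refine chain_num (chD22 M) (G1_unitary 2) (G1_unitary 3) h2 h1 (hμ K le_rfl) ?_ hτ
    (by rw [chD22_prod, hdim]) hok he (by rw [hβ]; norm_num)
  intro k hk
  rw [tens_G1, Matrix.one_mul]
  exact hμ k hk

/-- strips with the twist `z` -/
theorem strip_numMz {M K : ℕ} {μ₁ μ : List ℤ}
    (hμ₁ : ∀ k ≤ K, ((Msh (M + 1) (chD 2 2 M) 0 0 2 (chC (cStrip M) 0 0)) ^ k).trace =
      ((μ₁.getD k 0 : ℤ) : ℂ))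
    (hμ : ∀ k ≤ K, (tens (κ := fun i => Fin (chD 2 2 M i)) (fun i => Gz (chD 2 2 M i)) *
      (Msh (M + 1) (chD 2 2 M) 0 0 2 (chC (cStrip M) 0 0)) ^ k).trace = ((μ.getD k 0 : ℤ) : ℂ))
    {τ : List ℕ} (hτ : τ = chebL K) {dim : ℕ} (hdim : 4 * 3 ^ M = dim) {cn cd : ℕ}
    (hcn : (M = 0 ∧ cn = 1 ∧ cd = 2) ∨ (1 ≤ M ∧ cn = 2 * M ∧ cd = 1))
    {u w y s : ℕ} {lo hi : ℤ} {en ed n j t : ℕ} {el eh A B : ℤ} {a : ℕ}
    (hok : chainOk dim 2 K u w y s μ₁ μ τ lo hi cn cd M en ed n j t el eh A B a = true)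
    {e' β : ℝ} (he : e' = -((en : ℝ) / ed)) (hβ : β = u * 2 / w) :
    (A : ℝ) / 2 ^ a ≤ aStrip Gz e' β M ∧ aStrip Gz e' β M ≤ (B : ℝ) / 2 ^ a := by
  obtain ⟨h1, h2⟩ := chC_strip_c hcn
  exact chain_num (chD22 M) Gz_unitary2 Gz_unitary3 h2 h1 (hμ₁ K le_rfl) hμ hτ
    (by rw [chD22_prod, hdim]) hok he (by rw [hβ]; norm_num)

end Hald
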