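import Crest.Agent.Hald.ChainStrip

/-!
# Row 347, M5 (5e): OUTPUT 1, the strips, for `theWorld`
-/

set_option autoImplicit false
set_option linter.unusedSectionVars false

namespace Hald

open Matrix Finset Filter Topology
open scoped ComplexOrder

/-! ### fixed vectors of the projections -/

section

variable {Ω : Type*} [Fintype Ω] [DecidableEq Ω] {X Y C : Matrix Ω Ω ℝ}

theorem PD_mulVec {a b : ℝ} {v : Ω → ℂ} (ha : a * a = 1) (hb : b * b = 1)
    (hX : cplx X *ᵥ v = (a : ℂ) • v) (hY : cplx Y *ᵥ v = (b : ℂ) • v) :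
    cplx (PD a b X Y) *ᵥ v = v := by
  unfold PD
  have hadd : ∀ A B : Matrix Ω Ω ℝ, cplx (A + B) = cplx A + cplx B := by
    intro A B; ext i j; simp [cplx]
  rw [cplx_smul, hadd, hadd, hadd, cplx_one, cplx_smul, cplx_smul, cplx_smul, cplx_mul,
    Matrix.smul_mulVec, Matrix.add_mulVec, Matrix.add_mulVec, Matrix.add_mulVec,
    Matrix.one_mulVec, Matrix.smul_mulVec, Matrix.smul_mulVec, Matrix.smul_mulVec,
    ← Matrix.mulVec_mulVec, hY, Matrix.mulVec_smul, hX, smul_smul, smul_smul, smul_smul, smul_smul,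
    ← Complex.ofReal_mul, ← Complex.ofReal_mul, ← Complex.ofReal_mul, ← Complex.ofReal_mul]
  have h1 : a * b * b * a = 1 := by
    calc a * b * b * a = (a * a) * (b * b) := by ring
      _ = 1 := by rw [ha, hb, one_mul]
  rw [ha, hb, h1]
  funext i
  simp only [Pi.smul_apply, Pi.add_apply, smul_eq_mul]
  push_cast
  ring

theorem PA_mulVec_one {v : Ω → ℂ} (hX : cplx X *ᵥ v = v) (hY : cplx Y *ᵥ v = v)
    (hC : cplx C *ᵥ v = v) : PA 1 X Y C *ᵥ v = v := by
  have h1 : PZ 1 C *ᵥ v = v := by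
    unfold PZ
    rw [cplx_mul, Matrix.smul_mulVec, Matrix.add_mulVec, Matrix.add_mulVec, Matrix.one_mulVec,
      Matrix.smul_mulVec, Matrix.smul_mulVec, ← Matrix.mulVec_mulVec, hC, hC]
    funext i
    simp only [Pi.smul_apply, Pi.add_apply, smul_eq_mul]
    ring
  unfold PA
  rw [← Matrix.mulVec_mulVec, h1]
  exact PD_mulVec (by norm_num) (by norm_num) (by simpa using hX) (by simpa using hY)

end

theorem cplx_rho_transpose (h : Matrix (Fin 3) (Fin 3) ℝ) (n : ℕ) :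
    (cplx (rho h n))ᵀ = cplx (rho hᵀ n) := by
  rw [rho_transpose]
  rfl

/-- if `ρ(h)ᵀ v = v` then `ρ(h) v = v` -/
theorem rho_fix_of_transpose {h : Matrix (Fin 3) (Fin 3) ℝ} (hh : IsRot h) {n : ℕ} {v : Om n → ℂ}
    (hv : (cplx (rho h n))ᵀ *ᵥ v = v) : cplx (rho h n) *ᵥ v = v := by
  conv_lhs => rw [← hv]
  rw [Matrix.mulVec_mulVec, cplx_rho_transpose, ← cplx_mul, ← rho_mul, hh.orth, rho_one, cplx_one,
    Matrix.one_mulVec]

/-! ### real form of the strip vectors -/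

/-- real boundary vector of a strip -/
noncomputable def ws (Gt : (d : ℕ) → Matrix (Fin d) (Fin d) ℂ) (β : ℝ) (n : ℕ) : Om n → ℝ :=
  fun ω => (wv Gt 2 0 β n ω).re

theorem cv_ws {Gt : (d : ℕ) → Matrix (Fin d) (Fin d) ℂ} (hG : cj (Gt 2) = ep2 * Gt 2 * ep2')
    (β : ℝ) (n : ℕ) : cv (ws Gt β n) = wv Gt 2 0 β n := by
  funext ω
  exact Complex.conj_eq_iff_re.1 (wv_star_two hG β n ω)

/-- normalised partition functions of the strips with `M` spins 1 (twist `Gt`) -/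
noncomputable def aStrip (Gt : (d : ℕ) → Matrix (Fin d) (Fin d) ℂ) (e β : ℝ) (M : ℕ) : ℝ :=
  (Zch Gt (M + 1) (chD 2 2 M) 0 0 β).re * Real.exp (β * M * e)

theorem ws_tendsto {Gt : (d : ℕ) → Matrix (Fin d) (Fin d) ℂ} (hG : cj (Gt 2) = ep2 * Gt 2 * ep2')
    {g : Matrix (Fin 3) (Fin 3) ℝ} (hG3 : Gt 3 = cartU * cplx g * cartUᴴ) {β : ℝ} (hβ : 0 ≤ β)
    (e : ℝ) (M : ℕ) :
    Tendsto (fun n => ws Gt β n ⬝ᵥ (KN g β e n ^ M *ᵥ ws Gt β n)) atTop
      (𝓝 (aStrip Gt e β M)) := by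
  have h := chain_tendsto_norm (dl := 2) (dr := 2) (by norm_num) (by norm_num) hG3 0 0 hβ e M
  refine h.congr fun n => ?_
  rw [← cv_ws hG, cplx_mulVec, cv_dot, Complex.ofReal_re]

/-! ### tops -/

theorem PSTop.nat_le {f : ℕ → ℝ} {t : ℝ}
    (h : PSTop {m : ℕ | 1 ≤ m} (fun m => 2 * (m : ℝ)) 1 f t) {m : ℕ} (hm : 1 ≤ m) :
    t ^ (2 * m) ≤ f m := by
  have h1 : 0 ≤ f m - t ^ (2 * (m : ℝ)) := h.rem.nonneg m hm
  have e : t ^ (2 * (m : ℝ)) = t ^ (2 * m) := by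
    rw [← Real.rpow_natCast]; push_cast; rfl
  rw [e] at h1
  linarith

theorem PSTop.nat_ratio {f : ℕ → ℝ} {t : ℝ}
    (h : PSTop {m : ℕ | 1 ≤ m} (fun m => 2 * (m : ℝ)) 1 f t) {m : ℕ} (hm : 1 ≤ m) :
    f m ≤ t ^ (2 * (m - 1)) * f 1 := by
  have hm' : (1 : ℝ) ≤ m := by exact_mod_cast hm
  have h1 := h.ratio 1 (le_refl 1) m hm (by push_cast; linarith)
  have e : t ^ (2 * (m : ℝ) - 2 * ((1 : ℕ) : ℝ)) = t ^ (2 * (m - 1)) := by
    rw [← Real.rpow_natCast]
    congr 1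
    push_cast [Nat.cast_sub hm]
    ring
  rw [e] at h1
  exact h1

/-- the `z`-twisted sector `D_x` (axes relabelled) -/
noncomputable def sec4z {β : ℝ} (hβ : 0 < β) :
    Sector gz β theE (fun m => secA 4 (fun t => theWorld.Z t β m)) where
  P := fun n => cplx (PD (-1) (-1) (rho gx n) (rho gy n))
  hP := fun n => PD_hproj (rho_D2 n) (by norm_num) (by norm_num)
  hPT := fun n => TN_comm_of (by
    rw [← cplx_mul, ← cplx_mul, PD_comm (TA_comm isRot_gx (by rw [gz_gx, gx_gz]))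
      (TA_comm isRot_gy (by rw [gz_gy, gy_gz]))])
  hlim := fun m hm => (world_secA 4 hβ hm).congr fun n => by
    refine (TN_trace ?_).symm
    rw [← cplx_mul, cplx_trace, PD_trace, ← rho_mul, gx_gy, ← Zn_one, ← Zn_eq, ← Zn_eq, ← Zn_eq,
      (Zn_conjInv β n m).gz_one, (Zn_conjInv β n m).gz_gx, (Zn_conjInv β n m).gz_gy,
      (Zn_conjInv β n m).gz_gz]
    simp only [secA, tw, Matrix.cons_val_zero, Matrix.cons_val_one, Matrix.cons_val]
    push_cast
    ring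

/-- **OUTPUT 1** (strips).  `as β M`, `asz β M`: normalised partition functions of the strip with `M`
spins 1 between two spins ½, without and with the twist by the rotation by `π` about `z`. -/
theorem strip_out {β : ℝ} (hβ : 0 < β) :
    (∀ l : ℝ, 0 < l → (∃ m : ℕ, 1 ≤ m ∧
        secA 0 (fun t => theWorld.Z t β m) - theWorld.V 0 β ^ (2 * m) < l ^ (2 * m)) →
      ∀ P : Polynomial ℝ, (∀ x : ℝ, |x| ≤ l → 0 ≤ P.eval x) → 0 ≤ P.eval (theWorld.V 0 β) →
        0 ≤ P.eval (-theWorld.V 0 β) →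
        0 ≤ ∑ M ∈ range (P.natDegree + 1), P.coeff M * aStrip G1 theE β M) ∧
    (∀ M, Even M → 0 ≤ aStrip G1 theE β M ∧
      aStrip G1 theE β (M + 2) ≤ theWorld.V 0 β ^ 2 * aStrip G1 theE β M) := by
  have hT := theWorld.hAtop0 β hβ
  refine strip_general isDiagRot_one (sec0 hβ) hT.t_nonneg (fun m hm => hT.nat_le hm)
    (fun m hm => hT.nat_ratio hm) (fun n => ws G1 β n) ?_ ?_
    (fun M => ws_tendsto cj_G1_two G1_three hβ.le theE M)
  · intro n
    rw [cv_ws cj_G1_two]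
    exact PA_mulVec_one (rho_fix_of_transpose isRot_gx (rho_wv_two impl_two_gx β n))
      (rho_fix_of_transpose isRot_gy (rho_wv_two impl_two_gy β n))
      (rho_fix_of_transpose isRot_gc (rho_wv_two impl_two_gc β n))
  · intro n ω
    rw [eps_one, one_mul]
    exact congrArg Complex.re (wv_shift 2 0 β (n + 1) ω)

theorem strip_out_z {β : ℝ} (hβ : 0 < β) :
    (∀ l : ℝ, 0 < l → (∃ m : ℕ, 1 ≤ m ∧
        secA 4 (fun t => theWorld.Z t β m) - theWorld.V 1 β ^ (2 * m) < l ^ (2 * m)) →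
      ∀ P : Polynomial ℝ, (∀ x : ℝ, |x| ≤ l → 0 ≤ P.eval x) → 0 ≤ P.eval (theWorld.V 1 β) →
        0 ≤ P.eval (-theWorld.V 1 β) →
        0 ≤ ∑ M ∈ range (P.natDegree + 1), P.coeff M * aStrip Gz theE β M) ∧
    (∀ M, Even M → 0 ≤ aStrip Gz theE β M ∧
      aStrip Gz theE β (M + 2) ≤ theWorld.V 1 β ^ 2 * aStrip Gz theE β M) := by
  have hT := theWorld.hAtop1 β hβ
  refine strip_general isDiagRot_gz (sec4z hβ) hT.t_nonneg (fun m hm => hT.nat_le hm)
    (fun m hm => hT.nat_ratio hm) (fun n => ws Gz β n) ?_ ?_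
    (fun M => ws_tendsto cj_Gz2 Gz_three hβ.le theE M)
  · intro n
    rw [cv_ws cj_Gz2]
    have h1 := rho_wvz_gx β n
    have h2 := rho_wvz_gy β n
    rw [cplx_rho_transpose, gxT] at h1
    rw [cplx_rho_transpose, gyT] at h2
    exact PD_mulVec (by norm_num) (by norm_num) (by rw [h1]; simp) (by rw [h2]; simp)
  · intro n ω
    have h1 := congrArg Complex.re (wvz_shift' β n ω)
    rw [Complex.re_ofReal_mul] at h1
    exact h1

/-- positivity of untwisted chains -/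
theorem Zch_G1_pos (K : ℕ) (d : Fin (K + 1) → ℕ) (hd : ∀ i, 0 < d i) (h0 h1 β : ℝ) :
    0 < (Zch G1 K d h0 h1 β).re := by
  have hne : Nonempty (∀ i, Fin (d i)) := ⟨fun i => ⟨0, hd i⟩⟩
  unfold Zch
  have e1 : tens (κ := fun i => Fin (d i)) (fun i => G1 (d i)) = 1 := tens_one
  rw [e1, Matrix.one_mul, trace_exp_eq_sum (Hch_isHermitian K d h0 h1) (-β)]
  exact Finset.sum_pos (fun i _ => Real.exp_pos _) Finset.univ_nonempty

theorem aStrip_pos (e β : ℝ) (M : ℕ) : 0 < aStrip G1 e β M := by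
  refine mul_pos (Zch_G1_pos _ _ ?_ _ _ _) (Real.exp_pos _)
  intro i
  unfold chD
  split_ifs <;> norm_num

end Hald
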