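import Crest.Agent.Hald.RingTransfer
import Crest.Agent.Hald.ExpFacts

/-!
# Row 347, module M3 (3b): symmetries of `negH`, `Kn`, `Zn`, `Zp`
-/

set_option autoImplicit false
set_option linter.unusedSectionVars false

namespace Hald

open Matrix Finset Filter Topology

/-! ## rotations -/

theorem IsRot.transpose {h : Matrix (Fin 3) (Fin 3) ℝ} (hh : IsRot h) : IsRot hᵀ :=
  ⟨by rw [Matrix.transpose_transpose]; exact hh.orth',
    by rw [Matrix.transpose_transpose]; exact hh.orth, by rw [Matrix.det_transpose]; exact hh.det⟩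

theorem IsRot.mul {g h : Matrix (Fin 3) (Fin 3) ℝ} (hg : IsRot g) (hh : IsRot h) :
    IsRot (g * h) := by
  refine ⟨?_, ?_, by rw [Matrix.det_mul, hg.det, hh.det, one_mul]⟩
  · rw [Matrix.transpose_mul, Matrix.mul_assoc, ← Matrix.mul_assoc h, hh.orth, Matrix.one_mul,
      hg.orth]
  · rw [Matrix.transpose_mul, Matrix.mul_assoc, ← Matrix.mul_assoc gᵀ, hg.orth', Matrix.one_mul,
      hh.orth']

/-- rotation by 90 degrees about the `z` axis -/
def r90 : Matrix (Fin 3) (Fin 3) ℝ := !![0, -1, 0; 1, 0, 0; 0, 0, 1]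

macro "mat3" : tactic => `(tactic| (ext i j; fin_cases i <;> fin_cases j <;>
  simp [gx, gy, gz, gc, r90, Matrix.mul_apply, Fin.sum_univ_three, Matrix.transpose_apply, Matrix.vecHead, Matrix.vecTail]))

theorem isRot_gx : IsRot gx := ⟨by mat3, by mat3, by simp [gx, Matrix.det_fin_three]⟩
theorem isRot_gy : IsRot gy := ⟨by mat3, by mat3, by simp [gy, Matrix.det_fin_three]⟩
theorem isRot_gz : IsRot gz := ⟨by mat3, by mat3, by simp [gz, Matrix.det_fin_three]⟩
theorem isRot_gc : IsRot gc := ⟨by mat3, by mat3, by simp [gc, Matrix.det_fin_three]⟩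
theorem isRot_r90 : IsRot r90 := ⟨by mat3, by mat3, by simp [r90, Matrix.det_fin_three]⟩

/-! ## the Hamiltonian -/

section Bonds

variable {ι : Type*} [Fintype ι] [DecidableEq ι]

theorem symm_site_neg {κ : ι → Type*} [∀ i, Fintype (κ i)] [∀ i, DecidableEq (κ i)] (j : ι)
    (A : Matrix (κ j) (κ j) ℝ) : site j (-A) = -site j A := by
  have := site_smul j (-1 : ℝ) A
  simpa using this

theorem symm_Lr_transpose (a : Fin 3) : (Lr a)ᵀ = -Lr a := by
  fin_cases a <;> ext i j <;> fin_cases i <;> fin_cases j <;> simp [Lr, Matrix.transpose_apply]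

theorem symm_nbond_transpose (h : Matrix (Fin 3) (Fin 3) ℝ) {j k : ι} (hjk : j ≠ k) :
    (nbond h j k)ᵀ = nbond h j k := by
  unfold nbond
  rw [Matrix.transpose_sum]
  refine Finset.sum_congr rfl fun a _ => ?_
  rw [Matrix.transpose_mul, site_transpose, site_transpose, Matrix.transpose_mul,
    Matrix.transpose_mul, Matrix.transpose_transpose, symm_Lr_transpose]
  rw [site_comm hjk.symm]
  rw [Matrix.neg_mul, Matrix.mul_neg, symm_site_neg, symm_site_neg, Matrix.neg_mul, Matrix.mul_neg, neg_neg,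
    ← Matrix.mul_assoc]

/-- Conjugation of a bond by a family of rotations. -/
theorem nbond_conj (U : ι → Matrix (Fin 3) (Fin 3) ℝ) (hU : ∀ i, IsRot (U i))
    (h : Matrix (Fin 3) (Fin 3) ℝ) (j k : ι) :
    tens (κ := fun _ : ι => Fin 3) U * nbond h j k * tens (κ := fun _ : ι => Fin 3) (fun i => (U i)ᵀ) =
      nbond (U k * h * (U j)ᵀ) j k := by
  have hUV : ∀ i, U i * (U i)ᵀ = 1 := fun i => (hU i).orth
  have hVU : tens (κ := fun _ : ι => Fin 3) (fun i => (U i)ᵀ) * tens (κ := fun _ : ι => Fin 3) U = 1 :=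
    tens_mul_eq_one fun i => (hU i).orth'
  set T := tens (κ := fun _ : ι => Fin 3) U with hT
  set T' := tens (κ := fun _ : ι => Fin 3) (fun i => (U i)ᵀ) with hT'
  set M := U k * h * (U j)ᵀ with hM
  have h1 : ∀ a, T * (site (κ := fun _ => Fin 3) j (Lr a) * site (κ := fun _ => Fin 3) k (h * Lr a * hᵀ)) * T' =
      ∑ b, ∑ c, (U j b a * U j c a) •
        (site (κ := fun _ => Fin 3) j (Lr b) * site (κ := fun _ => Fin 3) k (M * Lr c * Mᵀ)) := by
    intro a
    have e1 : T * (site (κ := fun _ => Fin 3) j (Lr a) * site (κ := fun _ => Fin 3) k (h * Lr a * hᵀ)) * T' =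
        (T * site (κ := fun _ => Fin 3) j (Lr a) * T') *
          (T * site (κ := fun _ => Fin 3) k (h * Lr a * hᵀ) * T') := by
      calc _ = T * site (κ := fun _ => Fin 3) j (Lr a) * (1 : Matrix _ _ ℝ) *
            site (κ := fun _ => Fin 3) k (h * Lr a * hᵀ) * T' := by
              rw [Matrix.mul_one]; simp only [Matrix.mul_assoc]
        _ = _ := by rw [← hVU]; simp only [Matrix.mul_assoc]
    have e2 : U k * (h * Lr a * hᵀ) * (U k)ᵀ = M * (U j * Lr a * (U j)ᵀ) * Mᵀ := by
      rw [hM]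
      simp only [Matrix.transpose_mul, Matrix.transpose_transpose]
      calc U k * (h * Lr a * hᵀ) * (U k)ᵀ =
          U k * h * ((1 : Matrix _ _ ℝ) * Lr a * (1 : Matrix _ _ ℝ)) * hᵀ * (U k)ᵀ := by
            simp only [Matrix.mul_assoc, Matrix.one_mul]
        _ = _ := by
            rw [← (hU j).orth']; simp only [Matrix.mul_assoc]
    rw [e1, hT, hT', tens_conj_site U _ hUV, tens_conj_site U _ hUV, e2, rot_conj_Lr (hU j),
      Finset.mul_sum, Finset.sum_mul, site_sum, site_sum, Finset.sum_mul]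
    refine Finset.sum_congr rfl fun b _ => ?_
    rw [Finset.mul_sum]
    refine Finset.sum_congr rfl fun c _ => ?_
    rw [Matrix.mul_smul, Matrix.smul_mul, site_smul, site_smul, Matrix.smul_mul, Matrix.mul_smul,
      smul_smul]
  unfold nbond
  rw [Finset.mul_sum, Finset.sum_mul, Finset.sum_congr rfl fun a _ => h1 a, Finset.sum_comm]
  refine Finset.sum_congr rfl fun b _ => ?_
  rw [Finset.sum_comm]
  have h2 : ∀ c, ∑ a, (U j b a * U j c a) •
        (site (κ := fun _ : ι => Fin 3) j (Lr b) * site (κ := fun _ : ι => Fin 3) k (M * Lr c * Mᵀ)) =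
      ((1 : Matrix (Fin 3) (Fin 3) ℝ) b c) •
        (site (κ := fun _ : ι => Fin 3) j (Lr b) * site (κ := fun _ : ι => Fin 3) k (M * Lr c * Mᵀ)) := by
    intro c
    rw [← Finset.sum_smul]
    congr 1
    rw [← (hU j).orth, Matrix.mul_apply]
    rfl
  rw [Finset.sum_congr rfl fun c _ => h2 c]
  simp [Matrix.one_apply]

end Bonds

theorem symm_negH_transpose (h : Matrix (Fin 3) (Fin 3) ℝ) (m : ℕ) : (negH h m)ᵀ = negH h m := by
  unfold negH
  rw [Matrix.transpose_add, Matrix.transpose_sum, Matrix.transpose_sum]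
  congr 1
  · exact Finset.sum_congr rfl fun i _ => symm_nbond_transpose _ (by simp)
  · exact Finset.sum_congr rfl fun i _ => symm_nbond_transpose _ (by simp)

theorem negH_conj {r : Matrix (Fin 3) (Fin 3) ℝ} (hr : IsRot r) (h : Matrix (Fin 3) (Fin 3) ℝ)
    (m : ℕ) :
    tens (κ := fun _ : RSite m => Fin 3) (fun _ => r) * negH h m *
      tens (κ := fun _ : RSite m => Fin 3) (fun _ => rᵀ) = negH (r * h * rᵀ) m := by
  unfold negH
  rw [Matrix.mul_add, Matrix.add_mul, Finset.mul_sum, Finset.sum_mul, Finset.mul_sum,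
    Finset.sum_mul]
  congr 1
  · refine Finset.sum_congr rfl fun i _ => ?_
    have := nbond_conj (fun _ : RSite m => r) (fun _ => hr) 1 ((i, 0) : RSite m) (i, 1)
    simpa [hr.orth] using this
  · refine Finset.sum_congr rfl fun i _ => ?_
    have := nbond_conj (fun _ : RSite m => r) (fun _ => hr) (if i.val + 1 = m then h else 1)
      ((i, 1) : RSite m) (nxt i, 0)
    rw [this]
    split_ifs
    · rfl
    · simp [hr.orth]

/-- simultaneous conjugation of both twists -/
theorem Zp_conj {r : Matrix (Fin 3) (Fin 3) ℝ} (hr : IsRot r) (g h : Matrix (Fin 3) (Fin 3) ℝ)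
    (β : ℝ) (m : ℕ) : Zp (r * g * rᵀ) (r * h * rᵀ) β m = Zp g h β m := by
  unfold Zp
  set U := tens (κ := fun _ : RSite m => Fin 3) (fun _ => r) with hU
  set V := tens (κ := fun _ : RSite m => Fin 3) (fun _ => rᵀ) with hV
  have hUV : U * V = 1 := tens_mul_eq_one fun _ => hr.orth
  have hVU : V * U = 1 := tens_mul_eq_one fun _ => hr.orth'
  have h1 : tens (κ := fun _ : RSite m => Fin 3) (fun _ => r * g * rᵀ) =
      U * tens (κ := fun _ : RSite m => Fin 3) (fun _ => g) * V := by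
    rw [hU, hV, tens_mul, tens_mul]
  have h2 : β • negH (r * h * rᵀ) m = U * (β • negH h m) * V := by
    rw [← negH_conj hr, Matrix.mul_smul, Matrix.smul_mul]
  rw [h1, h2, exp_conj_of_mul_eq_one hUV]
  have h3 : U * tens (κ := fun _ : RSite m => Fin 3) (fun _ => g) * V *
      (U * NormedSpace.exp (β • negH h m) * V) =
      U * (tens (κ := fun _ : RSite m => Fin 3) (fun _ => g) * NormedSpace.exp (β • negH h m)) * V := by
    calc _ = U * tens (κ := fun _ : RSite m => Fin 3) (fun _ => g) * (V * U) *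
          NormedSpace.exp (β • negH h m) * V := by simp only [Matrix.mul_assoc]
      _ = _ := by rw [hVU, Matrix.mul_one]; simp only [Matrix.mul_assoc]
  rw [h3, Matrix.trace_mul_comm, ← Matrix.mul_assoc, hVU, Matrix.one_mul]

/-- inversion of the time twist -/
theorem Zp_time_inv (g h : Matrix (Fin 3) (Fin 3) ℝ) (β : ℝ) (m : ℕ) :
    Zp gᵀ h β m = Zp g h β m := by
  unfold Zp
  rw [← Matrix.trace_transpose, Matrix.transpose_mul, tens_transpose, Matrix.trace_mul_comm]
  simp only [Matrix.transpose_transpose]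
  rw [← Matrix.exp_transpose, Matrix.transpose_smul, symm_negH_transpose]

/-- inversion of the space twist (commuting rotations) -/
theorem Zn_space_inv (g h : Matrix (Fin 3) (Fin 3) ℝ) (β : ℝ) (n m : ℕ) :
    Zn g hᵀ β n m = Zn g h β n m := by
  unfold Zn
  rw [rho_transpose, ← Matrix.trace_transpose, Matrix.transpose_mul, Matrix.transpose_transpose,
    Matrix.transpose_pow, Matrix.transpose_mul, Matrix.transpose_transpose, Matrix.trace_mul_comm]

theorem comm_transpose {g h : Matrix (Fin 3) (Fin 3) ℝ} (hh : IsRot h) (hc : g * h = h * g) :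
    g * hᵀ = hᵀ * g := by
  calc g * hᵀ = (hᵀ * h) * g * hᵀ := by rw [hh.orth', Matrix.one_mul]
    _ = hᵀ * (h * g) * hᵀ := by simp only [Matrix.mul_assoc]
    _ = hᵀ * (g * h) * hᵀ := by rw [hc]
    _ = hᵀ * g * (h * hᵀ) := by simp only [Matrix.mul_assoc]
    _ = hᵀ * g := by rw [hh.orth, Matrix.mul_one]

theorem Zp_space_inv {g h : Matrix (Fin 3) (Fin 3) ℝ} (hh : IsRot h) (hc : g * h = h * g)
    {β : ℝ} (hβ : 0 ≤ β) {m : ℕ} (hm : 1 ≤ m) : Zp g hᵀ β m = Zp g h β m := by
  have h1 := Zn_tendsto hh hc hβ hm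
  have h2 := Zn_tendsto hh.transpose (comm_transpose hh hc) hβ hm
  refine tendsto_nhds_unique h2 (h1.congr fun n => ?_)
  rw [Zn_space_inv]

/-- conjugation of the transfer matrix -/
theorem Kn_conj {r : Matrix (Fin 3) (Fin 3) ℝ} (hr : IsRot r) (g : Matrix (Fin 3) (Fin 3) ℝ)
    (β : ℝ) (n : ℕ) : rho r n * Kn g β n * (rho r n)ᵀ = Kn (r * g * rᵀ) β n := by
  have key : (rho r n)ᵀ * Kn (r * g * rᵀ) β n = Kn g β n * (rho r n)ᵀ := by
    rw [← rho_transpose]
    ext u v
    rw [Kn_mul_rho hr.transpose, rho_transpose, rhoT_mul_Kn hr]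
    have h2 : (List.ofFn fun t : Fin n => Xh r (β / n) (u t) * Xr (β / n) (v t)) =
        List.ofFn fun t : Fin n => r * (Xr (β / n) (u t) * Xh rᵀ (β / n) (v t)) * rᵀ := by
      congr 1
      funext t
      unfold Xh
      rw [Matrix.transpose_transpose]
      calc r * Xr (β / n) (u t) * rᵀ * Xr (β / n) (v t) =
          r * Xr (β / n) (u t) * rᵀ * Xr (β / n) (v t) * (r * rᵀ) := by rw [hr.orth, Matrix.mul_one]
        _ = _ := by simp only [Matrix.mul_assoc]
    rw [h2, ofFn_prod_conj hr.orth' hr.orth]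
    set W := (List.ofFn fun t : Fin n => Xr (β / n) (u t) * Xh rᵀ (β / n) (v t)).prod
    calc (r * g * rᵀ * (r * W * rᵀ)).trace = (r * g * (rᵀ * r) * W * rᵀ).trace := by
          simp only [Matrix.mul_assoc]
      _ = (r * (g * W) * rᵀ).trace := by rw [hr.orth', Matrix.mul_one]; simp only [Matrix.mul_assoc]
      _ = (g * W).trace := by
          rw [Matrix.trace_mul_comm, ← Matrix.mul_assoc, hr.orth', Matrix.one_mul]
  calc rho r n * Kn g β n * (rho r n)ᵀ = rho r n * (Kn g β n * (rho r n)ᵀ) := by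
        rw [Matrix.mul_assoc]
    _ = rho r n * ((rho r n)ᵀ * Kn (r * g * rᵀ) β n) := by rw [key]
    _ = Kn (r * g * rᵀ) β n := by rw [← Matrix.mul_assoc, rho_orth hr, Matrix.one_mul]

theorem conj_pow' {N : Type*} [Fintype N] [DecidableEq N] {R R' A : Matrix N N ℝ}
    (h : R' * R = 1) (h' : R * R' = 1) (m : ℕ) : (R * A * R') ^ m = R * A ^ m * R' := by
  induction m with
  | zero => rw [pow_zero, pow_zero, Matrix.mul_one, h']
  | succ m ih =>
    rw [pow_succ, ih, pow_succ]
    calc R * A ^ m * R' * (R * A * R') = R * A ^ m * (R' * R) * A * R' := by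
          simp only [Matrix.mul_assoc]
      _ = _ := by rw [h, Matrix.mul_one]; simp only [Matrix.mul_assoc]

theorem Zn_conj {r : Matrix (Fin 3) (Fin 3) ℝ} (hr : IsRot r) (g h : Matrix (Fin 3) (Fin 3) ℝ)
    (β : ℝ) (n m : ℕ) : Zn (r * g * rᵀ) (r * h * rᵀ) β n m = Zn g h β n m := by
  unfold Zn
  set R := rho r n with hR
  have h1 : R * Rᵀ = 1 := rho_orth hr n
  have h2 : Rᵀ * R = 1 := rho_orth' hr n
  have hρ : rho (r * h * rᵀ) n = R * rho h n * Rᵀ := by rw [rho_mul, rho_mul, rho_transpose]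
  have hK : Kn (r * g * rᵀ) β n * (Kn (r * g * rᵀ) β n)ᵀ =
      R * (Kn g β n * (Kn g β n)ᵀ) * Rᵀ := by
    rw [← Kn_conj hr, Matrix.transpose_mul, Matrix.transpose_mul, Matrix.transpose_transpose]
    calc R * Kn g β n * Rᵀ * (R * ((Kn g β n)ᵀ * Rᵀ)) =
        R * Kn g β n * (Rᵀ * R) * (Kn g β n)ᵀ * Rᵀ := by simp only [Matrix.mul_assoc]
      _ = _ := by rw [h2, Matrix.mul_one]; simp only [Matrix.mul_assoc]
  rw [hρ, hK, conj_pow' h2 h1]
  calc (R * rho h n * Rᵀ * (R * (Kn g β n * (Kn g β n)ᵀ) ^ m * Rᵀ)).trace =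
      (R * (rho h n * (Rᵀ * R) * (Kn g β n * (Kn g β n)ᵀ) ^ m) * Rᵀ).trace := by
        simp only [Matrix.mul_assoc]
    _ = _ := by
        rw [h2, Matrix.mul_one, Matrix.trace_mul_comm, ← Matrix.mul_assoc, h2, Matrix.one_mul]

end Hald
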