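import Crest.Agent.Hald.Symm

/-!
# Row 347, module M3 (3b), concrete equalities of twisted partition functions

`a4 : Fin 12 → Matrix` enumerates the tetrahedral group: `1,x,y,z`, then `d*c`, then `d*c²`.
For a function `F g h` invariant under simultaneous conjugation by rotations (`Zn · · β n m`,
`Zp · · β m`) all the equalities needed for the sectors are listed.
-/

set_option autoImplicit false
set_option linter.unusedSectionVars false

namespace Hald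

open Matrix Finset Filter Topology

/-- rotation by 90 degrees about the `x` axis -/
def rx90 : Matrix (Fin 3) (Fin 3) ℝ := !![1, 0, 0; 0, 0, -1; 0, 1, 0]

macro "mat3'" : tactic => `(tactic| (ext i j; fin_cases i <;> fin_cases j <;>
  simp [gx, gy, gz, gc, r90, rx90, Matrix.mul_apply, Fin.sum_univ_three, Matrix.transpose_apply,
    Matrix.vecHead, Matrix.vecTail]))

theorem isRot_rx90 : IsRot rx90 := ⟨by mat3', by mat3', by simp [rx90, Matrix.det_fin_three]⟩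

theorem gxT : gxᵀ = gx := by mat3'
theorem gyT : gyᵀ = gy := by mat3'
theorem gzT : gzᵀ = gz := by mat3'
theorem gcT : gcᵀ = gc * gc := by mat3'
theorem gx_gx : gx * gx = 1 := by mat3'
theorem gy_gy : gy * gy = 1 := by mat3'
theorem gz_gz : gz * gz = 1 := by mat3'
theorem gx_gy : gx * gy = gz := by mat3'
theorem gy_gx : gy * gx = gz := by mat3'
theorem gy_gz : gy * gz = gx := by mat3'
theorem gz_gy : gz * gy = gx := by mat3'
theorem gz_gx : gz * gx = gy := by mat3'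
theorem gx_gz : gx * gz = gy := by mat3'
theorem gc_conj_gx : gc * gx * gcᵀ = gy := by mat3'
theorem gc_conj_gy : gc * gy * gcᵀ = gz := by mat3'
theorem gc_conj_gz : gc * gz * gcᵀ = gx := by mat3'
theorem gc_gx : gc * gx = gy * gc := by mat3'
theorem gc_gy : gc * gy = gz * gc := by mat3'
theorem gc_gz : gc * gz = gx * gc := by mat3'
theorem gc_gc_gc : gc * gc * gc = 1 := by mat3'
theorem r90_conj_gx : r90 * gx * r90ᵀ = gy := by mat3'
theorem r90_conj_gy : r90 * gy * r90ᵀ = gx := by mat3'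
theorem r90_conj_gz : r90 * gz * r90ᵀ = gz := by mat3'
theorem rx90_conj_gx : rx90 * gx * rx90ᵀ = gx := by mat3'
theorem rx90_conj_gy : rx90 * gy * rx90ᵀ = gz := by mat3'
theorem rx90_conj_gz : rx90 * gz * rx90ᵀ = gy := by mat3'
theorem gx_conj_gc : gx * gc * gxᵀ = gz * gc := by mat3'
theorem gy_conj_gc : gy * gc * gyᵀ = gx * gc := by mat3'
theorem gz_conj_gc : gz * gc * gzᵀ = gy * gc := by mat3'
theorem gx_conj_gcc : gx * (gc * gc) * gxᵀ = gy * (gc * gc) := by mat3'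
theorem gy_conj_gcc : gy * (gc * gc) * gyᵀ = gz * (gc * gc) := by mat3'
theorem gz_conj_gcc : gz * (gc * gc) * gzᵀ = gx * (gc * gc) := by mat3'

/-- the tetrahedral group -/
def a4 : Fin 12 → Matrix (Fin 3) (Fin 3) ℝ :=
  ![1, gx, gy, gz, gc, gx * gc, gy * gc, gz * gc,
    gc * gc, gx * (gc * gc), gy * (gc * gc), gz * (gc * gc)]

theorem a4_rot (i : Fin 12) : IsRot (a4 i) := by
  fin_cases i
  · exact isRot_one
  · exact isRot_gx
  · exact isRot_gy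
  · exact isRot_gz
  · exact isRot_gc
  · exact isRot_gx.mul isRot_gc
  · exact isRot_gy.mul isRot_gc
  · exact isRot_gz.mul isRot_gc
  · exact isRot_gc.mul isRot_gc
  · exact isRot_gx.mul (isRot_gc.mul isRot_gc)
  · exact isRot_gy.mul (isRot_gc.mul isRot_gc)
  · exact isRot_gz.mul (isRot_gc.mul isRot_gc)

/-- Invariance under simultaneous conjugation by rotations. -/
def ConjInv (F : Matrix (Fin 3) (Fin 3) ℝ → Matrix (Fin 3) (Fin 3) ℝ → ℝ) : Prop :=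
  ∀ r : Matrix (Fin 3) (Fin 3) ℝ, IsRot r → ∀ g h, F (r * g * rᵀ) (r * h * rᵀ) = F g h

theorem Zn_conjInv (β : ℝ) (n m : ℕ) : ConjInv fun g h => Zn g h β n m :=
  fun _ hr g h => Zn_conj hr g h β n m

theorem Zp_conjInv (β : ℝ) (m : ℕ) : ConjInv fun g h => Zp g h β m :=
  fun _ hr g h => Zp_conj hr g h β m

section

variable {F : Matrix (Fin 3) (Fin 3) ℝ → Matrix (Fin 3) (Fin 3) ℝ → ℝ} (hF : ConjInv F)

include hF

theorem ConjInv.of {r g h g' h' : Matrix (Fin 3) (Fin 3) ℝ} (hr : IsRot r)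
    (h1 : r * g * rᵀ = g') (h2 : r * h * rᵀ = h') : F g' h' = F g h := by
  rw [← h1, ← h2]; exact hF r hr g h

theorem ConjInv.one_right {r h h' : Matrix (Fin 3) (Fin 3) ℝ} (hr : IsRot r)
    (h2 : r * h * rᵀ = h') : F 1 h' = F 1 h :=
  hF.of hr (by rw [Matrix.mul_one, hr.orth]) h2

theorem ConjInv.one_left {r g g' : Matrix (Fin 3) (Fin 3) ℝ} (hr : IsRot r)
    (h2 : r * g * rᵀ = g') : F g' 1 = F g 1 :=
  hF.of hr h2 (by rw [Matrix.mul_one, hr.orth])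

theorem ConjInv.one_gy : F 1 gy = F 1 gx := hF.one_right isRot_gc gc_conj_gx
theorem ConjInv.one_gz : F 1 gz = F 1 gx :=
  (hF.one_right isRot_gc gc_conj_gy).trans hF.one_gy
theorem ConjInv.gy_one : F gy 1 = F gx 1 := hF.one_left isRot_gc gc_conj_gx
theorem ConjInv.gz_one : F gz 1 = F gx 1 :=
  (hF.one_left isRot_gc gc_conj_gy).trans hF.gy_one

theorem ConjInv.gx_gz : F gx gz = F gx gy := hF.of isRot_rx90 rx90_conj_gx rx90_conj_gy
theorem ConjInv.gy_gx : F gy gx = F gx gy := hF.of isRot_r90 r90_conj_gx r90_conj_gy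
theorem ConjInv.gz_gx : F gz gx = F gx gy :=
  (hF.of isRot_gc gc_conj_gz gc_conj_gx).symm
theorem ConjInv.gy_gz : F gy gz = F gx gy := hF.of isRot_gc gc_conj_gx gc_conj_gy
theorem ConjInv.gz_gy : F gz gy = F gx gy :=
  (hF.of isRot_rx90 rx90_conj_gy rx90_conj_gz).trans hF.gy_gz
theorem ConjInv.gy_gy : F gy gy = F gx gx := hF.of isRot_gc gc_conj_gx gc_conj_gx
theorem ConjInv.gz_gz : F gz gz = F gx gx :=
  (hF.of isRot_gc gc_conj_gy gc_conj_gy).trans hF.gy_gy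

/-- all the values `F 1 h`, `h` in the tetrahedral group -/
theorem ConjInv.one_a4 (hinv : F 1 (gcᵀ) = F 1 gc) (i : Fin 12) :
    F 1 (a4 i) = ![F 1 1, F 1 gx, F 1 gx, F 1 gx, F 1 gc, F 1 gc, F 1 gc, F 1 gc,
      F 1 gc, F 1 gc, F 1 gc, F 1 gc] i := by
  rw [gcT] at hinv
  fin_cases i
  · rfl
  · rfl
  · exact hF.one_gy
  · exact hF.one_gz
  · rfl
  · exact hF.one_right isRot_gy gy_conj_gc
  · exact hF.one_right isRot_gz gz_conj_gc
  · exact hF.one_right isRot_gx gx_conj_gc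
  · exact hinv
  · exact (hF.one_right isRot_gz gz_conj_gcc).trans hinv
  · exact (hF.one_right isRot_gx gx_conj_gcc).trans hinv
  · exact (hF.one_right isRot_gy gy_conj_gcc).trans hinv

/-- all the values `F g 1`, `g` in the tetrahedral group -/
theorem ConjInv.a4_one (hinv : F (gcᵀ) 1 = F gc 1) (i : Fin 12) :
    F (a4 i) 1 = ![F 1 1, F gx 1, F gx 1, F gx 1, F gc 1, F gc 1, F gc 1, F gc 1,
      F gc 1, F gc 1, F gc 1, F gc 1] i := by
  rw [gcT] at hinv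
  fin_cases i
  · rfl
  · rfl
  · exact hF.gy_one
  · exact hF.gz_one
  · rfl
  · exact hF.one_left isRot_gy gy_conj_gc
  · exact hF.one_left isRot_gz gz_conj_gc
  · exact hF.one_left isRot_gx gx_conj_gc
  · exact hinv
  · exact (hF.one_left isRot_gz gz_conj_gcc).trans hinv
  · exact (hF.one_left isRot_gx gx_conj_gcc).trans hinv
  · exact (hF.one_left isRot_gy gy_conj_gcc).trans hinv

end

/-! ## A side (finite `n`) -/

theorem Zn_one_a4 (β : ℝ) (n m : ℕ) (i : Fin 12) :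
    Zn 1 (a4 i) β n m = ![Zn 1 1 β n m, Zn 1 gx β n m, Zn 1 gx β n m, Zn 1 gx β n m,
      Zn 1 gc β n m, Zn 1 gc β n m, Zn 1 gc β n m, Zn 1 gc β n m,
      Zn 1 gc β n m, Zn 1 gc β n m, Zn 1 gc β n m, Zn 1 gc β n m] i :=
  (Zn_conjInv β n m).one_a4 (Zn_space_inv 1 gc β n m) i

theorem Zn_sum_a4 (β : ℝ) (n m : ℕ) :
    ∑ i, Zn 1 (a4 i) β n m = Zn 1 1 β n m + 3 * Zn 1 gx β n m + 8 * Zn 1 gc β n m := by
  rw [Finset.sum_congr rfl fun i _ => Zn_one_a4 β n m i]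
  simp [Fin.sum_univ_succ]
  ring

theorem Zn_one_gy (β : ℝ) (n m : ℕ) : Zn 1 gy β n m = Zn 1 gx β n m := (Zn_conjInv β n m).one_gy
theorem Zn_one_gz (β : ℝ) (n m : ℕ) : Zn 1 gz β n m = Zn 1 gx β n m := (Zn_conjInv β n m).one_gz
theorem Zn_gx_gz (β : ℝ) (n m : ℕ) : Zn gx gz β n m = Zn gx gy β n m := (Zn_conjInv β n m).gx_gz
theorem Zn_gc_gcT (β : ℝ) (n m : ℕ) : Zn gc gcᵀ β n m = Zn gc gc β n m := Zn_space_inv gc gc β n m
theorem Zn_gc_gcc (β : ℝ) (n m : ℕ) : Zn gc (gc * gc) β n m = Zn gc gc β n m := by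
  rw [← gcT]; exact Zn_gc_gcT β n m

/-! ## B side -/

theorem Zp_a4_one (β : ℝ) (m : ℕ) (i : Fin 12) :
    Zp (a4 i) 1 β m = ![Zp 1 1 β m, Zp gx 1 β m, Zp gx 1 β m, Zp gx 1 β m,
      Zp gc 1 β m, Zp gc 1 β m, Zp gc 1 β m, Zp gc 1 β m,
      Zp gc 1 β m, Zp gc 1 β m, Zp gc 1 β m, Zp gc 1 β m] i :=
  (Zp_conjInv β m).a4_one (Zp_time_inv gc 1 β m) i

theorem Zp_sum_a4 (β : ℝ) (m : ℕ) :
    ∑ i, Zp (a4 i) 1 β m = Zp 1 1 β m + 3 * Zp gx 1 β m + 8 * Zp gc 1 β m := by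
  rw [Finset.sum_congr rfl fun i _ => Zp_a4_one β m i]
  simp [Fin.sum_univ_succ]
  ring

theorem Zp_gy_one (β : ℝ) (m : ℕ) : Zp gy 1 β m = Zp gx 1 β m := (Zp_conjInv β m).gy_one
theorem Zp_gz_one (β : ℝ) (m : ℕ) : Zp gz 1 β m = Zp gx 1 β m := (Zp_conjInv β m).gz_one
theorem Zp_one_gy (β : ℝ) (m : ℕ) : Zp 1 gy β m = Zp 1 gx β m := (Zp_conjInv β m).one_gy
theorem Zp_one_gz (β : ℝ) (m : ℕ) : Zp 1 gz β m = Zp 1 gx β m := (Zp_conjInv β m).one_gz
theorem Zp_gx_gz (β : ℝ) (m : ℕ) : Zp gx gz β m = Zp gx gy β m := (Zp_conjInv β m).gx_gz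
theorem Zp_gy_gx (β : ℝ) (m : ℕ) : Zp gy gx β m = Zp gx gy β m := (Zp_conjInv β m).gy_gx
theorem Zp_gz_gx (β : ℝ) (m : ℕ) : Zp gz gx β m = Zp gx gy β m := (Zp_conjInv β m).gz_gx
theorem Zp_gcT_gc (β : ℝ) (m : ℕ) : Zp gcᵀ gc β m = Zp gc gc β m := Zp_time_inv gc gc β m
theorem Zp_gcc_gc (β : ℝ) (m : ℕ) : Zp (gc * gc) gc β m = Zp gc gc β m := by
  rw [← gcT]; exact Zp_gcT_gc β m
theorem Zp_one_gcT {β : ℝ} (hβ : 0 ≤ β) {m : ℕ} (hm : 1 ≤ m) : Zp 1 gcᵀ β m = Zp 1 gc β m :=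
  Zp_space_inv isRot_gc (by simp) hβ hm

end Hald
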