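import Crest.Agent.Hald.SzForm

/-!
# Row 347, M7c-LINK (5): the moments `Tr (tens g (negH h 4 + c)^k)` of the eight twist classes
-/

set_option autoImplicit false
set_option linter.unusedSectionVars false
set_option linter.unusedSimpArgs false

namespace Hald

open Matrix Finset

/-- the `k`-th moment of the twist class `(g,h)` with shift `c` -/
noncomputable def momR (g h : Matrix (Fin 3) (Fin 3) ℝ) (c : ℤ) (k : ℕ) : ℝ :=
  (tens (κ := fun _ : RSite 4 => Fin 3) (fun _ => g) * (negH h 4 + (c : ℝ) • 1) ^ k).trace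

theorem conj_one {u : Matrix (Fin 3) (Fin 3) ℂ} (hg : GoodU u) :
    tens (κ := fun _ : Fin 8 => Fin 3) (vv u) *
      cplx (tens (κ := fun _ : Fin 8 => Fin 3) fun _ => (1 : Matrix (Fin 3) (Fin 3) ℝ)) *
      tens (κ := fun _ : Fin 8 => Fin 3) (fun i => (vv u i)ᴴ) = 1 := by
  have h1 : tens (κ := fun _ : Fin 8 => Fin 3) (fun _ => (1 : Matrix (Fin 3) (Fin 3) ℝ)) = 1 :=
    tens_one (κ := fun _ : Fin 8 => Fin 3)
  rw [h1, cplx_one, Matrix.mul_one]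
  exact tens_mul_eq_one (κ := fun _ : Fin 8 => Fin 3) (fun i => vv_mul_conj hg.hu i)

theorem one_conj : (1 : ℂ) * (starRingEnd ℂ) 1 = 1 := by simp
theorem neg_one_conj : (-1 : ℂ) * (starRingEnd ℂ) (-1) = 1 := by simp

theorem trace_diag_mul (z : Cf → ℂ) (B : Matrix Cf Cf ℂ) :
    (Matrix.diagonal z * B).trace = ∑ σ, z σ * B σ σ := by
  unfold Matrix.trace
  refine Finset.sum_congr rfl fun σ _ => ?_
  rw [Matrix.diag_apply, Matrix.diagonal_mul]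

theorem zc_NI1 (c : ℤ) (k : ℕ) (τ σ : Cf) :
    ((Nz 1 + (c : ℂ) • 1) ^ k) τ σ = ((((NI 1 + c • (1 : Matrix Cf Cf ℤ)) ^ k) τ σ : ℤ) : ℂ) := by
  rw [← zc_apply, zc_pow, zc_NI (Or.inl rfl)]
  norm_cast

theorem zc_NIm (c : ℤ) (k : ℕ) (τ σ : Cf) :
    ((Nz (-1) + (c : ℂ) • 1) ^ k) τ σ =
      ((((NI (-1) + c • (1 : Matrix Cf Cf ℤ)) ^ k) τ σ : ℤ) : ℂ) := by
  rw [← zc_apply, zc_pow, zc_NI (Or.inr rfl)]
  norm_num

theorem Nc2_diag (c : ℤ) (k : ℕ) (σ : Cf) :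
    ((Nz om + (c : ℂ) • 1) ^ k) σ σ =
      ((((Nc2 + c • (1 : Matrix (Cf × Fin 2) (Cf × Fin 2) ℤ)) ^ k) (σ, 0) (σ, 0) : ℤ) : ℂ) := by
  have h1 := Nc2_pow c k σ σ
  have h2 := Nz_pow_diag_im om c k σ
  rw [h1] at h2 ⊢
  set α : ℤ := ((Nc2 + c • (1 : Matrix (Cf × Fin 2) (Cf × Fin 2) ℤ)) ^ k) (σ, 0) (σ, 0)
  set β : ℤ := ((Nc2 + c • (1 : Matrix (Cf × Fin 2) (Cf × Fin 2) ℤ)) ^ k) (σ, 1) (σ, 0)
  have h3 : om.im * (β : ℝ) = 0 := by
    have : ((α : ℂ) + om * (β : ℂ)).im = om.im * (β : ℝ) := by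
      rw [Complex.add_im, Complex.mul_im]
      simp
    rw [← this]; exact h2
  have h4 : (β : ℝ) = 0 := (mul_eq_zero.mp h3).resolve_left om_im
  have h5 : β = 0 := by exact_mod_cast h4
  rw [h5]; simp

theorem real_eq_int {x : ℝ} {n : ℤ} (h : (x : ℂ) = (n : ℂ)) : x = (n : ℝ) := by
  exact_mod_cast h

/-- (t0) class `u = (1,1)` -/
theorem mom_t0 (c : ℤ) (k : ℕ) :
    momR 1 1 c k = ((∑ σ, ((NI 1 + c • (1 : Matrix Cf Cf ℤ)) ^ k) σ σ : ℤ) : ℝ) := by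
  have h := trace_link goodU_X one_conj (DiagZ_one uX) 1 (conj_one goodU_X) c k
  rw [Matrix.one_mul] at h
  have h2 : (((Nz 1 + (c : ℂ) • 1) ^ k)).trace =
      ((∑ σ, ((NI 1 + c • (1 : Matrix Cf Cf ℤ)) ^ k) σ σ : ℤ) : ℂ) := by
    unfold Matrix.trace
    push_cast
    exact Finset.sum_congr rfl fun σ _ => zc_NI1 c k σ σ
  rw [h2] at h
  exact real_eq_int h

/-- (t1) class `v = (1,x)` -/
theorem mom_t1 (c : ℤ) (k : ℕ) :
    momR 1 gx c k = ((∑ σ, ((NI (-1) + c • (1 : Matrix Cf Cf ℤ)) ^ k) σ σ : ℤ) : ℝ) := by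
  have h := trace_link goodU_X neg_one_conj diagZ_X 1 (conj_one goodU_X) c k
  rw [Matrix.one_mul] at h
  have h2 : (((Nz (-1) + (c : ℂ) • 1) ^ k)).trace =
      ((∑ σ, ((NI (-1) + c • (1 : Matrix Cf Cf ℤ)) ^ k) σ σ : ℤ) : ℂ) := by
    unfold Matrix.trace
    push_cast
    exact Finset.sum_congr rfl fun σ _ => zc_NIm c k σ σ
  rw [h2] at h
  exact real_eq_int h

/-- (t2) class `tv = (1,c)` -/
theorem mom_t2 (c : ℤ) (k : ℕ) :
    momR 1 gc c k =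
      ((∑ σ, ((Nc2 + c • (1 : Matrix (Cf × Fin 2) (Cf × Fin 2) ℤ)) ^ k) (σ, 0) (σ, 0) : ℤ) : ℝ) := by
  have h := trace_link goodU_C om_unit diagZ_C 1 (conj_one goodU_C) c k
  rw [Matrix.one_mul] at h
  have h2 : (((Nz om + (c : ℂ) • 1) ^ k)).trace =
      ((∑ σ, ((Nc2 + c • (1 : Matrix (Cf × Fin 2) (Cf × Fin 2) ℤ)) ^ k) (σ, 0) (σ, 0) : ℤ) : ℂ) := by
    unfold Matrix.trace
    push_cast
    exact Finset.sum_congr rfl fun σ _ => Nc2_diag c k σ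
  rw [h2] at h
  exact real_eq_int h

/-- (t3) class `w = (x,1)` -/
theorem mom_t3 (c : ℤ) (k : ℕ) :
    momR gx 1 c k = ((∑ σ, (if Mz σ % 2 = 0 then 1 else -1) *
      ((NI 1 + c • (1 : Matrix Cf Cf ℤ)) ^ k) σ σ : ℤ) : ℝ) := by
  have h := trace_link goodU_X one_conj (DiagZ_one uX) gx (tens_conj_diag goodU_X diagZ_X) c k
  rw [trace_diag_mul] at h
  have h2 : ∑ σ : Cf, (∏ i, zf (-1) (σ i)) * ((Nz 1 + (c : ℂ) • 1) ^ k) σ σ =
      ((∑ σ, (if Mz σ % 2 = 0 then 1 else -1) *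
      ((NI 1 + c • (1 : Matrix Cf Cf ℤ)) ^ k) σ σ : ℤ) : ℂ) := by
    rw [Int.cast_sum]
    refine Finset.sum_congr rfl fun σ _ => ?_
    rw [prod_zf neg_one_conj, neg_one_zpow', zc_NI1, Int.cast_mul]
  rw [h2] at h
  exact real_eq_int h

/-- (t5) class `p = (x,x)` -/
theorem mom_t5 (c : ℤ) (k : ℕ) :
    momR gx gx c k = ((∑ σ, (if Mz σ % 2 = 0 then 1 else -1) *
      ((NI (-1) + c • (1 : Matrix Cf Cf ℤ)) ^ k) σ σ : ℤ) : ℝ) := by
  have h := trace_link goodU_X neg_one_conj diagZ_X gx (tens_conj_diag goodU_X diagZ_X) c k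
  rw [trace_diag_mul] at h
  have h2 : ∑ σ : Cf, (∏ i, zf (-1) (σ i)) * ((Nz (-1) + (c : ℂ) • 1) ^ k) σ σ =
      ((∑ σ, (if Mz σ % 2 = 0 then 1 else -1) *
      ((NI (-1) + c • (1 : Matrix Cf Cf ℤ)) ^ k) σ σ : ℤ) : ℂ) := by
    rw [Int.cast_sum]
    refine Finset.sum_congr rfl fun σ _ => ?_
    rw [prod_zf neg_one_conj, neg_one_zpow', zc_NIm, Int.cast_mul]
  rw [h2] at h
  exact real_eq_int h

/-- (t6) class `q = (x,y)` -/
theorem mom_t6 (c : ℤ) (k : ℕ) :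
    momR gx gy c k =
      ((∑ σ, ((NI (-1) + c • (1 : Matrix Cf Cf ℤ)) ^ k) (flipC σ) σ : ℤ) : ℝ) := by
  have h := trace_link goodU_Y neg_one_conj diagZ_Y gx tens_conj_flip c k
  have h2 : ((Matrix.of fun τ σ : Cf => if τ = flipC σ then (1 : ℂ) else 0) *
      (Nz (-1) + (c : ℂ) • 1) ^ k).trace =
      ((∑ σ, ((NI (-1) + c • (1 : Matrix Cf Cf ℤ)) ^ k) (flipC σ) σ : ℤ) : ℂ) := by
    unfold Matrix.trace
    rw [Int.cast_sum]
    refine Finset.sum_congr rfl fun τ _ => ?_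
    rw [Matrix.diag_apply, Matrix.mul_apply, Finset.sum_eq_single (flipC τ)]
    · rw [Matrix.of_apply, flipC_flipC, if_pos rfl, one_mul, zc_NIm]
    · intro σ _ hσ
      rw [Matrix.of_apply, if_neg, zero_mul]
      intro h3
      exact hσ (by rw [h3, flipC_flipC])
    · intro h3; exact absurd (Finset.mem_univ _) h3
  rw [h2] at h
  exact real_eq_int h

/-- real part of a weighted sum of integers -/
theorem re_sum_int (z : Cf → ℂ) (x : Cf → ℤ) :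
    (∑ σ, z σ * ((x σ : ℤ) : ℂ)).re = ∑ σ, (z σ).re * (x σ : ℝ) := by
  rw [Complex.re_sum]
  refine Finset.sum_congr rfl fun σ _ => ?_
  rw [Complex.mul_re]; simp

/-- (t4) class `w' = (c,1)` -/
theorem mom_t4 (c : ℤ) (k : ℕ) :
    2 * momR gc 1 c k = ((∑ σ, (if Mz σ % 3 = 0 then 2 else -1) *
      ((NI 1 + c • (1 : Matrix Cf Cf ℤ)) ^ k) σ σ : ℤ) : ℝ) := by
  have h := trace_link goodU_C one_conj (DiagZ_one uC) gc (tens_conj_diag goodU_C diagZ_C) c k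
  rw [trace_diag_mul] at h
  have h2 : ∑ σ : Cf, (∏ i, zf om (σ i)) * ((Nz 1 + (c : ℂ) • 1) ^ k) σ σ =
      ∑ σ : Cf, om ^ (Mz σ) * ((((NI 1 + c • (1 : Matrix Cf Cf ℤ)) ^ k) σ σ : ℤ) : ℂ) := by
    refine Finset.sum_congr rfl fun σ _ => ?_
    rw [prod_zf om_unit, zc_NI1]
  rw [h2] at h
  have h3 := congrArg Complex.re h
  rw [Complex.ofReal_re, re_sum_int] at h3
  unfold momR
  rw [h3, Int.cast_sum, Finset.mul_sum]
  refine Finset.sum_congr rfl fun σ _ => ?_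
  rw [om_zpow_re, Int.cast_mul]
  ring

/-- (t7) class `r = (c,c)` -/
theorem mom_t7 (c : ℤ) (k : ℕ) :
    2 * momR gc gc c k = ((∑ σ, (if Mz σ % 3 = 0 then 2 else -1) *
      ((Nc2 + c • (1 : Matrix (Cf × Fin 2) (Cf × Fin 2) ℤ)) ^ k) (σ, 0) (σ, 0) : ℤ) : ℝ) := by
  have h := trace_link goodU_C om_unit diagZ_C gc (tens_conj_diag goodU_C diagZ_C) c k
  rw [trace_diag_mul] at h
  have h2 : ∑ σ : Cf, (∏ i, zf om (σ i)) * ((Nz om + (c : ℂ) • 1) ^ k) σ σ =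
      ∑ σ : Cf, om ^ (Mz σ) *
        ((((Nc2 + c • (1 : Matrix (Cf × Fin 2) (Cf × Fin 2) ℤ)) ^ k) (σ, 0) (σ, 0) : ℤ) : ℂ) := by
    refine Finset.sum_congr rfl fun σ _ => ?_
    rw [prod_zf om_unit, Nc2_diag]
  rw [h2] at h
  have h3 := congrArg Complex.re h
  rw [Complex.ofReal_re, re_sum_int] at h3
  unfold momR
  rw [h3, Int.cast_sum, Finset.mul_sum]
  refine Finset.sum_congr rfl fun σ _ => ?_
  rw [om_zpow_re, Int.cast_mul]
  ring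

end Hald
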