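import Crest.Agent.Hald.OrbSum
import Crest.Agent.Hald.SzMom

/-!
# Row 347, M7c: from the kernel runs to the class sums and the moments
-/

set_option autoImplicit false
set_option exponentiation.threshold 5000

namespace Hald

open Finset

theorem mulVec_count {κ : Type*} [Fintype κ] [DecidableEq κ] {D : ℕ} (e : κ ≃ Fin D) (A : Matrix κ κ ℤ)
    (c : ℕ → κ) (starts : List ℕ) (hst : ∀ i ∈ starts, (e (c i) : ℕ) = i) (τ : κ) :
    (A.mulVec fun σ => (starts.count (e σ : ℕ) : ℤ)) τ = (starts.map fun i => A τ (c i)).sum := by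
  induction starts with
  | nil => simp [Matrix.mulVec, dotProduct]
  | cons a l ih =>
    have ih' := ih fun i hi => hst i (List.mem_cons_of_mem _ hi)
    rw [List.map_cons, List.sum_cons, ← ih']
    simp only [Matrix.mulVec, dotProduct]
    have h1 : ∀ σ, A τ σ * (((a :: l).count (e σ : ℕ) : ℕ) : ℤ) =
        A τ σ * ((l.count (e σ : ℕ) : ℕ) : ℤ) + (if σ = c a then A τ (c a) else 0) := by
      intro σ
      rw [List.count_cons]
      by_cases h : σ = c a
      · subst h
        rw [hst a List.mem_cons_self]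
        simp
        ring
      · have h2 : ¬ (a == (e σ : ℕ)) = true := by
          intro hh
          have h3 : a = (e σ : ℕ) := by simpa using hh
          apply h
          apply e.injective
          apply Fin.ext
          rw [hst a List.mem_cons_self, ← h3]
        simp [h, h2]
    rw [sum_congr rfl fun σ _ => h1 σ, sum_add_distrib, sum_ite_eq' _ _ _, if_pos (mem_univ _)]
    ring

/-- value of one run in terms of matrix entries -/
theorem run_val {κ : Type*} [Fintype κ] [DecidableEq κ] {D : ℕ} (e : κ ≃ Fin D) (ic : Cf → κ)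
    (hic : ∀ σ, (e (ic σ) : ℕ) = ixN σ) (N : Matrix κ κ ℤ) {w wo : ℕ}
    {fs : List (List Bool)} {o : OpData} (g : o.Good w fs) (hD : o.D = D) (hDD : 6561 ≤ D)
    (hcol : ∀ σ, ∑ τ, N τ σ * 2 ^ (w * (e τ : ℕ)) = posCol w o (e σ) - negCol w o (e σ))
    {R : ℕ} (hR : ∀ σ, ∑ τ, |N τ σ| ≤ R) {K : ℕ} (hR1 : 1 ≤ R)
    (l f : List (ℕ × ℕ × ℕ)) (hl : ∀ p ∈ l, p.1 < 6561) (hf : ∀ p ∈ f, p.1 < 6561)
    (hb : R ^ K * l.length < 2 ^ (w - 1)) :
    ((runN w wo fs o (l.map fun p => p.1) (rds w (l ++ f)) K : ℕ) : ℤ) =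
      ∑ k ∈ range (K + 1), ((l ++ f).map fun p => (p.2.1 : ℤ) *
        (2 ^ (w - 1) + (l.map fun p' => (N ^ k) (ic (cfOf p.1)) (ic (cfOf p'.1))).sum) *
          2 ^ (280 * p.2.2)).sum * 2 ^ (wo * (K - k)) := by
  have hw := g.wpos
  have hlf : ∀ p ∈ l ++ f, p.1 < 6561 := by
    intro p hp
    rcases List.mem_append.mp hp with h | h
    · exact hl p h
    · exact hf p h
  have hst : ∀ i ∈ l.map (fun p => p.1), i < D := by
    intro i hi
    obtain ⟨p, hp, rfl⟩ := List.mem_map.mp hi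
    have := hl p hp
    omega
  rw [runN_eq e N g hD hcol hR hst hR1 (by rwa [List.length_map])
    (by
      intro p hp
      obtain ⟨q, hq, rfl⟩ := List.mem_map.mp hp
      have := hlf q hq
      exact ⟨q.1, by omega, rfl⟩)]
  apply sum_congr rfl
  intro k _
  congr 1
  rw [rds, List.map_map]
  congr 1
  apply List.map_congr_left
  intro p hp
  have hp1 := hlf p hp
  simp only [Function.comp]
  rw [Nat.mul_div_cancel_left _ hw]
  have h1 : p.1 = ((e (ic (cfOf p.1)) : Fin D) : ℕ) := by rw [hic, ixN_cfOf hp1]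
  have h2 : ext e ((N ^ k).mulVec fun σ => (((l.map fun p => p.1).count (e σ : ℕ) : ℕ) : ℤ)) p.1 =
      ((N ^ k).mulVec fun σ => (((l.map fun p => p.1).count (e σ : ℕ) : ℕ) : ℤ)) (ic (cfOf p.1)) := by
    conv_lhs => rw [h1]
    exact ext_apply e _ _
  rw [h2, mulVec_count e (N ^ k) (fun i => ic (cfOf i)) _ (by
    intro i hi
    obtain ⟨q, hq, rfl⟩ := List.mem_map.mp hi
    rw [hic, ixN_cfOf (hl q hq)])]
  rw [List.map_map]
  rfl

/-- in a list with pairwise distinct `M`, only the diagonal term survives -/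
theorem sum_single {α : Type*} [DecidableEq α] (l : List α) (hn : l.Nodup) (F : α → ℤ) (p : α) (hp : p ∈ l)
    (h0 : ∀ p' ∈ l, p' ≠ p → F p' = 0) : (l.map F).sum = F p := by
  rw [List.sum_map_eq_nsmul_single p]
  · rw [List.count_eq_one_of_mem hn hp, one_smul]
  · intro a ha hal
    exact h0 a hal ha

theorem sum_range_mul_z (a b : ℕ) (g : ℕ → ℤ) :
    ∑ i ∈ range (a * b), g i = ∑ j ∈ range b, ∑ i ∈ range a, g (i + a * j) := by
  induction b with
  | zero => simp
  | succ b ih =>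
    rw [sum_range_succ, ← ih, Nat.mul_succ, sum_range_add]
    congr 1
    apply sum_congr rfl
    intro i _
    rw [add_comm]

/-- digits of a total -/
theorem digits_of_tot (C K : ℕ) (hC : 0 < C) (S : ℕ → ℕ → ℤ) (hS : ∀ k ≤ K, ∀ c < C, 0 ≤ S k c ∧ S k c < 2 ^ 280)
    (T : ℕ) (hT : (T : ℤ) = ∑ k ∈ range (K + 1), (∑ c ∈ range C, S k c * 2 ^ (280 * c)) * 2 ^ (280 * C * (K - k)))
    (k : ℕ) (hk : k ≤ K) (c : ℕ) (hc : c < C) :
    S k c = (((T >>> (280 * (C * (K - k) + c))) % 2 ^ 280 : ℕ) : ℤ) := by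
  have hb : ∀ n < C * (K + 1), (S (K - n / C) (n % C)).toNat < 2 ^ 280 := by
    intro n hn
    have h := hS (K - n / C) (Nat.sub_le _ _) (n % C) (Nat.mod_lt _ hC)
    have h2 : (((S (K - n / C) (n % C)).toNat : ℕ) : ℤ) < ((2 ^ 280 : ℕ) : ℤ) := by
      rw [Int.toNat_of_nonneg h.1]
      push_cast
      exact h.2
    exact_mod_cast h2
  have h1 : T = pk 280 (fun n => (S (K - n / C) (n % C)).toNat) (C * (K + 1)) := by
    have : (T : ℤ) = ((pk 280 (fun n => (S (K - n / C) (n % C)).toNat) (C * (K + 1)) : ℕ) : ℤ) := by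
      rw [hT, pk_cast, pkz, sum_range_mul_z, ← sum_range_reflect]
      apply sum_congr rfl
      intro j hj
      rw [mem_range] at hj
      rw [sum_mul]
      apply sum_congr rfl
      intro i hi
      rw [mem_range] at hi
      have e1 : (i + C * j) / C = j := by
        rw [Nat.add_mul_div_left _ _ hC, Nat.div_eq_of_lt hi, zero_add]
      have e2 : (i + C * j) % C = i := by
        rw [Nat.add_mul_mod_self_left, Nat.mod_eq_of_lt hi]
      rw [e1, e2, Int.toNat_of_nonneg (hS (K - j) (by omega) i hi).1]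
      have e3 : K + 1 - 1 - j = K - j := by omega
      have e4 : K - (K - j) = j := by omega
      rw [e3, e4, mul_assoc, ← pow_add]
      congr 2
      ring
    exact_mod_cast this
  have hlt : C * (K - k) + c < C * (K + 1) := by
    have : C * (K - k) + C ≤ C * (K + 1) := by
      rw [← Nat.mul_succ]
      exact Nat.mul_le_mul_left _ (by omega)
    omega
  have h2 := read_pk hb hlt
  rw [← h1] at h2
  rw [h2]
  have e1 : (C * (K - k) + c) / C = K - k := by
    rw [add_comm, Nat.add_mul_div_left _ _ hC, Nat.div_eq_of_lt hc, zero_add]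
  have e2 : (C * (K - k) + c) % C = c := by
    rw [add_comm, Nat.add_mul_mod_self_left, Nat.mod_eq_of_lt hc]
  have e3 : K - (K - k) = k := by omega
  simp only [e1, e2, e3]
  rw [Int.toNat_of_nonneg (hS k hk c hc).1]

/-- class sums -/
noncomputable def clsSum (g : Cf → ℤ) (c : ℕ) : ℤ := ∑ σ, if clsZ (Mz σ) = c then g σ else 0

theorem clsZ_lt (m : ℤ) : clsZ m < 4 := by
  unfold clsZ; split_ifs <;> omega

theorem sum_cls (g : Cf → ℤ) :
    ∑ σ, g σ * 2 ^ (280 * clsZ (Mz σ)) = ∑ c ∈ range 4, clsSum g c * 2 ^ (280 * c) := by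
  simp only [clsSum, sum_mul]
  rw [sum_comm]
  apply sum_congr rfl
  intro σ _
  rw [sum_eq_single (clsZ (Mz σ))]
  · rw [if_pos rfl]
  · intro c _ hc
    rw [if_neg (Ne.symm hc), zero_mul]
  · intro h
    exact absurd (mem_range.mpr (clsZ_lt _)) h

theorem list_sum_range {α : Type*} (l : List α) (n : ℕ) (F : α → ℕ → ℤ) (c : ℕ → ℤ) :
    (l.map fun a => ∑ k ∈ range n, F a k * c k).sum = ∑ k ∈ range n, (l.map fun a => F a k).sum * c k := by
  induction l with
  | nil => simp
  | cons a l ih => simp [ih, add_mul, sum_add_distrib]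

theorem flatten_sum {α : Type*} (L : List (List α)) (F : α → ℤ) :
    (L.map fun l => (l.map F).sum).sum = (L.flatten.map F).sum := by
  induction L with
  | nil => simp
  | cons l L ih => simp [ih]

/-- invariant class sums via the orbit representatives -/
theorem orb_cls (g : Cf → ℤ) (hT : ∀ σ, g (trC σ) = g σ) (hR : ∀ σ, g (rfC σ) = g σ)
    (hF : ∀ σ, g (flipC σ) = g σ) :
    (runTab.map fun l => (l.map fun p => (p.2.1 : ℤ) * g (cfOf p.1) * 2 ^ (280 * p.2.2)).sum).sum =
      ∑ c ∈ range 4, clsSum g c * 2 ^ (280 * c) := by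
  rw [← sum_cls, orb_sum (fun σ => g σ * 2 ^ (280 * clsZ (Mz σ))), ← flatten_sum]
  · congr 1
    apply List.map_congr_left
    intro l hl
    congr 1
    apply List.map_congr_left
    intro p hp
    rw [(tab_cls l hl p hp).2]
    ring
  · intro σ
    rw [hT, Mz_tr]
  · intro σ
    rw [hR, Mz_rf]
  · intro σ
    rw [hF, Mz_flip]
    have : clsZ (-Mz σ) = clsZ (Mz σ) := by
      unfold clsZ
      have h2 : (-Mz σ % 2 = 0) ↔ (Mz σ % 2 = 0) := by omega
      have h3 : (-Mz σ % 3 = 0) ↔ (Mz σ % 3 = 0) := by omega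
      simp only [h2, h3]
    rw [this]

theorem tot_cls (run : List (ℕ × ℕ × ℕ) → ℕ) (w : ℕ) (g : ℕ → Cf → ℤ)
    (hrun : ∀ l ∈ runTab, (run l : ℤ) = ∑ k ∈ range (64 + 1), (l.map fun p => (p.2.1 : ℤ) *
      (2 ^ (w - 1) + g k (cfOf p.1)) * 2 ^ (280 * p.2.2)).sum * 2 ^ (1120 * (64 - k)))
    (hT : ∀ k σ, g k (trC σ) = g k σ) (hR : ∀ k σ, g k (rfC σ) = g k σ)
    (hF : ∀ k σ, g k (flipC σ) = g k σ) :
    (((runTab.map run).sum : ℕ) : ℤ) = ∑ k ∈ range (64 + 1),
      (∑ c ∈ range 4, clsSum (fun σ => 2 ^ (w - 1) + g k σ) c * 2 ^ (280 * c)) * 2 ^ (280 * 4 * (64 - k)) := by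
  have h1 : (((runTab.map run).sum : ℕ) : ℤ) = (runTab.map fun l => ∑ k ∈ range (64 + 1), (l.map fun p =>
      (p.2.1 : ℤ) * (2 ^ (w - 1) + g k (cfOf p.1)) * 2 ^ (280 * p.2.2)).sum * 2 ^ (1120 * (64 - k))).sum := by
    rw [Nat.cast_list_sum, List.map_map]
    congr 1
    apply List.map_congr_left
    intro l hl
    exact hrun l hl
  rw [h1, list_sum_range]
  apply sum_congr rfl
  intro k _
  rw [orb_cls (fun σ => 2 ^ (w - 1) + g k σ) (fun σ => by simp only [hT]) (fun σ => by simp only [hR])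
    (fun σ => by simp only [hF])]

/-- the diagonal entries used for the three operators -/
noncomputable def gP (k : ℕ) (σ : Cf) : ℤ := ((NI 1) ^ k) σ σ
noncomputable def gM (k : ℕ) (σ : Cf) : ℤ := ((NI (-1)) ^ k) σ σ
noncomputable def hM (k : ℕ) (σ : Cf) : ℤ := ((NI (-1)) ^ k) (flipC σ) σ
noncomputable def gC (k : ℕ) (σ : Cf) : ℤ := (Nc2 ^ k) (σ, 0) (σ, 0)

theorem tab_len : ∀ l ∈ runTab, l.length ≤ 17 := by decide +kernel

theorem runP_val (l : List (ℕ × ℕ × ℕ)) (hl : l ∈ runTab) :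
    (runP l : ℤ) = ∑ k ∈ range (64 + 1), (l.map fun p => (p.2.1 : ℤ) *
      (2 ^ (262 - 1) + gP k (cfOf p.1)) * 2 ^ (280 * p.2.2)).sum * 2 ^ (1120 * (64 - k)) := by
  have h := run_val e8 id (fun σ => e8_val σ) (NI 1) (w := 262) (wo := 1120) (good_p 262 (by norm_num)) rfl
    le_rfl (hcol_p 262) (R := 16) (NI_bound 1 (by norm_num)) (K := 64) (by norm_num) l []
    (fun p hp => (tab_cls l hl p hp).1) (by simp) (by
      have := tab_len l hl
      calc 16 ^ 64 * l.length ≤ 16 ^ 64 * 17 := Nat.mul_le_mul_left _ this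
        _ < 2 ^ (262 - 1) := by norm_num)
  rw [List.append_nil] at h
  rw [runP, h]
  apply sum_congr rfl
  intro k _
  congr 2
  apply List.map_congr_left
  intro p hp
  rw [sum_single l (tab_nodup l hl) _ p hp (by
    intro p' hp' hne
    have h0 : Mz (cfOf p.1) ≠ Mz (cfOf p'.1) := fun hh => hne (tab_inj l hl p hp p' hp' hh).symm
    have := NI_cons 1 0 k h0
    simpa using this)]
  rfl

theorem runC_val (l : List (ℕ × ℕ × ℕ)) (hl : l ∈ runTab) :
    (runC l : ℤ) = ∑ k ∈ range (64 + 1), (l.map fun p => (p.2.1 : ℤ) *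
      (2 ^ (267 - 1) + gC k (cfOf p.1)) * 2 ^ (280 * p.2.2)).sum * 2 ^ (1120 * (64 - k)) := by
  have h := run_val e16 (fun σ => (σ, 0)) (fun σ => e16_val (σ, 0)) Nc2 (w := 267) (wo := 1120)
    (good_c 267 (by norm_num)) rfl
    (by norm_num) (hcol_c 267) (R := 17) Nc2_bound (K := 64) (by norm_num) l []
    (fun p hp => (tab_cls l hl p hp).1) (by simp) (by
      have := tab_len l hl
      calc 17 ^ 64 * l.length ≤ 17 ^ 64 * 17 := Nat.mul_le_mul_left _ this
        _ < 2 ^ (267 - 1) := by norm_num)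
  rw [List.append_nil] at h
  rw [runC, h]
  apply sum_congr rfl
  intro k _
  congr 2
  apply List.map_congr_left
  intro p hp
  rw [sum_single l (tab_nodup l hl) _ p hp (by
    intro p' hp' hne
    have h0 : Mz (cfOf p.1) ≠ Mz (cfOf p'.1) := fun hh => hne (tab_inj l hl p hp p' hp' hh).symm
    have := Nc2_cons 0 k 0 0 h0
    simpa using this)]
  rfl

theorem runM_val (l f : List (ℕ × ℕ × ℕ)) (hlf : (l, f) ∈ runTab.zip flipTab) :
    (runM l f : ℤ) = ∑ k ∈ range (64 + 1), ((l.map fun p => (p.2.1 : ℤ) *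
      (2 ^ (262 - 1) + gM k (cfOf p.1)) * 2 ^ (280 * p.2.2)).sum +
      (l.map fun p => (p.2.1 : ℤ) * (if Mz (cfOf p.1) = 0 then 2 ^ (262 - 1) + hM k (cfOf p.1) else 0)).sum *
        2 ^ (280 * 4)) * 2 ^ (1400 * (64 - k)) := by
  have hl : l ∈ runTab := (List.of_mem_zip hlf).1
  obtain ⟨p0, hp0, hM0, hf⟩ := tab_flip (l, f) hlf
  simp only at hp0 hM0 hf
  have hp01 := (tab_cls l hl p0 hp0).1
  have h := run_val e8 id (fun σ => e8_val σ) (NI (-1)) (w := 262) (wo := 1400) (good_m 262 (by norm_num)) rfl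
    le_rfl (hcol_m 262) (R := 16) (NI_bound (-1) (by norm_num)) (K := 64) (by norm_num) l f
    (fun p hp => (tab_cls l hl p hp).1) (by
      intro p hp
      rw [hf, List.mem_singleton] at hp
      subst hp
      simp only
      omega) (by
      have := tab_len l hl
      calc 16 ^ 64 * l.length ≤ 16 ^ 64 * 17 := Nat.mul_le_mul_left _ this
        _ < 2 ^ (262 - 1) := by norm_num)
  rw [runM, h]
  apply sum_congr rfl
  intro k _
  congr 1
  rw [List.map_append, List.sum_append]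
  congr 1
  · congr 1
    apply List.map_congr_left
    intro p hp
    rw [sum_single l (tab_nodup l hl) _ p hp (by
      intro p' hp' hne
      have h0 : Mz (cfOf p.1) ≠ Mz (cfOf p'.1) := fun hh => hne (tab_inj l hl p hp p' hp' hh).symm
      have := NI_cons (-1) 0 k h0
      simpa using this)]
    rfl
  · rw [hf, List.map_singleton, List.sum_singleton, cfOf_flip hp01]
    have hflip : Mz (flipC (cfOf p0.1)) = 0 := by rw [Mz_flip, hM0, neg_zero]
    rw [sum_single l (tab_nodup l hl) _ p0 hp0 (by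
      intro p' hp' hne
      have h0 : Mz (flipC (cfOf p0.1)) ≠ Mz (cfOf p'.1) := by
        rw [hflip, ← hM0]
        exact fun hh => hne (tab_inj l hl p0 hp0 p' hp' hh).symm
      have := NI_cons (-1) 0 k h0
      simpa using this)]
    rw [sum_single l (tab_nodup l hl) _ p0 hp0 (by
      intro p' hp' hne
      have h0 : Mz (cfOf p'.1) ≠ 0 := by
        rw [← hM0]
        exact fun hh => hne (tab_inj l hl p' hp' p0 hp0 hh)
      rw [if_neg h0, mul_zero])]
    rw [if_pos hM0]
    rfl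

end Hald
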