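import Crest.Agent.Hald.Defs

/-!
# Row 347, M7c: the integer matrices of the eight-site ring in the Marshall `S^z` basis

digit `a` of a spin-1 site ↔ `m = 1 - a`; site `(i,s) : RSite 4` has number `2i+s : Fin 8`.
-/

set_option autoImplicit false

namespace Hald

/-- configurations of the eight-site ring -/
abbrev Cf := Fin 8 → Fin 3

/-- magnetic quantum number of a digit -/
def mz (a : Fin 3) : ℤ := 1 - (a.val : ℤ)

/-- total magnetization -/
def Mz (σ : Cf) : ℤ := ∑ j, mz (σ j)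

/-- raise digit `j`, lower digit `k` -/
def upDn (j k : Fin 8) : Matrix Cf Cf ℤ := Matrix.of fun τ σ =>
  if (σ j).val < 2 ∧ 0 < (σ k).val ∧
    τ = Function.update (Function.update σ j (σ j + 1)) k (σ k - 1) then 1 else 0

/-- diagonal part `-∑_j m_j m_{j+1}` -/
def dgm : Matrix Cf Cf ℤ := Matrix.of fun τ σ => if τ = σ then ∑ j : Fin 8, -(mz (σ j) * mz (σ (j + 1))) else 0

/-- open-chain hopping + the whole diagonal -/
def Aop : Matrix Cf Cf ℤ :=
  (∑ j ∈ Finset.univ.filter (fun j : Fin 8 => j ≠ 7), (upDn j (j + 1) + upDn (j + 1) j)) + dgm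

/-- seam hopping: raise 7, lower 0 -/
def Uop : Matrix Cf Cf ℤ := upDn 7 0

/-- seam hopping: lower 7, raise 0 (`= Uopᵀ`) -/
def Vop : Matrix Cf Cf ℤ := upDn 0 7

/-- the ring with seam sign `s` -/
def NI (s : ℤ) : Matrix Cf Cf ℤ := Aop + s • (Uop + Vop)

/-- block form of `A + ω U + ω² Uᵀ` acting on `a + b ω` (`(σ,0)` ↔ `a`, `(σ,1)` ↔ `b`) -/
def Nc2 : Matrix (Cf × Fin 2) (Cf × Fin 2) ℤ := Matrix.of fun p q =>
  ![![Aop p.1 q.1 - Vop p.1 q.1, Vop p.1 q.1 - Uop p.1 q.1],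
    ![Uop p.1 q.1 - Vop p.1 q.1, Aop p.1 q.1 - Uop p.1 q.1]] p.2 q.2

/-- spin flip -/
def flipC (σ : Cf) : Cf := fun j => 2 - σ j
/-- cyclic translation -/
def trC (σ : Cf) : Cf := fun j => σ (j + 1)
/-- reflection -/
def rfC (σ : Cf) : Cf := fun j => σ (7 - j)

end Hald
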