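import Crest.Agent.Hald.SzOps
import Crest.Agent.Hald.SzMat

/-!
# Row 347, M7c: column identities of the packed ring operators
-/

set_option autoImplicit false

namespace Hald

open Finset

/-- mixed radix value of the digits `d` with bases `bs` (least significant first) -/
def mixVal : List ℕ → (ℕ → ℕ) → ℕ
  | [], _ => 0
  | b :: bs, d => d 0 + b * mixVal bs (fun i => d (i + 1))

/-- all digits allowed by the specification -/
def okD : List (List Bool) → (ℕ → ℕ) → Bool
  | [], _ => true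
  | bs :: l, d => bs.getD (d 0) false && okD l (fun i => d (i + 1))

theorem memb_mixVal (l : List (List Bool)) (d : ℕ → ℕ)
    (hd : ∀ i < l.length, d i < (l.getD i []).length) :
    memb l (mixVal (l.map List.length) d) = okD l d := by
  induction l generalizing d with
  | nil => rfl
  | cons bs l ih =>
    have h0 : d 0 < bs.length := by simpa using hd 0 (by simp)
    rw [List.map_cons, mixVal, memb, okD, Nat.add_mul_mod_self_left, Nat.mod_eq_of_lt h0,
      Nat.add_mul_div_left _ _ (by omega), Nat.div_eq_of_lt h0, zero_add, ih]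
    intro i hi
    simpa using hd (i + 1) (by simpa using hi)

theorem mixVal_lt (l : List (List Bool)) (d : ℕ → ℕ)
    (hd : ∀ i < l.length, d i < (l.getD i []).length) : mixVal (l.map List.length) d < dimL l := by
  induction l generalizing d with
  | nil => simp [mixVal, dimL]
  | cons bs l ih =>
    have h0 : d 0 < bs.length := by simpa using hd 0 (by simp)
    have h1 := ih (fun i => d (i + 1)) (fun i hi => by simpa using hd (i + 1) (by simpa using hi))
    rw [List.map_cons, mixVal, dimL]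
    nlinarith

/-- digits of a configuration, extended by zero -/
def dgt (σ : Cf) (i : ℕ) : ℕ := if h : i < 8 then (σ ⟨i, h⟩).val else 0

/-- index of a configuration -/
def ixN (σ : Cf) : ℕ := ∑ j : Fin 8, (σ j).val * 3 ^ j.val

/-- the numbering of the configurations -/
def e8 : Cf ≃ Fin 6561 := finFunctionFinEquiv.trans (finCongr (by norm_num))

theorem e8_val (σ : Cf) : (e8 σ : ℕ) = ixN σ := by
  exact finFunctionFinEquiv_apply σ

theorem ixN_eq_mixVal (σ : Cf) : ixN σ = mixVal [3, 3, 3, 3, 3, 3, 3, 3] (dgt σ) := by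
  simp [ixN, mixVal, dgt, Fin.sum_univ_succ]
  ring

theorem ixN_lt (σ : Cf) : ixN σ < 6561 := by
  rw [← e8_val]; exact (e8 σ).isLt

theorem dgt_lt (σ : Cf) (i : ℕ) : dgt σ i < 3 := by
  unfold dgt; split_ifs <;> omega

theorem okD_map_range (n : ℕ) (g : ℕ → List Bool) (d : ℕ → ℕ) :
    okD ((List.range n).map g) d = (List.range n).all fun i => (g i).getD (d i) false := by
  induction n generalizing g d with
  | zero => rfl
  | succ n ih =>
    rw [List.range_succ_eq_map, List.map_cons, List.map_map, okD, List.all_cons, List.all_map, ih]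
    rfl

theorem allT_getD (a : ℕ) (ha : a < 3) : allT.getD a false = true := by
  interval_cases a <;> rfl

theorem memb_map8 (σ : Cf) (g : ℕ → List Bool) (hg : ∀ i, (g i).length = 3) :
    memb ((List.range 8).map g) (ixN σ) = (List.range 8).all fun i => (g i).getD (dgt σ i) false := by
  rw [← okD_map_range, ← memb_mixVal, ixN_eq_mixVal]
  · congr 2
    rw [List.map_map]
    have : (List.length ∘ g) = fun _ => 3 := by funext i; exact hg i
    rw [this]
    rfl
  · intro i hi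
    rw [List.length_map, List.length_range] at hi
    rw [List.getD_eq_getElem?_getD, List.getElem?_map, List.getElem?_range hi]
    simp only [Option.map_some, Option.getD_some, hg]
    exact dgt_lt σ i

/-- semantic of `spec3` -/
theorem memb_spec3 (σ : Cf) (j k : Fin 8) (hjk : j ≠ k) (A B : List Bool) (hA : A.length = 3)
    (hB : B.length = 3) :
    memb (spec3 8 j k A B) (ixN σ) = (A.getD (σ j).val false && B.getD (σ k).val false) := by
  rw [spec3, memb_map8 σ _ (fun i => by split_ifs <;> simp [hA, hB, allT])]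
  rw [Bool.eq_iff_iff, List.all_eq_true, Bool.and_eq_true]
  have hj : dgt σ j.val = (σ j).val := by simp [dgt]
  have hk : dgt σ k.val = (σ k).val := by simp [dgt]
  have hne : (k : ℕ) ≠ j := fun h => hjk (Fin.ext h.symm)
  constructor
  · intro h
    constructor
    · have := h j.val (List.mem_range.mpr j.isLt)
      rwa [if_pos rfl, hj] at this
    · have := h k.val (List.mem_range.mpr k.isLt)
      rwa [if_neg hne, if_pos rfl, hk] at this
  · rintro ⟨h1, h2⟩ i hi
    by_cases hij : i = j.val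
    · rw [if_pos hij, hij, hj]; exact h1
    · rw [if_neg hij]
      by_cases hik : i = k.val
      · rw [if_pos hik, hik, hk]; exact h2
      · rw [if_neg hik]; exact allT_getD _ (dgt_lt σ i)

theorem memb_full3 (σ : Cf) : memb (full3 8) (ixN σ) = true := by
  have h : full3 8 = (List.range 8).map fun _ => allT := rfl
  rw [h, memb_map8 σ _ (fun _ => rfl), List.all_eq_true]
  intro i _
  exact allT_getD _ (dgt_lt σ i)

theorem ixN_update (σ : Cf) (j : Fin 8) (a : Fin 3) :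
    (ixN (Function.update σ j a) : ℤ) = ixN σ + ((a : ℤ) - (σ j : ℤ)) * 3 ^ j.val := by
  unfold ixN
  push_cast
  rw [← Finset.add_sum_erase _ _ (mem_univ j), ← Finset.add_sum_erase (a := j) univ
    (fun x => ((σ x : ℕ) : ℤ) * 3 ^ (x : ℕ)) (mem_univ j)]
  have : ∑ x ∈ univ.erase j, ((Function.update σ j a x : ℕ) : ℤ) * 3 ^ (x : ℕ) =
      ∑ x ∈ univ.erase j, ((σ x : ℕ) : ℤ) * 3 ^ (x : ℕ) := by
    apply sum_congr rfl
    intro x hx
    rw [Function.update_of_ne (ne_of_mem_erase hx)]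
  rw [this, Function.update_self]
  ring

/-- column of a raising/lowering matrix -/
theorem upDn_col (j k : Fin 8) (hjk : j ≠ k) (σ : Cf) (F : ℕ → ℤ) :
    ∑ τ, upDn j k τ σ * F (ixN τ) =
      if (raiseT.getD (σ j).val false && lowerT.getD (σ k).val false) = true then
        F (ixN σ + 3 ^ j.val - 3 ^ k.val) else 0 := by
  have hb : (raiseT.getD (σ j).val false && lowerT.getD (σ k).val false) = true ↔
      (σ j).val < 2 ∧ 0 < (σ k).val := by
    rw [Bool.and_eq_true]
    generalize σ j = a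
    generalize σ k = b
    revert a b
    decide
  by_cases h : (σ j).val < 2 ∧ 0 < (σ k).val
  · rw [if_pos (hb.mpr h)]
    rw [sum_eq_single (Function.update (Function.update σ j (σ j + 1)) k (σ k - 1))]
    · have e1 : (ixN (Function.update (Function.update σ j (σ j + 1)) k (σ k - 1)) : ℤ) =
          (ixN σ : ℤ) + 3 ^ j.val - 3 ^ k.val := by
        rw [ixN_update, ixN_update, Function.update_of_ne hjk.symm]
        have a1 : (((σ j + 1 : Fin 3) : ℕ) : ℤ) - ((σ j : ℕ) : ℤ) = 1 := by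
          have := h.1
          generalize σ j = a at this
          revert a; decide
        have a2 : (((σ k - 1 : Fin 3) : ℕ) : ℤ) - ((σ k : ℕ) : ℤ) = -1 := by
          have := h.2
          generalize σ k = a at this
          revert a; decide
        rw [a1, a2]; ring
      have e2 : ixN (Function.update (Function.update σ j (σ j + 1)) k (σ k - 1)) =
          ixN σ + 3 ^ j.val - 3 ^ k.val := by
        have : (3 : ℤ) ^ k.val ≤ ixN σ + 3 ^ j.val := by
          have : (0 : ℤ) ≤ ixN (Function.update (Function.update σ j (σ j + 1)) k (σ k - 1)) := by positivity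
          linarith
        have h3 : 3 ^ k.val ≤ ixN σ + 3 ^ j.val := by exact_mod_cast this
        zify [h3]
        exact e1
      rw [e2]
      simp only [upDn, Matrix.of_apply]
      rw [if_pos ⟨h.1, h.2, trivial⟩, one_mul]
    · intro τ _ hτ
      simp [upDn, hτ]
    · simp
  · rw [if_neg (fun hh => h (hb.mp hh))]
    apply sum_eq_zero
    intro τ _
    have : upDn j k τ σ = 0 := by
      simp only [upDn, Matrix.of_apply]
      rw [if_neg]
      tauto
    rw [this, zero_mul]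

/-- one bond of the diagonal -/
theorem dgVal_bond (σ : Cf) (j k : Fin 8) (hjk : j ≠ k) :
    (dgVal (dgBond 8 j k) (ixN σ) : ℤ) = 1 - mz (σ j) * mz (σ k) := by
  rw [dgVal, dgBond]
  simp only [List.map_cons, List.map_nil, List.sum_cons, List.sum_nil]
  rw [memb_spec3 σ j k hjk _ _ rfl rfl, memb_spec3 σ j k hjk _ _ rfl rfl, memb_spec3 σ j k hjk _ _ rfl rfl,
    memb_spec3 σ j k hjk _ _ rfl rfl]
  generalize σ j = a
  generalize σ k = b
  revert a b
  decide

theorem dgVal_append (l m : List (List (List Bool) × ℕ)) (i : ℕ) :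
    dgVal (l ++ m) i = dgVal l i + dgVal m i := by
  simp [dgVal]

/-- the diagonal -/
theorem dgVal_ring (σ : Cf) : (dgVal (dgRing 8) (ixN σ) : ℤ) = 8 + ∑ j : Fin 8, -(mz (σ j) * mz (σ (j + 1))) := by
  have h : dgRing 8 = dgBond 8 0 1 ++ (dgBond 8 1 2 ++ (dgBond 8 2 3 ++ (dgBond 8 3 4 ++ (dgBond 8 4 5 ++
    (dgBond 8 5 6 ++ (dgBond 8 6 7 ++ dgBond 8 7 0)))))) := by decide
  rw [h]
  simp only [dgVal_append]
  push_cast
  have b0 := dgVal_bond σ 0 1 (by decide)
  have b1 := dgVal_bond σ 1 2 (by decide)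
  have b2 := dgVal_bond σ 2 3 (by decide)
  have b3 := dgVal_bond σ 3 4 (by decide)
  have b4 := dgVal_bond σ 4 5 (by decide)
  have b5 := dgVal_bond σ 5 6 (by decide)
  have b6 := dgVal_bond σ 6 7 (by decide)
  have b7 := dgVal_bond σ 7 0 (by decide)
  norm_num at b0 b1 b2 b3 b4 b5 b6 b7
  rw [b0, b1, b2, b3, b4, b5, b6, b7]
  simp only [Fin.sum_univ_succ]
  simp
  ring

theorem pow_le_ixN (σ : Cf) (k : Fin 8) (h : 0 < (σ k).val) : 3 ^ k.val ≤ ixN σ := by
  unfold ixN
  calc 3 ^ k.val = 1 * 3 ^ k.val := (one_mul _).symm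
    _ ≤ (σ k).val * 3 ^ k.val := Nat.mul_le_mul_right _ h
    _ ≤ _ := single_le_sum (f := fun j : Fin 8 => (σ j).val * 3 ^ j.val) (fun _ _ => Nat.zero_le _) (mem_univ k)

theorem exists_cf {i : ℕ} (hi : i < 6561) : ∃ σ : Cf, i = ixN σ :=
  ⟨e8.symm ⟨i, hi⟩, by rw [← e8_val]; simp⟩

/-- an up hop: raise `j`, lower `k`, `k < j` -/
theorem hop_up_col (w : ℕ) (j k : Fin 8) (hjk : k < j) (σ : Cf) (s : ℕ) (hs : s + 3 ^ k.val = 3 ^ j.val) :
    (if memb (spec3 8 j k raiseT lowerT) (ixN σ) then (2 : ℤ) ^ 0 * 2 ^ (w * (ixN σ + s)) else 0) =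
      ∑ τ, upDn j k τ σ * 2 ^ (w * ixN τ) := by
  rw [upDn_col j k (ne_of_gt hjk) σ (fun n => 2 ^ (w * n)),
    memb_spec3 σ j k (ne_of_gt hjk) _ _ rfl rfl, pow_zero, one_mul]
  have : ixN σ + 3 ^ j.val - 3 ^ k.val = ixN σ + s := by omega
  rw [this]

/-- a down hop: lower `j`, raise `k`, `k < j` -/
theorem hop_dn_col (w : ℕ) (j k : Fin 8) (hjk : k < j) (σ : Cf) (s : ℕ) (hs : s + 3 ^ k.val = 3 ^ j.val) :
    (if memb (spec3 8 j k lowerT raiseT) (ixN σ) then (2 : ℤ) ^ 0 * 2 ^ (w * (ixN σ - s)) else 0) =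
      ∑ τ, upDn k j τ σ * 2 ^ (w * ixN τ) := by
  rw [upDn_col k j (ne_of_lt hjk) σ (fun n => 2 ^ (w * n)),
    memb_spec3 σ j k (ne_of_gt hjk) _ _ rfl rfl, pow_zero, one_mul, Bool.and_comm]
  by_cases h : (raiseT.getD (σ k).val false && lowerT.getD (σ j).val false) = true
  · rw [if_pos h, if_pos h]
    have h0 : 0 < (σ j).val := by
      rw [Bool.and_eq_true] at h
      have := h.2
      generalize σ j = a at this
      revert a; decide
    have := pow_le_ixN σ j h0
    have : ixN σ + 3 ^ k.val - 3 ^ j.val = ixN σ - s := by omega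
    rw [this]
  · rw [if_neg h, if_neg h]

theorem hop_dn_le (j k : Fin 8) (hjk : k < j) (σ : Cf) (s : ℕ) (hs : s + 3 ^ k.val = 3 ^ j.val)
    (h : memb (spec3 8 j k lowerT raiseT) (ixN σ) = true) : s ≤ ixN σ := by
  rw [memb_spec3 σ j k (ne_of_gt hjk) _ _ rfl rfl, Bool.and_eq_true] at h
  have h0 : 0 < (σ j).val := by
    have := h.1
    generalize σ j = a at this
    revert a; decide
  have := pow_le_ixN σ j h0
  have h3 : 0 < 3 ^ k.val := by positivity
  omega

/-- the ring with seam sign `-1` -/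
def opm : OpData where
  D := 6561
  up := upOpen 8
  dn := dnOpen 8
  dg := dgRing 8
  np := 5
  nup := [⟨full3 8, 0, 3⟩, upSeam 8]
  ndn := [dnSeam 8]

/-- columns of the open chain part (hops) -/
theorem open_col (w : ℕ) (σ : Cf) :
    ((upOpen 8).map fun h => if memb h.spec (ixN σ) then (2 : ℤ) ^ h.c * 2 ^ (w * (ixN σ + h.s)) else 0).sum +
    ((dnOpen 8).map fun h => if memb h.spec (ixN σ) then (2 : ℤ) ^ h.c * 2 ^ (w * (ixN σ - h.s)) else 0).sum =
    ∑ j ∈ univ.filter (fun j : Fin 8 => j ≠ 7), ∑ τ, (upDn j (j + 1) + upDn (j + 1) j) τ σ * 2 ^ (w * ixN τ) := by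
  have hu : upOpen 8 = [⟨spec3 8 (1 : Fin 8) (0 : Fin 8) raiseT lowerT, 2, 0⟩, ⟨spec3 8 (2 : Fin 8) (1 : Fin 8) raiseT lowerT, 6, 0⟩,
    ⟨spec3 8 (3 : Fin 8) (2 : Fin 8) raiseT lowerT, 18, 0⟩, ⟨spec3 8 (4 : Fin 8) (3 : Fin 8) raiseT lowerT, 54, 0⟩,
    ⟨spec3 8 (5 : Fin 8) (4 : Fin 8) raiseT lowerT, 162, 0⟩, ⟨spec3 8 (6 : Fin 8) (5 : Fin 8) raiseT lowerT, 486, 0⟩,
    ⟨spec3 8 (7 : Fin 8) (6 : Fin 8) raiseT lowerT, 1458, 0⟩] := by rfl
  have hd : dnOpen 8 = [⟨spec3 8 (1 : Fin 8) (0 : Fin 8) lowerT raiseT, 2, 0⟩, ⟨spec3 8 (2 : Fin 8) (1 : Fin 8) lowerT raiseT, 6, 0⟩,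
    ⟨spec3 8 (3 : Fin 8) (2 : Fin 8) lowerT raiseT, 18, 0⟩, ⟨spec3 8 (4 : Fin 8) (3 : Fin 8) lowerT raiseT, 54, 0⟩,
    ⟨spec3 8 (5 : Fin 8) (4 : Fin 8) lowerT raiseT, 162, 0⟩, ⟨spec3 8 (6 : Fin 8) (5 : Fin 8) lowerT raiseT, 486, 0⟩,
    ⟨spec3 8 (7 : Fin 8) (6 : Fin 8) lowerT raiseT, 1458, 0⟩] := by rfl
  have hf : univ.filter (fun j : Fin 8 => j ≠ 7) = {0, 1, 2, 3, 4, 5, 6} := by decide
  have hsum : ∀ g : Fin 8 → ℤ, ∑ j ∈ univ.filter (fun j : Fin 8 => j ≠ 7), g j =
      g 0 + g 1 + g 2 + g 3 + g 4 + g 5 + g 6 := by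
    intro g
    rw [hf, sum_insert (by decide), sum_insert (by decide), sum_insert (by decide), sum_insert (by decide),
      sum_insert (by decide), sum_insert (by decide), sum_singleton]
    ring
  rw [hu, hd, hsum]
  simp only [List.map_cons, List.map_nil, List.sum_cons, List.sum_nil]
  rw [hop_up_col w 1 0 (by decide) σ 2 (by decide), hop_up_col w 2 1 (by decide) σ 6 (by decide),
    hop_up_col w 3 2 (by decide) σ 18 (by decide), hop_up_col w 4 3 (by decide) σ 54 (by decide),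
    hop_up_col w 5 4 (by decide) σ 162 (by decide), hop_up_col w 6 5 (by decide) σ 486 (by decide),
    hop_up_col w 7 6 (by decide) σ 1458 (by decide),
    hop_dn_col w 1 0 (by decide) σ 2 (by decide), hop_dn_col w 2 1 (by decide) σ 6 (by decide),
    hop_dn_col w 3 2 (by decide) σ 18 (by decide), hop_dn_col w 4 3 (by decide) σ 54 (by decide),
    hop_dn_col w 5 4 (by decide) σ 162 (by decide), hop_dn_col w 6 5 (by decide) σ 486 (by decide),
    hop_dn_col w 7 6 (by decide) σ 1458 (by decide)]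
  simp only [Matrix.add_apply, add_mul, sum_add_distrib]
  have a0 : (0 : Fin 8) + 1 = 1 := rfl
  have a1 : (1 : Fin 8) + 1 = 2 := rfl
  have a2 : (2 : Fin 8) + 1 = 3 := rfl
  have a3 : (3 : Fin 8) + 1 = 4 := rfl
  have a4 : (4 : Fin 8) + 1 = 5 := rfl
  have a5 : (5 : Fin 8) + 1 = 6 := rfl
  have a6 : (6 : Fin 8) + 1 = 7 := rfl
  rw [a0, a1, a2, a3, a4, a5, a6]
  ring

theorem seam_up_col (w : ℕ) (σ : Cf) :
    (if memb (upSeam 8).spec (ixN σ) then (2 : ℤ) ^ (upSeam 8).c * 2 ^ (w * (ixN σ + (upSeam 8).s)) else 0) =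
      ∑ τ, Uop τ σ * 2 ^ (w * ixN τ) :=
  hop_up_col w 7 0 (by decide) σ 2186 (by decide)

theorem seam_dn_col (w : ℕ) (σ : Cf) :
    (if memb (dnSeam 8).spec (ixN σ) then (2 : ℤ) ^ (dnSeam 8).c * 2 ^ (w * (ixN σ - (dnSeam 8).s)) else 0) =
      ∑ τ, Vop τ σ * 2 ^ (w * ixN τ) :=
  hop_dn_col w 7 0 (by decide) σ 2186 (by decide)

/-- column of the open part with diagonal -/
theorem Aop_col (w : ℕ) (σ : Cf) :
    ∑ τ, Aop τ σ * 2 ^ (w * ixN τ) =
      ((upOpen 8).map fun h => if memb h.spec (ixN σ) then (2 : ℤ) ^ h.c * 2 ^ (w * (ixN σ + h.s)) else 0).sum +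
      ((dnOpen 8).map fun h => if memb h.spec (ixN σ) then (2 : ℤ) ^ h.c * 2 ^ (w * (ixN σ - h.s)) else 0).sum +
      ((dgVal (dgRing 8) (ixN σ) : ℤ) - 8) * 2 ^ (w * ixN σ) := by
  rw [open_col, dgVal_ring]
  have h1 : ∑ τ, dgm τ σ * (2 : ℤ) ^ (w * ixN τ) =
      (∑ j : Fin 8, -(mz (σ j) * mz (σ (j + 1)))) * 2 ^ (w * ixN σ) := by
    rw [sum_eq_single σ]
    · simp [dgm]
    · intro τ _ h
      simp [dgm, h]
    · simp
  have h2 : ∀ τ, Aop τ σ = (∑ j ∈ univ.filter (fun j : Fin 8 => j ≠ 7), (upDn j (j + 1) + upDn (j + 1) j) τ σ)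
      + dgm τ σ := by
    intro τ
    rw [Aop, Matrix.add_apply, Matrix.sum_apply]
  have h3 : ∑ τ, (∑ j ∈ univ.filter (fun j : Fin 8 => j ≠ 7), (upDn j (j + 1) + upDn (j + 1) j) τ σ) *
      (2 : ℤ) ^ (w * ixN τ) = ∑ j ∈ univ.filter (fun j : Fin 8 => j ≠ 7), ∑ τ,
        (upDn j (j + 1) + upDn (j + 1) j) τ σ * 2 ^ (w * ixN τ) := by
    simp only [sum_mul]
    rw [sum_comm]
  simp only [h2, add_mul, sum_add_distrib, h1]
  rw [h3]
  ring

theorem hcol_p (w : ℕ) (σ : Cf) :
    ∑ τ, NI 1 τ σ * 2 ^ (w * (e8 τ : ℕ)) = posCol w op1 (e8 σ) - negCol w op1 (e8 σ) := by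
  simp only [e8_val]
  have h1 : ∀ τ, NI 1 τ σ = Aop τ σ + (Uop τ σ + Vop τ σ) := by
    intro τ; simp [NI]
  simp only [h1, add_mul, sum_add_distrib]
  rw [Aop_col, ← seam_up_col, ← seam_dn_col, posCol, negCol, op1]
  simp only [List.map_cons, List.sum_cons, List.map_nil, List.sum_nil]
  rw [memb_full3]
  simp only [if_true, add_zero]
  ring

theorem hcol_m (w : ℕ) (σ : Cf) :
    ∑ τ, NI (-1) τ σ * 2 ^ (w * (e8 τ : ℕ)) = posCol w opm (e8 σ) - negCol w opm (e8 σ) := by
  simp only [e8_val]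
  have h1 : ∀ τ, NI (-1) τ σ = Aop τ σ - (Uop τ σ + Vop τ σ) := by
    intro τ; simp [NI]; ring
  simp only [h1, sub_mul, add_mul, sum_add_distrib, sum_sub_distrib]
  rw [Aop_col, ← seam_up_col, ← seam_dn_col, posCol, negCol, opm]
  simp only [List.map_cons, List.sum_cons, List.map_nil, List.sum_nil]
  rw [memb_full3]
  simp only [if_true, add_zero]
  ring

/-- bound of one bond -/
theorem bond_bound (a b : Fin 3) :
    (if a.val < 2 ∧ 0 < b.val then (1 : ℤ) else 0) + (if b.val < 2 ∧ 0 < a.val then 1 else 0) +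
      |mz a * mz b| ≤ 2 := by
  revert a b; decide

theorem bond_bound2 (a b : Fin 3) :
    2 * (if a.val < 2 ∧ 0 < b.val then (1 : ℤ) else 0) + (if b.val < 2 ∧ 0 < a.val then 1 else 0) +
      |mz a * mz b| ≤ 3 := by
  revert a b; decide

theorem upDn_abs (j k : Fin 8) (hjk : j ≠ k) (σ : Cf) :
    ∑ τ, |upDn j k τ σ| = if (σ j).val < 2 ∧ 0 < (σ k).val then 1 else 0 := by
  have h := upDn_col j k hjk σ (fun _ => 1)
  have h0 : ∀ τ, |upDn j k τ σ| = upDn j k τ σ * 1 := by
    intro τ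
    have : 0 ≤ upDn j k τ σ := by
      simp only [upDn, Matrix.of_apply]; split_ifs <;> norm_num
    rw [abs_of_nonneg this, mul_one]
  simp only [h0]
  rw [h]
  have hb : (raiseT.getD (σ j).val false && lowerT.getD (σ k).val false) = true ↔
      (σ j).val < 2 ∧ 0 < (σ k).val := by
    rw [Bool.and_eq_true]
    generalize σ j = a
    generalize σ k = b
    revert a b
    decide
  by_cases h : (σ j).val < 2 ∧ 0 < (σ k).val
  · rw [if_pos (hb.mpr h), if_pos h]
  · rw [if_neg (fun hh => h (hb.mp hh)), if_neg h]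

/-- absolute column sum of the open part with all diagonal terms, plus general seam coefficients -/
theorem abs_Aop_le (σ : Cf) :
    ∑ τ, |Aop τ σ| ≤ 14 + |mz (σ 7) * mz (σ 0)| := by
  have hsum : ∀ g : Fin 8 → ℤ, ∑ j ∈ univ.filter (fun j : Fin 8 => j ≠ 7), g j =
      g 0 + g 1 + g 2 + g 3 + g 4 + g 5 + g 6 := by
    intro g
    have hf : univ.filter (fun j : Fin 8 => j ≠ 7) = {0, 1, 2, 3, 4, 5, 6} := by decide
    rw [hf, sum_insert (by decide), sum_insert (by decide), sum_insert (by decide), sum_insert (by decide),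
      sum_insert (by decide), sum_insert (by decide), sum_singleton]
    ring
  have h1 : ∀ τ, |Aop τ σ| ≤ ∑ j ∈ univ.filter (fun j : Fin 8 => j ≠ 7),
      (|upDn j (j + 1) τ σ| + |upDn (j + 1) j τ σ|) + |dgm τ σ| := by
    intro τ
    rw [Aop, Matrix.add_apply, Matrix.sum_apply]
    refine (abs_add_le _ _).trans (add_le_add ?_ le_rfl)
    refine (abs_sum_le_sum_abs _ _).trans (sum_le_sum fun j _ => ?_)
    rw [Matrix.add_apply]
    exact abs_add_le _ _
  have h2 : ∑ τ, |dgm τ σ| ≤ ∑ j : Fin 8, |mz (σ j) * mz (σ (j + 1))| := by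
    rw [sum_eq_single σ]
    · simp only [dgm, Matrix.of_apply, if_true]
      refine (abs_sum_le_sum_abs _ _).trans (sum_le_sum fun j _ => ?_)
      rw [abs_neg]
    · intro τ _ h
      simp [dgm, h]
    · simp
  have hne : ∀ j : Fin 8, j ≠ j + 1 := by decide
  calc ∑ τ, |Aop τ σ| ≤ ∑ τ, (∑ j ∈ univ.filter (fun j : Fin 8 => j ≠ 7),
      (|upDn j (j + 1) τ σ| + |upDn (j + 1) j τ σ|) + |dgm τ σ|) := sum_le_sum fun τ _ => h1 τ
    _ = ∑ j ∈ univ.filter (fun j : Fin 8 => j ≠ 7),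
        ((if (σ j).val < 2 ∧ 0 < (σ (j + 1)).val then (1 : ℤ) else 0) +
          (if (σ (j + 1)).val < 2 ∧ 0 < (σ j).val then 1 else 0)) + ∑ τ, |dgm τ σ| := by
        rw [sum_add_distrib, sum_comm]
        congr 1
        apply sum_congr rfl
        intro j _
        rw [sum_add_distrib, upDn_abs _ _ (hne j), upDn_abs _ _ (hne j).symm]
    _ ≤ _ := by
        refine (add_le_add le_rfl h2).trans ?_
        rw [hsum]
        have e : ∀ g : Fin 8 → ℤ, ∑ j, g j = g 0 + g 1 + g 2 + g 3 + g 4 + g 5 + g 6 + g 7 := fun g => by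
          simp [Fin.sum_univ_succ]; ring
        rw [e]
        have b0 := bond_bound (σ 0) (σ (0 + 1))
        have b1 := bond_bound (σ 1) (σ (1 + 1))
        have b2 := bond_bound (σ 2) (σ (2 + 1))
        have b3 := bond_bound (σ 3) (σ (3 + 1))
        have b4 := bond_bound (σ 4) (σ (4 + 1))
        have b5 := bond_bound (σ 5) (σ (5 + 1))
        have b6 := bond_bound (σ 6) (σ (6 + 1))
        have a7 : (7 : Fin 8) + 1 = 0 := rfl
        rw [a7]
        linarith

theorem Uop_abs (σ : Cf) : ∑ τ, |Uop τ σ| = if (σ 7).val < 2 ∧ 0 < (σ 0).val then 1 else 0 :=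
  upDn_abs 7 0 (by decide) σ
theorem Vop_abs (σ : Cf) : ∑ τ, |Vop τ σ| = if (σ 0).val < 2 ∧ 0 < (σ 7).val then 1 else 0 :=
  upDn_abs 0 7 (by decide) σ

/-- column sums of `NI (±1)` are at most 16 -/
theorem NI_bound (s : ℤ) (hs : |s| = 1) (σ : Cf) : ∑ τ, |NI s τ σ| ≤ ((16 : ℕ) : ℤ) := by
  have h1 : ∀ τ, |NI s τ σ| ≤ |Aop τ σ| + (|Uop τ σ| + |Vop τ σ|) := by
    intro τ
    rw [NI, Matrix.add_apply, Matrix.smul_apply, Matrix.add_apply]
    refine (abs_add_le _ _).trans (add_le_add le_rfl ?_)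
    rw [smul_eq_mul, abs_mul, hs, one_mul]
    exact abs_add_le _ _
  have h2 := bond_bound (σ 7) (σ 0)
  have h3 := abs_Aop_le σ
  calc ∑ τ, |NI s τ σ| ≤ ∑ τ, (|Aop τ σ| + (|Uop τ σ| + |Vop τ σ|)) := sum_le_sum fun τ _ => h1 τ
    _ = ∑ τ, |Aop τ σ| + (∑ τ, |Uop τ σ| + ∑ τ, |Vop τ σ|) := by rw [sum_add_distrib, sum_add_distrib]
    _ ≤ _ := by
      rw [Uop_abs, Vop_abs]
      push_cast
      linarith

theorem dnOpen_le (h : Hop) (hh : h ∈ dnOpen 8) (σ : Cf) (hm : memb h.spec (ixN σ) = true) :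
    h.s ≤ ixN σ := by
  have hd : dnOpen 8 = [⟨spec3 8 (1 : Fin 8) (0 : Fin 8) lowerT raiseT, 2, 0⟩, ⟨spec3 8 (2 : Fin 8) (1 : Fin 8) lowerT raiseT, 6, 0⟩,
    ⟨spec3 8 (3 : Fin 8) (2 : Fin 8) lowerT raiseT, 18, 0⟩, ⟨spec3 8 (4 : Fin 8) (3 : Fin 8) lowerT raiseT, 54, 0⟩,
    ⟨spec3 8 (5 : Fin 8) (4 : Fin 8) lowerT raiseT, 162, 0⟩, ⟨spec3 8 (6 : Fin 8) (5 : Fin 8) lowerT raiseT, 486, 0⟩,
    ⟨spec3 8 (7 : Fin 8) (6 : Fin 8) lowerT raiseT, 1458, 0⟩] := by rfl
  rw [hd] at hh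
  simp only [List.mem_cons, List.not_mem_nil, or_false] at hh
  rcases hh with rfl | rfl | rfl | rfl | rfl | rfl | rfl
  · exact hop_dn_le 1 0 (by decide) σ 2 (by decide) hm
  · exact hop_dn_le 2 1 (by decide) σ 6 (by decide) hm
  · exact hop_dn_le 3 2 (by decide) σ 18 (by decide) hm
  · exact hop_dn_le 4 3 (by decide) σ 54 (by decide) hm
  · exact hop_dn_le 5 4 (by decide) σ 162 (by decide) hm
  · exact hop_dn_le 6 5 (by decide) σ 486 (by decide) hm
  · exact hop_dn_le 7 6 (by decide) σ 1458 (by decide) hm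

theorem dnSeam_le (σ : Cf) (hm : memb (dnSeam 8).spec (ixN σ) = true) : (dnSeam 8).s ≤ ixN σ :=
  hop_dn_le 7 0 (by decide) σ 2186 (by decide) hm

theorem dgVal_ring_lt (σ : Cf) : dgVal (dgRing 8) (ixN σ) < 2 ^ 5 := by
  have h := dgVal_ring σ
  have h1 : ∀ a b : Fin 3, -(mz a * mz b) ≤ 1 := by decide
  have h2 : ∑ j : Fin 8, -(mz (σ j) * mz (σ (j + 1))) ≤ ∑ j : Fin 8, (1 : ℤ) :=
    sum_le_sum fun j _ => h1 _ _
  simp at h2
  have h3 : (dgVal (dgRing 8) (ixN σ) : ℤ) < 32 := by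
    rw [h]
    simp
    linarith
  exact_mod_cast h3

/-- side conditions -/
theorem good_p (w : ℕ) (hw : 5 ≤ w) : op1.Good w (full3 8) where
  wpos := by omega
  up := by decide +kernel
  dn := fun h hh => ⟨(by decide +kernel : ∀ h ∈ op1.dn, dimL h.spec = op1.D) h hh, by
    rw [(by decide +kernel : ∀ h ∈ op1.dn, h.c = 0) h hh]; exact Nat.zero_le _⟩
  nup := by decide +kernel
  ndn := by intro h hh; exact absurd hh (by simp [op1])
  dns := by
    intro h hh i hi hm
    obtain ⟨σ, rfl⟩ := exists_cf hi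
    rcases List.mem_cons.mp hh with rfl | hh
    · exact dnSeam_le σ hm
    · exact dnOpen_le h hh σ hm
  ndns := by intro h hh; exact absurd hh (by simp [op1])
  dg := by decide +kernel
  np := by
    intro i hi
    obtain ⟨σ, rfl⟩ := exists_cf hi
    exact dgVal_ring_lt σ
  npw := hw
  full := by
    intro i hi
    obtain ⟨σ, rfl⟩ := exists_cf hi
    exact memb_full3 σ
  fullD := by decide +kernel

theorem good_m (w : ℕ) (hw : 5 ≤ w) : opm.Good w (full3 8) where
  wpos := by omega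
  up := by decide +kernel
  dn := fun h hh => ⟨(by decide +kernel : ∀ h ∈ opm.dn, dimL h.spec = opm.D) h hh, by
    rw [(by decide +kernel : ∀ h ∈ opm.dn, h.c = 0) h hh]; exact Nat.zero_le _⟩
  nup := by decide +kernel
  ndn := fun h hh => ⟨(by decide +kernel : ∀ h ∈ opm.ndn, dimL h.spec = opm.D) h hh, by
    rw [(by decide +kernel : ∀ h ∈ opm.ndn, h.c = 0) h hh]; exact Nat.zero_le _⟩
  dns := by
    intro h hh i hi hm
    obtain ⟨σ, rfl⟩ := exists_cf hi
    exact dnOpen_le h hh σ hm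
  ndns := by
    intro h hh i hi hm
    obtain ⟨σ, rfl⟩ := exists_cf hi
    rcases List.mem_cons.mp hh with rfl | hh
    · exact dnSeam_le σ hm
    · exact absurd hh (by simp)
  dg := by decide +kernel
  np := by
    intro i hi
    obtain ⟨σ, rfl⟩ := exists_cf hi
    exact dgVal_ring_lt σ
  npw := hw
  full := by
    intro i hi
    obtain ⟨σ, rfl⟩ := exists_cf hi
    exact memb_full3 σ
  fullD := by decide +kernel

end Hald
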