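import Crest.Agent.Hald.SzCol

/-!
# Row 347, M7c: packed operator of the ring with the three-fold seam twist (block form over `ℤ[ω]`)
-/

set_option autoImplicit false

namespace Hald

open Finset

theorem memb_append (l m : List (List Bool)) (i c : ℕ) (hi : i < dimL l) :
    memb (l ++ m) (i + dimL l * c) = (memb l i && memb m c) := by
  induction l generalizing i with
  | nil =>
    simp only [dimL] at hi
    have : i = 0 := by omega
    subst this
    simp [memb, dimL]
  | cons bs l ih =>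
    rw [dimL] at hi
    have hb : 0 < bs.length := by
      rcases Nat.eq_zero_or_pos bs.length with h | h
      · rw [h] at hi; simp at hi
      · exact h
    have e1 : (i + bs.length * dimL l * c) % bs.length = i % bs.length := by
      rw [mul_assoc, Nat.add_mul_mod_self_left]
    have e2 : (i + bs.length * dimL l * c) / bs.length = i / bs.length + dimL l * c := by
      rw [mul_assoc, Nat.add_mul_div_left _ _ hb]
    rw [List.cons_append, dimL, memb, e1, e2, ih (i / bs.length) (Nat.div_lt_of_lt_mul hi), memb,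
      Bool.and_assoc]

/-- append a digit set for the component -/
def Hop.ap (T : List Bool) (h : Hop) : Hop := ⟨h.spec ++ [T], h.s, h.c⟩

/-- operator data of `Nc2` -/
def opc : OpData where
  D := 13122
  up := ⟨(upSeam 8).spec ++ [[true, false]], 8747, 0⟩ :: (upOpen 8).map (Hop.ap [true, true])
  dn := ⟨(dnSeam 8).spec ++ [[false, true]], 8747, 0⟩ :: (dnOpen 8).map (Hop.ap [true, true])
  dg := (dgRing 8).map fun p => (p.1 ++ [[true, true]], p.2)
  np := 5
  nup := [⟨full3 8 ++ [[true, true]], 0, 3⟩, ⟨(dnSeam 8).spec ++ [[true, false]], 4375, 0⟩,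
    ⟨(upSeam 8).spec ++ [[false, true]], 2186, 0⟩]
  ndn := [⟨(dnSeam 8).spec ++ [[true, false]], 2186, 0⟩, ⟨(upSeam 8).spec ++ [[false, true]], 4375, 0⟩]

/-- index of a pair -/
def ixC (p : Cf × Fin 2) : ℕ := ixN p.1 + 6561 * p.2.val

/-- numbering of the pairs -/
def e16 : Cf × Fin 2 ≃ Fin 13122 :=
  (Equiv.prodComm Cf (Fin 2)).trans (((Equiv.refl (Fin 2)).prodCongr e8).trans
    (finProdFinEquiv.trans (finCongr (by norm_num))))

theorem e16_val (p : Cf × Fin 2) : (e16 p : ℕ) = ixC p := by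
  rw [ixC, ← e8_val]
  rfl

theorem memb_ap (l : List (List Bool)) (hl : dimL l = 6561) (T : List Bool) (hT : T.length = 2) (σ : Cf)
    (c : Fin 2) : memb (l ++ [T]) (ixC (σ, c)) = (memb l (ixN σ) && T.getD c.val false) := by
  have h := memb_append l [T] (ixN σ) c.val (by rw [hl]; exact ixN_lt σ)
  rw [hl] at h
  rw [ixC, h, memb, memb, hT, Bool.and_true]
  congr 2
  exact Nat.mod_eq_of_lt c.isLt

theorem upOpen_dim : ∀ h ∈ upOpen 8, dimL h.spec = 6561 := by decide +kernel
theorem dnOpen_dim : ∀ h ∈ dnOpen 8, dimL h.spec = 6561 := by decide +kernel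
theorem upSeam_dim : dimL (upSeam 8).spec = 6561 := by decide +kernel
theorem dnSeam_dim : dimL (dnSeam 8).spec = 6561 := by decide +kernel
theorem full3_dim : dimL (full3 8) = 6561 := by decide +kernel

theorem tt_getD (c : Fin 2) : [true, true].getD c.val false = true := by
  revert c; decide

theorem ft_getD (c : Fin 2) : [false, true].getD c.val false = true → c.val = 1 := by
  revert c; decide

theorem up_ap (w : ℕ) (σ : Cf) (c : Fin 2) (l : List Hop) (hl : ∀ h ∈ l, dimL h.spec = 6561) :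
    ((l.map (Hop.ap [true, true])).map fun h =>
      if memb h.spec (ixC (σ, c)) then (2 : ℤ) ^ h.c * 2 ^ (w * (ixC (σ, c) + h.s)) else 0).sum =
    2 ^ (w * (6561 * c.val)) *
      (l.map fun h => if memb h.spec (ixN σ) then (2 : ℤ) ^ h.c * 2 ^ (w * (ixN σ + h.s)) else 0).sum := by
  induction l with
  | nil => simp
  | cons h l ih =>
    have ih' := ih fun h hh => hl h (List.mem_cons_of_mem _ hh)
    simp only [List.map_cons, List.sum_cons]
    rw [ih']
    simp only [Hop.ap]
    rw [memb_ap _ (hl h List.mem_cons_self) _ rfl]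
    rw [tt_getD, Bool.and_true]
    by_cases hm : memb h.spec (ixN σ) = true
    · rw [if_pos hm, if_pos hm, ixC]
      simp only
      have e : w * (ixN σ + 6561 * c.val + h.s) = w * (ixN σ + h.s) + w * (6561 * c.val) := by ring
      rw [e, pow_add 2 (w * (ixN σ + h.s))]
      ring
    · rw [if_neg hm, if_neg hm]
      ring

theorem dn_ap (w : ℕ) (σ : Cf) (c : Fin 2) (l : List Hop) (hl : ∀ h ∈ l, dimL h.spec = 6561)
    (hs : ∀ h ∈ l, memb h.spec (ixN σ) = true → h.s ≤ ixN σ) :
    ((l.map (Hop.ap [true, true])).map fun h =>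
      if memb h.spec (ixC (σ, c)) then (2 : ℤ) ^ h.c * 2 ^ (w * (ixC (σ, c) - h.s)) else 0).sum =
    2 ^ (w * (6561 * c.val)) *
      (l.map fun h => if memb h.spec (ixN σ) then (2 : ℤ) ^ h.c * 2 ^ (w * (ixN σ - h.s)) else 0).sum := by
  induction l with
  | nil => simp
  | cons h l ih =>
    have ih' := ih (fun h hh => hl h (List.mem_cons_of_mem _ hh)) (fun h hh => hs h (List.mem_cons_of_mem _ hh))
    simp only [List.map_cons, List.sum_cons]
    rw [ih']
    simp only [Hop.ap]
    rw [memb_ap _ (hl h List.mem_cons_self) _ rfl]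
    rw [tt_getD, Bool.and_true]
    by_cases hm : memb h.spec (ixN σ) = true
    · have h1 := hs h List.mem_cons_self hm
      rw [if_pos hm, if_pos hm, ixC]
      simp only
      have e : w * (ixN σ + 6561 * c.val - h.s) = w * (ixN σ - h.s) + w * (6561 * c.val) := by
        rw [← mul_add]; congr 1; omega
      rw [e, pow_add]
      ring
    · rw [if_neg hm, if_neg hm]
      ring

theorem dg_ap (σ : Cf) (c : Fin 2) (l : List (List (List Bool) × ℕ)) (hl : ∀ p ∈ l, dimL p.1 = 6561) :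
    dgVal (l.map fun p => (p.1 ++ [[true, true]], p.2)) (ixC (σ, c)) = dgVal l (ixN σ) := by
  induction l with
  | nil => rfl
  | cons p l ih =>
    have ih' := ih fun h hh => hl h (List.mem_cons_of_mem _ hh)
    simp only [dgVal, List.map_cons, List.sum_cons] at ih' ⊢
    rw [ih']
    congr 1
    rw [memb_ap _ (hl p List.mem_cons_self) _ rfl]
    rw [tt_getD, Bool.and_true]

theorem dgRing_dim : ∀ p ∈ dgRing 8, dimL p.1 = 6561 := by decide +kernel

theorem hcol_c (w : ℕ) (q : Cf × Fin 2) :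
    ∑ p, Nc2 p q * 2 ^ (w * (e16 p : ℕ)) = posCol w opc (e16 q) - negCol w opc (e16 q) := by
  obtain ⟨σ, c⟩ := q
  simp only [e16_val]
  have hU := seam_up_col w σ
  have hV := seam_dn_col w σ
  have hA := Aop_col w σ
  have hdn : memb (dnSeam 8).spec (ixN σ) = true → 2186 ≤ ixN σ := dnSeam_le σ
  have e1 : ∀ τ : Cf, (2 : ℤ) ^ (w * (ixN τ + 6561)) = 2 ^ (w * ixN τ) * 2 ^ (w * 6561) := by
    intro τ; rw [← pow_add]; ring_nf
  rw [Fintype.sum_prod_type]
  simp only [Fin.sum_univ_two]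
  rw [posCol, negCol, opc]
  simp only [List.map_cons, List.sum_cons, List.map_nil, List.sum_nil, add_zero]
  rw [up_ap w σ c _ upOpen_dim, dn_ap w σ c _ dnOpen_dim (fun h hh => dnOpen_le h hh σ),
    dg_ap σ c _ dgRing_dim]
  rw [memb_ap _ upSeam_dim _ rfl, memb_ap _ dnSeam_dim _ rfl, memb_ap _ full3_dim _ rfl,
    memb_ap _ dnSeam_dim _ rfl, memb_ap _ upSeam_dim _ rfl, memb_full3]
  have hs0 : (upSeam 8).c = 0 := rfl
  have hs1 : (dnSeam 8).c = 0 := rfl
  have hs2 : (upSeam 8).s = 2186 := rfl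
  have hs3 : (dnSeam 8).s = 2186 := rfl
  rw [hs0, hs2, pow_zero, one_mul] at hU
  rw [hs1, hs3, pow_zero, one_mul] at hV
  have u1 : (if memb (upSeam 8).spec (ixN σ) = true then (2 : ℤ) ^ (w * (ixN σ + 8747)) else 0) =
      2 ^ (w * 6561) * ∑ τ, Uop τ σ * 2 ^ (w * ixN τ) := by
    have e : w * (ixN σ + 8747) = w * 6561 + w * (ixN σ + 2186) := by ring
    rw [← hU, e, pow_add]
    by_cases h : memb (upSeam 8).spec (ixN σ) = true
    · rw [if_pos h, if_pos h]
    · rw [if_neg h, if_neg h, mul_zero]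
  have u2 : (if memb (upSeam 8).spec (ixN σ) = true then (2 : ℤ) ^ (w * (ixN σ + 6561 + 2186)) else 0) =
      2 ^ (w * 6561) * ∑ τ, Uop τ σ * 2 ^ (w * ixN τ) := by
    have e : w * (ixN σ + 6561 + 2186) = w * 6561 + w * (ixN σ + 2186) := by ring
    rw [← hU, e, pow_add]
    by_cases h : memb (upSeam 8).spec (ixN σ) = true
    · rw [if_pos h, if_pos h]
    · rw [if_neg h, if_neg h, mul_zero]
  have u3 : (if memb (upSeam 8).spec (ixN σ) = true then (2 : ℤ) ^ (w * (ixN σ + 6561 - 4375)) else 0) =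
      ∑ τ, Uop τ σ * 2 ^ (w * ixN τ) := by
    have e : ixN σ + 6561 - 4375 = ixN σ + 2186 := by omega
    rw [← hU, e]
  have v1 : (if memb (dnSeam 8).spec (ixN σ) = true then (2 : ℤ) ^ (w * (ixN σ + 4375)) else 0) =
      2 ^ (w * 6561) * ∑ τ, Vop τ σ * 2 ^ (w * ixN τ) := by
    rw [← hV]
    by_cases h : memb (dnSeam 8).spec (ixN σ) = true
    · have := hdn h
      have e0 : ixN σ + 4375 = 6561 + (ixN σ - 2186) := by omega
      rw [if_pos h, if_pos h, e0, mul_add, pow_add]
    · rw [if_neg h, if_neg h, mul_zero]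
  have v2 : (if memb (dnSeam 8).spec (ixN σ) = true then (2 : ℤ) ^ (w * (ixN σ + 6561 - 8747)) else 0) =
      ∑ τ, Vop τ σ * 2 ^ (w * ixN τ) := by
    have e : ixN σ + 6561 - 8747 = ixN σ - 2186 := by omega
    rw [← hV, e]
  have hc0 : ∀ x : Cf, ixC (x, 0) = ixN x := fun x => rfl
  have hc1 : ∀ x : Cf, ixC (x, 1) = ixN x + 6561 := fun x => rfl
  have sA : ∑ x, Aop x σ * (2 : ℤ) ^ (w * (ixN x + 6561)) =
      2 ^ (w * 6561) * ∑ τ, Aop τ σ * 2 ^ (w * ixN τ) := by
    rw [mul_sum]; apply sum_congr rfl; intro x _; rw [e1]; ring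
  have sU : ∑ x, Uop x σ * (2 : ℤ) ^ (w * (ixN x + 6561)) =
      2 ^ (w * 6561) * ∑ τ, Uop τ σ * 2 ^ (w * ixN τ) := by
    rw [mul_sum]; apply sum_congr rfl; intro x _; rw [e1]; ring
  have sV : ∑ x, Vop x σ * (2 : ℤ) ^ (w * (ixN x + 6561)) =
      2 ^ (w * 6561) * ∑ τ, Vop τ σ * 2 ^ (w * ixN τ) := by
    rw [mul_sum]; apply sum_congr rfl; intro x _; rw [e1]; ring
  rcases (by omega : c = 0 ∨ c = 1) with rfl | rfl
  · have n0 : ∀ x, Nc2 (x, 0) (σ, 0) = Aop x σ - Vop x σ := fun x => rfl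
    have n1 : ∀ x, Nc2 (x, 1) (σ, 0) = Uop x σ - Vop x σ := fun x => rfl
    simp only [n0, n1, hc0, hc1, sum_add_distrib, sub_mul, sum_sub_distrib, sU, sV]
    have g1 : [true, false].getD ((0 : Fin 2) : ℕ) false = true := rfl
    have g2 : [false, true].getD ((0 : Fin 2) : ℕ) false = false := rfl
    have g3 : [true, true].getD ((0 : Fin 2) : ℕ) false = true := rfl
    rw [g1, g2, g3]
    simp only [Bool.and_true, Bool.and_false, if_true, Bool.false_eq_true, if_false, pow_zero, one_mul,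
      Fin.val_zero, mul_zero]
    rw [u1, v1, hV, hA]
    ring
  · have n0 : ∀ x, Nc2 (x, 0) (σ, 1) = Vop x σ - Uop x σ := fun x => rfl
    have n1 : ∀ x, Nc2 (x, 1) (σ, 1) = Aop x σ - Uop x σ := fun x => rfl
    simp only [n0, n1, hc0, hc1, sum_add_distrib, sub_mul, sum_sub_distrib, sU, sA]
    have g1 : [true, false].getD ((1 : Fin 2) : ℕ) false = false := rfl
    have g2 : [false, true].getD ((1 : Fin 2) : ℕ) false = true := rfl
    have g3 : [true, true].getD ((1 : Fin 2) : ℕ) false = true := rfl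
    rw [g1, g2, g3]
    simp only [Bool.and_true, Bool.and_false, if_true, Bool.false_eq_true, if_false, pow_zero, one_mul,
      Fin.val_one, mul_one]
    rw [u2, u3, v2, hA, e1 σ]
    ring

/-- column sums of `Nc2` are at most 17 -/
theorem Nc2_bound (q : Cf × Fin 2) : ∑ p, |Nc2 p q| ≤ ((17 : ℕ) : ℤ) := by
  obtain ⟨σ, c⟩ := q
  rw [Fintype.sum_prod_type]
  simp only [Fin.sum_univ_two]
  have h2 := bond_bound2 (σ 7) (σ 0)
  have h2' := bond_bound2 (σ 0) (σ 7)
  rw [mul_comm (mz (σ 0))] at h2'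
  have h3 := abs_Aop_le σ
  have hU := Uop_abs σ
  have hV := Vop_abs σ
  rcases (by omega : c = 0 ∨ c = 1) with rfl | rfl
  · have n0 : ∀ x, Nc2 (x, 0) (σ, 0) = Aop x σ - Vop x σ := fun x => rfl
    have n1 : ∀ x, Nc2 (x, 1) (σ, 0) = Uop x σ - Vop x σ := fun x => rfl
    simp only [n0, n1]
    calc ∑ x, (|Aop x σ - Vop x σ| + |Uop x σ - Vop x σ|)
        ≤ ∑ x, ((|Aop x σ| + |Vop x σ|) + (|Uop x σ| + |Vop x σ|)) :=
          sum_le_sum fun x _ => add_le_add (abs_sub _ _) (abs_sub _ _)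
      _ = ∑ x, |Aop x σ| + (∑ x, |Uop x σ| + 2 * ∑ x, |Vop x σ|) := by
          simp only [sum_add_distrib]; ring
      _ ≤ _ := by
          rw [hU, hV]
          push_cast
          linarith
  · have n0 : ∀ x, Nc2 (x, 0) (σ, 1) = Vop x σ - Uop x σ := fun x => rfl
    have n1 : ∀ x, Nc2 (x, 1) (σ, 1) = Aop x σ - Uop x σ := fun x => rfl
    simp only [n0, n1]
    calc ∑ x, (|Vop x σ - Uop x σ| + |Aop x σ - Uop x σ|)
        ≤ ∑ x, ((|Vop x σ| + |Uop x σ|) + (|Aop x σ| + |Uop x σ|)) :=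
          sum_le_sum fun x _ => add_le_add (abs_sub _ _) (abs_sub _ _)
      _ = ∑ x, |Aop x σ| + (2 * ∑ x, |Uop x σ| + ∑ x, |Vop x σ|) := by
          simp only [sum_add_distrib]; ring
      _ ≤ _ := by
          rw [hU, hV]
          push_cast
          linarith

theorem exists_pair {i : ℕ} (hi : i < 13122) : ∃ p : Cf × Fin 2, i = ixC p :=
  ⟨e16.symm ⟨i, hi⟩, by rw [← e16_val]; simp⟩

/-- side conditions -/
theorem good_c (w : ℕ) (hw : 5 ≤ w) : opc.Good w (full3 8 ++ [[true, true]]) where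
  wpos := by omega
  up := by decide +kernel
  dn := fun h hh => ⟨(by decide +kernel : ∀ h ∈ opc.dn, dimL h.spec = opc.D) h hh, by
    rw [(by decide +kernel : ∀ h ∈ opc.dn, h.c = 0) h hh]; exact Nat.zero_le _⟩
  nup := by decide +kernel
  ndn := fun h hh => ⟨(by decide +kernel : ∀ h ∈ opc.ndn, dimL h.spec = opc.D) h hh, by
    rw [(by decide +kernel : ∀ h ∈ opc.ndn, h.c = 0) h hh]; exact Nat.zero_le _⟩
  dns := by
    intro h hh i hi hm
    obtain ⟨⟨σ, c⟩, rfl⟩ := exists_pair hi
    rcases List.mem_cons.mp hh with rfl | hh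
    · rw [memb_ap _ dnSeam_dim _ rfl, Bool.and_eq_true] at hm
      have h1 := dnSeam_le σ hm.1
      have h2 : c.val = 1 := ft_getD c hm.2
      have h3 : (dnSeam 8).s = 2186 := rfl
      simp only [ixC]
      omega
    · obtain ⟨h', hh', rfl⟩ := List.mem_map.mp hh
      simp only [Hop.ap] at hm ⊢
      rw [memb_ap _ (dnOpen_dim h' hh') _ rfl, Bool.and_eq_true] at hm
      have h1 := dnOpen_le h' hh' σ hm.1
      simp only [ixC]
      omega
  ndns := by
    intro h hh i hi hm
    obtain ⟨⟨σ, c⟩, rfl⟩ := exists_pair hi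
    simp only [opc, List.mem_cons, List.not_mem_nil, or_false] at hh
    rcases hh with rfl | rfl
    · rw [memb_ap _ dnSeam_dim _ rfl, Bool.and_eq_true] at hm
      have h1 := dnSeam_le σ hm.1
      have h3 : (dnSeam 8).s = 2186 := rfl
      simp only [ixC]
      omega
    · rw [memb_ap _ upSeam_dim _ rfl, Bool.and_eq_true] at hm
      have h2 : c.val = 1 := ft_getD c hm.2
      simp only [ixC]
      omega
  dg := by decide +kernel
  np := by
    intro i hi
    obtain ⟨⟨σ, c⟩, rfl⟩ := exists_pair hi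
    rw [opc, dg_ap σ c _ dgRing_dim]
    exact dgVal_ring_lt σ
  npw := hw
  full := by
    intro i hi
    obtain ⟨⟨σ, c⟩, rfl⟩ := exists_pair hi
    rw [memb_ap _ full3_dim _ rfl, memb_full3, tt_getD]
    rfl
  fullD := by decide +kernel

end Hald
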