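import Crest.Agent.Hald.SzTrace

/-!
# Row 347, M7c-LINK (4): the trace formulas of the eight twist classes in integers
-/

set_option autoImplicit false
set_option linter.unusedSectionVars false
set_option linter.unusedSimpArgs false

namespace Hald

open Matrix Finset

/-! ### the twist operators in the new basis -/

theorem tens_conj_vv (u : Matrix (Fin 3) (Fin 3) ℂ) (g : Matrix (Fin 3) (Fin 3) ℝ) :
    tens (κ := fun _ : Fin 8 => Fin 3) (vv u) *
      cplx (tens (κ := fun _ : Fin 8 => Fin 3) fun _ => g) *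
      tens (κ := fun _ : Fin 8 => Fin 3) (fun i => (vv u i)ᴴ) =
      tens (κ := fun _ : Fin 8 => Fin 3) fun i => vv u i * cplx g * (vv u i)ᴴ := by
  have h : cplx (tens (κ := fun _ : Fin 8 => Fin 3) fun _ => g) =
      tens (κ := fun _ : Fin 8 => Fin 3) fun _ => cplx g :=
    tens_map (κ := fun _ : Fin 8 => Fin 3) Complex.ofRealHom fun _ => g
  rw [h, tens_mul, tens_mul]

theorem tens_conj_diag {u : Matrix (Fin 3) (Fin 3) ℂ} (hg : GoodU u)
    {g : Matrix (Fin 3) (Fin 3) ℝ} {ζ : ℂ} (hz : DiagZ u g (zf ζ)) :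
    tens (κ := fun _ : Fin 8 => Fin 3) (vv u) *
      cplx (tens (κ := fun _ : Fin 8 => Fin 3) fun _ => g) *
      tens (κ := fun _ : Fin 8 => Fin 3) (fun i => (vv u i)ᴴ) =
      Matrix.diagonal fun σ : Cf => ∏ i, zf ζ (σ i) := by
  rw [tens_conj_vv]
  have h1 : ∀ i, vv u i * cplx g * (vv u i)ᴴ = Matrix.diagonal (zf ζ) := by
    intro i
    ext b c
    rw [vv_entry, show u * cplx g = Matrix.diagonal (zf ζ) * u from hz, Matrix.mul_assoc, hg.hu,
      Matrix.mul_one, Matrix.diagonal_apply]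
    split_ifs with h
    · rw [h, ms_sq, one_mul]
    · rw [mul_zero]
  simp only [h1]
  ext τ σ
  rw [tens_apply, Matrix.diagonal_apply]
  by_cases h : τ = σ
  · rw [if_pos h]
    subst h
    exact Finset.prod_congr rfl fun i _ => Matrix.diagonal_apply_eq _ _
  · rw [if_neg h]
    obtain ⟨i, hi⟩ := Function.ne_iff.1 h
    exact Finset.prod_eq_zero (Finset.mem_univ i) (Matrix.diagonal_apply_ne _ hi)

theorem flipC_flipC (σ : Cf) : flipC (flipC σ) = σ := by
  funext j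
  unfold flipC
  have : ∀ a : Fin 3, (2 : Fin 3) - (2 - a) = a := by decide
  exact this _

theorem tens_conj_flip :
    tens (κ := fun _ : Fin 8 => Fin 3) (vv uY) *
      cplx (tens (κ := fun _ : Fin 8 => Fin 3) fun _ => gx) *
      tens (κ := fun _ : Fin 8 => Fin 3) (fun i => (vv uY i)ᴴ) =
      Matrix.of fun τ σ : Cf => if τ = flipC σ then (1 : ℂ) else 0 := by
  rw [tens_conj_vv]
  have h := rh_pow
  have hI := Complex.I_sq
  have hgx : cplx gx = !![(1 : ℂ), 0, 0; 0, -1, 0; 0, 0, -1] := by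
    ext i j
    fin_cases i <;> fin_cases j <;> simp [cplx, gx]
  have h0 : uY * cplx gx * uYᴴ = !![0, 0, -1; 0, -1, 0; -1, 0, 0] := by
    rw [hgx]
    ext i j
    fin_cases i <;> fin_cases j <;>
      simp [uY, Matrix.mul_apply, Fin.sum_univ_three, Matrix.conjTranspose_apply, rh_star]
    all_goals
      first
        | linear_combination rh ^ 2 * hI
        | linear_combination rh ^ 2 * hI - 2 * h
  have h1 : ∀ i b c, (vv uY i * cplx gx * (vv uY i)ᴴ) b c = if b = 2 - c then (-1 : ℂ) else 0 := by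
    intro i b c
    rw [vv_entry, h0]
    unfold ms
    split_ifs with h2 h3 h3
    · subst h3
      fin_cases c
      · show (-1 : ℂ) ^ 2 * (-1) ^ 0 * (-1) = -1
        norm_num
      · show (-1 : ℂ) ^ 1 * (-1) ^ 1 * (-1) = -1
        norm_num
      · show (-1 : ℂ) ^ 0 * (-1) ^ 2 * (-1) = -1
        norm_num
    · fin_cases b <;> fin_cases c <;> first | (exact absurd rfl h3) | simp
    · subst h3
      fin_cases c
      · show (1 : ℂ) * 1 * (-1) = -1
        norm_num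
      · show (1 : ℂ) * 1 * (-1) = -1
        norm_num
      · show (1 : ℂ) * 1 * (-1) = -1
        norm_num
    · fin_cases b <;> fin_cases c <;> first | (exact absurd rfl h3) | simp
  ext τ σ
  rw [tens_apply, Matrix.of_apply]
  simp only [h1]
  by_cases h : τ = flipC σ
  · rw [if_pos h]
    subst h
    have : ∀ i, (if flipC σ i = 2 - σ i then (-1 : ℂ) else 0) = -1 := fun i => if_pos rfl
    simp only [this]
    rw [Finset.prod_const, Finset.card_univ, Fintype.card_fin]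
    norm_num
  · rw [if_neg h]
    obtain ⟨i, hi⟩ := Function.ne_iff.1 h
    exact Finset.prod_eq_zero (Finset.mem_univ i) (if_neg hi)

/-! ### powers of `ζ` -/

theorem prod_zf {ζ : ℂ} (hζ : ζ * (starRingEnd ℂ) ζ = 1) (σ : Cf) :
    ∏ i, zf ζ (σ i) = ζ ^ (Mz σ) := by
  have h0 : ζ ≠ 0 := left_ne_zero_of_mul_eq_one hζ
  have h1 : ∀ a : Fin 3, zf ζ a = ζ ^ (mz a) := by
    intro a
    fin_cases a
    · simp [zf, mz]
    · simp [zf, mz]
    · show (starRingEnd ℂ) ζ = ζ ^ (1 - ((2 : ℕ) : ℤ))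
      rw [show (1 : ℤ) - ((2 : ℕ) : ℤ) = -1 by norm_num, _root_.zpow_neg_one]
      exact (inv_eq_of_mul_eq_one_right hζ).symm
  simp only [h1]
  unfold Mz
  have h2 : ∀ s : Finset (Fin 8), ∏ i ∈ s, ζ ^ (mz (σ i)) = ζ ^ (∑ i ∈ s, mz (σ i)) := by
    intro s
    induction s using Finset.induction_on with
    | empty => simp
    | insert a s ha ih => rw [Finset.prod_insert ha, Finset.sum_insert ha, ih, zpow_add₀ h0]
  exact h2 _

theorem neg_one_zpow' (n : ℤ) : (-1 : ℂ) ^ n = ((if n % 2 = 0 then 1 else -1 : ℤ) : ℂ) := by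
  rcases Int.even_or_odd n with h | h
  · rw [if_pos (Int.even_iff.mp h), h.neg_one_zpow]; norm_num
  · rw [if_neg (by rw [Int.odd_iff.mp h]; norm_num), h.neg_one_zpow]; norm_num

theorem om_pow3 : om ^ 3 = 1 := by
  have h := om_sq
  linear_combination (om - 1) * h

theorem om_ne : om ≠ 0 := left_ne_zero_of_mul_eq_one om_unit

theorem om_re : om.re = -1 / 2 := by
  unfold om
  simp

theorem om_zpow_re (n : ℤ) : (om ^ n).re = ((if n % 3 = 0 then 2 else -1 : ℤ) : ℝ) / 2 := by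
  have h3 : om ^ (3 : ℤ) = 1 := by
    have := om_pow3
    exact_mod_cast this
  have h1 : om ^ n = om ^ (n % 3) := by
    conv_lhs => rw [← Int.mul_ediv_add_emod n 3]
    rw [zpow_add₀ om_ne, _root_.zpow_mul, h3, _root_.one_zpow, one_mul]
  rw [h1]
  have h4 : n % 3 = 0 ∨ n % 3 = 1 ∨ n % 3 = 2 := by omega
  rcases h4 with h | h | h
  · rw [h]; simp
  · rw [h, zpow_one, om_re]; norm_num
  · rw [h]
    have : om ^ (2 : ℤ) = -1 - om := by
      rw [← om_sq]; rfl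
    rw [this, Complex.sub_re, om_re]
    norm_num

/-! ### integer matrices -/

theorem zc_mul {κ : Type*} [Fintype κ] (A B : Matrix κ κ ℤ) : zc (A * B) = zc A * zc B := by
  unfold zc; ext i j; simp [Matrix.mul_apply]

theorem zc_one {κ : Type*} [DecidableEq κ] : zc (1 : Matrix κ κ ℤ) = 1 := by
  unfold zc; ext i j
  rw [Matrix.map_apply, Matrix.one_apply, Matrix.one_apply]
  split_ifs <;> simp

theorem zc_pow {κ : Type*} [Fintype κ] [DecidableEq κ] (A : Matrix κ κ ℤ) (k : ℕ) :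
    zc (A ^ k) = zc A ^ k := by
  induction k with
  | zero => rw [pow_zero, pow_zero, zc_one]
  | succ k ih => rw [pow_succ, pow_succ, zc_mul, ih]

theorem zc_NI {s : ℤ} (hs : s = 1 ∨ s = -1) (c : ℤ) :
    zc (NI s + c • (1 : Matrix Cf Cf ℤ)) = Nz (s : ℂ) + (c : ℂ) • 1 := by
  unfold NI Nz
  have hs' : (starRingEnd ℂ) (s : ℂ) = s := by
    rcases hs with rfl | rfl <;> simp
  rw [hs']
  ext τ σ
  simp only [zc_apply, Matrix.add_apply, Matrix.smul_apply, smul_eq_mul, Matrix.one_apply]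
  push_cast
  split_ifs <;> ring


/-! ### symmetry -/

theorem ru_rd : ∀ a b : Fin 3, ru a b = rd b a := by decide

theorem upDn_transpose {j k : Fin 8} (h : j ≠ k) : (upDn j k)ᵀ = upDn k j := by
  ext τ σ
  rw [Matrix.transpose_apply, upDn_apply h, upDn_apply h.symm]
  have h1 : agr j k σ τ ↔ agr k j τ σ :=
    ⟨fun h i h1 h2 => (h i h2 h1).symm, fun h i h1 h2 => (h i h2 h1).symm⟩
  by_cases h2 : agr k j τ σ
  · rw [if_pos h2, if_pos (h1.mpr h2), ru_rd, ← ru_rd (τ k) (σ k), mul_comm]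
  · rw [if_neg h2, if_neg fun h' => h2 (h1.mp h')]

theorem dgm_transpose : dgmᵀ = dgm := by
  ext τ σ
  unfold dgm
  rw [Matrix.transpose_apply, Matrix.of_apply, Matrix.of_apply]
  by_cases h : τ = σ
  · subst h; rfl
  · rw [if_neg h, if_neg (Ne.symm h)]

theorem Aop_transpose : Aopᵀ = Aop := by
  unfold Aop
  rw [Matrix.transpose_add, Matrix.transpose_sum, dgm_transpose]
  congr 1
  refine Finset.sum_congr rfl fun j _ => ?_
  rw [Matrix.transpose_add, upDn_transpose (succ_ne j), upDn_transpose (succ_ne j).symm, add_comm]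

theorem Uop_transpose : Uopᵀ = Vop := upDn_transpose (by decide)
theorem Vop_transpose : Vopᵀ = Uop := upDn_transpose (by decide)

theorem zc_conjTranspose {κ : Type*} (A : Matrix κ κ ℤ) : (zc A)ᴴ = zc Aᵀ := by
  ext i j
  rw [Matrix.conjTranspose_apply, zc_apply, zc_apply, Matrix.transpose_apply]
  simp

theorem Nz_herm (ζ : ℂ) (c : ℤ) : (Nz ζ + (c : ℂ) • 1)ᴴ = Nz ζ + (c : ℂ) • 1 := by
  unfold Nz
  rw [Matrix.conjTranspose_add, Matrix.conjTranspose_add, Matrix.conjTranspose_add,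
    Matrix.conjTranspose_smul, Matrix.conjTranspose_smul, Matrix.conjTranspose_smul,
    zc_conjTranspose, zc_conjTranspose, zc_conjTranspose, Aop_transpose, Uop_transpose,
    Vop_transpose, Matrix.conjTranspose_one]
  have h1 : star ((starRingEnd ℂ) ζ) = ζ := by rw [← starRingEnd_apply]; simp
  have h2 : star (c : ℂ) = (c : ℂ) := by simp
  rw [h1, h2, ← starRingEnd_apply]
  abel

theorem Nz_pow_diag_im (ζ : ℂ) (c : ℤ) (k : ℕ) (σ : Cf) :
    (((Nz ζ + (c : ℂ) • 1) ^ k) σ σ).im = 0 := by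
  have h : ((Nz ζ + (c : ℂ) • 1) ^ k)ᴴ = (Nz ζ + (c : ℂ) • 1) ^ k := by
    rw [Matrix.conjTranspose_pow, Nz_herm]
  have h1 := congrFun (congrFun h σ) σ
  rw [Matrix.conjTranspose_apply, ← starRingEnd_apply] at h1
  exact Complex.conj_eq_iff_im.mp h1

/-! ### the block form of the `c`-twisted ring -/

theorem Nc2_00 (c : ℤ) (τ ρ : Cf) :
    (Nc2 + c • (1 : Matrix (Cf × Fin 2) (Cf × Fin 2) ℤ)) (τ, 0) (ρ, 0) =
      (Aop + c • (1 : Matrix Cf Cf ℤ)) τ ρ - Vop τ ρ := by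
  have h : Nc2 (τ, 0) (ρ, 0) = Aop τ ρ - Vop τ ρ := rfl
  rw [Matrix.add_apply, Matrix.smul_apply, h, Matrix.add_apply, Matrix.smul_apply]
  have h1 : (1 : Matrix (Cf × Fin 2) (Cf × Fin 2) ℤ) (τ, 0) (ρ, 0) = (1 : Matrix Cf Cf ℤ) τ ρ := by
    rw [Matrix.one_apply, Matrix.one_apply]
    by_cases h2 : τ = ρ
    · rw [if_pos (by rw [h2]), if_pos h2]
    · rw [if_neg (fun h3 => h2 (Prod.mk.inj h3).1), if_neg h2]
  rw [h1]; ring

theorem Nc2_01 (c : ℤ) (τ ρ : Cf) :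
    (Nc2 + c • (1 : Matrix (Cf × Fin 2) (Cf × Fin 2) ℤ)) (τ, 0) (ρ, 1) =
      Vop τ ρ - Uop τ ρ := by
  have h : Nc2 (τ, 0) (ρ, 1) = Vop τ ρ - Uop τ ρ := rfl
  rw [Matrix.add_apply, Matrix.smul_apply, h]
  have h1 : (1 : Matrix (Cf × Fin 2) (Cf × Fin 2) ℤ) (τ, 0) (ρ, 1) = 0 :=
    Matrix.one_apply_ne (fun h3 => absurd (Prod.mk.inj h3).2 (by decide))
  rw [h1, smul_zero, add_zero]

theorem Nc2_10 (c : ℤ) (τ ρ : Cf) :
    (Nc2 + c • (1 : Matrix (Cf × Fin 2) (Cf × Fin 2) ℤ)) (τ, 1) (ρ, 0) =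
      Uop τ ρ - Vop τ ρ := by
  have h : Nc2 (τ, 1) (ρ, 0) = Uop τ ρ - Vop τ ρ := rfl
  rw [Matrix.add_apply, Matrix.smul_apply, h]
  have h1 : (1 : Matrix (Cf × Fin 2) (Cf × Fin 2) ℤ) (τ, 1) (ρ, 0) = 0 :=
    Matrix.one_apply_ne (fun h3 => absurd (Prod.mk.inj h3).2 (by decide))
  rw [h1, smul_zero, add_zero]

theorem Nc2_11 (c : ℤ) (τ ρ : Cf) :
    (Nc2 + c • (1 : Matrix (Cf × Fin 2) (Cf × Fin 2) ℤ)) (τ, 1) (ρ, 1) =
      (Aop + c • (1 : Matrix Cf Cf ℤ)) τ ρ - Uop τ ρ := by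
  have h : Nc2 (τ, 1) (ρ, 1) = Aop τ ρ - Uop τ ρ := rfl
  rw [Matrix.add_apply, Matrix.smul_apply, h, Matrix.add_apply, Matrix.smul_apply]
  have h1 : (1 : Matrix (Cf × Fin 2) (Cf × Fin 2) ℤ) (τ, 1) (ρ, 1) = (1 : Matrix Cf Cf ℤ) τ ρ := by
    rw [Matrix.one_apply, Matrix.one_apply]
    by_cases h2 : τ = ρ
    · rw [if_pos (by rw [h2]), if_pos h2]
    · rw [if_neg (fun h3 => h2 (Prod.mk.inj h3).1), if_neg h2]
  rw [h1]; ring

theorem Nc2_pow (c : ℤ) (k : ℕ) (τ σ : Cf) :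
    ((Nz om + (c : ℂ) • 1) ^ k) τ σ =
      ((((Nc2 + c • (1 : Matrix (Cf × Fin 2) (Cf × Fin 2) ℤ)) ^ k) (τ, 0) (σ, 0) : ℤ) : ℂ) +
      om * ((((Nc2 + c • (1 : Matrix (Cf × Fin 2) (Cf × Fin 2) ℤ)) ^ k) (τ, 1) (σ, 0) : ℤ) : ℂ) := by
  induction k generalizing τ with
  | zero =>
    simp only [pow_zero, Matrix.one_apply, Prod.mk.injEq]
    by_cases h : τ = σ <;> simp [h]
  | succ k ih =>
    rw [pow_succ', pow_succ', Matrix.mul_apply, Matrix.mul_apply, Matrix.mul_apply,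
      Fintype.sum_prod_type, Fintype.sum_prod_type]
    simp only [Fin.sum_univ_two, Nc2_00, Nc2_01, Nc2_10, Nc2_11]
    push_cast
    rw [Finset.mul_sum, ← Finset.sum_add_distrib]
    refine Finset.sum_congr rfl fun ρ _ => ?_
    rw [ih ρ]
    set α : ℂ := ((((Nc2 + c • (1 : Matrix (Cf × Fin 2) (Cf × Fin 2) ℤ)) ^ k) (ρ, 0) (σ, 0) : ℤ) : ℂ)
    set β : ℂ := ((((Nc2 + c • (1 : Matrix (Cf × Fin 2) (Cf × Fin 2) ℤ)) ^ k) (ρ, 1) (σ, 0) : ℤ) : ℂ)
    have ho := om_sq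
    unfold Nz
    simp only [Matrix.add_apply, Matrix.smul_apply, zc_apply, smul_eq_mul, om_star]
    push_cast
    have h1 : ((1 : Matrix Cf Cf ℤ) τ ρ : ℂ) = (1 : Matrix Cf Cf ℂ) τ ρ := by
      rw [Matrix.one_apply, Matrix.one_apply]; split_ifs <;> simp
    rw [h1]
    linear_combination ((Uop τ ρ : ℂ) * β - (Vop τ ρ : ℂ) * β) * ho

end Hald
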