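import Crest.Agent.Hald.SzData
set_option autoImplicit false
set_option maxRecDepth 10000

/-! Row 347, M7c: grouping lemmas for the totals of the kernel runs (generated) -/

namespace Hald

theorem list_sum_getD {α : Type*} (d : α) (F : α → ℕ) : ∀ (L : List α),
    (L.map F).sum = ∑ j ∈ Finset.range L.length, F (L.getD j d) := by
  intro L
  induction L with
  | nil => rfl
  | cons a L ih =>
    rw [List.map_cons, List.sum_cons, ih, List.length_cons, Finset.sum_range_succ', add_comm]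
    rfl

theorem tab_len59 : runTab.length = 59 := by decide +kernel
theorem zip_len59 : (runTab.zip flipTab).length = 59 := by decide +kernel

theorem zip_getD (j : ℕ) (hj : j < 59) :
    (runTab.zip flipTab).getD j ([], []) = (runTab.getD j [], flipTab.getD j []) := by
  have h : ∀ j < 59, (runTab.zip flipTab).getD j ([], []) = (runTab.getD j [], flipTab.getD j []) := by
    decide +kernel
  exact h j hj

theorem sum59_5 (G : ℕ → ℕ) : ∑ j ∈ Finset.range 59, G j = (G 0 + G 1 + G 2 + G 3 + G 4) + ((G 5 + G 6 + G 7 + G 8 + G 9) + ((G 10 + G 11 + G 12 + G 13 + G 14) + ((G 15 + G 16 + G 17 + G 18 + G 19) + ((G 20 + G 21 + G 22 + G 23 + G 24) + ((G 25 + G 26 + G 27 + G 28 + G 29) + ((G 30 + G 31 + G 32 + G 33 + G 34) + ((G 35 + G 36 + G 37 + G 38 + G 39) + ((G 40 + G 41 + G 42 + G 43 + G 44) + ((G 45 + G 46 + G 47 + G 48 + G 49) + ((G 50 + G 51 + G 52 + G 53 + G 54) + ((G 55 + G 56 + G 57 + G 58)))))))))))) :=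 by
  simp only [Finset.sum_range_succ, Finset.sum_range_zero, zero_add, add_assoc]

theorem gen5 (F : List (ℕ × ℕ × ℕ) → ℕ) (L : List (List (ℕ × ℕ × ℕ))) (hL : L.length = 59)
    {P0 P1 P2 P3 P4 P5 P6 P7 P8 P9 P10 P11 : ℕ}
    (h0 : F (L.getD 0 []) + F (L.getD 1 []) + F (L.getD 2 []) + F (L.getD 3 []) + F (L.getD 4 []) = P0)
    (h1 : F (L.getD 5 []) + F (L.getD 6 []) + F (L.getD 7 []) + F (L.getD 8 []) + F (L.getD 9 []) = P1)
    (h2 : F (L.getD 10 []) + F (L.getD 11 []) + F (L.getD 12 []) + F (L.getD 13 []) + F (L.getD 14 []) = P2)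
    (h3 : F (L.getD 15 []) + F (L.getD 16 []) + F (L.getD 17 []) + F (L.getD 18 []) + F (L.getD 19 []) = P3)
    (h4 : F (L.getD 20 []) + F (L.getD 21 []) + F (L.getD 22 []) + F (L.getD 23 []) + F (L.getD 24 []) = P4)
    (h5 : F (L.getD 25 []) + F (L.getD 26 []) + F (L.getD 27 []) + F (L.getD 28 []) + F (L.getD 29 []) = P5)
    (h6 : F (L.getD 30 []) + F (L.getD 31 []) + F (L.getD 32 []) + F (L.getD 33 []) + F (L.getD 34 []) = P6)
    (h7 : F (L.getD 35 []) + F (L.getD 36 []) + F (L.getD 37 []) + F (L.getD 38 []) + F (L.getD 39 []) = P7)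
    (h8 : F (L.getD 40 []) + F (L.getD 41 []) + F (L.getD 42 []) + F (L.getD 43 []) + F (L.getD 44 []) = P8)
    (h9 : F (L.getD 45 []) + F (L.getD 46 []) + F (L.getD 47 []) + F (L.getD 48 []) + F (L.getD 49 []) = P9)
    (h10 : F (L.getD 50 []) + F (L.getD 51 []) + F (L.getD 52 []) + F (L.getD 53 []) + F (L.getD 54 []) = P10)
    (h11 : F (L.getD 55 []) + F (L.getD 56 []) + F (L.getD 57 []) + F (L.getD 58 []) = P11) : (L.map F).sum = P0 + (P1 + (P2 + (P3 + (P4 + (P5 + (P6 + (P7 + (P8 + (P9 + (P10 + (P11))))))))))) := by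
  rw [list_sum_getD [] F L, hL, sum59_5, h0, h1, h2, h3, h4, h5, h6, h7, h8, h9, h10, h11]

theorem gen5z (F : List (ℕ × ℕ × ℕ) → List (ℕ × ℕ × ℕ) → ℕ) (L M : List (List (ℕ × ℕ × ℕ)))
    (hL : (L.zip M).length = 59)
    (hz : ∀ j < 59, (L.zip M).getD j ([], []) = (L.getD j [], M.getD j []))
    {P0 P1 P2 P3 P4 P5 P6 P7 P8 P9 P10 P11 : ℕ}
    (h0 : F (L.getD 0 []) (M.getD 0 []) + F (L.getD 1 []) (M.getD 1 []) + F (L.getD 2 []) (M.getD 2 []) + F (L.getD 3 []) (M.getD 3 []) + F (L.getD 4 []) (M.getD 4 []) = P0)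
    (h1 : F (L.getD 5 []) (M.getD 5 []) + F (L.getD 6 []) (M.getD 6 []) + F (L.getD 7 []) (M.getD 7 []) + F (L.getD 8 []) (M.getD 8 []) + F (L.getD 9 []) (M.getD 9 []) = P1)
    (h2 : F (L.getD 10 []) (M.getD 10 []) + F (L.getD 11 []) (M.getD 11 []) + F (L.getD 12 []) (M.getD 12 []) + F (L.getD 13 []) (M.getD 13 []) + F (L.getD 14 []) (M.getD 14 []) = P2)
    (h3 : F (L.getD 15 []) (M.getD 15 []) + F (L.getD 16 []) (M.getD 16 []) + F (L.getD 17 []) (M.getD 17 []) + F (L.getD 18 []) (M.getD 18 []) + F (L.getD 19 []) (M.getD 19 []) = P3)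
    (h4 : F (L.getD 20 []) (M.getD 20 []) + F (L.getD 21 []) (M.getD 21 []) + F (L.getD 22 []) (M.getD 22 []) + F (L.getD 23 []) (M.getD 23 []) + F (L.getD 24 []) (M.getD 24 []) = P4)
    (h5 : F (L.getD 25 []) (M.getD 25 []) + F (L.getD 26 []) (M.getD 26 []) + F (L.getD 27 []) (M.getD 27 []) + F (L.getD 28 []) (M.getD 28 []) + F (L.getD 29 []) (M.getD 29 []) = P5)
    (h6 : F (L.getD 30 []) (M.getD 30 []) + F (L.getD 31 []) (M.getD 31 []) + F (L.getD 32 []) (M.getD 32 []) + F (L.getD 33 []) (M.getD 33 []) + F (L.getD 34 []) (M.getD 34 []) = P6)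
    (h7 : F (L.getD 35 []) (M.getD 35 []) + F (L.getD 36 []) (M.getD 36 []) + F (L.getD 37 []) (M.getD 37 []) + F (L.getD 38 []) (M.getD 38 []) + F (L.getD 39 []) (M.getD 39 []) = P7)
    (h8 : F (L.getD 40 []) (M.getD 40 []) + F (L.getD 41 []) (M.getD 41 []) + F (L.getD 42 []) (M.getD 42 []) + F (L.getD 43 []) (M.getD 43 []) + F (L.getD 44 []) (M.getD 44 []) = P8)
    (h9 : F (L.getD 45 []) (M.getD 45 []) + F (L.getD 46 []) (M.getD 46 []) + F (L.getD 47 []) (M.getD 47 []) + F (L.getD 48 []) (M.getD 48 []) + F (L.getD 49 []) (M.getD 49 []) = P9)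
    (h10 : F (L.getD 50 []) (M.getD 50 []) + F (L.getD 51 []) (M.getD 51 []) + F (L.getD 52 []) (M.getD 52 []) + F (L.getD 53 []) (M.getD 53 []) + F (L.getD 54 []) (M.getD 54 []) = P10)
    (h11 : F (L.getD 55 []) (M.getD 55 []) + F (L.getD 56 []) (M.getD 56 []) + F (L.getD 57 []) (M.getD 57 []) + F (L.getD 58 []) (M.getD 58 []) = P11) : ((L.zip M).map fun lf => F lf.1 lf.2).sum = P0 + (P1 + (P2 + (P3 + (P4 + (P5 + (P6 + (P7 + (P8 + (P9 + (P10 + (P11))))))))))) := by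
  rw [list_sum_getD ([], []) (fun lf => F lf.1 lf.2) (L.zip M), hL,
    Finset.sum_congr rfl (fun j hj => congrArg
      (fun lf : List (ℕ × ℕ × ℕ) × List (ℕ × ℕ × ℕ) => F lf.1 lf.2) (hz j (Finset.mem_range.mp hj)))]
  simp only []
  rw [sum59_5, h0, h1, h2, h3, h4, h5, h6, h7, h8, h9, h10, h11]

theorem sum59_4 (G : ℕ → ℕ) : ∑ j ∈ Finset.range 59, G j = (G 0 + G 1 + G 2 + G 3) + ((G 4 + G 5 + G 6 + G 7) + ((G 8 + G 9 + G 10 + G 11) + ((G 12 + G 13 + G 14 + G 15) + ((G 16 + G 17 + G 18 + G 19) + ((G 20 + G 21 + G 22 + G 23) + ((G 24 + G 25 + G 26 + G 27) + ((G 28 + G 29 + G 30 + G 31) + ((G 32 + G 33 + G 34 + G 35) + ((G 36 + G 37 + G 38 + G 39) + ((G 40 + G 41 + G 42 + G 43) + ((G 44 + G 45 + G 46 + G 47) + ((G 48 + G 49 + G 50 + G 51) + ((G 52 + G 53 + G 54 + G 55) + ((G 56 + G 57 + G 58))))))))))))))) := by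
  simp only [Finset.sum_range_succ, Finset.sum_range_zero, zero_add, add_assoc]

theorem gen4 (F : List (ℕ × ℕ × ℕ) → ℕ) (L : List (List (ℕ × ℕ × ℕ))) (hL : L.length = 59)
    {P0 P1 P2 P3 P4 P5 P6 P7 P8 P9 P10 P11 P12 P13 P14 : ℕ}
    (h0 : F (L.getD 0 []) + F (L.getD 1 []) + F (L.getD 2 []) + F (L.getD 3 []) = P0)
    (h1 : F (L.getD 4 []) + F (L.getD 5 []) + F (L.getD 6 []) + F (L.getD 7 []) = P1)
    (h2 : F (L.getD 8 []) + F (L.getD 9 []) + F (L.getD 10 []) + F (L.getD 11 []) = P2)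
    (h3 : F (L.getD 12 []) + F (L.getD 13 []) + F (L.getD 14 []) + F (L.getD 15 []) = P3)
    (h4 : F (L.getD 16 []) + F (L.getD 17 []) + F (L.getD 18 []) + F (L.getD 19 []) = P4)
    (h5 : F (L.getD 20 []) + F (L.getD 21 []) + F (L.getD 22 []) + F (L.getD 23 []) = P5)
    (h6 : F (L.getD 24 []) + F (L.getD 25 []) + F (L.getD 26 []) + F (L.getD 27 []) = P6)
    (h7 : F (L.getD 28 []) + F (L.getD 29 []) + F (L.getD 30 []) + F (L.getD 31 []) = P7)
    (h8 : F (L.getD 32 []) + F (L.getD 33 []) + F (L.getD 34 []) + F (L.getD 35 []) = P8)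
    (h9 : F (L.getD 36 []) + F (L.getD 37 []) + F (L.getD 38 []) + F (L.getD 39 []) = P9)
    (h10 : F (L.getD 40 []) + F (L.getD 41 []) + F (L.getD 42 []) + F (L.getD 43 []) = P10)
    (h11 : F (L.getD 44 []) + F (L.getD 45 []) + F (L.getD 46 []) + F (L.getD 47 []) = P11)
    (h12 : F (L.getD 48 []) + F (L.getD 49 []) + F (L.getD 50 []) + F (L.getD 51 []) = P12)
    (h13 : F (L.getD 52 []) + F (L.getD 53 []) + F (L.getD 54 []) + F (L.getD 55 []) = P13)
    (h14 : F (L.getD 56 []) + F (L.getD 57 []) + F (L.getD 58 []) = P14) : (L.map F).sum = P0 + (P1 + (P2 + (P3 + (P4 + (P5 + (P6 + (P7 + (P8 + (P9 + (P10 + (P11 + (P12 + (P13 + (P14)))))))))))))) := by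
  rw [list_sum_getD [] F L, hL, sum59_4, h0, h1, h2, h3, h4, h5, h6, h7, h8, h9, h10, h11, h12, h13, h14]

end Hald
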