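import Crest.Agent.Hald.SzMom

/-!
# Row 347, M7c-LINK (6): invariances of the integer matrices

Diagonal entries of powers of `NI 1`, `NI (-1)`, `Nc2` (with shift) are invariant under translation,
reflection and spin flip; the same for the flipped entries of `NI (-1)`; conservation of `Mz`.
-/

set_option autoImplicit false
set_option linter.unusedSectionVars false
set_option linter.unusedSimpArgs false

namespace Hald

open Matrix Finset

/-! ### the permutations -/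

theorem rfC_rfC (σ : Cf) : rfC (rfC σ) = σ := by
  funext j
  unfold rfC
  have : (7 : Fin 8) - (7 - j) = j := by revert j; decide
  rw [this]

/-- spin flip as a permutation -/
def flipE : Cf ≃ Cf := ⟨flipC, flipC, flipC_flipC, flipC_flipC⟩
/-- reflection as a permutation -/
def rfE : Cf ≃ Cf := ⟨rfC, rfC, rfC_rfC, rfC_rfC⟩
/-- translation as a permutation -/
def trE : Cf ≃ Cf where
  toFun := trC
  invFun σ := fun j => σ (j - 1)
  left_inv σ := by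
    funext j
    show σ (j - 1 + 1) = σ j
    have : j - 1 + 1 = j := by revert j; decide
    rw [this]
  right_inv σ := by
    funext j
    show σ (j + 1 - 1) = σ j
    have : j + 1 - 1 = j := by revert j; decide
    rw [this]

theorem flip_rf (σ : Cf) : flipC (rfC σ) = rfC (flipC σ) := rfl
theorem flip_tr (σ : Cf) : flipC (trC σ) = trC (flipC σ) := rfl

/-! ### entries -/

theorem tr_inj_agr {j k : Fin 8} {τ σ : Cf} :
    agr j k (trC τ) (trC σ) ↔ agr (j + 1) (k + 1) τ σ := by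
  unfold agr trC
  constructor
  · intro h i h1 h2
    have e : i - 1 + 1 = i := sub_add_cancel i 1
    have := h (i - 1) (fun h3 => h1 (by rw [← h3, e])) (fun h3 => h2 (by rw [← h3, e]))
    rwa [e] at this
  · intro h i h1 h2
    exact h (i + 1) (fun h3 => h1 (add_right_cancel h3)) (fun h3 => h2 (add_right_cancel h3))

theorem rf_inj_agr {j k : Fin 8} {τ σ : Cf} :
    agr j k (rfC τ) (rfC σ) ↔ agr (7 - j) (7 - k) τ σ := by
  unfold agr rfC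
  have e : ∀ i : Fin 8, 7 - (7 - i) = i := by decide
  constructor
  · intro h i h1 h2
    have := h (7 - i) (fun h3 => h1 (by rw [← h3, e])) (fun h3 => h2 (by rw [← h3, e]))
    rwa [e] at this
  · intro h i h1 h2
    exact h (7 - i) (fun h3 => h1 (by rw [← e i, h3, e])) (fun h3 => h2 (by rw [← e i, h3, e]))

theorem flip_inj_agr {j k : Fin 8} {τ σ : Cf} :
    agr j k (flipC τ) (flipC σ) ↔ agr j k τ σ := by
  unfold agr flipC
  have e : ∀ a b : Fin 3, 2 - a = 2 - b ↔ a = b := by decide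
  simp only [e]

theorem upDn_tr {j k : Fin 8} (h : j ≠ k) (τ σ : Cf) :
    upDn j k (trC τ) (trC σ) = upDn (j + 1) (k + 1) τ σ := by
  have h' : j + 1 ≠ k + 1 := fun h3 => h (add_right_cancel h3)
  rw [upDn_apply h, upDn_apply h']
  by_cases ha : agr (j + 1) (k + 1) τ σ
  · rw [if_pos ha, if_pos (tr_inj_agr.mpr ha)]; rfl
  · rw [if_neg ha, if_neg (fun h3 => ha (tr_inj_agr.mp h3))]

theorem upDn_rf {j k : Fin 8} (h : j ≠ k) (τ σ : Cf) :
    upDn j k (rfC τ) (rfC σ) = upDn (7 - j) (7 - k) τ σ := by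
  have h' : (7 : Fin 8) - j ≠ 7 - k := fun h3 => h (by
    have e : ∀ i : Fin 8, 7 - (7 - i) = i := by decide
    rw [← e j, h3, e])
  rw [upDn_apply h, upDn_apply h']
  by_cases ha : agr (7 - j) (7 - k) τ σ
  · rw [if_pos ha, if_pos (rf_inj_agr.mpr ha)]; rfl
  · rw [if_neg ha, if_neg (fun h3 => ha (rf_inj_agr.mp h3))]

theorem upDn_flip {j k : Fin 8} (h : j ≠ k) (τ σ : Cf) :
    upDn j k (flipC τ) (flipC σ) = upDn k j τ σ := by
  rw [upDn_apply h, upDn_apply h.symm]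
  have e1 : ∀ a b : Fin 3, ru (2 - a) (2 - b) = rd a b := by decide
  have e2 : ∀ a b : Fin 3, rd (2 - a) (2 - b) = ru a b := by decide
  by_cases ha : agr j k τ σ
  · rw [if_pos (agr_symm.mp ha), if_pos (flip_inj_agr.mpr ha)]
    unfold flipC
    rw [e1, e2, mul_comm]
  · rw [if_neg (fun h3 => ha (agr_symm.mp h3)), if_neg (fun h3 => ha (flip_inj_agr.mp h3))]

theorem sum8 {R : Type*} [AddCommMonoid R] (f : Fin 8 → R) :
    ∑ j ∈ Finset.univ.filter (fun j : Fin 8 => j ≠ 7), f j =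
      f 0 + f 1 + f 2 + f 3 + f 4 + f 5 + f 6 := by
  have : Finset.univ.filter (fun j : Fin 8 => j ≠ 7) = {0, 1, 2, 3, 4, 5, 6} := by decide
  rw [this]
  rw [Finset.sum_insert (by decide), Finset.sum_insert (by decide), Finset.sum_insert (by decide),
    Finset.sum_insert (by decide), Finset.sum_insert (by decide), Finset.sum_insert (by decide),
    Finset.sum_singleton]
  simp only [add_assoc]

theorem dgm_tr (τ σ : Cf) : dgm (trC τ) (trC σ) = dgm τ σ := by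
  unfold dgm
  simp only [Matrix.of_apply]
  have h : trC τ = trC σ ↔ τ = σ := trE.injective.eq_iff
  by_cases hh : τ = σ
  · rw [if_pos hh, if_pos (h.mpr hh)]
    unfold trC
    exact Equiv.sum_comp (Equiv.addRight (1 : Fin 8)) fun j => -(mz (σ j) * mz (σ (j + 1)))
  · rw [if_neg hh, if_neg (fun h3 => hh (h.mp h3))]

theorem dgm_rf (τ σ : Cf) : dgm (rfC τ) (rfC σ) = dgm τ σ := by
  unfold dgm
  simp only [Matrix.of_apply]
  have h : rfC τ = rfC σ ↔ τ = σ := rfE.injective.eq_iff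
  by_cases hh : τ = σ
  · rw [if_pos hh, if_pos (h.mpr hh)]
    unfold rfC
    rw [Fin.sum_univ_eight, Fin.sum_univ_eight]
    have e : ∀ j : Fin 8, (7 : Fin 8) - (j + 1) = 6 - j := by decide
    simp only [e]
    show -(mz (σ 7) * mz (σ 6)) + -(mz (σ 6) * mz (σ 5)) + -(mz (σ 5) * mz (σ 4)) +
      -(mz (σ 4) * mz (σ 3)) + -(mz (σ 3) * mz (σ 2)) + -(mz (σ 2) * mz (σ 1)) +
      -(mz (σ 1) * mz (σ 0)) + -(mz (σ 0) * mz (σ 7)) =
      -(mz (σ 0) * mz (σ 1)) + -(mz (σ 1) * mz (σ 2)) + -(mz (σ 2) * mz (σ 3)) +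
      -(mz (σ 3) * mz (σ 4)) + -(mz (σ 4) * mz (σ 5)) + -(mz (σ 5) * mz (σ 6)) +
      -(mz (σ 6) * mz (σ 7)) + -(mz (σ 7) * mz (σ 0))
    ring
  · rw [if_neg hh, if_neg (fun h3 => hh (h.mp h3))]

theorem dgm_flip (τ σ : Cf) : dgm (flipC τ) (flipC σ) = dgm τ σ := by
  unfold dgm
  simp only [Matrix.of_apply]
  have h : flipC τ = flipC σ ↔ τ = σ := flipE.injective.eq_iff
  have e : ∀ a : Fin 3, mz (2 - a) = -mz a := by decide
  by_cases hh : τ = σ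
  · rw [if_pos hh, if_pos (h.mpr hh)]
    unfold flipC
    simp only [e, neg_mul_neg]
  · rw [if_neg hh, if_neg (fun h3 => hh (h.mp h3))]


/-! ### conservation -/

theorem upDn_Mz {j k : Fin 8} (h : j ≠ k) {τ σ : Cf} (hne : upDn j k τ σ ≠ 0) : Mz τ = Mz σ := by
  rw [upDn_apply h] at hne
  have ha : agr j k τ σ := by by_contra h3; exact hne (if_neg h3)
  rw [if_pos ha] at hne
  have h1 : ∀ a b : Fin 3, ru a b ≠ 0 → mz a = mz b - 1 := by decide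
  have h2 : ∀ a b : Fin 3, rd a b ≠ 0 → mz a = mz b + 1 := by decide
  have e1 := h1 _ _ (left_ne_zero_of_mul hne)
  have e2 := h2 _ _ (right_ne_zero_of_mul hne)
  unfold Mz
  rw [← Finset.add_sum_erase _ _ (Finset.mem_univ j),
    ← Finset.add_sum_erase _ _ (Finset.mem_erase.mpr ⟨h.symm, Finset.mem_univ k⟩),
    ← Finset.add_sum_erase (Finset.univ) (fun i => mz (σ i)) (Finset.mem_univ j),
    ← Finset.add_sum_erase _ (fun i => mz (σ i)) (Finset.mem_erase.mpr ⟨h.symm, Finset.mem_univ k⟩),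
    e1, e2]
  have : ∑ x ∈ (Finset.univ.erase j).erase k, mz (τ x) =
      ∑ x ∈ (Finset.univ.erase j).erase k, mz (σ x) := by
    refine Finset.sum_congr rfl fun i hi => ?_
    have h3 := Finset.ne_of_mem_erase hi
    have h4 := Finset.ne_of_mem_erase (Finset.mem_of_mem_erase hi)
    rw [ha i h4 h3]
  rw [this]; ring

theorem Aop_Mz {τ σ : Cf} (hne : Mz τ ≠ Mz σ) : Aop τ σ = 0 := by
  unfold Aop dgm
  rw [Matrix.add_apply, Matrix.sum_apply, Matrix.of_apply,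
    if_neg (fun h => hne (by rw [h])), add_zero]
  refine Finset.sum_eq_zero fun j _ => ?_
  rw [Matrix.add_apply]
  have h1 : upDn j (j + 1) τ σ = 0 := by
    by_contra h; exact hne (upDn_Mz (succ_ne j) h)
  have h2 : upDn (j + 1) j τ σ = 0 := by
    by_contra h; exact hne (upDn_Mz (succ_ne j).symm h)
  rw [h1, h2, add_zero]

theorem Uop_Mz {τ σ : Cf} (hne : Mz τ ≠ Mz σ) : Uop τ σ = 0 := by
  by_contra h; exact hne (upDn_Mz (by decide) h)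

theorem Vop_Mz {τ σ : Cf} (hne : Mz τ ≠ Mz σ) : Vop τ σ = 0 := by
  by_contra h; exact hne (upDn_Mz (by decide) h)

theorem szPow_cons {κ : Type*} [Fintype κ] [DecidableEq κ] (f : κ → ℤ) (B : Matrix κ κ ℤ)
    (hB : ∀ τ σ, f τ ≠ f σ → B τ σ = 0) (k : ℕ) (τ σ : κ) (hne : f τ ≠ f σ) : (B ^ k) τ σ = 0 := by
  induction k generalizing τ with
  | zero =>
    rw [pow_zero]
    exact Matrix.one_apply_ne fun h => hne (by rw [h])
  | succ k ih =>
    rw [pow_succ', Matrix.mul_apply]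
    refine Finset.sum_eq_zero fun ρ _ => ?_
    by_cases h : f τ = f ρ
    · rw [ih ρ (by rw [← h]; exact hne), mul_zero]
    · rw [hB τ ρ h, zero_mul]

/-- conservation for `NI s + c` -/
theorem NI_cons (s c : ℤ) (k : ℕ) {τ σ : Cf} (hne : Mz τ ≠ Mz σ) :
    ((NI s + c • (1 : Matrix Cf Cf ℤ)) ^ k) τ σ = 0 := by
  refine szPow_cons Mz _ (fun τ σ h => ?_) k τ σ hne
  unfold NI
  rw [Matrix.add_apply, Matrix.add_apply, Matrix.smul_apply, Matrix.add_apply, Matrix.smul_apply,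
    Aop_Mz h, Uop_Mz h, Vop_Mz h, Matrix.one_apply_ne (fun h' => h (by rw [h']))]
  simp

/-- conservation for `Nc2 + c` -/
theorem Nc2_cons (c : ℤ) (k : ℕ) {τ σ : Cf} (s t : Fin 2) (hne : Mz τ ≠ Mz σ) :
    ((Nc2 + c • (1 : Matrix (Cf × Fin 2) (Cf × Fin 2) ℤ)) ^ k) (τ, s) (σ, t) = 0 := by
  refine szPow_cons (fun p : Cf × Fin 2 => Mz p.1) _ (fun p q h => ?_) k (τ, s) (σ, t) hne
  obtain ⟨τ, s⟩ := p
  obtain ⟨σ, t⟩ := q
  have h' : Mz τ ≠ Mz σ := h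
  have hd : ∀ s : Fin 2, s = 0 ∨ s = 1 := by decide
  have hA : (Aop + c • (1 : Matrix Cf Cf ℤ)) τ σ = 0 := by
    rw [Matrix.add_apply, Matrix.smul_apply, Aop_Mz h',
      Matrix.one_apply_ne (fun h3 => h' (by rw [h3]))]
    simp
  rcases hd s with rfl | rfl <;> rcases hd t with rfl | rfl
  · rw [Nc2_00, hA, Vop_Mz h', sub_zero]
  · rw [Nc2_01, Uop_Mz h', Vop_Mz h', sub_zero]
  · rw [Nc2_10, Uop_Mz h', Vop_Mz h', sub_zero]
  · rw [Nc2_11, hA, Uop_Mz h', sub_zero]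

/-! ### covariance of powers -/

theorem pow_cov (P : Cf ≃ Cf) (g : Cf → ℂ) (hg : ∀ σ, (starRingEnd ℂ) (g σ) * g σ = 1)
    (B B' : Matrix Cf Cf ℂ)
    (h : ∀ τ σ, B τ σ = g τ * (starRingEnd ℂ) (g σ) * B' (P τ) (P σ)) (k : ℕ) (τ σ : Cf) :
    (B ^ k) τ σ = g τ * (starRingEnd ℂ) (g σ) * (B' ^ k) (P τ) (P σ) := by
  induction k generalizing τ with
  | zero =>
    rw [pow_zero, pow_zero]
    by_cases h1 : τ = σ
    · rw [h1, Matrix.one_apply_eq, Matrix.one_apply_eq, mul_one, mul_comm, hg]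
    · rw [Matrix.one_apply_ne h1, Matrix.one_apply_ne (fun h2 => h1 (P.injective h2)), mul_zero]
  | succ k ih =>
    rw [pow_succ', pow_succ', Matrix.mul_apply, Matrix.mul_apply,
      ← P.sum_comp (fun ρ => B' (P τ) ρ * (B' ^ k) ρ (P σ)), Finset.mul_sum]
    refine Finset.sum_congr rfl fun ρ _ => ?_
    rw [h τ ρ, ih ρ]
    have := hg ρ
    linear_combination (g τ * (starRingEnd ℂ) (g σ) * B' (P τ) (P ρ) * (B' ^ k) (P ρ) (P σ)) * this

/-- `Nz ζ + c` -/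
noncomputable def Bz (ζ : ℂ) (c : ℤ) : Matrix Cf Cf ℂ := Nz ζ + (c : ℂ) • 1

theorem Bz_transpose (ζ : ℂ) (c : ℤ) : (Bz ζ c)ᵀ = Bz ((starRingEnd ℂ) ζ) c := by
  unfold Bz Nz
  have h : ∀ A : Matrix Cf Cf ℤ, (zc A)ᵀ = zc Aᵀ := fun A => rfl
  rw [Matrix.transpose_add, Matrix.transpose_add, Matrix.transpose_add, Matrix.transpose_smul,
    Matrix.transpose_smul, Matrix.transpose_smul, h, h, h, Aop_transpose, Uop_transpose,
    Vop_transpose, Matrix.transpose_one, Complex.conj_conj]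
  abel

theorem Bz_apply (ζ : ℂ) (c : ℤ) (τ σ : Cf) :
    Bz ζ c τ σ = ((upDn 0 1 τ σ + upDn 1 0 τ σ + (upDn 1 2 τ σ + upDn 2 1 τ σ) +
      (upDn 2 3 τ σ + upDn 3 2 τ σ) + (upDn 3 4 τ σ + upDn 4 3 τ σ) +
      (upDn 4 5 τ σ + upDn 5 4 τ σ) + (upDn 5 6 τ σ + upDn 6 5 τ σ) +
      (upDn 6 7 τ σ + upDn 7 6 τ σ) : ℤ) : ℂ) + (dgm τ σ : ℂ) +
      ζ * (upDn 7 0 τ σ : ℂ) + (starRingEnd ℂ) ζ * (upDn 0 7 τ σ : ℂ) +
      (c : ℂ) * (if τ = σ then 1 else 0) := by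
  unfold Bz Nz Aop Uop Vop
  rw [Matrix.add_apply, Matrix.add_apply, Matrix.add_apply, Matrix.smul_apply, Matrix.smul_apply,
    Matrix.smul_apply, zc_apply, zc_apply, zc_apply, Matrix.add_apply, Matrix.sum_apply,
    Matrix.one_apply, sum8]
  simp only [Matrix.add_apply, smul_eq_mul]
  show ((upDn 0 1 τ σ + upDn 1 0 τ σ + (upDn 1 2 τ σ + upDn 2 1 τ σ) +
      (upDn 2 3 τ σ + upDn 3 2 τ σ) + (upDn 3 4 τ σ + upDn 4 3 τ σ) +
      (upDn 4 5 τ σ + upDn 5 4 τ σ) + (upDn 5 6 τ σ + upDn 6 5 τ σ) +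
      (upDn 6 7 τ σ + upDn 7 6 τ σ) + dgm τ σ : ℤ) : ℂ) + _ + _ + _ = _
  push_cast
  ring


theorem Bz_rf (ζ : ℂ) (c : ℤ) (τ σ : Cf) :
    Bz ζ c τ σ = Bz ((starRingEnd ℂ) ζ) c (rfC τ) (rfC σ) := by
  rw [Bz_apply, Bz_apply, upDn_rf (by decide), upDn_rf (by decide), upDn_rf (by decide),
    upDn_rf (by decide), upDn_rf (by decide), upDn_rf (by decide), upDn_rf (by decide),
    upDn_rf (by decide), upDn_rf (by decide), upDn_rf (by decide), upDn_rf (by decide),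
    upDn_rf (by decide), upDn_rf (by decide), upDn_rf (by decide), upDn_rf (by decide),
    upDn_rf (by decide), dgm_rf, Complex.conj_conj]
  have h : (rfC τ = rfC σ) ↔ τ = σ := rfE.injective.eq_iff
  have h' : (if rfC τ = rfC σ then (1 : ℂ) else 0) = if τ = σ then 1 else 0 := by
    by_cases hh : τ = σ
    · rw [if_pos hh, if_pos (h.mpr hh)]
    · rw [if_neg hh, if_neg (fun h3 => hh (h.mp h3))]
  rw [h', show (7 : Fin 8) - 0 = 7 from rfl, show (7 : Fin 8) - 1 = 6 from rfl,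
    show (7 : Fin 8) - 2 = 5 from rfl, show (7 : Fin 8) - 3 = 4 from rfl,
    show (7 : Fin 8) - 4 = 3 from rfl, show (7 : Fin 8) - 5 = 2 from rfl,
    show (7 : Fin 8) - 6 = 1 from rfl, show (7 : Fin 8) - 7 = 0 from rfl]
  push_cast
  ring

theorem Bz_flip (ζ : ℂ) (c : ℤ) (τ σ : Cf) :
    Bz ζ c τ σ = Bz ((starRingEnd ℂ) ζ) c (flipC τ) (flipC σ) := by
  rw [Bz_apply, Bz_apply, upDn_flip (by decide), upDn_flip (by decide), upDn_flip (by decide),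
    upDn_flip (by decide), upDn_flip (by decide), upDn_flip (by decide), upDn_flip (by decide),
    upDn_flip (by decide), upDn_flip (by decide), upDn_flip (by decide), upDn_flip (by decide),
    upDn_flip (by decide), upDn_flip (by decide), upDn_flip (by decide), upDn_flip (by decide),
    upDn_flip (by decide), dgm_flip, Complex.conj_conj]
  have h : (flipC τ = flipC σ) ↔ τ = σ := flipE.injective.eq_iff
  have h' : (if flipC τ = flipC σ then (1 : ℂ) else 0) = if τ = σ then 1 else 0 := by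
    by_cases hh : τ = σ
    · rw [if_pos hh, if_pos (h.mpr hh)]
    · rw [if_neg hh, if_neg (fun h3 => hh (h.mp h3))]
  rw [h']
  push_cast
  ring

/-- gauge factor of the translation -/
noncomputable def gau (ζ : ℂ) (σ : Cf) : ℂ := zf ζ (σ 0)

theorem gau_unit {ζ : ℂ} (hζ : ζ * (starRingEnd ℂ) ζ = 1) (σ : Cf) :
    (starRingEnd ℂ) (gau ζ σ) * gau ζ σ = 1 := by
  have hζ' : (starRingEnd ℂ) ζ * ζ = 1 := by rw [mul_comm]; exact hζ
  unfold gau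
  generalize σ 0 = a
  fin_cases a
  · exact hζ'
  · simp [zf]
  · simp [zf, hζ]

theorem gau_other {ζ : ℂ} (hζ : ζ * (starRingEnd ℂ) ζ = 1) {j k : Fin 8} (h : j ≠ k)
    (hj : 0 ≠ j) (hk : 0 ≠ k) (τ σ : Cf) :
    gau ζ τ * (starRingEnd ℂ) (gau ζ σ) * (upDn j k τ σ : ℂ) = (upDn j k τ σ : ℂ) := by
  by_cases h0 : upDn j k τ σ = 0
  · rw [h0]; simp
  · have h1 := h0
    rw [upDn_apply h] at h1
    have ha : agr j k τ σ := by by_contra h3; exact h1 (if_neg h3)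
    have e : gau ζ τ = gau ζ σ := by unfold gau; rw [ha 0 hj hk]
    rw [e, mul_comm (gau ζ σ), gau_unit hζ, one_mul]

theorem gau_dgm {ζ : ℂ} (hζ : ζ * (starRingEnd ℂ) ζ = 1) (τ σ : Cf) :
    gau ζ τ * (starRingEnd ℂ) (gau ζ σ) * (dgm τ σ : ℂ) = (dgm τ σ : ℂ) := by
  by_cases h : τ = σ
  · rw [h, mul_comm (gau ζ σ), gau_unit hζ, one_mul]
  · have : dgm τ σ = 0 := by unfold dgm; rw [Matrix.of_apply, if_neg h]
    rw [this]; simp

theorem gau_up {ζ : ℂ} {k : Fin 8} (h : k ≠ 0) (τ σ : Cf) :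
    gau ζ τ * (starRingEnd ℂ) (gau ζ σ) * (upDn k 0 τ σ : ℂ) = ζ * (upDn k 0 τ σ : ℂ) := by
  by_cases h0 : upDn k 0 τ σ = 0
  · rw [h0]; simp
  · have h1 := h0
    rw [upDn_apply h] at h1
    have ha : agr k 0 τ σ := by by_contra h3; exact h1 (if_neg h3)
    rw [if_pos ha] at h1
    have h2 := right_ne_zero_of_mul h1
    unfold rd at h2
    have h3 : 0 < (σ 0).val ∧ τ 0 = σ 0 - 1 := by by_contra h4; exact h2 (if_neg h4)
    obtain ⟨h4, h5⟩ := h3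
    congr 1
    unfold gau
    rw [h5]
    generalize σ 0 = a at h4
    fin_cases a
    · exact absurd h4 (by decide)
    · show ζ * (starRingEnd ℂ) 1 = ζ
      simp
    · show 1 * (starRingEnd ℂ) ((starRingEnd ℂ) ζ) = ζ
      simp

theorem gau_dn {ζ : ℂ} {k : Fin 8} (h : 0 ≠ k) (τ σ : Cf) :
    gau ζ τ * (starRingEnd ℂ) (gau ζ σ) * (upDn 0 k τ σ : ℂ) =
      (starRingEnd ℂ) ζ * (upDn 0 k τ σ : ℂ) := by
  by_cases h0 : upDn 0 k τ σ = 0
  · rw [h0]; simp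
  · have h1 := h0
    rw [upDn_apply h] at h1
    have ha : agr 0 k τ σ := by by_contra h3; exact h1 (if_neg h3)
    rw [if_pos ha] at h1
    have h2 := left_ne_zero_of_mul h1
    unfold ru at h2
    have h3 : (σ 0).val < 2 ∧ τ 0 = σ 0 + 1 := by by_contra h4; exact h2 (if_neg h4)
    obtain ⟨h4, h5⟩ := h3
    congr 1
    unfold gau
    rw [h5]
    generalize σ 0 = a at h4
    fin_cases a
    · show 1 * (starRingEnd ℂ) ζ = (starRingEnd ℂ) ζ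
      simp
    · show (starRingEnd ℂ) ζ * (starRingEnd ℂ) 1 = (starRingEnd ℂ) ζ
      simp
    · exact absurd h4 (by decide)

theorem Bz_tr {ζ : ℂ} (hζ : ζ * (starRingEnd ℂ) ζ = 1) (c : ℤ) (τ σ : Cf) :
    Bz ζ c τ σ = gau ζ τ * (starRingEnd ℂ) (gau ζ σ) * Bz ζ c (trC τ) (trC σ) := by
  rw [Bz_apply, Bz_apply, upDn_tr (by decide), upDn_tr (by decide), upDn_tr (by decide),
    upDn_tr (by decide), upDn_tr (by decide), upDn_tr (by decide), upDn_tr (by decide),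
    upDn_tr (by decide), upDn_tr (by decide), upDn_tr (by decide), upDn_tr (by decide),
    upDn_tr (by decide), upDn_tr (by decide), upDn_tr (by decide), upDn_tr (by decide),
    upDn_tr (by decide), dgm_tr]
  have h : (trC τ = trC σ) ↔ τ = σ := trE.injective.eq_iff
  have h' : (if trC τ = trC σ then (1 : ℂ) else 0) = if τ = σ then 1 else 0 := by
    by_cases hh : τ = σ
    · rw [if_pos hh, if_pos (h.mpr hh)]
    · rw [if_neg hh, if_neg (fun h3 => hh (h.mp h3))]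
  have h'' : gau ζ τ * (starRingEnd ℂ) (gau ζ σ) * (if τ = σ then (1 : ℂ) else 0) =
      if τ = σ then 1 else 0 := by
    by_cases hh : τ = σ
    · rw [if_pos hh, hh, mul_comm (gau ζ σ), gau_unit hζ, one_mul]
    · rw [if_neg hh, mul_zero]
  rw [h', show (0 : Fin 8) + 1 = 1 from rfl, show (1 : Fin 8) + 1 = 2 from rfl,
    show (2 : Fin 8) + 1 = 3 from rfl, show (3 : Fin 8) + 1 = 4 from rfl,
    show (4 : Fin 8) + 1 = 5 from rfl, show (5 : Fin 8) + 1 = 6 from rfl,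
    show (6 : Fin 8) + 1 = 7 from rfl, show (7 : Fin 8) + 1 = 0 from rfl]
  have a1 := gau_other hζ (j := 1) (k := 2) (by decide) (by decide) (by decide) τ σ
  have a2 := gau_other hζ (j := 2) (k := 1) (by decide) (by decide) (by decide) τ σ
  have a3 := gau_other hζ (j := 2) (k := 3) (by decide) (by decide) (by decide) τ σ
  have a4 := gau_other hζ (j := 3) (k := 2) (by decide) (by decide) (by decide) τ σ
  have a5 := gau_other hζ (j := 3) (k := 4) (by decide) (by decide) (by decide) τ σ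
  have a6 := gau_other hζ (j := 4) (k := 3) (by decide) (by decide) (by decide) τ σ
  have a7 := gau_other hζ (j := 4) (k := 5) (by decide) (by decide) (by decide) τ σ
  have a8 := gau_other hζ (j := 5) (k := 4) (by decide) (by decide) (by decide) τ σ
  have a9 := gau_other hζ (j := 5) (k := 6) (by decide) (by decide) (by decide) τ σ
  have a10 := gau_other hζ (j := 6) (k := 5) (by decide) (by decide) (by decide) τ σ
  have a11 := gau_other hζ (j := 6) (k := 7) (by decide) (by decide) (by decide) τ σ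
  have a12 := gau_other hζ (j := 7) (k := 6) (by decide) (by decide) (by decide) τ σ
  have b1 := gau_up (ζ := ζ) (k := 7) (by decide) τ σ
  have b2 := gau_dn (ζ := ζ) (k := 7) (by decide) τ σ
  have b3 := gau_up (ζ := ζ) (k := 1) (by decide) τ σ
  have b4 := gau_dn (ζ := ζ) (k := 1) (by decide) τ σ
  have d := gau_dgm hζ τ σ
  push_cast
  linear_combination -a1 - a2 - a3 - a4 - a5 - a6 - a7 - a8 - a9 - a10 - a11 - a12 - b1 - b2
    - (starRingEnd ℂ) ζ * b3 - ζ * b4 - d - (c : ℂ) * h''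
    - ((upDn 0 1 τ σ : ℂ) + (upDn 1 0 τ σ : ℂ)) * hζ


/-! ### diagonal entries -/

theorem Bz_diag_tr {ζ : ℂ} (hζ : ζ * (starRingEnd ℂ) ζ = 1) (c : ℤ) (k : ℕ) (σ : Cf) :
    ((Bz ζ c) ^ k) (trC σ) (trC σ) = ((Bz ζ c) ^ k) σ σ := by
  have h := pow_cov trE (gau ζ) (gau_unit hζ) (Bz ζ c) (Bz ζ c) (Bz_tr hζ c) k σ σ
  rw [mul_comm (gau ζ σ), gau_unit hζ, one_mul] at h
  exact h.symm

theorem Bz_pow_transpose (ζ : ℂ) (c : ℤ) (k : ℕ) (τ σ : Cf) :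
    ((Bz ((starRingEnd ℂ) ζ) c) ^ k) τ σ = ((Bz ζ c) ^ k) σ τ := by
  rw [← Bz_transpose, ← Matrix.transpose_pow, Matrix.transpose_apply]

theorem Bz_pow_rf (ζ : ℂ) (c : ℤ) (k : ℕ) (τ σ : Cf) :
    ((Bz ζ c) ^ k) (rfC τ) (rfC σ) = ((Bz ζ c) ^ k) σ τ := by
  have h := pow_cov rfE (fun _ => 1) (fun _ => by simp) (Bz ((starRingEnd ℂ) ζ) c) (Bz ζ c)
    (fun τ σ => by
      have := Bz_rf ((starRingEnd ℂ) ζ) c τ σ
      rw [Complex.conj_conj] at this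
      rw [this]
      simp
      rfl) k τ σ
  rw [Bz_pow_transpose] at h
  rw [h]
  simp
  rfl

theorem Bz_pow_flip (ζ : ℂ) (c : ℤ) (k : ℕ) (τ σ : Cf) :
    ((Bz ζ c) ^ k) (flipC τ) (flipC σ) = ((Bz ζ c) ^ k) σ τ := by
  have h := pow_cov flipE (fun _ => 1) (fun _ => by simp) (Bz ((starRingEnd ℂ) ζ) c) (Bz ζ c)
    (fun τ σ => by
      have := Bz_flip ((starRingEnd ℂ) ζ) c τ σ
      rw [Complex.conj_conj] at this
      rw [this]
      simp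
      rfl) k τ σ
  rw [Bz_pow_transpose] at h
  rw [h]
  simp
  rfl

theorem Bz_diag_rf (ζ : ℂ) (c : ℤ) (k : ℕ) (σ : Cf) :
    ((Bz ζ c) ^ k) (rfC σ) (rfC σ) = ((Bz ζ c) ^ k) σ σ := Bz_pow_rf ζ c k σ σ

theorem Bz_diag_flip (ζ : ℂ) (c : ℤ) (k : ℕ) (σ : Cf) :
    ((Bz ζ c) ^ k) (flipC σ) (flipC σ) = ((Bz ζ c) ^ k) σ σ := Bz_pow_flip ζ c k σ σ

/-! ### the integer matrices -/

theorem NI1_cast (c : ℤ) (k : ℕ) (τ σ : Cf) :
    ((((NI 1 + c • (1 : Matrix Cf Cf ℤ)) ^ k) τ σ : ℤ) : ℂ) = ((Bz 1 c) ^ k) τ σ :=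
  (zc_NI1 c k τ σ).symm

theorem NIm_cast (c : ℤ) (k : ℕ) (τ σ : Cf) :
    ((((NI (-1) + c • (1 : Matrix Cf Cf ℤ)) ^ k) τ σ : ℤ) : ℂ) = ((Bz (-1) c) ^ k) τ σ :=
  (zc_NIm c k τ σ).symm

theorem Nc2_cast (c : ℤ) (k : ℕ) (σ : Cf) :
    ((((Nc2 + c • (1 : Matrix (Cf × Fin 2) (Cf × Fin 2) ℤ)) ^ k) (σ, 0) (σ, 0) : ℤ) : ℂ) =
      ((Bz om c) ^ k) σ σ :=
  (Nc2_diag c k σ).symm

theorem NI1_tr (c : ℤ) (k : ℕ) (σ : Cf) :
    ((NI 1 + c • (1 : Matrix Cf Cf ℤ)) ^ k) (trC σ) (trC σ) =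
      ((NI 1 + c • (1 : Matrix Cf Cf ℤ)) ^ k) σ σ := by
  have h : ((((NI 1 + c • (1 : Matrix Cf Cf ℤ)) ^ k) (trC σ) (trC σ) : ℤ) : ℂ) =
      ((((NI 1 + c • (1 : Matrix Cf Cf ℤ)) ^ k) σ σ : ℤ) : ℂ) := by
    rw [NI1_cast, NI1_cast, Bz_diag_tr one_conj]
  exact Int.cast_injective h

theorem NI1_rf (c : ℤ) (k : ℕ) (σ : Cf) :
    ((NI 1 + c • (1 : Matrix Cf Cf ℤ)) ^ k) (rfC σ) (rfC σ) =
      ((NI 1 + c • (1 : Matrix Cf Cf ℤ)) ^ k) σ σ := by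
  have h : ((((NI 1 + c • (1 : Matrix Cf Cf ℤ)) ^ k) (rfC σ) (rfC σ) : ℤ) : ℂ) =
      ((((NI 1 + c • (1 : Matrix Cf Cf ℤ)) ^ k) σ σ : ℤ) : ℂ) := by
    rw [NI1_cast, NI1_cast, Bz_diag_rf]
  exact Int.cast_injective h

theorem NI1_flip (c : ℤ) (k : ℕ) (σ : Cf) :
    ((NI 1 + c • (1 : Matrix Cf Cf ℤ)) ^ k) (flipC σ) (flipC σ) =
      ((NI 1 + c • (1 : Matrix Cf Cf ℤ)) ^ k) σ σ := by
  have h : ((((NI 1 + c • (1 : Matrix Cf Cf ℤ)) ^ k) (flipC σ) (flipC σ) : ℤ) : ℂ) =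
      ((((NI 1 + c • (1 : Matrix Cf Cf ℤ)) ^ k) σ σ : ℤ) : ℂ) := by
    rw [NI1_cast, NI1_cast, Bz_diag_flip]
  exact Int.cast_injective h

theorem NIm_tr (c : ℤ) (k : ℕ) (σ : Cf) :
    ((NI (-1) + c • (1 : Matrix Cf Cf ℤ)) ^ k) (trC σ) (trC σ) =
      ((NI (-1) + c • (1 : Matrix Cf Cf ℤ)) ^ k) σ σ := by
  have h : ((((NI (-1) + c • (1 : Matrix Cf Cf ℤ)) ^ k) (trC σ) (trC σ) : ℤ) : ℂ) =
      ((((NI (-1) + c • (1 : Matrix Cf Cf ℤ)) ^ k) σ σ : ℤ) : ℂ) := by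
    rw [NIm_cast, NIm_cast, Bz_diag_tr neg_one_conj]
  exact Int.cast_injective h

theorem NIm_rf (c : ℤ) (k : ℕ) (σ : Cf) :
    ((NI (-1) + c • (1 : Matrix Cf Cf ℤ)) ^ k) (rfC σ) (rfC σ) =
      ((NI (-1) + c • (1 : Matrix Cf Cf ℤ)) ^ k) σ σ := by
  have h : ((((NI (-1) + c • (1 : Matrix Cf Cf ℤ)) ^ k) (rfC σ) (rfC σ) : ℤ) : ℂ) =
      ((((NI (-1) + c • (1 : Matrix Cf Cf ℤ)) ^ k) σ σ : ℤ) : ℂ) := by
    rw [NIm_cast, NIm_cast, Bz_diag_rf]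
  exact Int.cast_injective h

theorem NIm_flip (c : ℤ) (k : ℕ) (σ : Cf) :
    ((NI (-1) + c • (1 : Matrix Cf Cf ℤ)) ^ k) (flipC σ) (flipC σ) =
      ((NI (-1) + c • (1 : Matrix Cf Cf ℤ)) ^ k) σ σ := by
  have h : ((((NI (-1) + c • (1 : Matrix Cf Cf ℤ)) ^ k) (flipC σ) (flipC σ) : ℤ) : ℂ) =
      ((((NI (-1) + c • (1 : Matrix Cf Cf ℤ)) ^ k) σ σ : ℤ) : ℂ) := by
    rw [NIm_cast, NIm_cast, Bz_diag_flip]
  exact Int.cast_injective h

theorem Nc2_tr (c : ℤ) (k : ℕ) (σ : Cf) :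
    ((Nc2 + c • (1 : Matrix (Cf × Fin 2) (Cf × Fin 2) ℤ)) ^ k) (trC σ, 0) (trC σ, 0) =
      ((Nc2 + c • (1 : Matrix (Cf × Fin 2) (Cf × Fin 2) ℤ)) ^ k) (σ, 0) (σ, 0) := by
  have h : ((((Nc2 + c • (1 : Matrix (Cf × Fin 2) (Cf × Fin 2) ℤ)) ^ k)
      (trC σ, 0) (trC σ, 0) : ℤ) : ℂ) =
      ((((Nc2 + c • (1 : Matrix (Cf × Fin 2) (Cf × Fin 2) ℤ)) ^ k) (σ, 0) (σ, 0) : ℤ) : ℂ) := by
    rw [Nc2_cast, Nc2_cast, Bz_diag_tr om_unit]
  exact Int.cast_injective h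

theorem Nc2_rf (c : ℤ) (k : ℕ) (σ : Cf) :
    ((Nc2 + c • (1 : Matrix (Cf × Fin 2) (Cf × Fin 2) ℤ)) ^ k) (rfC σ, 0) (rfC σ, 0) =
      ((Nc2 + c • (1 : Matrix (Cf × Fin 2) (Cf × Fin 2) ℤ)) ^ k) (σ, 0) (σ, 0) := by
  have h : ((((Nc2 + c • (1 : Matrix (Cf × Fin 2) (Cf × Fin 2) ℤ)) ^ k)
      (rfC σ, 0) (rfC σ, 0) : ℤ) : ℂ) =
      ((((Nc2 + c • (1 : Matrix (Cf × Fin 2) (Cf × Fin 2) ℤ)) ^ k) (σ, 0) (σ, 0) : ℤ) : ℂ) := by
    rw [Nc2_cast, Nc2_cast, Bz_diag_rf]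
  exact Int.cast_injective h

theorem Nc2_flip (c : ℤ) (k : ℕ) (σ : Cf) :
    ((Nc2 + c • (1 : Matrix (Cf × Fin 2) (Cf × Fin 2) ℤ)) ^ k) (flipC σ, 0) (flipC σ, 0) =
      ((Nc2 + c • (1 : Matrix (Cf × Fin 2) (Cf × Fin 2) ℤ)) ^ k) (σ, 0) (σ, 0) := by
  have h : ((((Nc2 + c • (1 : Matrix (Cf × Fin 2) (Cf × Fin 2) ℤ)) ^ k)
      (flipC σ, 0) (flipC σ, 0) : ℤ) : ℂ) =
      ((((Nc2 + c • (1 : Matrix (Cf × Fin 2) (Cf × Fin 2) ℤ)) ^ k) (σ, 0) (σ, 0) : ℤ) : ℂ) := by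
    rw [Nc2_cast, Nc2_cast, Bz_diag_flip]
  exact Int.cast_injective h

/-! ### flipped entries of `NI (-1)` -/

theorem conj_neg_one : (starRingEnd ℂ) (-1 : ℂ) = -1 := by simp

theorem Bm_symm (c : ℤ) (k : ℕ) (τ σ : Cf) : ((Bz (-1) c) ^ k) τ σ = ((Bz (-1) c) ^ k) σ τ := by
  have := Bz_pow_transpose (-1) c k τ σ
  rw [conj_neg_one] at this
  exact this

theorem NIm_symm (c : ℤ) (k : ℕ) (τ σ : Cf) :
    ((NI (-1) + c • (1 : Matrix Cf Cf ℤ)) ^ k) τ σ =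
      ((NI (-1) + c • (1 : Matrix Cf Cf ℤ)) ^ k) σ τ := by
  have h : ((((NI (-1) + c • (1 : Matrix Cf Cf ℤ)) ^ k) τ σ : ℤ) : ℂ) =
      ((((NI (-1) + c • (1 : Matrix Cf Cf ℤ)) ^ k) σ τ : ℤ) : ℂ) := by
    rw [NIm_cast, NIm_cast, Bm_symm]
  exact Int.cast_injective h

theorem NIm_flip_flip (c : ℤ) (k : ℕ) (σ : Cf) :
    ((NI (-1) + c • (1 : Matrix Cf Cf ℤ)) ^ k) (flipC (flipC σ)) (flipC σ) =
      ((NI (-1) + c • (1 : Matrix Cf Cf ℤ)) ^ k) (flipC σ) σ := by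
  rw [flipC_flipC, NIm_symm]

theorem NIm_flip_rf (c : ℤ) (k : ℕ) (σ : Cf) :
    ((NI (-1) + c • (1 : Matrix Cf Cf ℤ)) ^ k) (flipC (rfC σ)) (rfC σ) =
      ((NI (-1) + c • (1 : Matrix Cf Cf ℤ)) ^ k) (flipC σ) σ := by
  have h : ((((NI (-1) + c • (1 : Matrix Cf Cf ℤ)) ^ k) (flipC (rfC σ)) (rfC σ) : ℤ) : ℂ) =
      ((((NI (-1) + c • (1 : Matrix Cf Cf ℤ)) ^ k) (flipC σ) σ : ℤ) : ℂ) := by
    rw [NIm_cast, NIm_cast, flip_rf, Bz_pow_rf, Bm_symm]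
  exact Int.cast_injective h

theorem gau_flip (σ : Cf) : gau (-1) (flipC σ) * (starRingEnd ℂ) (gau (-1) σ) = 1 := by
  unfold gau flipC
  generalize σ 0 = a
  fin_cases a
  · show (starRingEnd ℂ) (-1 : ℂ) * (starRingEnd ℂ) (-1 : ℂ) = 1
    simp
  · show (1 : ℂ) * (starRingEnd ℂ) (1 : ℂ) = 1
    simp
  · show (-1 : ℂ) * (starRingEnd ℂ) ((starRingEnd ℂ) (-1 : ℂ)) = 1
    simp

theorem NIm_flip_tr (c : ℤ) (k : ℕ) (σ : Cf) :
    ((NI (-1) + c • (1 : Matrix Cf Cf ℤ)) ^ k) (flipC (trC σ)) (trC σ) =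
      ((NI (-1) + c • (1 : Matrix Cf Cf ℤ)) ^ k) (flipC σ) σ := by
  have h : ((((NI (-1) + c • (1 : Matrix Cf Cf ℤ)) ^ k) (flipC (trC σ)) (trC σ) : ℤ) : ℂ) =
      ((((NI (-1) + c • (1 : Matrix Cf Cf ℤ)) ^ k) (flipC σ) σ : ℤ) : ℂ) := by
    rw [NIm_cast, NIm_cast, flip_tr]
    have h := pow_cov trE (gau (-1)) (gau_unit neg_one_conj) (Bz (-1) c) (Bz (-1) c)
      (Bz_tr neg_one_conj c) k (flipC σ) σ
    rw [gau_flip, one_mul] at h
    exact h.symm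
  exact Int.cast_injective h


/-! ### `Mz` on orbits -/

theorem Mz_tr (σ : Cf) : Mz (trC σ) = Mz σ := by
  unfold Mz trC
  exact Equiv.sum_comp (Equiv.addRight (1 : Fin 8)) fun j => mz (σ j)

theorem Mz_rf (σ : Cf) : Mz (rfC σ) = Mz σ := by
  unfold Mz rfC
  exact Equiv.sum_comp (Equiv.subLeft (7 : Fin 8)) fun j => mz (σ j)

theorem Mz_flip (σ : Cf) : Mz (flipC σ) = -Mz σ := by
  unfold Mz flipC
  have e : ∀ a : Fin 3, mz (2 - a) = -mz a := by decide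
  simp only [e, Finset.sum_neg_distrib]

end Hald
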