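import Crest.Agent.Hald.SzLoc

/-!
# Row 347, M7c-LINK (2): the twisted rings as `A + ζ U + ζ̄ V`
-/

set_option autoImplicit false
set_option linter.unusedSectionVars false
set_option linter.unusedSimpArgs false

namespace Hald

open Matrix Finset

/-- integer matrix as a complex matrix -/
noncomputable def zc {κ : Type*} (A : Matrix κ κ ℤ) : Matrix κ κ ℂ := A.map (fun x : ℤ => (x : ℂ))

theorem zc_apply {κ : Type*} (A : Matrix κ κ ℤ) (i j : κ) : zc A i j = (A i j : ℂ) := rfl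

/-- `A + ζ U + ζ̄ V` -/
noncomputable def Nz (ζ : ℂ) : Matrix Cf Cf ℂ :=
  zc Aop + ζ • zc Uop + (starRingEnd ℂ) ζ • zc Vop

/-- the twist diagonal `ζ^m` -/
noncomputable def zf (ζ : ℂ) : Fin 3 → ℂ := ![ζ, 1, (starRingEnd ℂ) ζ]

theorem zf_bI {ζ : ℂ} (hζ : ζ * (starRingEnd ℂ) ζ = 1) (b c d e : Fin 3) :
    zf ζ d * (starRingEnd ℂ) (zf ζ e) * (bI b c d e : ℂ) =
      ζ * ((ru b c * rd d e : ℤ) : ℂ) + (starRingEnd ℂ) ζ * ((rd b c * ru d e : ℤ) : ℂ) +
        ((if b = c ∧ d = e then -(mz c * mz e) else 0 : ℤ) : ℂ) := by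
  have hζ' : (starRingEnd ℂ) ζ * ζ = 1 := by rw [mul_comm]; exact hζ
  have h0 : ru b c * rd d e ≠ 0 → zf ζ d * (starRingEnd ℂ) (zf ζ e) = ζ := by
    intro h
    have h2 := right_ne_zero_of_mul h
    unfold rd at h2
    have h3 : 0 < e.val ∧ d = e - 1 := by by_contra h4; exact h2 (if_neg h4)
    obtain ⟨h4, h5⟩ := h3
    fin_cases e
    · exact absurd h4 (by decide)
    · have : d = 0 := h5
      subst this; simp [zf]
    · have : d = 1 := h5
      subst this; simp [zf]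
  have h1 : rd b c * ru d e ≠ 0 → zf ζ d * (starRingEnd ℂ) (zf ζ e) = (starRingEnd ℂ) ζ := by
    intro h
    have h2 := right_ne_zero_of_mul h
    unfold ru at h2
    have h3 : e.val < 2 ∧ d = e + 1 := by by_contra h4; exact h2 (if_neg h4)
    obtain ⟨h4, h5⟩ := h3
    fin_cases e
    · have : d = 1 := h5
      subst this; simp [zf]
    · have : d = 2 := h5
      subst this; simp [zf]
    · exact absurd h4 (by decide)
  have h2 : d = e → zf ζ d * (starRingEnd ℂ) (zf ζ e) = 1 := by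
    rintro rfl
    fin_cases d <;> simp [zf, hζ, hζ']
  unfold bI
  push_cast
  rw [mul_add, mul_add]
  congr 1
  · congr 1
    · by_cases h : ru b c * rd d e = 0
      · have : (ru b c : ℂ) * (rd d e : ℂ) = 0 := by exact_mod_cast h
        rw [this]; simp
      · rw [h0 h]
    · by_cases h : rd b c * ru d e = 0
      · have : (rd b c : ℂ) * (ru d e : ℂ) = 0 := by exact_mod_cast h
        rw [this]; simp
      · rw [h1 h]
  · by_cases h : b = c ∧ d = e
    · rw [h2 h.2, one_mul]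
    · simp [h]

theorem DiagZ_one (u : Matrix (Fin 3) (Fin 3) ℂ) : DiagZ u 1 (zf 1) := by
  unfold DiagZ
  have h1 : zf 1 = fun _ => 1 := by
    funext a; fin_cases a <;> simp [zf]
  have h2 : cplx (1 : Matrix (Fin 3) (Fin 3) ℝ) = 1 := by
    unfold cplx
    ext i j
    rw [Matrix.map_apply, Matrix.one_apply, Matrix.one_apply]
    split_ifs <;> simp
  rw [h1, h2, Matrix.diagonal_one, Matrix.mul_one, Matrix.one_mul]

theorem succ_ne (j : Fin 8) : j ≠ j + 1 := by revert j; decide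
theorem succ_par (j : Fin 8) : (j.val + (j + 1).val) % 2 = 1 := by revert j; decide

theorem zf_bond {ζ : ℂ} (hζ : ζ * (starRingEnd ℂ) ζ = 1) (j : Fin 8) (τ σ : Cf) :
    (if agr j (j + 1) τ σ then zf ζ (τ (j + 1)) * (starRingEnd ℂ) (zf ζ (σ (j + 1))) *
        (bI (τ j) (σ j) (τ (j + 1)) (σ (j + 1)) : ℂ) else 0) =
      ζ * (upDn j (j + 1) τ σ : ℂ) + (starRingEnd ℂ) ζ * (upDn (j + 1) j τ σ : ℂ) +
        ((if τ = σ then -(mz (σ j) * mz (σ (j + 1))) else 0 : ℤ) : ℂ) := by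
  rw [upDn_apply (succ_ne j), upDn_apply (succ_ne j).symm]
  by_cases ha : agr j (j + 1) τ σ
  · have ha' : agr (j + 1) j τ σ := agr_symm.mp ha
    rw [if_pos ha, if_pos ha, if_pos ha', zf_bI hζ]
    have : (τ j = σ j ∧ τ (j + 1) = σ (j + 1)) ↔ τ = σ := by
      rw [← agr_and (j := j) (k := j + 1)]
      exact ⟨fun h => ⟨ha, h⟩, fun h => h.2⟩
    rw [mul_comm (rd (τ j) (σ j)) (ru (τ (j + 1)) (σ (j + 1)))]
    by_cases h : τ = σ
    · rw [if_pos h, if_pos (this.mpr h)]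
    · rw [if_neg h, if_neg (fun h' => h (this.mp h'))]
  · have ha' : ¬ agr (j + 1) j τ σ := fun h => ha (agr_symm.mp h)
    have hne : τ ≠ σ := by
      rintro rfl; exact ha fun _ _ _ => rfl
    rw [if_neg ha, if_neg ha, if_neg ha', if_neg hne]
    simp

/-- the Cartesian ring with twist `h` on the sites `Fin 8` -/
noncomputable def ringX (h : Matrix (Fin 3) (Fin 3) ℝ) : Matrix Cf Cf ℝ :=
  ∑ j : Fin 8, nbond (if j = 7 then h else 1) j (j + 1)

theorem conj_ring {u : Matrix (Fin 3) (Fin 3) ℂ} (hg : GoodU u) {h : Matrix (Fin 3) (Fin 3) ℝ}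
    {ζ : ℂ} (hζ : ζ * (starRingEnd ℂ) ζ = 1) (hz : DiagZ u h (zf ζ)) :
    tens (κ := fun _ : Fin 8 => Fin 3) (vv u) * cplx (ringX h) *
      tens (κ := fun _ : Fin 8 => Fin 3) (fun i => (vv u i)ᴴ) = Nz ζ := by
  unfold ringX
  rw [cplx_sum, Finset.mul_sum, Finset.sum_mul]
  ext τ σ
  rw [Matrix.sum_apply]
  have h7 : ∀ f : Fin 8 → ℂ, ∑ j, f j =
      ∑ j ∈ Finset.univ.filter (fun j : Fin 8 => j ≠ 7), f j + f 7 := by
    intro f
    rw [← Finset.sum_filter_add_sum_filter_not Finset.univ (fun j : Fin 8 => j ≠ 7) f]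
    congr 1
    have : Finset.univ.filter (fun j : Fin 8 => ¬ j ≠ 7) = {7} := by decide
    rw [this, Finset.sum_singleton]
  have hone : (1 : ℂ) * (starRingEnd ℂ) 1 = 1 := by simp
  rw [h7]
  have e1 : ∑ j ∈ Finset.univ.filter (fun j : Fin 8 => j ≠ 7),
      (tens (κ := fun _ : Fin 8 => Fin 3) (vv u) * cplx (nbond (if j = 7 then h else 1) j (j + 1)) *
        tens (κ := fun _ : Fin 8 => Fin 3) (fun i => (vv u i)ᴴ)) τ σ =
      ∑ j ∈ Finset.univ.filter (fun j : Fin 8 => j ≠ 7),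
        ((upDn j (j + 1) τ σ : ℂ) + (upDn (j + 1) j τ σ : ℂ) +
        ((if τ = σ then -(mz (σ j) * mz (σ (j + 1))) else 0 : ℤ) : ℂ)) := by
    refine Finset.sum_congr rfl fun j hj => ?_
    rw [if_neg (Finset.mem_filter.mp hj).2, conj_nbond hg (DiagZ_one u) (succ_par j),
      zf_bond hone]
    simp
  rw [e1, if_pos rfl, conj_nbond hg hz (succ_par 7), zf_bond hζ, Finset.sum_add_distrib]
  have h70 : (7 : Fin 8) + 1 = 0 := by decide
  unfold Nz
  simp only [Matrix.add_apply, Matrix.smul_apply, zc_apply, smul_eq_mul]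
  unfold Aop Uop Vop dgm
  rw [Matrix.add_apply, Matrix.sum_apply, Matrix.of_apply]
  simp only [Matrix.add_apply, h70]
  have e2 : ((if τ = σ then ∑ j : Fin 8, -(mz (σ j) * mz (σ (j + 1))) else 0 : ℤ) : ℂ) =
      ∑ j ∈ Finset.univ.filter (fun j : Fin 8 => j ≠ 7),
        ((if τ = σ then -(mz (σ j) * mz (σ (j + 1))) else 0 : ℤ) : ℂ) +
      ((if τ = σ then -(mz (σ 7) * mz (σ 0)) else 0 : ℤ) : ℂ) := by
    have h8 := h7 fun j => ((if τ = σ then -(mz (σ j) * mz (σ (j + 1))) else 0 : ℤ) : ℂ)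
    simp only [h70] at h8
    rw [← h8]
    split_ifs
    · push_cast; rfl
    · simp
  push_cast at e2 ⊢
  rw [e2]
  ring

end Hald
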