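import Crest.Agent.Hald.Defs

/-!
# Row 347, module M2 (2a): tensor algebra in the product basis

`tens A` is the tensor product of the family `A : ∀ i, Matrix (κ i) (κ i) R`, as a matrix on
configurations `∀ i, κ i` (the local dimensions may depend on the site).

* `tens_mul`, `tens_one`, `trace_tens`, `tens_transpose`, `tens_conjTranspose`, `tens_map`,
  `tens_sum`, `tens_mulVec`, `tens_reindex`, …
* `site j A`: `site_apply`, `site_mul_site`, `site_mul_same`, `site_comm`, `site_add`, `site_smul`,
  `tens_mul_site`, `tens_conj_site`, `site_reindex`, …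
* `pairFam j k A B`: the family with `A` at `j`, `B` at `k`, `1` elsewhere.
-/

set_option autoImplicit false
set_option linter.unusedSectionVars false

namespace Hald

open Matrix Finset

section Basic

variable {ι : Type*} {κ : ι → Type*} {R : Type*} [Fintype ι] [DecidableEq ι]
  [∀ i, Fintype (κ i)] [∀ i, DecidableEq (κ i)] [CommSemiring R]

@[simp] theorem tens_apply (A : ∀ i, Matrix (κ i) (κ i) R) (σ τ : ∀ i, κ i) :
    tens A σ τ = ∏ i, A i (σ i) (τ i) := rfl

theorem tens_mul (A B : ∀ i, Matrix (κ i) (κ i) R) :
    tens A * tens B = tens (fun i => A i * B i) := by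
  ext σ τ
  simp only [Matrix.mul_apply, tens_apply]
  rw [Finset.prod_univ_sum, Fintype.piFinset_univ]
  exact Finset.sum_congr rfl fun ρ _ => (Finset.prod_mul_distrib).symm

theorem tens_one : tens (fun i : ι => (1 : Matrix (κ i) (κ i) R)) = 1 := by
  ext σ τ
  simp only [tens_apply, Matrix.one_apply]
  by_cases h : σ = τ
  · subst h; simp
  · rw [if_neg h]
    obtain ⟨i, hi⟩ := Function.ne_iff.1 h
    exact Finset.prod_eq_zero (Finset.mem_univ i) (by simp [hi])

theorem trace_tens (A : ∀ i, Matrix (κ i) (κ i) R) : (tens A).trace = ∏ i, (A i).trace := by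
  simp only [Matrix.trace, Matrix.diag_apply, tens_apply]
  rw [Finset.prod_univ_sum, Fintype.piFinset_univ]

theorem tens_transpose (A : ∀ i, Matrix (κ i) (κ i) R) :
    (tens A)ᵀ = tens (fun i => (A i)ᵀ) := by
  ext σ τ; simp [Matrix.transpose_apply]

theorem tens_conjTranspose [StarRing R] (A : ∀ i, Matrix (κ i) (κ i) R) :
    (tens A)ᴴ = tens (fun i => (A i)ᴴ) := by
  ext σ τ; simp [Matrix.conjTranspose_apply]

theorem tens_map {S : Type*} [CommSemiring S] (f : R →+* S) (A : ∀ i, Matrix (κ i) (κ i) R) :
    (tens A).map f = tens (fun i => (A i).map f) := by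
  ext σ τ; simp

/-- Ordered product of a list of tensor products. -/
theorem list_prod_tens {α : Type*} (l : List α) (A : α → ∀ i, Matrix (κ i) (κ i) R) :
    (l.map fun t => tens (A t)).prod = tens (fun i => (l.map fun t => A t i).prod) := by
  induction l with
  | nil => simp [tens_one]
  | cons a l ih => simp [ih, tens_mul]

theorem ofFn_prod_tens {n : ℕ} (A : Fin n → ∀ i, Matrix (κ i) (κ i) R) :
    (List.ofFn fun t => tens (A t)).prod = tens (fun i => (List.ofFn fun t => A t i).prod) := by
  have h1 : (List.ofFn fun t => tens (A t)) = (List.finRange n).map fun t => tens (A t) := by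
    rw [List.ofFn_eq_map]
  have h2 : ∀ i, (List.ofFn fun t => A t i) = (List.finRange n).map fun t => A t i := by
    intro i; rw [List.ofFn_eq_map]
  rw [h1, list_prod_tens]
  congr 1
  funext i
  rw [h2]

theorem tens_pow (A : ∀ i, Matrix (κ i) (κ i) R) (n : ℕ) :
    tens A ^ n = tens (fun i => A i ^ n) := by
  induction n with
  | zero => simp [tens_one]
  | succ n ih => rw [pow_succ, ih, tens_mul]; simp [pow_succ]

/-- Multilinear expansion in all the factors. -/
theorem tens_sum {W : Type*} [Fintype W] (A : ∀ i, W → Matrix (κ i) (κ i) R) :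
    tens (fun i => ∑ w, A i w) = ∑ w : ι → W, tens (fun i => A i (w i)) := by
  ext σ τ
  rw [Matrix.sum_apply]
  simp only [tens_apply, Matrix.sum_apply]
  rw [Finset.prod_univ_sum, Fintype.piFinset_univ]

theorem tens_smul (c : ι → R) (A : ∀ i, Matrix (κ i) (κ i) R) :
    tens (fun i => c i • A i) = (∏ i, c i) • tens A := by
  ext σ τ
  simp [Finset.prod_mul_distrib]

/-- Action of a tensor product on a product vector. -/
theorem tens_mulVec (A : ∀ i, Matrix (κ i) (κ i) R) (v : ∀ i, κ i → R) :
    (tens A) *ᵥ (fun τ : (∀ i, κ i) => ∏ i, v i (τ i)) = fun σ => ∏ i, (A i *ᵥ v i) (σ i) := by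
  funext σ
  simp only [Matrix.mulVec, dotProduct, tens_apply]
  rw [Finset.prod_univ_sum, Fintype.piFinset_univ]
  exact Finset.sum_congr rfl fun ρ _ => (Finset.prod_mul_distrib).symm

/-- Product vectors pair factorwise. -/
theorem prodVec_dot (u v : ∀ i, κ i → R) :
    (fun σ : (∀ i, κ i) => ∏ i, u i (σ i)) ⬝ᵥ (fun τ : (∀ i, κ i) => ∏ i, v i (τ i)) =
      ∏ i, (u i ⬝ᵥ v i) := by
  simp only [dotProduct]
  rw [Finset.prod_univ_sum, Fintype.piFinset_univ]
  exact Finset.sum_congr rfl fun ρ _ => (Finset.prod_mul_distrib).symm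

/-- `tens` of unitaries is unitary (pointwise form). -/
theorem tens_mul_eq_one {A B : ∀ i, Matrix (κ i) (κ i) R} (h : ∀ i, A i * B i = 1) :
    tens A * tens B = 1 := by
  rw [tens_mul, ← tens_one]
  congr 1
  funext i
  exact h i

/-- linearity in one slot -/
theorem tens_update_add (A : ∀ i, Matrix (κ i) (κ i) R) (j : ι) (B C : Matrix (κ j) (κ j) R) :
    tens (Function.update A j (B + C)) =
      tens (Function.update A j B) + tens (Function.update A j C) := by
  ext σ τ
  simp only [tens_apply, Matrix.add_apply]
  rw [← Finset.mul_prod_erase _ _ (Finset.mem_univ j),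
    ← Finset.mul_prod_erase _ (fun i => Function.update A j B i (σ i) (τ i)) (Finset.mem_univ j),
    ← Finset.mul_prod_erase _ (fun i => Function.update A j C i (σ i) (τ i)) (Finset.mem_univ j)]
  simp only [Function.update_self, Matrix.add_apply]
  have h : ∀ D : Matrix (κ j) (κ j) R, ∏ x ∈ Finset.univ.erase j, Function.update A j D x (σ x) (τ x)
      = ∏ x ∈ Finset.univ.erase j, A x (σ x) (τ x) := by
    intro D
    refine Finset.prod_congr rfl fun x hx => ?_
    rw [Function.update_of_ne (Finset.ne_of_mem_erase hx)]
  rw [h, h, h, add_mul]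

theorem tens_update_smul (A : ∀ i, Matrix (κ i) (κ i) R) (j : ι) (c : R)
    (B : Matrix (κ j) (κ j) R) :
    tens (Function.update A j (c • B)) = c • tens (Function.update A j B) := by
  ext σ τ
  simp only [tens_apply, Matrix.smul_apply]
  rw [← Finset.mul_prod_erase _ _ (Finset.mem_univ j),
    ← Finset.mul_prod_erase _ (fun i => Function.update A j B i (σ i) (τ i)) (Finset.mem_univ j)]
  simp only [Function.update_self, Matrix.smul_apply, smul_eq_mul]
  have h : ∀ D : Matrix (κ j) (κ j) R, ∏ x ∈ Finset.univ.erase j, Function.update A j D x (σ x) (τ x)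
      = ∏ x ∈ Finset.univ.erase j, A x (σ x) (τ x) := by
    intro D
    refine Finset.prod_congr rfl fun x hx => ?_
    rw [Function.update_of_ne (Finset.ne_of_mem_erase hx)]
  rw [h, h, mul_assoc]

end Basic

section Sites

variable {ι : Type*} {κ : ι → Type*} {R : Type*} [Fintype ι] [DecidableEq ι]
  [∀ i, Fintype (κ i)] [∀ i, DecidableEq (κ i)] [CommSemiring R]

theorem site_def (j : ι) (A : Matrix (κ j) (κ j) R) :
    site j A = tens (Function.update (fun i => (1 : Matrix (κ i) (κ i) R)) j A) := rfl

theorem site_apply (j : ι) (A : Matrix (κ j) (κ j) R) (σ τ : ∀ i, κ i) :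
    site j A σ τ = if (∀ k, k ≠ j → σ k = τ k) then A (σ j) (τ j) else 0 := by
  rw [site_def]
  simp only [tens_apply]
  rw [← Finset.mul_prod_erase _ _ (Finset.mem_univ j)]
  have h1 : ∀ k ∈ Finset.univ.erase j,
      (Function.update (fun i : ι => (1 : Matrix (κ i) (κ i) R)) j A) k (σ k) (τ k) =
        (1 : Matrix (κ k) (κ k) R) (σ k) (τ k) := by
    intro k hk
    rw [Function.update_of_ne (Finset.ne_of_mem_erase hk)]
  rw [Finset.prod_congr rfl h1, Function.update_self]
  by_cases h : ∀ k, k ≠ j → σ k = τ k
  · rw [if_pos h]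
    have : ∏ k ∈ Finset.univ.erase j, (1 : Matrix (κ k) (κ k) R) (σ k) (τ k) = 1 :=
      Finset.prod_eq_one fun k hk => by rw [h k (Finset.ne_of_mem_erase hk), Matrix.one_apply_eq]
    rw [this, mul_one]
  · rw [if_neg h]
    push Not at h
    obtain ⟨k, hk, hne⟩ := h
    have : ∏ k ∈ Finset.univ.erase j, (1 : Matrix (κ k) (κ k) R) (σ k) (τ k) = 0 :=
      Finset.prod_eq_zero (Finset.mem_erase.2 ⟨hk, Finset.mem_univ k⟩) (Matrix.one_apply_ne hne)
    rw [this, mul_zero]

/-- The pair family: `A` at `j`, `B` at `k`, `1` elsewhere (`j ≠ k`). -/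
def pairFam (j k : ι) (A : Matrix (κ j) (κ j) R) (B : Matrix (κ k) (κ k) R) :
    ∀ i, Matrix (κ i) (κ i) R :=
  Function.update (Function.update (fun _ => 1) k B) j A

theorem site_mul_site {j k : ι} (h : j ≠ k) (A : Matrix (κ j) (κ j) R)
    (B : Matrix (κ k) (κ k) R) :
    site j A * site k B = tens (pairFam j k A B) := by
  rw [site_def, site_def, tens_mul]
  unfold pairFam
  congr 1
  funext i
  by_cases hj : i = j
  · subst hj
    simp [Function.update_of_ne h]
  · rw [Function.update_of_ne hj, Function.update_of_ne hj]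
    simp

theorem pairFam_left {j k : ι} (A : Matrix (κ j) (κ j) R) (B : Matrix (κ k) (κ k) R) :
    pairFam j k A B j = A := by simp [pairFam]

theorem pairFam_right {j k : ι} (h : j ≠ k) (A : Matrix (κ j) (κ j) R)
    (B : Matrix (κ k) (κ k) R) : pairFam j k A B k = B := by
  simp [pairFam, Function.update_of_ne h.symm]

theorem pairFam_other {j k i : ι} (hj : i ≠ j) (hk : i ≠ k) (A : Matrix (κ j) (κ j) R)
    (B : Matrix (κ k) (κ k) R) : pairFam j k A B i = 1 := by
  simp [pairFam, Function.update_of_ne hj, Function.update_of_ne hk]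

theorem pairFam_one (j k : ι) :
    pairFam j k (1 : Matrix (κ j) (κ j) R) (1 : Matrix (κ k) (κ k) R) = fun _ => 1 := by
  unfold pairFam
  rw [Function.update_eq_self_iff.2 rfl, Function.update_eq_self_iff.2 rfl]

theorem site_mul_same (j : ι) (A B : Matrix (κ j) (κ j) R) :
    site j A * site j B = site j (A * B) := by
  rw [site_def, site_def, site_def, tens_mul]
  congr 1
  funext i
  by_cases hj : i = j
  · subst hj; simp
  · simp [Function.update_of_ne hj]

theorem site_one (j : ι) : site j (1 : Matrix (κ j) (κ j) R) = 1 := by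
  rw [site_def, Function.update_eq_self_iff.2 rfl, tens_one]

theorem site_comm {j k : ι} (h : j ≠ k) (A : Matrix (κ j) (κ j) R) (B : Matrix (κ k) (κ k) R) :
    site j A * site k B = site k B * site j A := by
  rw [site_mul_site h, site_mul_site h.symm]
  congr 1
  funext i
  by_cases hj : i = j
  · subst hj; rw [pairFam_left, pairFam_right h.symm]
  · by_cases hk : i = k
    · subst hk; rw [pairFam_left, pairFam_right h]
    · rw [pairFam_other hj hk, pairFam_other hk hj]

theorem site_transpose (j : ι) (A : Matrix (κ j) (κ j) R) : (site j A)ᵀ = site j Aᵀ := by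
  rw [site_def, site_def, tens_transpose]
  congr 1
  funext i
  by_cases hj : i = j
  · subst hj; simp
  · simp [Function.update_of_ne hj]

theorem site_conjTranspose [StarRing R] (j : ι) (A : Matrix (κ j) (κ j) R) :
    (site j A)ᴴ = site j Aᴴ := by
  rw [site_def, site_def, tens_conjTranspose]
  congr 1
  funext i
  by_cases hj : i = j
  · subst hj; simp
  · simp [Function.update_of_ne hj]

theorem site_map {S : Type*} [CommSemiring S] (f : R →+* S) (j : ι) (A : Matrix (κ j) (κ j) R) :
    (site j A).map f = site j (A.map f) := by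
  rw [site_def, site_def, tens_map]
  congr 1
  funext i
  by_cases hj : i = j
  · subst hj; simp
  · simp [Function.update_of_ne hj, Matrix.map_one]

theorem site_add (j : ι) (A B : Matrix (κ j) (κ j) R) : site j (A + B) = site j A + site j B := by
  rw [site_def, site_def, site_def, tens_update_add]

theorem site_smul (j : ι) (c : R) (A : Matrix (κ j) (κ j) R) : site j (c • A) = c • site j A := by
  rw [site_def, site_def, tens_update_smul]

theorem site_zero (j : ι) : site j (0 : Matrix (κ j) (κ j) R) = 0 := by
  have := site_smul j (0 : R) (0 : Matrix (κ j) (κ j) R)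
  simpa using this

theorem site_sum {α : Type*} (j : ι) (s : Finset α) (A : α → Matrix (κ j) (κ j) R) :
    site j (∑ a ∈ s, A a) = ∑ a ∈ s, site j (A a) := by
  classical
  induction s using Finset.induction_on with
  | empty => simp [site_zero]
  | insert a s ha ih => rw [Finset.sum_insert ha, Finset.sum_insert ha, site_add, ih]

theorem trace_site (j : ι) (A : Matrix (κ j) (κ j) R) :
    (site j A).trace = A.trace * ∏ i ∈ Finset.univ.erase j, (Fintype.card (κ i) : R) := by
  rw [site_def, trace_tens, ← Finset.mul_prod_erase _ _ (Finset.mem_univ j), Function.update_self]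
  congr 1
  refine Finset.prod_congr rfl fun i hi => ?_
  rw [Function.update_of_ne (Finset.ne_of_mem_erase hi), Matrix.trace_one]

/-- Conjugation-type covariance: a global tensor product times a site matrix. -/
theorem tens_mul_site (U : ∀ i, Matrix (κ i) (κ i) R) (j : ι) (A B : Matrix (κ j) (κ j) R)
    (h : U j * A = B * U j) : tens U * site j A = site j B * tens U := by
  rw [site_def, site_def, tens_mul, tens_mul]
  congr 1
  funext i
  by_cases hj : i = j
  · subst hj; simpa using h
  · simp [Function.update_of_ne hj]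

/-- Conjugation of a site matrix by a global tensor product. -/
theorem tens_conj_site (U V : ∀ i, Matrix (κ i) (κ i) R) (h : ∀ i, U i * V i = 1) (j : ι)
    (A : Matrix (κ j) (κ j) R) :
    tens U * site j A * tens V = site j (U j * A * V j) := by
  rw [site_def, site_def, tens_mul, tens_mul]
  congr 1
  funext i
  by_cases hj : i = j
  · subst hj; simp
  · simp [Function.update_of_ne hj, h i]

end Sites

section Reindex

variable {ι ι' d R : Type*} [Fintype ι] [Fintype ι'] [DecidableEq ι] [DecidableEq ι']
  [Fintype d] [DecidableEq d] [CommSemiring R]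

/-- Relabelling the sites (all local dimensions equal). -/
theorem tens_reindex (e : ι ≃ ι') (A : ι → Matrix d d R) :
    Matrix.reindex (e.arrowCongr (Equiv.refl d)) (e.arrowCongr (Equiv.refl d))
      (tens (κ := fun _ => d) A) = tens (κ := fun _ => d) (fun i' => A (e.symm i')) := by
  ext σ τ
  simp only [Matrix.reindex_apply, Matrix.submatrix_apply, tens_apply]
  refine Fintype.prod_equiv e _ _ fun i => ?_
  simp [Equiv.arrowCongr]

theorem site_reindex (e : ι ≃ ι') (j : ι) (A : Matrix d d R) :
    Matrix.reindex (e.arrowCongr (Equiv.refl d)) (e.arrowCongr (Equiv.refl d))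
      (site (κ := fun _ => d) j A) = site (κ := fun _ => d) (e j) A := by
  rw [site_def, tens_reindex, site_def]
  congr 1
  funext i'
  by_cases h : i' = e j
  · subst h; simp
  · rw [Function.update_of_ne h, Function.update_of_ne]
    intro h'
    exact h (by rw [← h', Equiv.apply_symm_apply])

end Reindex

end Hald
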