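import Crest.Agent.Hald.SzMat
import Crest.Agent.Hald.LinkRing
import Crest.Agent.Hald.Tensor

/-!
# Row 347, M7c-LINK (1): the ring in a product basis

`tens v * cplx (negH h 4) * tens vᴴ` computed entrywise for one-site unitaries `v j = D_j u`,
where `u uᴴ = 1`, `u uᵀ = ± antidiag(1,-1,1)` and `D_j` is the Marshall sign.
-/

set_option autoImplicit false
set_option linter.unusedSectionVars false
set_option linter.unusedSimpArgs false

namespace Hald

open Matrix Finset

/-! ### integer entries -/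

/-- agreement off two sites -/
def agr (j k : Fin 8) (τ σ : Cf) : Prop := ∀ i, i ≠ j → i ≠ k → τ i = σ i

instance (j k : Fin 8) (τ σ : Cf) : Decidable (agr j k τ σ) := by unfold agr; infer_instance

theorem agr_symm {j k : Fin 8} {τ σ : Cf} : agr j k τ σ ↔ agr k j τ σ :=
  ⟨fun h i h1 h2 => h i h2 h1, fun h i h1 h2 => h i h2 h1⟩

theorem agr_and {j k : Fin 8} {τ σ : Cf} :
    (agr j k τ σ ∧ τ j = σ j ∧ τ k = σ k) ↔ τ = σ := by
  constructor
  · rintro ⟨h, h1, h2⟩
    funext i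
    by_cases hj : i = j
    · rw [hj, h1]
    · by_cases hk : i = k
      · rw [hk, h2]
      · exact h i hj hk
  · rintro rfl
    exact ⟨fun _ _ _ => rfl, rfl, rfl⟩

theorem pair_apply {R : Type*} [CommRing R] {j k : Fin 8} (h : j ≠ k)
    (A B : Matrix (Fin 3) (Fin 3) R) (τ σ : Cf) :
    (site (κ := fun _ : Fin 8 => Fin 3) j A * site (κ := fun _ : Fin 8 => Fin 3) k B) τ σ =
      if agr j k τ σ then A (τ j) (σ j) * B (τ k) (σ k) else 0 := by
  rw [site_mul_site h, tens_apply, ← Finset.mul_prod_erase _ _ (Finset.mem_univ j),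
    ← Finset.mul_prod_erase _ _ (Finset.mem_erase.mpr ⟨h.symm, Finset.mem_univ k⟩),
    pairFam_left, pairFam_right h]
  by_cases ha : agr j k τ σ
  · rw [if_pos ha]
    have : ∏ x ∈ (Finset.univ.erase j).erase k,
        pairFam (κ := fun _ : Fin 8 => Fin 3) j k A B x (τ x) (σ x) = 1 := by
      refine Finset.prod_eq_one fun i hi => ?_
      have h1 := Finset.ne_of_mem_erase hi
      have h2 := Finset.ne_of_mem_erase (Finset.mem_of_mem_erase hi)
      rw [pairFam_other h2 h1, ha i h2 h1, Matrix.one_apply_eq]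
    rw [this, mul_one]
  · rw [if_neg ha]
    unfold agr at ha
    push Not at ha
    obtain ⟨i, h1, h2, h3⟩ := ha
    have : ∏ x ∈ (Finset.univ.erase j).erase k,
        pairFam (κ := fun _ : Fin 8 => Fin 3) j k A B x (τ x) (σ x) = 0 := by
      refine Finset.prod_eq_zero (Finset.mem_erase.mpr ⟨h2, Finset.mem_erase.mpr ⟨h1, Finset.mem_univ i⟩⟩) ?_
      rw [pairFam_other h1 h2, Matrix.one_apply_ne h3]
    rw [this, mul_zero, mul_zero]

/-- one-site raising of the digit -/
def ru (a' a : Fin 3) : ℤ := if a.val < 2 ∧ a' = a + 1 then 1 else 0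
/-- one-site lowering of the digit -/
def rd (a' a : Fin 3) : ℤ := if 0 < a.val ∧ a' = a - 1 then 1 else 0

theorem update2_eq_iff {j k : Fin 8} (h : j ≠ k) (τ σ : Cf) (x y : Fin 3) :
    τ = Function.update (Function.update σ j x) k y ↔ agr j k τ σ ∧ τ j = x ∧ τ k = y := by
  constructor
  · rintro rfl
    refine ⟨fun i h1 h2 => ?_, ?_, ?_⟩
    · rw [Function.update_of_ne h2, Function.update_of_ne h1]
    · rw [Function.update_of_ne h, Function.update_self]
    · rw [Function.update_self]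
  · rintro ⟨h1, h2, h3⟩
    funext i
    by_cases hk : i = k
    · subst hk; rw [Function.update_self, h3]
    · rw [Function.update_of_ne hk]
      by_cases hj : i = j
      · subst hj; rw [Function.update_self, h2]
      · rw [Function.update_of_ne hj, h1 i hj hk]

theorem upDn_apply {j k : Fin 8} (h : j ≠ k) (τ σ : Cf) :
    upDn j k τ σ = if agr j k τ σ then ru (τ j) (σ j) * rd (τ k) (σ k) else 0 := by
  unfold upDn ru rd
  simp only [Matrix.of_apply, update2_eq_iff h]
  by_cases ha : agr j k τ σ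
  · simp only [ha, true_and, if_true]
    by_cases h1 : (σ j).val < 2 <;> by_cases h2 : 0 < (σ k).val <;>
      by_cases h3 : τ j = σ j + 1 <;> by_cases h4 : τ k = σ k - 1 <;>
      simp only [h1, h2, h3, h4, true_and, and_true, and_false, false_and, if_true, if_false,
        mul_one, mul_zero, zero_mul]
  · simp [ha]

/-- integer bond matrix: `(b,c)` = row/column digit of the first site, `(d,e)` of the second -/
def bI (b c d e : Fin 3) : ℤ :=
  ru b c * rd d e + rd b c * ru d e + (if b = c ∧ d = e then -(mz c * mz e) else 0)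

/-- antidiag(1,-1,1) -/
def Jm (a b : Fin 3) : ℤ := if a.val + b.val = 2 then (if a = 1 then -1 else 1) else 0

theorem bI_eq1 : ∀ b c d e : Fin 3, (-1 : ℤ) ^ (b.val + c.val) *
    (Jm b d * Jm c e - (if b = e then 1 else 0) * (if d = c then 1 else 0)) = bI b c d e := by
  decide

theorem bI_eq2 : ∀ b c d e : Fin 3, (-1 : ℤ) ^ (d.val + e.val) *
    (Jm b d * Jm c e - (if b = e then 1 else 0) * (if d = c then 1 else 0)) = bI b c d e := by
  decide


/-! ### the local conjugation -/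

/-- `Σ_a (L_a)_{bc} (L_a)_{de} = δ_{bd} δ_{ce} - δ_{be} δ_{dc}` -/
theorem Lr_sum (b c d e : Fin 3) : ∑ a : Fin 3, Lr a b c * Lr a d e =
    (if b = d then 1 else 0) * (if c = e then 1 else 0) -
      (if b = e then 1 else 0) * (if d = c then 1 else 0) := by
  fin_cases b <;> fin_cases c <;> fin_cases d <;> fin_cases e <;>
    simp [Lr, Fin.sum_univ_three]

theorem loc_conj (u : Matrix (Fin 3) (Fin 3) ℂ) (hu : u * uᴴ = 1) (b c d e : Fin 3) :
    ∑ a : Fin 3, (u * cplx (Lr a) * uᴴ) b c * (u * cplx (Lr a) * uᴴ) d e =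
      (u * uᵀ) b d * (starRingEnd ℂ) ((u * uᵀ) c e) -
        (if b = e then 1 else 0) * (if d = c then 1 else 0) := by
  have e1 : ∀ a b c, (u * cplx (Lr a) * uᴴ) b c =
      ∑ x : Fin 3 × Fin 3, u b x.1 * (starRingEnd ℂ) (u c x.2) * (Lr a x.1 x.2 : ℂ) := by
    intro a b c
    rw [Matrix.mul_apply, Fintype.sum_prod_type_right]
    refine Finset.sum_congr rfl fun y _ => ?_
    rw [Matrix.mul_apply, Finset.sum_mul]
    refine Finset.sum_congr rfl fun x _ => ?_
    rw [Matrix.conjTranspose_apply]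
    show u b x * (Lr a x y : ℂ) * star (u c y) = _
    rw [starRingEnd_apply]
    ring
  have e2 : ∑ a : Fin 3, (u * cplx (Lr a) * uᴴ) b c * (u * cplx (Lr a) * uᴴ) d e =
      ∑ x : Fin 3 × Fin 3, ∑ y : Fin 3 × Fin 3,
        (u b x.1 * (starRingEnd ℂ) (u c x.2)) * (u d y.1 * (starRingEnd ℂ) (u e y.2)) *
          ((∑ a : Fin 3, Lr a x.1 x.2 * Lr a y.1 y.2 : ℝ) : ℂ) := by
    simp only [e1, Finset.sum_mul_sum]
    rw [Finset.sum_comm]
    refine Finset.sum_congr rfl fun x _ => ?_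
    rw [Finset.sum_comm]
    refine Finset.sum_congr rfl fun y _ => ?_
    push_cast
    rw [Finset.mul_sum]
    refine Finset.sum_congr rfl fun a _ => ?_
    ring
  rw [e2]
  simp only [Lr_sum]
  have h1 : ∀ p q, (u * uᵀ) p q = ∑ x, u p x * u q x := by
    intro p q; rw [Matrix.mul_apply]; rfl
  have h2 : ∀ p q, ∑ x, u p x * (starRingEnd ℂ) (u q x) = if p = q then 1 else 0 := by
    intro p q
    have := congrFun (congrFun hu p) q
    rw [Matrix.mul_apply, Matrix.one_apply] at this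
    rw [← this]
    rfl
  rw [h1, h1, ← h2 b e, ← h2 d c]
  simp only [Fin.sum_univ_three, Fintype.sum_prod_type, map_add, map_mul]
  simp
  ring

/-- Marshall sign of a digit on site `j` -/
noncomputable def ms (j : Fin 8) (a : Fin 3) : ℂ := if j.val % 2 = 1 then (-1) ^ a.val else 1

theorem ms_sq (j : Fin 8) (a : Fin 3) : ms j a * ms j a = 1 := by
  unfold ms
  split_ifs
  · rw [← pow_add, ← two_mul, pow_mul]; norm_num
  · norm_num

theorem ms_star (j : Fin 8) (a : Fin 3) : star (ms j a) = ms j a := by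
  unfold ms
  split_ifs <;> simp

/-- the local unitary with the Marshall sign -/
noncomputable def vv (u : Matrix (Fin 3) (Fin 3) ℂ) (j : Fin 8) : Matrix (Fin 3) (Fin 3) ℂ :=
  Matrix.diagonal (ms j) * u

theorem vv_conj (u : Matrix (Fin 3) (Fin 3) ℂ) (j : Fin 8) :
    (vv u j)ᴴ = uᴴ * Matrix.diagonal (ms j) := by
  unfold vv
  rw [Matrix.conjTranspose_mul, Matrix.diagonal_conjTranspose]
  congr 2
  funext a
  exact ms_star j a

theorem diag_ms_sq (j : Fin 8) : Matrix.diagonal (ms j) * Matrix.diagonal (ms j) = 1 := by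
  rw [Matrix.diagonal_mul_diagonal, ← Matrix.diagonal_one]
  congr 1
  funext a
  exact ms_sq j a

theorem vv_mul_conj {u : Matrix (Fin 3) (Fin 3) ℂ} (hu : u * uᴴ = 1) (j : Fin 8) :
    vv u j * (vv u j)ᴴ = 1 := by
  rw [vv_conj]
  unfold vv
  calc _ = Matrix.diagonal (ms j) * (u * uᴴ) * Matrix.diagonal (ms j) := by
        simp only [Matrix.mul_assoc]
    _ = 1 := by rw [hu, Matrix.mul_one, diag_ms_sq]

theorem conj_mul_vv {u : Matrix (Fin 3) (Fin 3) ℂ} (hu : u * uᴴ = 1) (j : Fin 8) :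
    (vv u j)ᴴ * vv u j = 1 := mul_eq_one_comm.1 (vv_mul_conj hu j)

theorem vv_entry (u X : Matrix (Fin 3) (Fin 3) ℂ) (j : Fin 8) (b c : Fin 3) :
    (vv u j * X * (vv u j)ᴴ) b c = ms j b * ms j c * (u * X * uᴴ) b c := by
  rw [vv_conj]
  unfold vv
  have : Matrix.diagonal (ms j) * u * X * (uᴴ * Matrix.diagonal (ms j)) =
      Matrix.diagonal (ms j) * (u * X * uᴴ) * Matrix.diagonal (ms j) := by
    simp only [Matrix.mul_assoc]
  rw [this, Matrix.mul_diagonal, Matrix.diagonal_mul]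
  ring

/-- data of a basis: `u` unitary, `u uᵀ = ± antidiag(1,-1,1)` -/
structure GoodU (u : Matrix (Fin 3) (Fin 3) ℂ) : Prop where
  hu : u * uᴴ = 1
  hJ : ∀ b c d e, (u * uᵀ) b d * (starRingEnd ℂ) ((u * uᵀ) c e) = ((Jm b d * Jm c e : ℤ) : ℂ)

/-- `u h = diag(z) u` -/
def DiagZ (u : Matrix (Fin 3) (Fin 3) ℂ) (h : Matrix (Fin 3) (Fin 3) ℝ) (z : Fin 3 → ℂ) : Prop :=
  u * cplx h = Matrix.diagonal z * u

theorem twisted_entry {u : Matrix (Fin 3) (Fin 3) ℂ} {h : Matrix (Fin 3) (Fin 3) ℝ}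
    {z : Fin 3 → ℂ} (hz : DiagZ u h z) (X : Matrix (Fin 3) (Fin 3) ℝ) (d e : Fin 3) :
    (u * cplx (h * X * hᵀ) * uᴴ) d e = z d * (starRingEnd ℂ) (z e) * (u * cplx X * uᴴ) d e := by
  have h1 : u * cplx (h * X * hᵀ) * uᴴ = Matrix.diagonal z * (u * cplx X * uᴴ) *
      Matrix.diagonal (star z) := by
    rw [cplx_mul, cplx_mul, ← cplx_conjTranspose]
    have h2 : (cplx h)ᴴ * uᴴ = uᴴ * Matrix.diagonal (star z) := by
      have := congrArg Matrix.conjTranspose hz
      rw [Matrix.conjTranspose_mul, Matrix.conjTranspose_mul,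
        Matrix.diagonal_conjTranspose] at this
      exact this
    calc u * (cplx h * cplx X * (cplx h)ᴴ) * uᴴ
        = (u * cplx h) * cplx X * ((cplx h)ᴴ * uᴴ) := by simp only [Matrix.mul_assoc]
      _ = _ := by rw [h2, show u * cplx h = Matrix.diagonal z * u from hz]
                  simp only [Matrix.mul_assoc]
  rw [h1, Matrix.mul_diagonal, Matrix.diagonal_mul]
  rw [starRingEnd_apply]
  simp only [Pi.star_apply]
  ring

/-- the local bond -/
theorem loc_bond {u : Matrix (Fin 3) (Fin 3) ℂ} (hg : GoodU u) {h : Matrix (Fin 3) (Fin 3) ℝ}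
    {z : Fin 3 → ℂ} (hz : DiagZ u h z) {j k : Fin 8} (hjk : (j.val + k.val) % 2 = 1)
    (b c d e : Fin 3) :
    ∑ a : Fin 3, (vv u j * cplx (Lr a) * (vv u j)ᴴ) b c *
      (vv u k * cplx (h * Lr a * hᵀ) * (vv u k)ᴴ) d e =
      z d * (starRingEnd ℂ) (z e) * (bI b c d e : ℂ) := by
  have e1 : ∑ a : Fin 3, (vv u j * cplx (Lr a) * (vv u j)ᴴ) b c *
      (vv u k * cplx (h * Lr a * hᵀ) * (vv u k)ᴴ) d e =
      z d * (starRingEnd ℂ) (z e) * ((ms j b * ms j c * (ms k d * ms k e)) *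
        ∑ a : Fin 3, (u * cplx (Lr a) * uᴴ) b c * (u * cplx (Lr a) * uᴴ) d e) := by
    rw [Finset.mul_sum, Finset.mul_sum]
    refine Finset.sum_congr rfl fun a _ => ?_
    rw [vv_entry, vv_entry, twisted_entry hz]
    ring
  rw [e1, loc_conj u hg.hu, hg.hJ]
  congr 1
  have hcase : (j.val % 2 = 1 ∧ ¬ k.val % 2 = 1) ∨ (¬ j.val % 2 = 1 ∧ k.val % 2 = 1) := by omega
  rcases hcase with ⟨h1, h2⟩ | ⟨h1, h2⟩
  · rw [← bI_eq1 b c d e]
    unfold ms
    simp only [if_pos h1, if_neg h2]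
    push_cast
    rw [pow_add]
    ring
  · rw [← bI_eq2 b c d e]
    unfold ms
    simp only [if_neg h1, if_pos h2]
    push_cast
    rw [pow_add]
    ring

/-- conjugation of a bond by the product unitary -/
theorem conj_nbond {u : Matrix (Fin 3) (Fin 3) ℂ} (hg : GoodU u) {h : Matrix (Fin 3) (Fin 3) ℝ}
    {z : Fin 3 → ℂ} (hz : DiagZ u h z) {j k : Fin 8} (hjk : (j.val + k.val) % 2 = 1)
    (τ σ : Cf) :
    (tens (κ := fun _ : Fin 8 => Fin 3) (vv u) * cplx (nbond h j k) *
      tens (κ := fun _ : Fin 8 => Fin 3) (fun i => (vv u i)ᴴ)) τ σ =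
      if agr j k τ σ then z (τ k) * (starRingEnd ℂ) (z (σ k)) *
        (bI (τ j) (σ j) (τ k) (σ k) : ℂ) else 0 := by
  have hne : j ≠ k := by rintro rfl; omega
  have e1 : tens (κ := fun _ : Fin 8 => Fin 3) (vv u) * cplx (nbond h j k) *
      tens (κ := fun _ : Fin 8 => Fin 3) (fun i => (vv u i)ᴴ) =
      ∑ a : Fin 3, site (κ := fun _ : Fin 8 => Fin 3) j (vv u j * cplx (Lr a) * (vv u j)ᴴ) *
        site (κ := fun _ : Fin 8 => Fin 3) k (vv u k * cplx (h * Lr a * hᵀ) * (vv u k)ᴴ) := by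
    unfold nbond
    rw [cplx_sum, Finset.mul_sum, Finset.sum_mul]
    refine Finset.sum_congr rfl fun a _ => ?_
    rw [cplx_mul, cplx_site, cplx_site,
      ← tens_conj_site (κ := fun _ : Fin 8 => Fin 3) (vv u) (fun i => (vv u i)ᴴ)
        (fun i => vv_mul_conj hg.hu i) j,
      ← tens_conj_site (κ := fun _ : Fin 8 => Fin 3) (vv u) (fun i => (vv u i)ᴴ)
        (fun i => vv_mul_conj hg.hu i) k]
    set A := site (κ := fun _ : Fin 8 => Fin 3) j (cplx (Lr a))
    set B := site (κ := fun _ : Fin 8 => Fin 3) k (cplx (h * Lr a * hᵀ))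
    set W := tens (κ := fun _ : Fin 8 => Fin 3) (vv u)
    set W' := tens (κ := fun _ : Fin 8 => Fin 3) (fun i => (vv u i)ᴴ)
    have hW : W' * W = 1 := tens_mul_eq_one (κ := fun _ : Fin 8 => Fin 3)
      (fun i => conj_mul_vv hg.hu i)
    calc W * (A * B) * W' = W * A * 1 * B * W' := by
          rw [Matrix.mul_one]; simp only [Matrix.mul_assoc]
      _ = W * A * (W' * W) * B * W' := by rw [hW]
      _ = _ := by simp only [Matrix.mul_assoc]
  rw [e1, Matrix.sum_apply]
  simp only [pair_apply hne]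
  split_ifs with ha
  · exact loc_bond hg hz hjk _ _ _ _
  · simp

end Hald
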