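import Crest.Agent.Hald.PackRun

/-!
# Row 347, M7c: operator data of the eight-site ring in the (Marshall) `S^z` basis

digit `a` of a spin-1 site ↔ `m = 1 - a`.  Bond: `-S·S` ↦ `- m m' + (raise/lower) + (lower/raise)`, all
off-diagonal coefficients `1` after the Marshall sign.
-/

set_option autoImplicit false

namespace Hald

/-- all digits allowed -/
def allT : List Bool := [true, true, true]

/-- specification of `n` spin-1 sites with special digit sets at `j` and `k` -/
def spec3 (n j k : ℕ) (A B : List Bool) : List (List Bool) :=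
  (List.range n).map fun i => if i = j then A else if i = k then B else allT

def raiseT : List Bool := [true, true, false]
def lowerT : List Bool := [false, true, true]

/-- full specification -/
def full3 (n : ℕ) : List (List Bool) := List.replicate n allT

/-- up hops of the open bonds `(j,j+1)`: raise `j+1`, lower `j`; shift `2·3^j` -/
def upOpen (n : ℕ) : List Hop :=
  (List.range (n - 1)).map fun j => ⟨spec3 n (j + 1) j raiseT lowerT, 2 * 3 ^ j, 0⟩
def dnOpen (n : ℕ) : List Hop :=
  (List.range (n - 1)).map fun j => ⟨spec3 n (j + 1) j lowerT raiseT, 2 * 3 ^ j, 0⟩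
/-- the seam bond `(n-1, 0)` -/
def upSeam (n : ℕ) : Hop := ⟨spec3 n (n - 1) 0 raiseT lowerT, 3 ^ (n - 1) - 1, 0⟩
def dnSeam (n : ℕ) : Hop := ⟨spec3 n (n - 1) 0 lowerT raiseT, 3 ^ (n - 1) - 1, 0⟩

/-- `1 - m m'` on the bond `(j,k)` -/
def dgBond (n j k : ℕ) : List (List (List Bool) × ℕ) :=
  [(spec3 n j k [true, false, false] [false, false, true], 2),
   (spec3 n j k [false, false, true] [true, false, false], 2),
   (spec3 n j k [false, true, false] [true, true, true], 1),
   (spec3 n j k [true, false, true] [false, true, false], 1)]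

def dgRing (n : ℕ) : List (List (List Bool) × ℕ) :=
  (List.range n).flatMap fun j => dgBond n j ((j + 1) % n)

/-- the untwisted ring with `8` sites: `N = Σ hops + Σ(1 - m m') - 8` -/
def op1 : OpData where
  D := 6561
  up := upSeam 8 :: upOpen 8
  dn := dnSeam 8 :: dnOpen 8
  dg := dgRing 8
  np := 5
  nup := [⟨full3 8, 0, 3⟩]
  ndn := []

end Hald
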