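import Crest.Agent.Hald.SzInv
import Crest.Agent.Hald.SzCol

/-!
# Row 347, M7c: the orbit certificate

For `f : Cf → ℤ` invariant under translation, reflection and spin flip, the sum over all `6561`
configurations is a weighted sum over representatives, for every table `tab : List (ℕ × ℕ)` (codes `ixN`,
orbit sizes) with `orbOK tab = true`.
-/

set_option autoImplicit false

namespace Hald

open Finset

/-- decoding -/
def decC (n : ℕ) : Cf := fun j => ⟨n / 3 ^ j.val % 3, Nat.mod_lt _ (by norm_num)⟩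

theorem ixN_expand (σ : Cf) : ixN σ = (σ 0).val + (σ 1).val * 3 + (σ 2).val * 9 + (σ 3).val * 27 +
    (σ 4).val * 81 + (σ 5).val * 243 + (σ 6).val * 729 + (σ 7).val * 2187 := by
  unfold ixN
  rw [Fin.sum_univ_eight]
  norm_num

theorem decC_ixN (σ : Cf) : decC (ixN σ) = σ := by
  have h0 := (σ 0).isLt
  have h1 := (σ 1).isLt
  have h2 := (σ 2).isLt
  have h3 := (σ 3).isLt
  have h4 := (σ 4).isLt
  have h5 := (σ 5).isLt
  have h6 := (σ 6).isLt
  have h7 := (σ 7).isLt
  funext j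
  apply Fin.ext
  show ixN σ / 3 ^ j.val % 3 = (σ j).val
  rw [ixN_expand]
  fin_cases j
  · show _ / 3 ^ 0 % 3 = (σ 0).val
    norm_num; omega
  · show _ / 3 ^ 1 % 3 = (σ 1).val
    norm_num; omega
  · show _ / 3 ^ 2 % 3 = (σ 2).val
    norm_num; omega
  · show _ / 3 ^ 3 % 3 = (σ 3).val
    norm_num; omega
  · show _ / 3 ^ 4 % 3 = (σ 4).val
    norm_num; omega
  · show _ / 3 ^ 5 % 3 = (σ 5).val
    norm_num; omega
  · show _ / 3 ^ 6 % 3 = (σ 6).val
    norm_num; omega
  · show _ / 3 ^ 7 % 3 = (σ 7).val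
    norm_num; omega

theorem ixN_decC {n : ℕ} (hn : n < 6561) : ixN (decC n) = n := by
  obtain ⟨σ, rfl⟩ := exists_cf hn
  rw [decC_ixN]

/-- translation on codes -/
def tN (n : ℕ) : ℕ := n / 3 + 2187 * (n % 3)
/-- reflection on codes -/
def rN (n : ℕ) : ℕ := n / 2187 + 3 * (n / 729 % 3) + 9 * (n / 243 % 3) + 27 * (n / 81 % 3) +
  81 * (n / 27 % 3) + 243 * (n / 9 % 3) + 729 * (n / 3 % 3) + 2187 * (n % 3)
/-- flip on codes -/
def fN (n : ℕ) : ℕ := 6560 - n

theorem tN_ixN (σ : Cf) : tN (ixN σ) = ixN (trC σ) := by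
  have h0 := (σ 0).isLt
  rw [ixN_expand, ixN_expand]
  unfold tN trC
  show _ = (σ 1).val + (σ 2).val * 3 + (σ 3).val * 9 + (σ 4).val * 27 +
    (σ 5).val * 81 + (σ 6).val * 243 + (σ 7).val * 729 + (σ 0).val * 2187
  omega

theorem rN_ixN (σ : Cf) : rN (ixN σ) = ixN (rfC σ) := by
  have h0 := (σ 0).isLt
  have h1 := (σ 1).isLt
  have h2 := (σ 2).isLt
  have h3 := (σ 3).isLt
  have h4 := (σ 4).isLt
  have h5 := (σ 5).isLt
  have h6 := (σ 6).isLt
  have h7 := (σ 7).isLt
  rw [ixN_expand (rfC σ)]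
  unfold rN rfC
  show _ = (σ 7).val + (σ 6).val * 3 + (σ 5).val * 9 + (σ 4).val * 27 +
    (σ 3).val * 81 + (σ 2).val * 243 + (σ 1).val * 729 + (σ 0).val * 2187
  have e0 : ixN σ % 3 = (σ 0).val := by rw [ixN_expand]; omega
  have e1 : ixN σ / 3 % 3 = (σ 1).val := by rw [ixN_expand]; omega
  have e2 : ixN σ / 9 % 3 = (σ 2).val := by rw [ixN_expand]; omega
  have e3 : ixN σ / 27 % 3 = (σ 3).val := by rw [ixN_expand]; omega
  have e4 : ixN σ / 81 % 3 = (σ 4).val := by rw [ixN_expand]; omega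
  have e5 : ixN σ / 243 % 3 = (σ 5).val := by rw [ixN_expand]; omega
  have e6 : ixN σ / 729 % 3 = (σ 6).val := by rw [ixN_expand]; omega
  have e7 : ixN σ / 2187 = (σ 7).val := by rw [ixN_expand]; omega
  rw [e0, e1, e2, e3, e4, e5, e6, e7]
  ring

theorem fN_ixN (σ : Cf) : fN (ixN σ) = ixN (flipC σ) := by
  have e : ∀ a : Fin 3, (2 - a).val = 2 - a.val := by decide
  have h0 := (σ 0).isLt
  have h1 := (σ 1).isLt
  have h2 := (σ 2).isLt
  have h3 := (σ 3).isLt
  have h4 := (σ 4).isLt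
  have h5 := (σ 5).isLt
  have h6 := (σ 6).isLt
  have h7 := (σ 7).isLt
  rw [ixN_expand, ixN_expand]
  unfold fN flipC
  rw [e, e, e, e, e, e, e, e]
  omega

/-- iterated translations -/
def iterT : ℕ → ℕ → List ℕ
  | 0, _ => []
  | k + 1, n => n :: iterT k (tN n)

/-- the 32 images -/
def imgs (n : ℕ) : List ℕ :=
  (iterT 8 n ++ iterT 8 (rN n)) ++ (iterT 8 n ++ iterT 8 (rN n)).map fN

/-- removing duplicates -/
def ddp : List ℕ → List ℕ
  | [] => []
  | a :: l => if (ddp l).elem a then ddp l else a :: ddp l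

theorem mem_ddp {x : ℕ} {l : List ℕ} (h : x ∈ ddp l) : x ∈ l := by
  induction l with
  | nil => exact h
  | cons a l ih =>
    unfold ddp at h
    split_ifs at h with h1
    · exact List.mem_cons_of_mem _ (ih h)
    · rcases List.mem_cons.mp h with h2 | h2
      · rw [h2]; exact List.mem_cons_self
      · exact List.mem_cons_of_mem _ (ih h2)

/-- OR of the bits of a list -/
def orBits : List ℕ → ℕ
  | [] => 0
  | a :: l => 2 ^ a ||| orBits l

theorem testBit_orBits (l : List ℕ) (n : ℕ) : (orBits l).testBit n = true ↔ n ∈ l := by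
  induction l with
  | nil => simp [orBits]
  | cons a l ih =>
    unfold orBits
    rw [Nat.testBit_or, Bool.or_eq_true, ih, Nat.testBit_two_pow, decide_eq_true_eq, List.mem_cons]
    constructor
    · rintro (h | h)
      · exact Or.inl h.symm
      · exact Or.inr h
    · rintro (h | h)
      · exact Or.inl h.symm
      · exact Or.inr h

theorem perm_range_of_orBits {l : List ℕ} {N : ℕ} (h1 : l.length = N)
    (h2 : orBits l = 2 ^ N - 1) : (List.range N).Perm l := by
  have hsub : List.range N ⊆ l := by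
    intro n hn
    rw [← testBit_orBits, h2, Nat.testBit_two_pow_sub_one, decide_eq_true_eq]
    exact List.mem_range.mp hn
  have hsp : (List.range N).Subperm l := List.subperm_of_subset List.nodup_range hsub
  exact hsp.perm_of_length_le (by rw [h1, List.length_range])

/-- the check of a table (`N = 6561`) -/
def orbOK (N : ℕ) (tab : List (ℕ × ℕ)) : Bool :=
  (tab.all fun p => Nat.blt p.1 N && Nat.beq (ddp (imgs p.1)).length p.2) &&
    (Nat.beq (tab.flatMap fun p => ddp (imgs p.1)).length N &&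
      Nat.beq (orBits (tab.flatMap fun p => ddp (imgs p.1))) (2 ^ N - 1))

section

variable {G : ℕ → ℤ} {N : ℕ}

theorem iterT_inv (hN : N = 6561) (hT : ∀ n < N, G (tN n) = G n) (k n : ℕ) (hn : n < N) :
    ∀ x ∈ iterT k n, x < N ∧ G x = G n := by
  induction k generalizing n with
  | zero => intro x hx; simp [iterT] at hx
  | succ k ih =>
    intro x hx
    rcases List.mem_cons.mp hx with h | h
    · rw [h]; exact ⟨hn, rfl⟩
    · have hlt : tN n < N := by unfold tN; omega
      have := ih (tN n) hlt x h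
      exact ⟨this.1, this.2.trans (hT n hn)⟩

theorem imgs_inv (hN : N = 6561) (hT : ∀ n < N, G (tN n) = G n) (hR : ∀ n < N, G (rN n) = G n)
    (hF : ∀ n < N, G (fN n) = G n) {n : ℕ} (hn : n < N) : ∀ x ∈ imgs n, G x = G n := by
  have hr : rN n < N := by unfold rN; omega
  have h1 : ∀ x ∈ iterT 8 n ++ iterT 8 (rN n), x < N ∧ G x = G n := by
    intro x hx
    rcases List.mem_append.mp hx with h | h
    · exact iterT_inv hN hT 8 n hn x h
    · have := iterT_inv hN hT 8 (rN n) hr x h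
      exact ⟨this.1, this.2.trans (hR n hn)⟩
  intro x hx
  unfold imgs at hx
  rcases List.mem_append.mp hx with h | h
  · exact (h1 x h).2
  · obtain ⟨y, hy, rfl⟩ := List.mem_map.mp h
    have := h1 y hy
    rw [hF y this.1, this.2]

theorem sum_map_const (l : List ℕ) (a : ℤ) (h : ∀ x ∈ l, G x = a) :
    (l.map G).sum = (l.length : ℤ) * a := by
  induction l with
  | nil => simp
  | cons b l ih =>
    rw [List.map_cons, List.sum_cons, ih (fun x hx => h x (List.mem_cons_of_mem _ hx)),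
      h b List.mem_cons_self, List.length_cons]
    push_cast; ring

theorem orb_sum_nat (hN : N = 6561) (hT : ∀ n < N, G (tN n) = G n)
    (hR : ∀ n < N, G (rN n) = G n)
    (hF : ∀ n < N, G (fN n) = G n) {tab : List (ℕ × ℕ)} (hok : orbOK N tab = true) :
    ∑ i ∈ range N, G i = (tab.map fun p => (p.2 : ℤ) * G p.1).sum := by
  unfold orbOK at hok
  rw [Bool.and_eq_true, Bool.and_eq_true, List.all_eq_true] at hok
  obtain ⟨h1, h2, h3⟩ := hok
  have h2' := Nat.eq_of_beq_eq_true h2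
  have h3' := Nat.eq_of_beq_eq_true h3
  have hp := perm_range_of_orBits h2' h3'
  have e1 : ∑ i ∈ range N, G i = ((List.range N).map G).sum := rfl
  rw [e1, (hp.map G).sum_eq]
  have h4 : ∀ p ∈ tab, p.1 < N ∧ (ddp (imgs p.1)).length = p.2 := by
    intro p hp
    have := h1 p hp
    rw [Bool.and_eq_true] at this
    exact ⟨by have h := this.1; rw [Nat.blt_eq] at h; exact h, Nat.eq_of_beq_eq_true this.2⟩
  clear h1 h2 h3 h2' h3' hp
  induction tab with
  | nil => rfl
  | cons p tab ih =>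
    have hq := h4 p List.mem_cons_self
    have hkey : ((ddp (imgs p.1)).map G).sum = (p.2 : ℤ) * G p.1 := by
      rw [sum_map_const (ddp (imgs p.1)) (G p.1)
        (fun x hx => imgs_inv hN hT hR hF hq.1 x (mem_ddp hx)), hq.2]
    rw [List.flatMap_cons, List.map_append, List.sum_append, List.map_cons, List.sum_cons,
      ih (fun q hq => h4 q (List.mem_cons_of_mem _ hq)), hkey]

end

theorem sum_equiv_range {ι : Type*} [Fintype ι] {D : ℕ} (e : ι ≃ Fin D) (f : ι → ℤ) (g : ℕ → ℤ)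
    (h : ∀ σ, g (e σ : ℕ) = f σ) : ∑ σ, f σ = ∑ i ∈ range D, g i := by
  rw [← Fin.sum_univ_eq_sum_range g D, ← Equiv.sum_comp e]
  exact Finset.sum_congr rfl fun σ _ => (h σ).symm

theorem orb_sum_aux {f : Cf → ℤ} (hT : ∀ σ, f (trC σ) = f σ) (hR : ∀ σ, f (rfC σ) = f σ)
    (hF : ∀ σ, f (flipC σ) = f σ) {N : ℕ} (hN : N = 6561) (e : Cf ≃ Fin N)
    (he : ∀ σ, (e σ : ℕ) = ixN σ) {tab : List (ℕ × ℕ)} (hok : orbOK N tab = true) :
    ∑ σ, f σ = (tab.map fun p => (p.2 : ℤ) * f (decC p.1)).sum := by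
  have e1 : ∑ σ, f σ = ∑ i ∈ range N, f (decC i) :=
    sum_equiv_range e f _ fun σ => by rw [he, decC_ixN]
  have hex : ∀ n < N, ∃ σ : Cf, n = ixN σ := fun n hn =>
    ⟨e.symm ⟨n, hn⟩, by rw [← he, Equiv.apply_symm_apply]⟩
  rw [e1]
  refine orb_sum_nat (G := fun i => f (decC i)) hN ?_ ?_ ?_ hok
  · intro n hn
    obtain ⟨σ, rfl⟩ := hex n hn
    show f (decC (tN (ixN σ))) = f (decC (ixN σ))
    rw [tN_ixN, decC_ixN, decC_ixN, hT]
  · intro n hn
    obtain ⟨σ, rfl⟩ := hex n hn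
    show f (decC (rN (ixN σ))) = f (decC (ixN σ))
    rw [rN_ixN, decC_ixN, decC_ixN, hR]
  · intro n hn
    obtain ⟨σ, rfl⟩ := hex n hn
    show f (decC (fN (ixN σ))) = f (decC (ixN σ))
    rw [fN_ixN, decC_ixN, decC_ixN, hF]

/-- **orbit sum** -/
theorem orb_sum_tab {f : Cf → ℤ} (hT : ∀ σ, f (trC σ) = f σ) (hR : ∀ σ, f (rfC σ) = f σ)
    (hF : ∀ σ, f (flipC σ) = f σ) {tab : List (ℕ × ℕ)} (hok : orbOK 6561 tab = true) :
    ∑ σ, f σ = (tab.map fun p => (p.2 : ℤ) * f (decC p.1)).sum :=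
  orb_sum_aux hT hR hF rfl e8 e8_val hok

end Hald
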