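import Crest.Agent.Hald.SzLink
import Crest.Agent.Hald.Spectral
import Crest.Agent.Hald.SectorAlg

/-!
# Row 347, M7c-LINK (3): trace formulas

For `c : ℤ`, `k : ℕ`: the traces `Tr (tens g (negH h 4 + c)^k)` of the eight twist classes in terms of
the integer matrices `NI 1`, `NI (-1)`, `Nc2`.
-/

set_option autoImplicit false
set_option linter.unusedSectionVars false
set_option linter.unusedSimpArgs false

namespace Hald

open Matrix Finset

theorem szNxt_val (i : Fin 4) : nxt i = i + 1 := by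
  unfold nxt; revert i; decide

theorem reindex_negH (h : Matrix (Fin 3) (Fin 3) ℝ) :
    Matrix.reindex (eC 4) (eC 4) (negH h 4) = ringX h := by
  unfold negH ringX
  have hadd : ∀ A B : Matrix (RSite 4 → Fin 3) (RSite 4 → Fin 3) ℝ,
      Matrix.reindex (eC 4) (eC 4) (A + B) =
        Matrix.reindex (eC 4) (eC 4) A + Matrix.reindex (eC 4) (eC 4) B := fun _ _ => rfl
  rw [hadd, reindex_sum', reindex_sum']
  simp only [nbond_reindex]
  rw [Fin.sum_univ_four, Fin.sum_univ_four, Fin.sum_univ_eight]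
  have e : ∀ (a b a' b' : Fin 8) (h h' : Matrix (Fin 3) (Fin 3) ℝ), a = a' → b = b' → h = h' →
      nbond h a b = nbond h' a' b' := by rintro a b _ _ h _ rfl rfl rfl; rfl
  have n0 : nbond 1 (eS 4 (0, 0)) (eS 4 (0, 1)) = nbond (ι := Fin 8) (if (0 : Fin 8) = 7 then h else 1) 0 (0 + 1) :=
    e _ _ _ _ _ _ rfl rfl rfl
  have n2 : nbond 1 (eS 4 (1, 0)) (eS 4 (1, 1)) = nbond (ι := Fin 8) (if (2 : Fin 8) = 7 then h else 1) 2 (2 + 1) :=
    e _ _ _ _ _ _ rfl rfl rfl
  have n4 : nbond 1 (eS 4 (2, 0)) (eS 4 (2, 1)) = nbond (ι := Fin 8) (if (4 : Fin 8) = 7 then h else 1) 4 (4 + 1) :=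
    e _ _ _ _ _ _ rfl rfl rfl
  have n6 : nbond 1 (eS 4 (3, 0)) (eS 4 (3, 1)) = nbond (ι := Fin 8) (if (6 : Fin 8) = 7 then h else 1) 6 (6 + 1) :=
    e _ _ _ _ _ _ rfl rfl rfl
  have n1 : nbond (if (0 : Fin 4).val + 1 = 4 then h else 1) (eS 4 (0, 1)) (eS 4 (nxt 0, 0)) =
      nbond (ι := Fin 8) (if (1 : Fin 8) = 7 then h else 1) 1 (1 + 1) :=
    e _ _ _ _ _ _ rfl rfl rfl
  have n3 : nbond (if (1 : Fin 4).val + 1 = 4 then h else 1) (eS 4 (1, 1)) (eS 4 (nxt 1, 0)) =
      nbond (ι := Fin 8) (if (3 : Fin 8) = 7 then h else 1) 3 (3 + 1) :=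
    e _ _ _ _ _ _ rfl rfl rfl
  have n5 : nbond (if (2 : Fin 4).val + 1 = 4 then h else 1) (eS 4 (2, 1)) (eS 4 (nxt 2, 0)) =
      nbond (ι := Fin 8) (if (5 : Fin 8) = 7 then h else 1) 5 (5 + 1) :=
    e _ _ _ _ _ _ rfl rfl rfl
  have n7 : nbond (if (3 : Fin 4).val + 1 = 4 then h else 1) (eS 4 (3, 1)) (eS 4 (nxt 3, 0)) =
      nbond (ι := Fin 8) (if (7 : Fin 8) = 7 then h else 1) 7 (7 + 1) :=
    e _ _ _ _ _ _ rfl rfl rfl
  rw [n0, n1, n2, n3, n4, n5, n6, n7]
  abel


theorem szConj_pow {κ : Type*} [Fintype κ] [DecidableEq κ] {W W' : Matrix κ κ ℂ}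
    (h1 : W * W' = 1) (h2 : W' * W = 1) (A : Matrix κ κ ℂ) (k : ℕ) :
    W * A ^ k * W' = (W * A * W') ^ k := by
  induction k with
  | zero => rw [pow_zero, pow_zero, Matrix.mul_one, h1]
  | succ k ih =>
    rw [pow_succ, pow_succ, ← ih]
    calc W * (A ^ k * A) * W' = W * A ^ k * 1 * A * W' := by
          rw [Matrix.mul_one]; simp only [Matrix.mul_assoc]
      _ = W * A ^ k * (W' * W) * A * W' := by rw [h2]
      _ = _ := by simp only [Matrix.mul_assoc]

/-- the transformed trace -/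
theorem trace_link {u : Matrix (Fin 3) (Fin 3) ℂ} (hg : GoodU u) {h : Matrix (Fin 3) (Fin 3) ℝ}
    {ζ : ℂ} (hζ : ζ * (starRingEnd ℂ) ζ = 1) (hz : DiagZ u h (zf ζ))
    (g : Matrix (Fin 3) (Fin 3) ℝ) {S : Matrix Cf Cf ℂ}
    (hS : tens (κ := fun _ : Fin 8 => Fin 3) (vv u) *
      cplx (tens (κ := fun _ : Fin 8 => Fin 3) fun _ => g) *
      tens (κ := fun _ : Fin 8 => Fin 3) (fun i => (vv u i)ᴴ) = S) (c : ℤ) (k : ℕ) :
    (((tens (κ := fun _ : RSite 4 => Fin 3) (fun _ => g) *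
      (negH h 4 + (c : ℝ) • 1) ^ k).trace : ℝ) : ℂ) = (S * (Nz ζ + (c : ℂ) • 1) ^ k).trace := by
  set W := tens (κ := fun _ : Fin 8 => Fin 3) (vv u) with hWdef
  set W' := tens (κ := fun _ : Fin 8 => Fin 3) (fun i => (vv u i)ᴴ) with hWdef'
  have h1 : W * W' = 1 := tens_mul_eq_one (κ := fun _ : Fin 8 => Fin 3)
    (fun i => vv_mul_conj hg.hu i)
  have h2 : W' * W = 1 := tens_mul_eq_one (κ := fun _ : Fin 8 => Fin 3)
    (fun i => conj_mul_vv hg.hu i)
  have e1 : (tens (κ := fun _ : RSite 4 => Fin 3) (fun _ => g) *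
      (negH h 4 + (c : ℝ) • 1) ^ k).trace =
      ((tens (κ := fun _ : Fin 8 => Fin 3) fun _ => g) * (ringX h + (c : ℝ) • 1) ^ k).trace := by
    rw [← trace_reindex (eC 4)]
    have h3 : ∀ A : Matrix (RSite 4 → Fin 3) (RSite 4 → Fin 3) ℝ, Matrix.reindex (eC 4) (eC 4) A =
      Matrix.reindexRingEquiv ℝ (eC 4) A := fun _ => rfl
    have e4 : Matrix.reindex (eC 4) (eC 4) (tens (κ := fun _ : RSite 4 => Fin 3) (fun _ => g)) =
        (tens (κ := fun _ : Fin 8 => Fin 3) fun _ => g) := tens_reindex (d := Fin 3) (eS 4) fun _ => g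
    have e5 : Matrix.reindex (eC 4) (eC 4) (negH h 4 + (c : ℝ) • 1) = ringX h + (c : ℝ) • 1 := by
      rw [← reindex_negH]
      show Matrix.reindex (eC 4) (eC 4) (negH h 4) +
        (c : ℝ) • Matrix.reindex (eC 4) (eC 4) (1 : Matrix (RSite 4 → Fin 3) (RSite 4 → Fin 3) ℝ) = _
      rw [h3 1, map_one]
    rw [reindex_mul', h3 ((negH h 4 + (c : ℝ) • 1) ^ k), map_pow, ← h3, e4, e5]
  rw [e1, ← cplx_trace, cplx_mul, cplx_pow, cplx_add, cplx_smul, cplx_one]
  set T := cplx (tens (κ := fun _ : Fin 8 => Fin 3) fun _ => g)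
  have e2 : W * (cplx (ringX h) + ((c : ℝ) : ℂ) • 1) * W' = Nz ζ + (c : ℂ) • 1 := by
    rw [Matrix.mul_add, Matrix.add_mul, conj_ring hg hζ hz, Matrix.mul_smul, Matrix.mul_one,
      Matrix.smul_mul, h1]
    norm_cast
  rw [← e2, ← szConj_pow h1 h2, ← hS]
  set B := (cplx (ringX h) + ((c : ℝ) : ℂ) • (1 : Matrix Cf Cf ℂ)) ^ k
  calc (T * B).trace = (T * B * 1).trace := by rw [Matrix.mul_one]
    _ = (T * B * (W' * W)).trace := by rw [h2]
    _ = (W * (T * B * W')).trace := by rw [← Matrix.mul_assoc, Matrix.trace_mul_comm]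
    _ = (W * T * 1 * B * W').trace := by rw [Matrix.mul_one]; simp only [Matrix.mul_assoc]
    _ = (W * T * (W' * W) * B * W').trace := by rw [h2]
    _ = _ := by simp only [Matrix.mul_assoc]


/-! ### the three bases -/

/-- basis diagonalizing `gx` -/
noncomputable def uX : Matrix (Fin 3) (Fin 3) ℂ :=
  !![0, -rh, Complex.I * rh; 1, 0, 0; 0, rh, Complex.I * rh]

/-- basis diagonalizing `gy` -/
noncomputable def uY : Matrix (Fin 3) (Fin 3) ℂ :=
  !![-rh, 0, Complex.I * rh; 0, 1, 0; rh, 0, Complex.I * rh]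

theorem goodU_X : GoodU uX := by
  have h := rh_pow
  have hI := Complex.I_sq
  have hJ : uX * uXᵀ = !![0, 0, -1; 0, 1, 0; -1, 0, 0] := by
    ext i j
    fin_cases i <;> fin_cases j <;>
      simp [uX, Matrix.mul_apply, Fin.sum_univ_three, Matrix.transpose_apply]
    all_goals
      first
        | linear_combination rh ^ 2 * hI
        | linear_combination rh ^ 2 * hI - 2 * h
  constructor
  · ext i j
    fin_cases i <;> fin_cases j <;>
      simp [uX, Matrix.mul_apply, Fin.sum_univ_three, Matrix.conjTranspose_apply, rh_star]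
    all_goals
      first
        | linear_combination 2 * h - rh ^ 2 * hI
        | linear_combination -rh ^ 2 * hI
  · intro b c d e
    rw [hJ]
    fin_cases b <;> fin_cases d <;> fin_cases c <;> fin_cases e <;> simp [Jm]

theorem goodU_Y : GoodU uY := by
  have h := rh_pow
  have hI := Complex.I_sq
  have hJ : uY * uYᵀ = !![0, 0, -1; 0, 1, 0; -1, 0, 0] := by
    ext i j
    fin_cases i <;> fin_cases j <;>
      simp [uY, Matrix.mul_apply, Fin.sum_univ_three, Matrix.transpose_apply]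
    all_goals
      first
        | linear_combination rh ^ 2 * hI
        | linear_combination rh ^ 2 * hI - 2 * h
  constructor
  · ext i j
    fin_cases i <;> fin_cases j <;>
      simp [uY, Matrix.mul_apply, Fin.sum_univ_three, Matrix.conjTranspose_apply, rh_star]
    all_goals
      first
        | linear_combination 2 * h - rh ^ 2 * hI
        | linear_combination -rh ^ 2 * hI
  · intro b c d e
    rw [hJ]
    fin_cases b <;> fin_cases d <;> fin_cases c <;> fin_cases e <;> simp [Jm]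

/-- `ω = exp(2πi/3)` -/
noncomputable def om : ℂ := ((-1 / 2 : ℝ) : ℂ) + ((Real.sqrt 3 / 2 : ℝ) : ℂ) * Complex.I

/-- `1/√3` -/
noncomputable def r3 : ℂ := ((Real.sqrt 3 / 3 : ℝ) : ℂ)

theorem r3_sq : r3 ^ 2 = 1 / 3 := by
  unfold r3
  rw [← Complex.ofReal_pow]
  have : (Real.sqrt 3 / 3) ^ 2 = 1 / 3 := by
    rw [div_pow, Real.sq_sqrt (by norm_num)]; norm_num
  rw [this]; push_cast; ring

theorem r3_star : (starRingEnd ℂ) r3 = r3 := by
  unfold r3; exact Complex.conj_ofReal _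

theorem om_sq : om ^ 2 = -1 - om := by
  unfold om
  have h3 : ((Real.sqrt 3 : ℝ) : ℂ) ^ 2 = 3 := by
    rw [← Complex.ofReal_pow, Real.sq_sqrt (by norm_num)]; norm_num
  have hI := Complex.I_sq
  push_cast
  linear_combination (Complex.I ^ 2 / 4) * h3 + 3 / 4 * hI

theorem om_star : (starRingEnd ℂ) om = -1 - om := by
  unfold om
  rw [map_add, map_mul, Complex.conj_ofReal, Complex.conj_ofReal, Complex.conj_I]
  push_cast
  ring

theorem om_unit : om * (starRingEnd ℂ) om = 1 := by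
  rw [om_star]
  linear_combination -om_sq

theorem om_im : om.im ≠ 0 := by
  unfold om
  have : (0 : ℝ) < Real.sqrt 3 := Real.sqrt_pos.mpr (by norm_num)
  simp

/-- basis diagonalizing `gc` -/
noncomputable def uC : Matrix (Fin 3) (Fin 3) ℂ :=
  !![r3, om * r3, (-1 - om) * r3; Complex.I * r3, Complex.I * r3, Complex.I * r3;
    r3, (-1 - om) * r3, om * r3]

theorem goodU_C : GoodU uC := by
  have h := r3_sq
  have hI := Complex.I_sq
  have ho := om_sq
  have hJ : uC * uCᵀ = !![0, 0, 1; 0, -1, 0; 1, 0, 0] := by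
    ext i j
    fin_cases i <;> fin_cases j <;>
      simp [uC, Matrix.mul_apply, Fin.sum_univ_three, Matrix.transpose_apply]
    · linear_combination 2 * r3 ^ 2 * ho
    · ring
    · linear_combination 3 * h - 2 * r3 ^ 2 * ho
    · ring
    · linear_combination 3 * r3 ^ 2 * hI - 3 * h
    · ring
    · linear_combination 3 * h - 2 * r3 ^ 2 * ho
    · ring
    · linear_combination 2 * r3 ^ 2 * ho
  constructor
  · ext i j
    fin_cases i <;> fin_cases j <;>
      simp [uC, Matrix.mul_apply, Fin.sum_univ_three, Matrix.conjTranspose_apply, r3_star, om_star]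
    · linear_combination 3 * h - 2 * r3 ^ 2 * ho
    · ring
    · linear_combination 2 * r3 ^ 2 * ho
    · ring
    · linear_combination 3 * h - 3 * r3 ^ 2 * hI
    · ring
    · linear_combination 2 * r3 ^ 2 * ho
    · ring
    · linear_combination 3 * h - 2 * r3 ^ 2 * ho
  · intro b c d e
    rw [hJ]
    fin_cases b <;> fin_cases d <;> fin_cases c <;> fin_cases e <;> simp [Jm]


theorem diagZ_X : DiagZ uX gx (zf (-1)) := by
  unfold DiagZ
  ext i j
  fin_cases i <;> fin_cases j <;>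
    simp [uX, gx, zf, cplx, Matrix.mul_apply, Fin.sum_univ_three, Matrix.diagonal]

theorem diagZ_Y : DiagZ uY gy (zf (-1)) := by
  unfold DiagZ
  ext i j
  fin_cases i <;> fin_cases j <;>
    simp [uY, gy, zf, cplx, Matrix.mul_apply, Fin.sum_univ_three, Matrix.diagonal]

theorem diagZ_C : DiagZ uC gc (zf om) := by
  have ho := om_sq
  unfold DiagZ
  ext i j
  fin_cases i <;> fin_cases j <;>
    simp [uC, gc, zf, cplx, Matrix.mul_apply, Fin.sum_univ_three, Matrix.diagonal, om_star]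
  all_goals
    first
      | ring1
      | linear_combination r3 * ho
      | linear_combination -r3 * ho

end Hald
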