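import Crest.Agent.Hald.SymmConcrete

/-!
# Row 347, module M3 (3e): time shift

`eps g a` = diagonal entry of `rho4 g`.  For a diagonal sign rotation `g` (`1,gx,gy,gz`):
`Kn g (shift ω) (shift ω') = eps g (ω 0) * eps g (ω' 0) * Kn g ω ω'` and
`Kn g ω ω' = eps g (ω 0) * Kn g ω' (shift ω)`.
-/

set_option autoImplicit false
set_option linter.unusedSectionVars false

namespace Hald

open Matrix Finset Filter Topology

/-- signs of the letters under a diagonal rotation -/
noncomputable def eps (g : Matrix (Fin 3) (Fin 3) ℝ) (a : Fin 4) : ℝ := rho4 g a a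

/-- diagonal sign rotations -/
structure IsDiagRot (g : Matrix (Fin 3) (Fin 3) ℝ) : Prop where
  rot : IsRot g
  diag : ∀ a b, a ≠ b → g a b = 0
  symm : gᵀ = g

theorem isDiagRot_one : IsDiagRot 1 :=
  ⟨isRot_one, fun a b h => Matrix.one_apply_ne h, Matrix.transpose_one⟩
theorem isDiagRot_gx : IsDiagRot gx :=
  ⟨isRot_gx, fun a b h => by fin_cases a <;> fin_cases b <;> simp_all [gx], gxT⟩
theorem isDiagRot_gy : IsDiagRot gy :=
  ⟨isRot_gy, fun a b h => by fin_cases a <;> fin_cases b <;> simp_all [gy], gyT⟩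
theorem isDiagRot_gz : IsDiagRot gz :=
  ⟨isRot_gz, fun a b h => by fin_cases a <;> fin_cases b <;> simp_all [gz], gzT⟩

theorem rho4_offdiag {g : Matrix (Fin 3) (Fin 3) ℝ} (hg : IsDiagRot g) {a b : Fin 4} (h : a ≠ b) :
    rho4 g a b = 0 := by
  revert h
  refine Fin.cases ?_ (fun a' => ?_) a <;> refine Fin.cases ?_ (fun b' => ?_) b <;> intro h
  · exact absurd rfl h
  · simp [rho4]
  · simp [rho4]
  · simp only [rho4, Matrix.of_apply, Fin.cases_succ]
    exact hg.diag _ _ fun h' => h (by rw [h'])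

/-- `g X^a gᵀ = eps g a • X^a` -/
theorem diag_conj_Xr {g : Matrix (Fin 3) (Fin 3) ℝ} (hg : IsDiagRot g) (τ : ℝ) (a : Fin 4) :
    g * Xr τ a * gᵀ = eps g a • Xr τ a := by
  rw [rot_conj_Xr hg.rot, Finset.sum_eq_single a]
  · rfl
  · intro b _ hb
    rw [rho4_offdiag hg hb, zero_smul]
  · intro h; exact absurd (Finset.mem_univ _) h

/-- `X^a g = eps g a • (g X^a)` -/
theorem Xr_mul_diag {g : Matrix (Fin 3) (Fin 3) ℝ} (hg : IsDiagRot g) (τ : ℝ) (a : Fin 4) :
    g * Xr τ a = eps g a • (Xr τ a * g) := by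
  have h := congrArg (fun M => M * g) (diag_conj_Xr hg τ a)
  simp only [Matrix.smul_mul] at h
  rw [← h, Matrix.mul_assoc (g * Xr τ a), hg.rot.orth', Matrix.mul_one]

theorem eps_sq {g : Matrix (Fin 3) (Fin 3) ℝ} (hg : IsDiagRot g) (a : Fin 4) :
    eps g a * eps g a = 1 := by
  have h : (rho4 g * rho4 gᵀ) a a = 1 := by
    rw [← rho4_mul, hg.rot.orth, rho4_one, Matrix.one_apply_eq]
  rw [hg.symm, Matrix.mul_apply, Finset.sum_eq_single a] at h
  · exact h
  · intro b _ hb
    rw [rho4_offdiag hg hb, mul_zero]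
  · intro h'; exact absurd (Finset.mem_univ _) h'

/-- cyclic rotation of an ordered product -/
theorem ofFn_prod_shift {A : Type*} [Monoid A] {n : ℕ} (f : Fin (n + 1) → A) :
    (List.ofFn fun t => f (finRotate (n + 1) t)).prod =
      (List.ofFn fun t : Fin n => f t.succ).prod * f 0 := by
  rw [List.ofFn_succ', List.concat_eq_append, List.prod_append, List.prod_singleton]
  congr 2
  · congr 1
    funext t
    congr 1
    rw [finRotate_of_lt (by exact t.isLt)]
    rfl
  · rw [finRotate_last]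

theorem Kn_eq_zero_len (g : Matrix (Fin 3) (Fin 3) ℝ) (β : ℝ) (ω ω' : Om 0) :
    Kn g β 0 ω ω' = g.trace := by
  simp [Kn]

/-- moving the first letter to the end: `Kn g ω ω' = eps (ω 0) eps (ω' 0) Kn g (shift ω) (shift ω')` -/
theorem Kn_shift {g : Matrix (Fin 3) (Fin 3) ℝ} (hg : IsDiagRot g) (β : ℝ) (n : ℕ)
    (ω ω' : Om (n + 1)) :
    Kn g β (n + 1) (shiftOm ω) (shiftOm ω') =
      eps g (ω 0) * eps g (ω' 0) * Kn g β (n + 1) ω ω' := by
  unfold Kn
  simp only [Matrix.of_apply]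
  set τ := β / ((n + 1 : ℕ) : ℝ) with hτ
  have h1 : (List.ofFn fun t : Fin (n + 1) => Xr τ (shiftOm ω t) * Xr τ (shiftOm ω' t)).prod =
      (List.ofFn fun t : Fin n => Xr τ (ω t.succ) * Xr τ (ω' t.succ)).prod *
        (Xr τ (ω 0) * Xr τ (ω' 0)) := by
    have := ofFn_prod_shift (fun t : Fin (n + 1) => Xr τ (ω t) * Xr τ (ω' t))
    simpa [shiftOm] using this
  rw [h1, List.ofFn_succ, List.prod_cons]
  set W := (List.ofFn fun t : Fin n => Xr τ (ω t.succ) * Xr τ (ω' t.succ)).prod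
  have h2 : g * (Xr τ (ω 0) * Xr τ (ω' 0)) =
      (eps g (ω 0) * eps g (ω' 0)) • (Xr τ (ω 0) * Xr τ (ω' 0) * g) := by
    rw [← Matrix.mul_assoc, Xr_mul_diag hg, Matrix.smul_mul, Matrix.mul_assoc, Xr_mul_diag hg,
      Matrix.mul_smul, smul_smul, Matrix.mul_assoc]
  have h4 : (g * (Xr τ (ω 0) * Xr τ (ω' 0) * W)).trace =
      eps g (ω 0) * eps g (ω' 0) * (Xr τ (ω 0) * Xr τ (ω' 0) * g * W).trace := by
    rw [← Matrix.mul_assoc g (Xr τ (ω 0) * Xr τ (ω' 0)) W, h2, Matrix.smul_mul, Matrix.trace_smul,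
      smul_eq_mul]
  rw [h4, ← mul_assoc (eps g (ω 0) * eps g (ω' 0)) (eps g (ω 0) * eps g (ω' 0))]
  have h3 : eps g (ω 0) * eps g (ω' 0) * (eps g (ω 0) * eps g (ω' 0)) = 1 := by
    calc _ = (eps g (ω 0) * eps g (ω 0)) * (eps g (ω' 0) * eps g (ω' 0)) := by ring
      _ = 1 := by rw [eps_sq hg, eps_sq hg, one_mul]
  rw [h3, one_mul, ← Matrix.mul_assoc, Matrix.trace_mul_comm]
  simp only [Matrix.mul_assoc]

/-- the transpose: `Kn g ω ω' = eps g (ω 0) * Kn g ω' (shift ω)` -/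
theorem Kn_transpose_shift {g : Matrix (Fin 3) (Fin 3) ℝ} (hg : IsDiagRot g) (β : ℝ) (n : ℕ)
    (ω ω' : Om (n + 1)) :
    Kn g β (n + 1) ω' (shiftOm ω) = eps g (ω 0) * Kn g β (n + 1) ω ω' := by
  unfold Kn
  simp only [Matrix.of_apply]
  set τ := β / ((n + 1 : ℕ) : ℝ) with hτ
  -- general regrouping of alternating products
  have hgen : ∀ (k : ℕ) (x : Fin (k + 1) → Matrix (Fin 3) (Fin 3) ℝ) (y : Fin k → Matrix (Fin 3) (Fin 3) ℝ)
      (z : Matrix (Fin 3) (Fin 3) ℝ),
      x 0 * ((List.ofFn fun t : Fin k => y t * x t.succ).prod * z) =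
        (List.ofFn fun t : Fin k => x t.castSucc * y t).prod * (x (Fin.last k) * z) := by
    intro k
    induction k with
    | zero => intro x y z; simp
    | succ k ih =>
      intro x y z
      rw [List.ofFn_succ, List.prod_cons, List.ofFn_succ, List.prod_cons]
      have := ih (fun t => x t.succ) (fun t => y t.succ) z
      simp only [Fin.succ_castSucc, Fin.succ_last] at this
      calc x 0 * (y 0 * x (Fin.succ 0) *
            (List.ofFn fun i : Fin k => y i.succ * x i.succ.succ).prod * z) =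
          x 0 * y 0 * (x (Fin.succ 0) * ((List.ofFn fun i : Fin k => y i.succ * x i.succ.succ).prod * z)) := by
            simp only [Matrix.mul_assoc]
        _ = _ := by
            rw [this]
            simp only [Matrix.mul_assoc, Fin.castSucc_zero, Fin.succ_castSucc, Fin.succ_last]
  have h1 : (List.ofFn fun t : Fin (n + 1) => Xr τ (ω' t) * Xr τ (shiftOm ω t)).prod =
      (List.ofFn fun t : Fin n => Xr τ (ω' t.castSucc) * Xr τ (ω t.succ)).prod *
        (Xr τ (ω' (Fin.last n)) * Xr τ (ω 0)) := by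
    rw [List.ofFn_succ', List.concat_eq_append, List.prod_append, List.prod_singleton]
    congr 2
    · congr 1
      funext t
      unfold shiftOm
      rw [finRotate_of_lt (by exact t.isLt)]
      rfl
    · unfold shiftOm
      rw [finRotate_last]
  have h2 : (List.ofFn fun t : Fin (n + 1) => Xr τ (ω t) * Xr τ (ω' t)).prod =
      Xr τ (ω 0) * ((List.ofFn fun t : Fin n => Xr τ (ω' t.castSucc) * Xr τ (ω t.succ)).prod *
        Xr τ (ω' (Fin.last n))) := by
    have := hgen n (fun t => Xr τ (ω t)) (fun t => Xr τ (ω' t.castSucc)) (Xr τ (ω' (Fin.last n)))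
    rw [this, List.ofFn_succ', List.concat_eq_append, List.prod_append, List.prod_singleton]
  rw [h1, h2]
  set W := (List.ofFn fun t : Fin n => Xr τ (ω' t.castSucc) * Xr τ (ω t.succ)).prod
  have h4 : (g * (Xr τ (ω 0) * (W * Xr τ (ω' (Fin.last n))))).trace =
      eps g (ω 0) * (Xr τ (ω 0) * g * (W * Xr τ (ω' (Fin.last n)))).trace := by
    rw [← Matrix.mul_assoc g (Xr τ (ω 0)), Xr_mul_diag hg, Matrix.smul_mul, Matrix.trace_smul,
      smul_eq_mul]
  rw [h4, ← mul_assoc (eps g (ω 0)) (eps g (ω 0)), eps_sq hg, one_mul]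
  calc (g * (W * (Xr τ (ω' (Fin.last n)) * Xr τ (ω 0)))).trace =
      ((g * W * Xr τ (ω' (Fin.last n))) * Xr τ (ω 0)).trace := by simp only [Matrix.mul_assoc]
    _ = (Xr τ (ω 0) * (g * W * Xr τ (ω' (Fin.last n)))).trace := Matrix.trace_mul_comm _ _
    _ = _ := by simp only [Matrix.mul_assoc]

theorem eps_one (a : Fin 4) : eps 1 a = 1 := by
  unfold eps; rw [rho4_one, Matrix.one_apply_eq]

/-- (3e) for the untwisted transfer matrix -/
theorem Kn_one_shift (β : ℝ) (n : ℕ) (ω ω' : Om n) :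
    Kn 1 β n (shiftOm ω) (shiftOm ω') = Kn 1 β n ω ω' := by
  cases n with
  | zero => rw [Kn_eq_zero_len, Kn_eq_zero_len]
  | succ n => rw [Kn_shift isDiagRot_one, eps_one, eps_one, one_mul, one_mul]

/-- (3e) for the untwisted transfer matrix: `(Kn 1)ᵀ ω' ω = Kn 1 ω' (shift ω)` -/
theorem Kn_one_transpose (β : ℝ) (n : ℕ) (ω ω' : Om n) :
    (Kn 1 β n)ᵀ ω' ω = Kn 1 β n ω' (shiftOm ω) := by
  rw [Matrix.transpose_apply]
  cases n with
  | zero => rw [Kn_eq_zero_len, Kn_eq_zero_len]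
  | succ n => rw [Kn_transpose_shift isDiagRot_one, eps_one, one_mul]

end Hald
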