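import Crest.Agent.Hald.SectorPS

/-!
# Row 347, M4 (4e): from the raw power sums to the `World`
-/

set_option autoImplicit false
set_option linter.unusedSectionVars false

namespace Hald

open Filter Topology

/-! ### geometric sequences -/

section geom

variable {α : Type*} {S : Set α} {c : α → ℝ}

theorem PSTop.geom {t : ℝ} (ht : 0 ≤ t) (hc : ∀ x ∈ S, 0 < c x) :
    PSTop S c 1 (fun x => t ^ c x) t := by
  have h := PSTop.finsum (S := S) (c := c) (Finset.univ : Finset Unit) (fun _ => t)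
    (fun _ _ => ht) hc (Finset.mem_univ ()) (fun _ _ => le_refl t)
  simpa using h

/-- comparison of geometric growth rates -/
theorem geom_le {x y K : ℝ} (hx : 0 ≤ x) (hy : 0 ≤ y) (hK : 0 ≤ K) (hc : ∀ s ∈ S, 0 < c s)
    (hS : S.Nonempty) (hub : ∀ A : ℝ, ∃ s ∈ S, A ≤ c s) (h : ∀ s ∈ S, x ^ c s ≤ K * y ^ c s) :
    x ≤ y :=
  (PSTop.geom hx hc).top_mono (PSTop.geom hy hc) hc hS hub h hK

end geom

theorem secA_smul (k : Fin 8) (z : Fin 8 → ℝ) (s : ℝ) :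
    secA k (fun t => z t * s) = secA k z * s := by
  fin_cases k
  · show (z 0 * s + 3 * (z 1 * s) + 8 * (z 2 * s)) / 12 = (z 0 + 3 * z 1 + 8 * z 2) / 12 * s; ring
  · show (z 0 * s + 3 * (z 1 * s) - 4 * (z 2 * s)) / 12 = (z 0 + 3 * z 1 - 4 * z 2) / 12 * s; ring
  · show (z 0 * s - z 1 * s) / 4 = (z 0 - z 1) / 4 * s; ring
  · show (z 3 * s + z 5 * s + 2 * (z 6 * s)) / 4 = (z 3 + z 5 + 2 * z 6) / 4 * s; ring
  · show (z 3 * s + z 5 * s - 2 * (z 6 * s)) / 4 = (z 3 + z 5 - 2 * z 6) / 4 * s; ring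
  · show (z 3 * s - z 5 * s) / 4 = (z 3 - z 5) / 4 * s; ring
  · show (z 4 * s + 2 * (z 7 * s)) / 3 = (z 4 + 2 * z 7) / 3 * s; ring
  · show (z 4 * s - z 7 * s) / 3 = (z 4 - z 7) / 3 * s; ring

theorem secB_smul (k : Fin 8) (z : Fin 8 → ℝ) (s : ℝ) :
    secB k (fun t => z t * s) = secB k z * s := by
  fin_cases k
  · show (z 0 * s + 3 * (z 3 * s) + 8 * (z 4 * s)) / 12 = (z 0 + 3 * z 3 + 8 * z 4) / 12 * s; ring
  · show (z 0 * s + 3 * (z 3 * s) - 4 * (z 4 * s)) / 12 = (z 0 + 3 * z 3 - 4 * z 4) / 12 * s; ring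
  · show (z 0 * s - z 3 * s) / 4 = (z 0 - z 3) / 4 * s; ring
  · show (z 1 * s + z 5 * s + 2 * (z 6 * s)) / 4 = (z 1 + z 5 + 2 * z 6) / 4 * s; ring
  · show (z 1 * s + z 5 * s - 2 * (z 6 * s)) / 4 = (z 1 + z 5 - 2 * z 6) / 4 * s; ring
  · show (z 1 * s - z 5 * s) / 4 = (z 1 - z 5) / 4 * s; ring
  · show (z 2 * s + 2 * (z 7 * s)) / 3 = (z 2 + 2 * z 7) / 3 * s; ring
  · show (z 2 * s - z 7 * s) / 3 = (z 2 - z 7) / 3 * s; ring

/-- the raw (unnormalised) data -/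
structure PreWorld where
  z : Fin 8 → ℝ → ℕ → ℝ
  hA : ∀ β : ℝ, 0 < β → ∀ k : Fin 8, PS SA cA (muA k) (fun m => secA k (fun t => z t β m))
  topA0 : ∀ β : ℝ, 0 < β → ∃ t, PSTop SA cA 1 (fun m => secA 0 (fun t => z t β m)) t
  topA4 : ∀ β : ℝ, 0 < β → ∃ t, PSTop SA cA 1 (fun m => secA 4 (fun t => z t β m)) t
  topAZ : ∀ β : ℝ, 0 < β → ∃ t, PSTop SA cA 1 (fun m => z 0 β m) t
  hB : ∀ m : ℕ, 1 ≤ m → ∀ k : Fin 8, PS SB cB (muB k m) (fun β => secB k (fun t => z t β m))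
  topB0 : ∀ m : ℕ, 1 ≤ m → ∃ t, PSTop SB cB 1 (fun β => secB 0 (fun t => z t β m)) t
  topB4 : ∀ m : ℕ, 1 ≤ m → ∃ t, PSTop SB cB 1 (fun β => secB 4 (fun t => z t β m)) t
  topBZ : ∀ m : ℕ, 1 ≤ m → ∃ t, PSTop SB cB 1 (fun β => z 0 β m) t
  hBZ : ∀ m : ℕ, 1 ≤ m → PS SB cB 1 (fun β => z 0 β m)
  pos1 : ∀ β : ℝ, 0 < β → ∀ m : ℕ, 1 ≤ m → 0 ≤ z 1 β m
  pos2 : ∀ β : ℝ, 0 < β → ∀ m : ℕ, 1 ≤ m → 0 ≤ z 2 β m
  pos3 : ∀ β : ℝ, 0 < β → ∀ m : ℕ, 1 ≤ m → 0 ≤ z 3 β m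
  pos4 : ∀ β : ℝ, 0 < β → ∀ m : ℕ, 1 ≤ m → 0 ≤ z 4 β m
  one_le : ∀ β : ℝ, 0 < β → ∀ m : ℕ, 1 ≤ m → 1 ≤ z 0 β m

namespace PreWorld

variable (p : PreWorld)

section ineq

variable {β : ℝ} (hβ : 0 < β) {m : ℕ} (hm : 1 ≤ m)
include hβ hm

theorem secA_nonneg (k : Fin 8) : 0 ≤ secA k (fun t => p.z t β m) := (p.hA β hβ k).nonneg m hm
theorem secB_nonneg (k : Fin 8) : 0 ≤ secB k (fun t => p.z t β m) := (p.hB m hm k).nonneg β hβ

theorem z1_le : p.z 1 β m ≤ p.z 0 β m := by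
  have h := p.secA_nonneg hβ hm 2
  simp only [secA, Matrix.cons_val] at h
  linarith

theorem z3_le : p.z 3 β m ≤ p.z 0 β m := by
  have h := p.secB_nonneg hβ hm 2
  simp only [secB, Matrix.cons_val] at h
  linarith

theorem z2_le : p.z 2 β m ≤ p.z 0 β m := by
  have h := p.secA_nonneg hβ hm 1
  have h' := p.z1_le hβ hm
  simp only [secA, Matrix.cons_val_one, Matrix.cons_val] at h
  linarith

theorem z4_le : p.z 4 β m ≤ p.z 0 β m := by
  have h := p.secB_nonneg hβ hm 1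
  have h' := p.z3_le hβ hm
  simp only [secB, Matrix.cons_val_one, Matrix.cons_val] at h
  linarith

theorem secA0_le : secA 0 (fun t => p.z t β m) ≤ 1 * p.z 0 β m := by
  have h1 := p.z1_le hβ hm
  have h2 := p.z2_le hβ hm
  simp only [secA, Matrix.cons_val_zero]
  linarith

theorem le_secA0 : p.z 0 β m ≤ 12 * secA 0 (fun t => p.z t β m) := by
  have h1 := p.pos1 β hβ m hm
  have h2 := p.pos2 β hβ m hm
  simp only [secA, Matrix.cons_val_zero]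
  linarith

theorem secB0_le : secB 0 (fun t => p.z t β m) ≤ 1 * p.z 0 β m := by
  have h1 := p.z3_le hβ hm
  have h2 := p.z4_le hβ hm
  simp only [secB, Matrix.cons_val_zero]
  linarith

theorem le_secB0 : p.z 0 β m ≤ 12 * secB 0 (fun t => p.z t β m) := by
  have h1 := p.pos3 β hβ m hm
  have h2 := p.pos4 β hβ m hm
  simp only [secB, Matrix.cons_val_zero]
  linarith

theorem secA4_le : secA 4 (fun t => p.z t β m) ≤ 1 * p.z 0 β m := by
  have h1 := p.secA_nonneg hβ hm 3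
  have h2 := p.secA_nonneg hβ hm 5
  have h3 := p.z3_le hβ hm
  simp only [secA, Matrix.cons_val] at h1 h2 ⊢
  linarith

theorem secB4_le : secB 4 (fun t => p.z t β m) ≤ 1 * p.z 0 β m := by
  have h1 := p.secB_nonneg hβ hm 3
  have h2 := p.secB_nonneg hβ hm 5
  have h3 := p.z1_le hβ hm
  simp only [secB, Matrix.cons_val] at h1 h2 ⊢
  linarith

end ineq

/-! ### tops -/

open Classical in
noncomputable def tA (β : ℝ) : ℝ := if h : 0 < β then (p.topAZ β h).choose else 0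

open Classical in
noncomputable def tA4 (β : ℝ) : ℝ := if h : 0 < β then (p.topA4 β h).choose else 0

open Classical in
noncomputable def tB (m : ℕ) : ℝ := if h : 1 ≤ m then (p.topBZ m h).choose else 0

open Classical in
noncomputable def tB4 (m : ℕ) : ℝ := if h : 1 ≤ m then (p.topB4 m h).choose else 0

theorem tA_spec {β : ℝ} (h : 0 < β) : PSTop SA cA 1 (fun m => p.z 0 β m) (p.tA β) := by
  unfold tA
  rw [dif_pos h]
  exact (p.topAZ β h).choose_spec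

theorem tA4_spec {β : ℝ} (h : 0 < β) :
    PSTop SA cA 1 (fun m => secA 4 (fun t => p.z t β m)) (p.tA4 β) := by
  unfold tA4
  rw [dif_pos h]
  exact (p.topA4 β h).choose_spec

theorem tB_spec {m : ℕ} (h : 1 ≤ m) : PSTop SB cB 1 (fun β => p.z 0 β m) (p.tB m) := by
  unfold tB
  rw [dif_pos h]
  exact (p.topBZ m h).choose_spec

theorem tB4_spec {m : ℕ} (h : 1 ≤ m) :
    PSTop SB cB 1 (fun β => secB 4 (fun t => p.z t β m)) (p.tB4 m) := by
  unfold tB4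
  rw [dif_pos h]
  exact (p.topB4 m h).choose_spec

theorem tA0_spec {β : ℝ} (h : 0 < β) :
    PSTop SA cA 1 (fun m => secA 0 (fun t => p.z t β m)) (p.tA β) := by
  obtain ⟨t, ht⟩ := p.topA0 β h
  have e : t = p.tA β := le_antisymm
    (ht.top_mono (p.tA_spec h) cA_pos SA_nonempty cA_unbounded
      (fun m hm => p.secA0_le h hm) zero_le_one)
    ((p.tA_spec h).top_mono ht cA_pos SA_nonempty cA_unbounded
      (fun m hm => p.le_secA0 h hm) (by norm_num))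
  rwa [e] at ht

theorem tB0_spec {m : ℕ} (h : 1 ≤ m) :
    PSTop SB cB 1 (fun β => secB 0 (fun t => p.z t β m)) (p.tB m) := by
  obtain ⟨t, ht⟩ := p.topB0 m h
  have e : t = p.tB m := le_antisymm
    (ht.top_mono (p.tB_spec h) cB_pos SB_nonempty cB_unbounded
      (fun β hβ => p.secB0_le hβ h) zero_le_one)
    ((p.tB_spec h).top_mono ht cB_pos SB_nonempty cB_unbounded
      (fun β hβ => p.le_secB0 hβ h) (by norm_num))
  rwa [e] at ht

theorem tA4_le {β : ℝ} (h : 0 < β) : p.tA4 β ≤ p.tA β :=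
  (p.tA4_spec h).top_mono (p.tA_spec h) cA_pos SA_nonempty cA_unbounded
    (fun m hm => p.secA4_le h hm) zero_le_one

theorem tB4_le {m : ℕ} (h : 1 ≤ m) : p.tB4 m ≤ p.tB m :=
  (p.tB4_spec h).top_mono (p.tB_spec h) cB_pos SB_nonempty cB_unbounded
    (fun β hβ => p.secB4_le hβ h) zero_le_one

theorem one_le_tB {m : ℕ} (h : 1 ≤ m) : 1 ≤ p.tB m :=
  (PSTop.geom (S := SB) (c := cB) zero_le_one cB_pos).top_mono (p.tB_spec h) cB_pos SB_nonempty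
    cB_unbounded (C := 1) (fun β hβ => by
      rw [Real.one_rpow, one_mul]; exact p.one_le β hβ m h) zero_le_one

/-! ### the ground state energy density -/

noncomputable def e : ℝ := ⨆ m : ℕ, -Real.log (p.tB (m + 1)) / (2 * ((m + 1 : ℕ) : ℝ))

theorem e_bdd : BddAbove (Set.range fun m : ℕ => -Real.log (p.tB (m + 1)) / (2 * ((m + 1 : ℕ) : ℝ))) := by
  refine ⟨0, ?_⟩
  rintro _ ⟨m, rfl⟩
  have h1 := Real.log_nonneg (p.one_le_tB (m := m + 1) (by omega))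
  apply div_nonpos_of_nonpos_of_nonneg
  · linarith
  · positivity

theorem e_ge {m : ℕ} (hm : 1 ≤ m) : -Real.log (p.tB m) ≤ 2 * m * p.e := by
  obtain ⟨k, rfl⟩ : ∃ k, m = k + 1 := ⟨m - 1, by omega⟩
  have h := le_ciSup p.e_bdd k
  have h0 : (0 : ℝ) < 2 * ((k + 1 : ℕ) : ℝ) := by positivity
  rw [div_le_iff₀ h0] at h
  unfold e
  linarith

theorem e_approx {δ : ℝ} (hδ : 0 < δ) : ∃ m : ℕ, 1 ≤ m ∧
    2 * m * p.e + Real.log (p.tB m) ≤ 2 * m * δ := by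
  obtain ⟨k, hk⟩ := exists_lt_of_lt_ciSup (show p.e - δ < p.e by linarith)
  have h0 : (0 : ℝ) < 2 * ((k + 1 : ℕ) : ℝ) := by positivity
  rw [lt_div_iff₀ h0] at hk
  exact ⟨k + 1, by omega, by nlinarith⟩

/-! ### normalised quantities -/

noncomputable def Z (t : Fin 8) (β : ℝ) (m : ℕ) : ℝ := p.z t β m * Real.exp (β * (2 * m) * p.e)

noncomputable def V0 (β : ℝ) : ℝ := p.tA β * Real.exp (β * p.e)
noncomputable def V1 (β : ℝ) : ℝ := p.tA4 β * Real.exp (β * p.e)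
noncomputable def W0 (m : ℕ) : ℝ := p.tB m * Real.exp (2 * m * p.e)
noncomputable def W1 (m : ℕ) : ℝ := p.tB4 m * Real.exp (2 * m * p.e)

theorem expA (β : ℝ) (m : ℕ) :
    Real.exp (β * (2 * m) * p.e) = Real.exp (β * p.e) ^ cA m := by
  rw [← Real.exp_mul]
  congr 1
  simp only [cA]
  ring

theorem expB (β : ℝ) (m : ℕ) :
    Real.exp (β * (2 * m) * p.e) = Real.exp (2 * m * p.e) ^ cB β := by
  rw [← Real.exp_mul]
  congr 1
  simp only [cB]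
  ring

theorem muA_pos (k : Fin 8) : 0 < muA k := by
  unfold muA
  split_ifs <;> norm_num

theorem muB_pos (k : Fin 8) (m : ℕ) : 0 < muB k m := by
  unfold muB
  split_ifs <;> norm_num

theorem ZA {β : ℝ} (hβ : 0 < β) (k : Fin 8) :
    PS SA cA (muA k) (fun m => secA k (fun t => p.Z t β m)) := by
  refine (p.hA β hβ k).scale (a := Real.exp (β * p.e)) (muA_pos k) (Real.exp_pos _) cA_pos
    (fun m _ => ?_)
  unfold Z
  rw [secA_smul, expA]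

theorem ZAtop0 {β : ℝ} (hβ : 0 < β) :
    PSTop SA cA 1 (fun m => secA 0 (fun t => p.Z t β m)) (p.V0 β) := by
  refine (p.tA0_spec hβ).scale (a := Real.exp (β * p.e)) one_pos (Real.exp_pos _) cA_pos
    (fun m _ => ?_)
  unfold Z
  rw [secA_smul, expA]

theorem ZAtop1 {β : ℝ} (hβ : 0 < β) :
    PSTop SA cA 1 (fun m => secA 4 (fun t => p.Z t β m)) (p.V1 β) := by
  refine (p.tA4_spec hβ).scale (a := Real.exp (β * p.e)) one_pos (Real.exp_pos _) cA_pos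
    (fun m _ => ?_)
  unfold Z
  rw [secA_smul, expA]

theorem ZAtopZ {β : ℝ} (hβ : 0 < β) : PSTop SA cA 1 (fun m => p.Z 0 β m) (p.V0 β) := by
  refine (p.tA_spec hβ).scale (a := Real.exp (β * p.e)) one_pos (Real.exp_pos _) cA_pos
    (fun m _ => ?_)
  unfold Z
  rw [expA]

theorem ZB {m : ℕ} (hm : 1 ≤ m) (k : Fin 8) :
    PS SB cB (muB k m) (fun β => secB k (fun t => p.Z t β m)) := by
  refine (p.hB m hm k).scale (a := Real.exp (2 * m * p.e)) (muB_pos k m) (Real.exp_pos _) cB_pos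
    (fun β _ => ?_)
  unfold Z
  rw [secB_smul, expB]

theorem ZBtop0 {m : ℕ} (hm : 1 ≤ m) :
    PSTop SB cB 1 (fun β => secB 0 (fun t => p.Z t β m)) (p.W0 m) := by
  refine (p.tB0_spec hm).scale (a := Real.exp (2 * m * p.e)) one_pos (Real.exp_pos _) cB_pos
    (fun β _ => ?_)
  unfold Z
  rw [secB_smul, expB]

theorem ZBtop1 {m : ℕ} (hm : 1 ≤ m) :
    PSTop SB cB 1 (fun β => secB 4 (fun t => p.Z t β m)) (p.W1 m) := by
  refine (p.tB4_spec hm).scale (a := Real.exp (2 * m * p.e)) one_pos (Real.exp_pos _) cB_pos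
    (fun β _ => ?_)
  unfold Z
  rw [secB_smul, expB]

theorem ZBtopZ {m : ℕ} (hm : 1 ≤ m) : PSTop SB cB 1 (fun β => p.Z 0 β m) (p.W0 m) := by
  refine (p.tB_spec hm).scale (a := Real.exp (2 * m * p.e)) one_pos (Real.exp_pos _) cB_pos
    (fun β _ => ?_)
  unfold Z
  rw [expB]

theorem ZBZ {m : ℕ} (hm : 1 ≤ m) : PS SB cB 1 (fun β => p.Z 0 β m) := by
  refine (p.hBZ m hm).scale (a := Real.exp (2 * m * p.e)) one_pos (Real.exp_pos _) cB_pos
    (fun β _ => ?_)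
  unfold Z
  rw [expB]

theorem one_le_W0 {m : ℕ} (hm : 1 ≤ m) : 1 ≤ p.W0 m := by
  have h1 := p.e_ge hm
  have h2 := lt_of_lt_of_le one_pos (p.one_le_tB hm)
  unfold W0
  rw [← Real.exp_log h2, ← Real.exp_add, Real.one_le_exp_iff]
  linarith

theorem W0_approx {δ : ℝ} (hδ : 0 < δ) : ∃ m : ℕ, 1 ≤ m ∧ p.W0 m ≤ Real.exp (2 * m * δ) := by
  obtain ⟨m, hm, h⟩ := p.e_approx hδ
  refine ⟨m, hm, ?_⟩
  have h2 := lt_of_lt_of_le one_pos (p.one_le_tB hm)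
  unfold W0
  rw [← Real.exp_log h2, ← Real.exp_add]
  apply Real.exp_le_exp.mpr
  linarith

theorem one_le_Z {β : ℝ} (hβ : 0 < β) {m : ℕ} (hm : 1 ≤ m) : 1 ≤ p.Z 0 β m :=
  (Real.one_le_rpow (p.one_le_W0 hm) hβ.le).trans ((p.ZBtopZ hm).rpow_le (x := β) hβ)

theorem one_le_V0 {β : ℝ} (hβ : 0 < β) : 1 ≤ p.V0 β :=
  (PSTop.geom (S := SA) (c := cA) zero_le_one cA_pos).top_mono (p.ZAtopZ hβ) cA_pos SA_nonempty
    cA_unbounded (C := 1) (fun m hm => by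
      rw [Real.one_rpow, one_mul]; exact p.one_le_Z hβ hm) zero_le_one

theorem V1_le {β : ℝ} (hβ : 0 < β) : p.V1 β ≤ p.V0 β :=
  mul_le_mul_of_nonneg_right (p.tA4_le hβ) (Real.exp_pos _).le

theorem W1_le {m : ℕ} (hm : 1 ≤ m) : p.W1 m ≤ p.W0 m :=
  mul_le_mul_of_nonneg_right (p.tB4_le hm) (Real.exp_pos _).le

/-- log-convexity of `V0` -/
theorem V0_logc {a b c : ℝ} (ha : 0 < a) (hab : a ≤ b) (hbc : b ≤ c) :
    p.V0 b ^ (c - a) ≤ p.V0 a ^ (c - b) * p.V0 c ^ (b - a) := by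
  have hb : 0 < b := by linarith
  have hc : 0 < c := by linarith
  have Va := lt_of_lt_of_le one_pos (p.one_le_V0 ha)
  have Vb := lt_of_lt_of_le one_pos (p.one_le_V0 hb)
  have Vc := lt_of_lt_of_le one_pos (p.one_le_V0 hc)
  set x := p.V0 b ^ (c - a) with hx
  set y := p.V0 a ^ (c - b) * p.V0 c ^ (b - a) with hy
  have hx0 : 0 < x := Real.rpow_pos_of_pos Vb _
  have hy0 : 0 < y := mul_pos (Real.rpow_pos_of_pos Va _) (Real.rpow_pos_of_pos Vc _)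
  set K := (p.Z 0 a 1) ^ (c - b) * (p.Z 0 c 1) ^ (b - a) * (y ^ cA 1)⁻¹ with hK
  have Za := lt_of_lt_of_le one_pos (p.one_le_Z ha (le_refl 1))
  have Zc := lt_of_lt_of_le one_pos (p.one_le_Z hc (le_refl 1))
  have hK0 : 0 ≤ K := by positivity
  refine geom_le (S := SA) (c := cA) hx0.le hy0.le hK0 cA_pos SA_nonempty cA_unbounded ?_
  intro m hm
  have hm1 : cA 1 ≤ cA m := by
    have : (1 : ℝ) ≤ m := by exact_mod_cast hm
    simp only [cA]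
    push_cast
    linarith
  have h1 : x ^ cA m ≤ p.Z 0 b m ^ (c - a) := by
    rw [hx, ← Real.rpow_mul Vb.le, mul_comm, Real.rpow_mul Vb.le]
    exact Real.rpow_le_rpow (Real.rpow_nonneg Vb.le _) ((p.ZAtopZ hb).rpow_le hm) (by linarith)
  have h2 := (p.ZBZ hm).logc a ha b hb c hc hab hbc
  have h3 : p.Z 0 a m ^ (c - b) ≤ (p.V0 a ^ (cA m - cA 1) * p.Z 0 a 1) ^ (c - b) :=
    Real.rpow_le_rpow (zero_le_one.trans (p.one_le_Z ha hm))
      ((p.ZAtopZ ha).ratio 1 (le_refl 1) m hm hm1) (by linarith)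
  have h4 : p.Z 0 c m ^ (b - a) ≤ (p.V0 c ^ (cA m - cA 1) * p.Z 0 c 1) ^ (b - a) :=
    Real.rpow_le_rpow (zero_le_one.trans (p.one_le_Z hc hm))
      ((p.ZAtopZ hc).ratio 1 (le_refl 1) m hm hm1) (by linarith)
  have h5 : (p.V0 a ^ (cA m - cA 1) * p.Z 0 a 1) ^ (c - b) *
      (p.V0 c ^ (cA m - cA 1) * p.Z 0 c 1) ^ (b - a) = K * y ^ cA m := by
    rw [Real.mul_rpow (Real.rpow_nonneg Va.le _) Za.le, Real.mul_rpow (Real.rpow_nonneg Vc.le _) Zc.le,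
      ← Real.rpow_mul Va.le, ← Real.rpow_mul Vc.le, mul_comm (cA m - cA 1) (c - b),
      mul_comm (cA m - cA 1) (b - a), Real.rpow_mul Va.le, Real.rpow_mul Vc.le]
    have e1 : y ^ (cA m - cA 1) = (p.V0 a ^ (c - b)) ^ (cA m - cA 1) *
        (p.V0 c ^ (b - a)) ^ (cA m - cA 1) :=
      Real.mul_rpow (Real.rpow_nonneg Va.le _) (Real.rpow_nonneg Vc.le _)
    have e2 : y ^ (cA m - cA 1) = y ^ cA m * (y ^ cA 1)⁻¹ := by
      rw [Real.rpow_sub hy0, div_eq_mul_inv]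
    rw [hK]
    calc (p.V0 a ^ (c - b)) ^ (cA m - cA 1) * p.Z 0 a 1 ^ (c - b) *
          ((p.V0 c ^ (b - a)) ^ (cA m - cA 1) * p.Z 0 c 1 ^ (b - a))
        = (p.Z 0 a 1 ^ (c - b) * p.Z 0 c 1 ^ (b - a)) * ((p.V0 a ^ (c - b)) ^ (cA m - cA 1) *
        (p.V0 c ^ (b - a)) ^ (cA m - cA 1)) := by ring
      _ = (p.Z 0 a 1 ^ (c - b) * p.Z 0 c 1 ^ (b - a)) * (y ^ cA m * (y ^ cA 1)⁻¹) := by
          rw [← e1, e2]
      _ = _ := by ring
  calc x ^ cA m ≤ p.Z 0 b m ^ (c - a) := h1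
    _ ≤ p.Z 0 a m ^ (c - b) * p.Z 0 c m ^ (b - a) := h2
    _ ≤ _ := mul_le_mul h3 h4 (Real.rpow_nonneg (zero_le_one.trans (p.one_le_Z hc hm)) _)
        (Real.rpow_nonneg (by positivity) _)
    _ = K * y ^ cA m := h5

/-- large `β` and reference shift sets -/
abbrev SC (b : ℝ) : Set ℝ := {c : ℝ | max b 1 ≤ c}

theorem SC_nonempty (b : ℝ) : (SC b).Nonempty := ⟨max b 1, (le_refl _ : max b 1 ≤ max b 1)⟩
theorem SC_pos (b : ℝ) : ∀ c ∈ SC b, 0 < cB c := fun _ hc =>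
  lt_of_lt_of_le one_pos ((le_max_right b 1).trans hc)
theorem SC_unbounded (b : ℝ) : ∀ A : ℝ, ∃ c ∈ SC b, A ≤ cB c := fun A =>
  ⟨max A (max b 1), (le_max_right _ _ : max b 1 ≤ _), le_max_left _ _⟩

theorem V0_anti {a b : ℝ} (ha : 0 < a) (hab : a ≤ b) : p.V0 b ≤ p.V0 a := by
  have hb : 0 < b := by linarith
  have Va := lt_of_lt_of_le one_pos (p.one_le_V0 ha)
  have Vb := lt_of_lt_of_le one_pos (p.one_le_V0 hb)
  -- for every `m`: `V(b)^{2m} ≤ V(a)^{2m} W(m)^{b-a}`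
  have key : ∀ m : ℕ, 1 ≤ m →
      p.V0 b ^ (2 * (m : ℝ)) ≤ p.V0 a ^ (2 * (m : ℝ)) * p.W0 m ^ (b - a) := by
    intro m hm
    have hm0 : (0 : ℝ) < 2 * (m : ℝ) := cA_pos m hm
    have Wm := lt_of_lt_of_le one_pos (p.one_le_W0 hm)
    have Z1 := lt_of_lt_of_le one_pos (p.one_le_Z one_pos hm)
    set x := p.V0 b ^ (2 * (m : ℝ)) with hx
    set y := p.V0 a ^ (2 * (m : ℝ)) * p.W0 m ^ (b - a) with hy
    have hx0 : 0 < x := Real.rpow_pos_of_pos Vb _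
    have hy0 : 0 < y := mul_pos (Real.rpow_pos_of_pos Va _) (Real.rpow_pos_of_pos Wm _)
    set K := p.V0 b ^ (2 * (m : ℝ) * a) * (p.V0 a ^ (2 * (m : ℝ) * b))⁻¹ *
      ((p.W0 m)⁻¹ * p.Z 0 1 m) ^ (b - a) with hK
    have hK0 : 0 ≤ K := by positivity
    refine geom_le (S := SC b) (c := cB) hx0.le hy0.le hK0 (SC_pos b) (SC_nonempty b)
      (SC_unbounded b) ?_
    intro c hc
    have hbc : b ≤ c := (le_max_left b 1).trans hc
    have h1c : 1 ≤ c := (le_max_right b 1).trans hc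
    have hc0 : 0 < c := by linarith
    have Vc := lt_of_lt_of_le one_pos (p.one_le_V0 hc0)
    have h1 := p.V0_logc ha hab hbc
    -- raise to the power `2m`
    have h2 := Real.rpow_le_rpow (Real.rpow_nonneg Vb.le _) h1 hm0.le
    rw [Real.mul_rpow (Real.rpow_nonneg Va.le _) (Real.rpow_nonneg Vc.le _), ← Real.rpow_mul Vb.le,
      ← Real.rpow_mul Va.le, ← Real.rpow_mul Vc.le] at h2
    have h3 : p.V0 c ^ ((b - a) * (2 * (m : ℝ))) ≤ (p.W0 m ^ (c - 1) * p.Z 0 1 m) ^ (b - a) := by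
      rw [mul_comm, Real.rpow_mul Vc.le]
      refine Real.rpow_le_rpow (Real.rpow_nonneg Vc.le _) ?_ (by linarith)
      exact ((p.ZAtopZ hc0).rpow_le hm).trans
        ((p.ZBtopZ hm).ratio 1 (one_pos : (0 : ℝ) < 1) c hc0 h1c)
    have h4 : p.V0 b ^ ((c - a) * (2 * (m : ℝ))) ≤
        p.V0 a ^ ((c - b) * (2 * (m : ℝ))) * (p.W0 m ^ (c - 1) * p.Z 0 1 m) ^ (b - a) :=
      h2.trans (mul_le_mul_of_nonneg_left h3 (Real.rpow_nonneg Va.le _))
    have e1 : x ^ cB c = p.V0 b ^ ((c - a) * (2 * (m : ℝ))) * p.V0 b ^ (2 * (m : ℝ) * a) := by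
      rw [hx, ← Real.rpow_mul Vb.le, ← Real.rpow_add Vb]
      congr 1
      simp only [cB]
      ring
    have e2 : p.V0 a ^ ((c - b) * (2 * (m : ℝ))) =
        (p.V0 a ^ (2 * (m : ℝ))) ^ c * (p.V0 a ^ (2 * (m : ℝ) * b))⁻¹ := by
      rw [← Real.rpow_mul Va.le, ← Real.rpow_neg Va.le, ← Real.rpow_add Va]
      congr 1
      ring
    have e3 : p.W0 m ^ (c - 1) * p.Z 0 1 m = p.W0 m ^ c * ((p.W0 m)⁻¹ * p.Z 0 1 m) := by
      rw [Real.rpow_sub_one Wm.ne']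
      ring
    have e4 : (p.W0 m ^ c * ((p.W0 m)⁻¹ * p.Z 0 1 m)) ^ (b - a) =
        (p.W0 m ^ (b - a)) ^ c * ((p.W0 m)⁻¹ * p.Z 0 1 m) ^ (b - a) := by
      rw [Real.mul_rpow (Real.rpow_nonneg Wm.le _) (by positivity), ← Real.rpow_mul Wm.le,
        ← Real.rpow_mul Wm.le, mul_comm c]
    have e5 : y ^ cB c = (p.V0 a ^ (2 * (m : ℝ))) ^ c * (p.W0 m ^ (b - a)) ^ c := by
      rw [hy]
      exact Real.mul_rpow (Real.rpow_nonneg Va.le _) (Real.rpow_nonneg Wm.le _)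
    rw [e2, e3, e4] at h4
    rw [e1, e5, hK]
    calc p.V0 b ^ ((c - a) * (2 * (m : ℝ))) * p.V0 b ^ (2 * (m : ℝ) * a)
        ≤ ((p.V0 a ^ (2 * (m : ℝ))) ^ c * (p.V0 a ^ (2 * (m : ℝ) * b))⁻¹ *
          ((p.W0 m ^ (b - a)) ^ c * ((p.W0 m)⁻¹ * p.Z 0 1 m) ^ (b - a))) *
            p.V0 b ^ (2 * (m : ℝ) * a) :=
          mul_le_mul_of_nonneg_right h4 (Real.rpow_nonneg Vb.le _)
      _ = _ := by ring
  -- let `W(m)^{1/2m} → 1`
  have hδ : ∀ δ : ℝ, 0 < δ → p.V0 b ≤ p.V0 a * Real.exp (δ * (b - a)) := by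
    intro δ hδ
    obtain ⟨m, hm, hW⟩ := p.W0_approx hδ
    have hm0 : (0 : ℝ) < 2 * (m : ℝ) := cA_pos m hm
    have Wm := lt_of_lt_of_le one_pos (p.one_le_W0 hm)
    have h1 := key m hm
    have h2 : p.W0 m ^ (b - a) ≤ Real.exp (2 * m * δ) ^ (b - a) :=
      Real.rpow_le_rpow Wm.le hW (by linarith)
    have h3 : p.V0 b ^ (2 * (m : ℝ)) ≤ (p.V0 a * Real.exp (δ * (b - a))) ^ (2 * (m : ℝ)) := by
      rw [Real.mul_rpow Va.le (Real.exp_pos _).le, ← Real.exp_mul]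
      refine h1.trans (mul_le_mul_of_nonneg_left (h2.trans (le_of_eq ?_))
        (Real.rpow_nonneg Va.le _))
      rw [← Real.exp_mul]
      congr 1
      ring
    exact (Real.rpow_le_rpow_iff Vb.le (by positivity) hm0).mp h3
  refine le_of_forall_pos_le_add fun ε hε => ?_
  rcases hab.eq_or_lt with h | h
  · rw [h]; linarith
  have hlim : Tendsto (fun δ : ℝ => p.V0 a * Real.exp (δ * (b - a))) (𝓝[>] 0) (𝓝 (p.V0 a)) := by
    have h1 : Tendsto (fun δ : ℝ => p.V0 a * Real.exp (δ * (b - a))) (𝓝 0)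
        (𝓝 (p.V0 a * Real.exp (0 * (b - a)))) := by
      apply Continuous.tendsto
      fun_prop
    rw [zero_mul, Real.exp_zero, mul_one] at h1
    exact h1.mono_left nhdsWithin_le_nhds
  have h2 := ge_of_tendsto hlim (eventually_nhdsWithin_of_forall fun δ hδ' => hδ δ hδ')
  linarith

theorem W0_anti {m m' : ℕ} (hm : 1 ≤ m) (hmm : m ≤ m') : p.W0 m' ≤ p.W0 m := by
  have hm' : 1 ≤ m' := hm.trans hmm
  have Wm := lt_of_lt_of_le one_pos (p.one_le_W0 hm)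
  have Wm' := lt_of_lt_of_le one_pos (p.one_le_W0 hm')
  have V1 := lt_of_lt_of_le one_pos (p.one_le_V0 one_pos)
  have Z1 := lt_of_lt_of_le one_pos (p.one_le_Z one_pos hm)
  set d : ℝ := cA m' - cA m with hd
  have hd0 : 0 ≤ d := by
    have : (m : ℝ) ≤ m' := by exact_mod_cast hmm
    rw [hd]
    simp only [cA]
    linarith
  set K := p.V0 1 ^ d * ((p.W0 m)⁻¹ * p.Z 0 1 m) with hK
  have hK0 : 0 ≤ K := by positivity
  refine geom_le (S := SC 1) (c := cB) Wm'.le Wm.le hK0 (SC_pos 1) (SC_nonempty 1)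
    (SC_unbounded 1) ?_
  intro β hβ
  have h1β : 1 ≤ β := (le_max_right 1 1).trans hβ
  have hβ0 : 0 < β := by linarith
  have Vβ := lt_of_lt_of_le one_pos (p.one_le_V0 hβ0)
  have h1 : p.W0 m' ^ cB β ≤ p.Z 0 β m' := (p.ZBtopZ hm').rpow_le hβ0
  have h2 : p.Z 0 β m' ≤ p.V0 β ^ d * p.Z 0 β m :=
    (p.ZAtopZ hβ0).ratio m hm m' hm' (by linarith)
  have h3 : p.V0 β ^ d ≤ p.V0 1 ^ d := Real.rpow_le_rpow Vβ.le (p.V0_anti one_pos h1β) hd0
  have h4 : p.Z 0 β m ≤ p.W0 m ^ (cB β - cB 1) * p.Z 0 1 m :=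
    (p.ZBtopZ hm).ratio 1 (one_pos : (0 : ℝ) < 1) β hβ0 h1β
  have h5 : p.W0 m ^ (cB β - cB 1) = p.W0 m ^ cB β * (p.W0 m)⁻¹ := by
    simp only [cB]
    rw [Real.rpow_sub_one Wm.ne', div_eq_mul_inv]
  calc p.W0 m' ^ cB β ≤ p.V0 β ^ d * p.Z 0 β m := h1.trans h2
    _ ≤ p.V0 1 ^ d * (p.W0 m ^ (cB β - cB 1) * p.Z 0 1 m) :=
        mul_le_mul h3 h4 (zero_le_one.trans (p.one_le_Z hβ0 hm)) (Real.rpow_nonneg V1.le _)
    _ = K * p.W0 m ^ cB β := by rw [h5, hK]; ring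

/-- the world -/
noncomputable def world : World where
  Z := p.Z
  V := fun k β => if k = 0 then p.V0 β else p.V1 β
  W := fun k m => if k = 0 then p.W0 m else p.W1 m
  hA := fun β hβ k => p.ZA hβ k
  hAtop0 := fun β hβ => p.ZAtop0 hβ
  hAtop1 := fun β hβ => p.ZAtop1 hβ
  hB := fun m hm k => p.ZB hm k
  hBtop0 := fun m hm => p.ZBtop0 hm
  hBtop1 := fun m hm => p.ZBtop1 hm
  V_anti := fun β β' hβ hββ => p.V0_anti hβ hββ
  one_le_V := fun β hβ => p.one_le_V0 hβ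
  Vx_le := fun β hβ => p.V1_le hβ
  W_anti := fun m m' hm hmm => p.W0_anti hm hmm
  one_le_W := fun m hm => p.one_le_W0 hm
  Wx_le := fun m hm => p.W1_le hm
  hZtopA := fun β hβ => p.ZAtopZ hβ
  hZtopB := fun m hm => p.ZBtopZ hm

end PreWorld

end Hald
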